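import Crest.Agent.T223.Hm2_77
import Crest.Agent.T223.HmB_61

-- ▼ part T223/Hm3_77
section

/-!
# Row 223, module HOER (helper77), part 3: flat derivatives, extension of flat test objects
-/

set_option autoImplicit false
set_option linter.unusedSectionVars false

open Set Filter Topology Complex Matrix MeasureTheory
open scoped ContDiff Matrix ComplexConjugate ComplexOrder ENNReal

namespace Crest.Agent.T223.Hm

open Crest.Agent.R275 Crest.Agent.R275.Geo Crest.Agent.R275.Core144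
open Crest.Agent.R275.OmT75 (dl dl_chain db_chain)
open Crest.Agent.R273.Defs_333 Crest.Agent.R273.Kah_333 Crest.Agent.R273.Vm_333

noncomputable section

variable {n : ℕ} {M : Type} [TopologicalSpace M] {A : Atl n M} {N L : LB A} {i : A.ι}

/-- `∂/∂z_a` (`s = -I`) and `∂/∂z̄_a` (`s = I`) of a real linear map -/
def wL (s : ℂ) (a : Fin n) : ((Fin n → ℂ) →L[ℝ] ℂ) →L[ℝ] ℂ :=
  LinearMap.toContinuousLinearMap
    { toFun := fun D => (1 / 2 : ℂ) * (D (Pi.single a 1) + s * D (Pi.single a I))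
      map_add' := fun D D' => by simp only [_root_.add_apply]; ring
      map_smul' := fun c D => by
        simp only [_root_.smul_apply, RingHom.id_apply, Complex.real_smul]; ring }

theorem wL_apply (s : ℂ) (a : Fin n) (D : (Fin n → ℂ) →L[ℝ] ℂ) :
    wL s a D = (1 / 2 : ℂ) * (D (Pi.single a 1) + s * D (Pi.single a I)) := rfl

/-- flat Wirtinger derivatives -/
def wF (s : ℂ) (a : Fin n) (Φ : (Fin n → ℂ) → ℂ) (z : Fin n → ℂ) : ℂ := wL s a (fderiv ℝ Φ z)

theorem fderiv_sz (f : M → ℂ) (z v : Fin n → ℂ) :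
    fderiv ℝ (fun w => f (sz A i w)) z v =
      fderiv ℝ (fun w => f ((A.e i).symm w)) (WithLp.toLp 2 z) (WithLp.toLp 2 v) := by
  have h := (PiLp.continuousLinearEquiv 2 ℝ (fun _ : Fin n => ℂ)).symm.comp_right_fderiv
    (f := fun w : Cn n => f ((A.e i).symm w)) (x := z)
  have h2 := congrArg (fun D : (Fin n → ℂ) →L[ℝ] ℂ => D v) h
  exact h2

theorem dl_flat (a : Fin n) (f : M → ℂ) (x : M) :
    dl A i a f x = wF (-I) a (fun w => f (sz A i w)) (cz A i x) := by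
  rw [wF, wL_apply, fderiv_sz, fderiv_sz]
  unfold OmT75.dl OmT75.dj
  simp only [smul_eq_mul, neg_mul, ← sub_eq_add_neg]
  rfl

theorem db_flat (a : Fin n) (f : M → ℂ) (x : M) :
    A.db i a f x = wF I a (fun w => f (sz A i w)) (cz A i x) := by
  rw [wF, wL_apply, fderiv_sz, fderiv_sz]
  rfl

theorem wF_congr {s : ℂ} {a : Fin n} {Φ Ψ : (Fin n → ℂ) → ℂ} {z : Fin n → ℂ}
    (h : Φ =ᶠ[𝓝 z] Ψ) : wF s a Φ z = wF s a Ψ z := by rw [wF, wF, h.fderiv_eq]

theorem wF_congrOn {s : ℂ} {a : Fin n} {Φ Ψ : (Fin n → ℂ) → ℂ} {z : Fin n → ℂ} (hz : z ∈ Tz A i)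
    (h : ∀ w ∈ Tz A i, Φ w = Ψ w) : wF s a Φ z = wF s a Ψ z :=
  wF_congr (by filter_upwards [(isOpen_Tz i).mem_nhds hz] with w hw using h w hw)

theorem wF_mul {s : ℂ} {a : Fin n} {Φ Ψ : (Fin n → ℂ) → ℂ} {z : Fin n → ℂ}
    (h1 : DifferentiableAt ℝ Φ z) (h2 : DifferentiableAt ℝ Ψ z) :
    wF s a (fun w => Φ w * Ψ w) z = wF s a Φ z * Ψ z + Φ z * wF s a Ψ z := by
  have h : fderiv ℝ (fun y => Φ y * Ψ y) z = Φ z • fderiv ℝ Ψ z + Ψ z • fderiv ℝ Φ z :=
    fderiv_fun_mul h1 h2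
  simp only [wF, wL_apply, h, _root_.add_apply, _root_.smul_apply,
    smul_eq_mul]
  ring

theorem wF_conj {s : ℂ} {a : Fin n} {Φ : (Fin n → ℂ) → ℂ} {z : Fin n → ℂ} :
    wF s a (fun w => conj (Φ w)) z = conj (wF (conj s) a Φ z) := by
  have h : fderiv ℝ (fun w => Complex.conjCLE (Φ w)) z =
      (Complex.conjCLE : ℂ →L[ℝ] ℂ).comp (fderiv ℝ Φ z) := Complex.conjCLE.comp_fderiv
  have h2 : (fun w => conj (Φ w)) = fun w => Complex.conjCLE (Φ w) := rfl
  simp only [wF, wL_apply, h2, h, ContinuousLinearMap.comp_apply, ContinuousLinearEquiv.coe_coe,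
    Complex.conjCLE_apply, map_mul, map_add, map_div₀, map_one, map_ofNat, Complex.conj_conj]

theorem wF_zero_off {s : ℂ} {a : Fin n} {Φ : (Fin n → ℂ) → ℂ} {z : Fin n → ℂ}
    (hz : z ∉ tsupport Φ) : wF s a Φ z = 0 := by
  have h : Φ =ᶠ[𝓝 z] fun _ => 0 := notMem_tsupport_iff_eventuallyEq.1 hz
  rw [wF_congr h]
  simp [wF]

theorem contDiff_wF {s : ℂ} {a : Fin n} {Φ : (Fin n → ℂ) → ℂ} (h : ContDiff ℝ ∞ Φ) :
    ContDiff ℝ ∞ (wF s a Φ) :=
  (wL s a).contDiff.comp (h.fderiv_right (m := ∞) (by simp))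

theorem wF_comm {s t : ℂ} {a b : Fin n} {Φ : (Fin n → ℂ) → ℂ} (h : ContDiff ℝ ∞ Φ)
    (z : Fin n → ℂ) : wF s a (wF t b Φ) z = wF t b (wF s a Φ) z := by
  have h1 : DifferentiableAt ℝ (fderiv ℝ Φ) z :=
    ((h.fderiv_right (m := ∞) (by simp)).differentiable (by simp)) z
  have h2 : ∀ (t : ℂ) (b : Fin n) (v : Fin n → ℂ), fderiv ℝ (wF t b Φ) z v =
      wL t b (fderiv ℝ (fderiv ℝ Φ) z v) := by
    intro t b v
    have h3 := ((wL t b).hasFDerivAt.comp z h1.hasFDerivAt).fderiv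
    have h4 : wF t b Φ = (wL t b) ∘ (fderiv ℝ Φ) := rfl
    rw [h4, h3]
    rfl
  have hs : IsSymmSndFDerivAt ℝ Φ z := h.contDiffAt.isSymmSndFDerivAt (by
    simp only [minSmoothness_of_isRCLikeNormedField]
    have : ((2 : ℕ∞) : WithTop ℕ∞) ≤ ((⊤ : ℕ∞) : WithTop ℕ∞) := WithTop.coe_le_coe.mpr le_top
    simpa using this)
  conv_lhs => rw [wF, wL_apply, h2, h2, wL_apply, wL_apply]
  conv_rhs => rw [wF, wL_apply, h2, h2, wL_apply, wL_apply]
  rw [hs.eq (Pi.single a 1) (Pi.single b 1), hs.eq (Pi.single a 1) (Pi.single b I),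
    hs.eq (Pi.single a I) (Pi.single b 1), hs.eq (Pi.single a I) (Pi.single b I)]
  ring

/-! ### flat test objects -/

/-- smooth on the flat chart domain, with compact support in it -/
structure Tst (A : Atl n M) (i : A.ι) (Φ : (Fin n → ℂ) → ℂ) : Prop where
  sm : ContDiffOn ℝ ∞ Φ (Tz A i)
  cs : ∃ C, IsCompact C ∧ C ⊆ Tz A i ∧ ∀ z ∉ C, Φ z = 0

theorem Tst.mul {Φ c : (Fin n → ℂ) → ℂ} (h : Tst A i Φ) (hc : ContDiffOn ℝ ∞ c (Tz A i)) :
    Tst A i (fun z => c z * Φ z) := by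
  obtain ⟨C, h1, h2, h3⟩ := h.cs
  exact ⟨hc.mul h.sm, C, h1, h2, fun z hz => by rw [h3 z hz, mul_zero]⟩

theorem Tst.of {Φ : (Fin n → ℂ) → ℂ} (h : ContDiff ℝ ∞ Φ) {C : Set (Fin n → ℂ)} (hC : IsCompact C)
    (hs : C ⊆ Tz A i) (h0 : tsupport Φ ⊆ C) : Tst A i Φ :=
  ⟨h.contDiffOn, C, hC, hs, fun _ hz => image_eq_zero_of_notMem_tsupport fun h' => hz (h0 h')⟩

theorem Tst.zero : Tst A i (fun _ => 0) :=
  ⟨contDiffOn_const, ∅, isCompact_empty, empty_subset _, fun _ _ => rfl⟩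

theorem isCompact_sz {C : Set (Fin n → ℂ)} (hC : IsCompact C) (hs : C ⊆ Tz A i) :
    IsCompact (sz A i '' C) := hC.image_of_continuousOn ((contOn_sz i).mono hs)

theorem cz_notMem {C : Set (Fin n → ℂ)} {x : M} (hx : x ∈ (A.e i).source)
    (h : x ∉ sz A i '' C) : cz A i x ∉ C := fun h' => h ⟨_, h', sz_cz hx⟩

open Classical in
theorem smAt_ext [T2Space M] {Φ : (Fin n → ℂ) → ℂ} (h : Tst A i Φ) (j : A.ι) {c : M → ℂ}
    (hc : ContDiffOn ℝ ∞ (fun z => c ((A.e j).symm z)) (A.ov j i)) :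
    A.SmAt j (fun x => if x ∈ (A.e i).source then c x * Φ (cz A i x) else 0) := by
  obtain ⟨C, h1, h2, h3⟩ := h.cs
  intro z hz
  refine ContDiffAt.contDiffWithinAt ?_
  by_cases hx : (A.e j).symm z ∈ sz A i '' C
  · have hxi : (A.e j).symm z ∈ (A.e i).source := by
      obtain ⟨w, hw, hw'⟩ := hx
      rw [← hw']; exact sz_mem (h2 hw)
    have hov : z ∈ A.ov j i := ⟨hz, hxi⟩
    have ho : IsOpen (A.ov j i) := isOpen_ov j i
    have h4 : ContDiffAt ℝ ∞ (OmT75.tr A j i) z :=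
      ((((OmT75.tr_analytic j i) _ hov).contDiffAt (n := ω)).restrict_scalars ℝ).of_le le_top
    have h5 : ContDiffAt ℝ ∞ Φ (WithLp.ofLp (OmT75.tr A j i z)) :=
      h.sm.contDiffAt ((isOpen_Tz i).mem_nhds (cz_mem hxi))
    have h6 : ContDiffAt ℝ ∞ (fun w => Φ (WithLp.ofLp (OmT75.tr A j i w))) z :=
      ContDiffAt.comp (g := Φ) z h5 (contDiff_ofLp.contDiffAt.comp z h4)
    refine ((hc.contDiffAt (ho.mem_nhds hov)).mul h6).congr_of_eventuallyEq ?_
    filter_upwards [ho.mem_nhds hov] with w hw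
    rw [if_pos hw.2]
    rfl
  · have h4 : ContinuousAt (A.e j).symm z :=
      (A.e j).continuousOn_symm.continuousAt ((A.e j).open_target.mem_nhds hz)
    have h5 := h4.eventually ((isCompact_sz h1 h2).isClosed.isOpen_compl.mem_nhds hx)
    refine (contDiffAt_const (c := (0 : ℂ))).congr_of_eventuallyEq ?_
    filter_upwards [h5] with w hw
    split_ifs with hw'
    · rw [h3 _ (cz_notMem hw' hw), mul_zero]
    · rfl

open Classical in
/-- extension of a flat test function to a section -/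
def extS (N : LB A) (i : A.ι) (Φ : (Fin n → ℂ) → ℂ) (j : A.ι) (x : M) : ℂ :=
  if x ∈ (A.e i).source then N.g j i x * Φ (cz A i x) else 0

open Classical in
/-- extension of a flat test field -/
def extF (N : LB A) (i : A.ι) (Φ : (Fin n → ℂ) → Fin n → ℂ) (j : A.ι) (x : M) : Fin n → ℂ :=
  if x ∈ (A.e i).source then N.g j i x • (Jm A i j x *ᵥ Φ (cz A i x)) else 0

theorem smooth_Ng (N : LB A) (i j : A.ι) :
    ContDiffOn ℝ ∞ (fun z => N.g i j ((A.e i).symm z)) (A.ov i j) :=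
  (N.hol i j).contDiffOn (A.e j).open_source

theorem extS_self {Φ : (Fin n → ℂ) → ℂ} {x : M} (hx : x ∈ (A.e i).source) :
    extS N i Φ i x = Φ (cz A i x) := by rw [extS, if_pos hx, N.self, one_mul]

theorem extS_off {Φ : (Fin n → ℂ) → ℂ} {x : M} (hx : x ∉ (A.e i).source) (j : A.ι) :
    extS N i Φ j x = 0 := if_neg hx

theorem extF_self {Φ : (Fin n → ℂ) → Fin n → ℂ} {x : M} (hx : x ∈ (A.e i).source) :
    extF N i Φ i x = Φ (cz A i x) := by
  rw [extF, if_pos hx, N.self, one_smul, J_self i hx, Matrix.one_mulVec]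

theorem extF_off {Φ : (Fin n → ℂ) → Fin n → ℂ} {x : M} (hx : x ∉ (A.e i).source) (j : A.ι) :
    extF N i Φ j x = 0 := if_neg hx

theorem extS_isS [T2Space M] {Φ : (Fin n → ℂ) → ℂ} (h : Tst A i Φ) : IsS N (extS N i Φ) where
  sm j := smAt_ext h j (smooth_Ng N j i)
  tr j k x hx := by
    by_cases hi : x ∈ (A.e i).source
    · rw [extS, extS, if_pos hi, if_pos hi, ← mul_assoc, N.mul j k i x ⟨hx, hi⟩]
    · rw [extS_off hi, extS_off hi, mul_zero]

theorem extS_cs {Φ : (Fin n → ℂ) → ℂ} (h : Tst A i Φ) : Cs (extS N i Φ) := by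
  obtain ⟨C, h1, h2, h3⟩ := h.cs
  refine ⟨_, isCompact_sz h1 h2, fun j x hx => ?_⟩
  by_cases hi : x ∈ (A.e i).source
  · rw [extS, if_pos hi, h3 _ (cz_notMem hi hx), mul_zero]
  · exact extS_off hi j

/-- the inverse Jacobian is smooth in the chart `j` -/
theorem smooth_Jinv (i j : A.ι) (a b : Fin n) :
    ContDiffOn ℝ ∞ (fun z => Jm A i j ((A.e j).symm z) a b) (A.ov j i) := by
  intro z hz
  have ho : IsOpen (A.ov j i) := isOpen_ov j i
  have h4 : ContDiffAt ℝ ∞ (OmT75.tr A j i) z :=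
    ((((OmT75.tr_analytic j i) _ hz).contDiffAt (n := ω)).restrict_scalars ℝ).of_le le_top
  have hz' : OmT75.tr A j i z ∈ A.ov i j := by
    refine ⟨(A.e i).map_source hz.2, ?_⟩
    change (A.e i).symm (A.e i ((A.e j).symm z)) ∈ (A.e j).source
    rw [(A.e i).left_inv hz.2]
    exact (A.e j).map_target hz.1
  have h5 : ContDiffAt ℝ ∞ (fun w => A.J i j ((A.e i).symm w) a b) (OmT75.tr A j i z) :=
    (OmT75.J_smooth i j a b).contDiffAt ((isOpen_ov i j).mem_nhds hz')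
  refine ((h5.comp z h4).congr_of_eventuallyEq ?_).contDiffWithinAt
  filter_upwards [ho.mem_nhds hz] with w hw
  change A.J i j ((A.e j).symm w) a b = A.J i j ((A.e i).symm (A.e i ((A.e j).symm w))) a b
  rw [(A.e i).left_inv hw.2]

theorem extF_isF [T2Space M] {Φ : (Fin n → ℂ) → Fin n → ℂ} (h : ∀ a, Tst A i fun z => Φ z a) :
    IsF N (extF N i Φ) where
  sm j a := by
    classical
    have h1 : (fun x => extF N i Φ j x a) = fun x => ∑ b,
        (if x ∈ (A.e i).source then (N.g j i x * Jm A i j x a b) * Φ (cz A i x) b else 0) := by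
      funext x
      by_cases hi : x ∈ (A.e i).source
      · simp only [extF, if_pos hi, Pi.smul_apply, Matrix.mulVec, dotProduct, smul_eq_mul,
          Finset.mul_sum, mul_assoc]
      · simp [extF, if_neg hi]
    rw [h1]
    exact ContDiffOn.sum (s := Finset.univ) fun b _ => smAt_ext (h b) j
      (c := fun x => N.g j i x * Jm A i j x a b) ((smooth_Ng N j i).mul (smooth_Jinv i j a b))
  tr j k x hx := by
    by_cases hi : x ∈ (A.e i).source
    · rw [extF, extF, if_pos hi, if_pos hi, Matrix.mulVec_smul, smul_smul, N.mul j k i x ⟨hx, hi⟩,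
        Matrix.mulVec_mulVec, J_mul i k j ⟨⟨hi, hx.2⟩, hx.1⟩]
    · rw [extF_off hi, extF_off hi, Matrix.mulVec_zero, smul_zero]

theorem extF_cs {Φ : (Fin n → ℂ) → Fin n → ℂ} (h : ∀ a, Tst A i fun z => Φ z a) :
    Cs (extF N i Φ) := by
  choose C h1 h2 h3 using fun a => (h a).cs
  refine ⟨_, isCompact_sz (isCompact_iUnion h1) (iUnion_subset h2), fun j x hx => ?_⟩
  by_cases hi : x ∈ (A.e i).source
  · have h4 : Φ (cz A i x) = 0 := funext fun a =>
      h3 a _ fun h' => cz_notMem hi hx (mem_iUnion.2 ⟨a, h'⟩)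
    rw [extF, if_pos hi, h4, Matrix.mulVec_zero, smul_zero]
  · exact extF_off hi j

end

end Crest.Agent.T223.Hm
end

-- ▼ part T223/Hm4_77

/-!
# Row 223, module HOER (helper77), part 4: unitary representatives of sections, fields, 2-forms
-/

set_option autoImplicit false
set_option linter.unusedSectionVars false

open Set Filter Topology Complex Matrix MeasureTheory
open scoped ContDiff Matrix ComplexConjugate ComplexOrder ENNReal

namespace Crest.Agent.T223.Hm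

open Crest.Agent.R275 Crest.Agent.R275.Geo Crest.Agent.R275.Core144
open Crest.Agent.R275.OmT75 (dl)
open Crest.Agent.R273.Defs_333 Crest.Agent.R273.Kah_333 Crest.Agent.R273.Vm_333

noncomputable section

variable {n : ℕ} {M : Type} [TopologicalSpace M] {A : Atl n M} {N L : LB A} [Countable A.ι]

/-- values of fields -/
abbrev E2 (n : ℕ) : Type := EuclideanSpace ℂ (Fin n)

/-- values of 2-forms -/
abbrev E3 (n : ℕ) : Type := EuclideanSpace ℂ (Fin n × Fin n)

/-- values of the graph -/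
abbrev EW (n : ℕ) : Type := E2 n × ℂ × E3 n

/-- a matrix as a Euclidean vector -/
def mE (U : Mx n) : E3 n := WithLp.toLp 2 fun p => U p.1 p.2

theorem mE_add (U V : Mx n) : mE (U + V) = mE U + mE V := rfl

theorem mE_sub (U V : Mx n) : mE (U - V) = mE U - mE V := rfl

theorem mE_smul (c : ℂ) (U : Mx n) : mE (c • U) = c • mE U := rfl

theorem mE_zero : mE (0 : Mx n) = 0 := rfl

theorem norm_mE (U : Mx n) : ‖mE U‖ ^ 2 = (Matrix.trace (Uᴴ * U)).re := by
  rw [EuclideanSpace.norm_sq_eq, Fintype.sum_prod_type, Finset.sum_comm]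
  simp only [Matrix.trace, Matrix.diag_apply, Matrix.mul_apply, Matrix.conjTranspose_apply,
    Complex.re_sum, star_def, Complex.conj_mul', ← Complex.ofReal_pow, Complex.ofReal_re]
  rfl

theorem norm_toLp (u : Fin n → ℂ) : ‖(WithLp.toLp 2 u : E2 n)‖ ^ 2 = (star u ⬝ᵥ u).re := by
  rw [EuclideanSpace.norm_sq_eq]
  simp only [dotProduct, Pi.star_apply, Complex.re_sum, star_def, Complex.conj_mul',
    ← Complex.ofReal_pow, Complex.ofReal_re]

theorem inner_toLp (u : Fin n → ℂ) (y : E2 n) :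
    inner ℂ (WithLp.toLp 2 u : E2 n) y = star u ⬝ᵥ WithLp.ofLp y := by
  rw [EuclideanSpace.inner_eq_star_dotProduct, dotProduct_comm]

variable (h : HM ((KB A)⁻¹ * N)) (vol : HM (KB A)⁻¹) (K : Kah A)

/-- a field in the chart `i`, in the unitary frame -/
def t2 (i : A.ι) (x : M) (y : Fin n → ℂ) : E2 n := WithLp.toLp 2 (o1 h vol i x • (O2 K i x *ᵥ y))

/-- a 2-form in the chart `i`, in the unitary frame -/
def t3 (i : A.ι) (x : M) (U : Mx n) : E3 n := mE (o1 h vol i x • (S2 K i x * U * (S2 K i x)ᵀ))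

/-- representative of a section -/
def r1 (s : A.ι → M → ℂ) (x : M) : ℂ := o1 h vol (ix A x) x * s (ix A x) x

/-- representative of a field -/
def r2 (v : A.ι → M → Fin n → ℂ) (x : M) : E2 n := t2 h vol K (ix A x) x (v (ix A x) x)

/-- representative of a 2-form -/
def r3 (U : A.ι → M → Mx n) (x : M) : E3 n := t3 h vol K (ix A x) x (U (ix A x) x)

/-- the graph element of a test field -/
def RR (v : A.ι → M → Fin n → ℂ) (x : M) : EW n :=
  (r2 h vol K v x, -r1 h vol (dv h v) x, r3 h vol K (al K v) x)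

variable {i : A.ι} {x : M}

theorem t2_add (y y' : Fin n → ℂ) :
    t2 h vol K i x (y + y') = t2 h vol K i x y + t2 h vol K i x y' := by
  rw [t2, Matrix.mulVec_add, smul_add]; rfl

theorem t2_sub (y y' : Fin n → ℂ) :
    t2 h vol K i x (y - y') = t2 h vol K i x y - t2 h vol K i x y' := by
  rw [t2, Matrix.mulVec_sub, smul_sub]; rfl

theorem t2_smul (c : ℂ) (y : Fin n → ℂ) : t2 h vol K i x (c • y) = c • t2 h vol K i x y := by
  rw [t2, Matrix.mulVec_smul, smul_comm]; rfl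

theorem t2_zero : t2 h vol K i x 0 = 0 := by
  rw [t2, Matrix.mulVec_zero, smul_zero]; rfl

theorem t3_add (U V : Mx n) : t3 h vol K i x (U + V) = t3 h vol K i x U + t3 h vol K i x V := by
  rw [t3, Matrix.mul_add, Matrix.add_mul, smul_add]; rfl

theorem t3_sub (U V : Mx n) : t3 h vol K i x (U - V) = t3 h vol K i x U - t3 h vol K i x V := by
  rw [t3, Matrix.mul_sub, Matrix.sub_mul, smul_sub]; rfl

theorem t3_smul (c : ℂ) (U : Mx n) : t3 h vol K i x (c • U) = c • t3 h vol K i x U := by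
  rw [t3, Matrix.mul_smul, Matrix.smul_mul, smul_comm]; rfl

theorem t3_zero : t3 h vol K i x 0 = 0 := by
  rw [t3, Matrix.mul_zero, Matrix.zero_mul, smul_zero]; rfl

theorem r1_eq {s : A.ι → M → ℂ}
    (hs : ∀ i j, ∀ x ∈ (A.e i).source ∩ (A.e j).source, s i x = N.g i j x * s j x)
    (hx : x ∈ (A.e i).source) : r1 h vol s x = o1 h vol i x * s i x := by
  rw [r1, hs _ i x ⟨ix_mem x, hx⟩, o1_law h vol ⟨ix_mem x, hx⟩, mul_assoc]

theorem r2_eq {v : A.ι → M → Fin n → ℂ} (hv : IsF N v) (hx : x ∈ (A.e i).source) :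
    r2 h vol K v x = t2 h vol K i x (v i x) := by
  rw [r2, t2, t2, hv.tr _ i x ⟨ix_mem x, hx⟩, o1_law h vol ⟨ix_mem x, hx⟩, O2_law K ⟨ix_mem x, hx⟩,
    Matrix.mulVec_smul, smul_smul, Matrix.mulVec_mulVec]

theorem r3_eq {v : A.ι → M → Fin n → ℂ} (hv : IsF N v) (hx : x ∈ (A.e i).source) :
    r3 h vol K (al K v) x = t3 h vol K i x (al K v i x) := by
  rw [r3, t3, t3, al_law K hv ⟨ix_mem x, hx⟩, o1_law h vol ⟨ix_mem x, hx⟩, S2_law K ⟨ix_mem x, hx⟩,
    Matrix.mul_smul, Matrix.smul_mul, smul_smul, Matrix.transpose_mul]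
  congr 2
  simp only [Matrix.mul_assoc]
  rfl

theorem norm_t1 (hx : x ∈ (A.e i).source) (c : ℂ) :
    ‖o1 h vol i x * c‖ ^ 2 = (vol.w i x)⁻¹ * (h.w i x * ‖c‖ ^ 2) := by
  rw [norm_mul, mul_pow, o1_sq h vol hx]; ring

theorem inner_t2 (hx : x ∈ (A.e i).source) (y y' : Fin n → ℂ) :
    inner ℂ (t2 h vol K i x y) (t2 h vol K i x y') =
      (vol.w i x : ℂ)⁻¹ * ((h.w i x : ℂ) * (star y ⬝ᵥ ((K.g i x)ᵀ *ᵥ y'))) := by
  rw [t2, inner_toLp, t2, star_smul, smul_dotProduct, dotProduct_smul, smul_smul, star_def,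
    o1_conj h vol hx, Matrix.star_mulVec, ← Matrix.dotProduct_mulVec, Matrix.mulVec_mulVec,
    O2_sq K hx, smul_eq_mul]
  push_cast
  ring

theorem norm_t2 (hx : x ∈ (A.e i).source) (y : Fin n → ℂ) :
    ‖t2 h vol K i x y‖ ^ 2 = (vol.w i x)⁻¹ * (h.w i x * hq (K.g i x) y) := by
  have h1 := congrArg Complex.re (inner_t2 h vol K hx y y)
  rw [inner_self_eq_norm_sq_to_K, ← Complex.ofReal_inv, Complex.re_ofReal_mul,
    Complex.re_ofReal_mul] at h1
  rw [hq, ← h1]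
  norm_cast

theorem norm_t3 (hx : x ∈ (A.e i).source) (U : Mx n) :
    ‖t3 h vol K i x U‖ ^ 2 = (vol.w i x)⁻¹ * (h.w i x * hU (K.g i x) U) := by
  have h1 : (S2 K i x)ᵀ * ((S2 K i x)ᵀ)ᴴ = (K.g i x)⁻¹ := by
    have h2 := congrArg Matrix.transpose (S2_sq K hx)
    rw [Matrix.transpose_mul, ← Matrix.transpose_nonsing_inv, Matrix.transpose_transpose] at h2
    exact h2
  rw [t3, mE_smul, norm_smul, mul_pow, o1_sq h vol hx, norm_mE, hU, Matrix.conjTranspose_mul,
    Matrix.conjTranspose_mul, Matrix.mul_assoc, Matrix.trace_mul_comm,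
    Matrix.transpose_nonsing_inv, ← h1, ← S2_sq K hx]
  simp only [Matrix.mul_assoc]
  ring

theorem norm_r1 (s : A.ι → M → ℂ) (x : M) :
    ‖r1 h vol s x‖ ^ 2 = gl vol (fun i y => h.w i y * ‖s i y‖ ^ 2) x := norm_t1 h vol (ix_mem x) _

theorem norm_r2 (v : A.ι → M → Fin n → ℂ) (x : M) :
    ‖r2 h vol K v x‖ ^ 2 = gl vol (fun i y => h.w i y * hq (K.g i y) (v i y)) x :=
  norm_t2 h vol K (ix_mem x) _

theorem norm_r3 (U : A.ι → M → Mx n) (x : M) :
    ‖r3 h vol K U x‖ ^ 2 = gl vol (fun i y => h.w i y * hU (K.g i y) (U i y)) x :=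
  norm_t3 h vol K (ix_mem x) _

/-! ### linearity -/

theorem IsF.add {v v' : A.ι → M → Fin n → ℂ} (hv : IsF N v) (hv' : IsF N v') : IsF N (v + v') where
  sm i a := ContDiffOn.add (hv.sm i a) (hv'.sm i a)
  tr i j x hx := by
    simp only [Pi.add_apply, hv.tr i j x hx, hv'.tr i j x hx, Matrix.mulVec_add, smul_add]

theorem IsF.smul {v : A.ι → M → Fin n → ℂ} (hv : IsF N v) (c : ℂ) : IsF N (c • v) where
  sm i a := ContDiffOn.mul (contDiffOn_const (c := c)) (hv.sm i a)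
  tr i j x hx := by
    simp only [Pi.smul_apply, hv.tr i j x hx, Matrix.mulVec_smul]
    exact smul_comm _ _ _

theorem isF_zero : IsF N (0 : A.ι → M → Fin n → ℂ) where
  sm i a := contDiffOn_const (c := 0)
  tr i j x hx := by simp

theorem Cs.add {W : Type*} [AddZeroClass W] {v v' : A.ι → M → W} (hv : Cs v) (hv' : Cs v') :
    Cs (v + v') := by
  obtain ⟨C, hC, h0⟩ := hv
  obtain ⟨C', hC', h0'⟩ := hv'
  exact ⟨C ∪ C', hC.union hC', fun i x hx => by
    rw [Pi.add_apply, Pi.add_apply, h0 i x fun h' => hx (Or.inl h'),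
      h0' i x fun h' => hx (Or.inr h'), add_zero]⟩

theorem Cs.smul {v : A.ι → M → Fin n → ℂ} (hv : Cs v) (c : ℂ) : Cs (c • v) := by
  obtain ⟨C, hC, h0⟩ := hv
  exact ⟨C, hC, fun i x hx => by rw [Pi.smul_apply, Pi.smul_apply, h0 i x hx, smul_zero]⟩

theorem cs_zero : Cs (0 : A.ι → M → Fin n → ℂ) := ⟨∅, isCompact_empty, fun _ _ _ => rfl⟩

theorem dd_cmul {s : ℂ} {a : Fin n} {f : M → ℂ} (c : ℂ) (hf : SA A i x f)
    (hx : x ∈ (A.e i).source) : dd A s i a (fun y => c * f y) x = c * dd A s i a f x := by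
  rw [dd_mul (sa_const c) hf hx, dd_const, zero_mul, zero_add]

theorem dv_add {v v' : A.ι → M → Fin n → ℂ} (hv : IsF N v) (hv' : IsF N v')
    (hx : x ∈ (A.e i).source) : dv h (v + v') i x = dv h v i x + dv h v' i x := by
  rw [dv_def, dv_def, dv_def, ← mul_add, ← Finset.sum_add_distrib]
  congr 1
  refine Finset.sum_congr rfl fun a _ => ?_
  rw [← dd_add ((sa_w h hx).mul (hv.sa hx a)) ((sa_w h hx).mul (hv'.sa hx a))]
  simp only [Pi.add_apply, mul_add]

theorem dv_smul {v : A.ι → M → Fin n → ℂ} (hv : IsF N v) (c : ℂ)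
    (hx : x ∈ (A.e i).source) : dv h (c • v) i x = c * dv h v i x := by
  rw [dv_def, dv_def, mul_left_comm, Finset.mul_sum _ _ c]
  congr 1
  refine Finset.sum_congr rfl fun a _ => ?_
  rw [← dd_cmul c ((sa_w h hx).mul (hv.sa hx a)) hx]
  simp only [Pi.smul_apply, smul_eq_mul, mul_left_comm]

theorem dbM_add {v v' : A.ι → M → Fin n → ℂ} (hv : IsF N v) (hv' : IsF N v')
    (hx : x ∈ (A.e i).source) : dbM (v + v') i x = dbM v i x + dbM v' i x := by
  ext k a
  exact dd_add (hv.sa hx a) (hv'.sa hx a)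

theorem dbM_smul {v : A.ι → M → Fin n → ℂ} (hv : IsF N v) (c : ℂ)
    (hx : x ∈ (A.e i).source) : dbM (c • v) i x = c • dbM v i x := by
  ext k a
  exact dd_cmul c (hv.sa hx a) hx

theorem al_add {v v' : A.ι → M → Fin n → ℂ} (hv : IsF N v) (hv' : IsF N v')
    (hx : x ∈ (A.e i).source) : al K (v + v') i x = al K v i x + al K v' i x := by
  rw [al_eq K (hv.add hv') hx, al_eq K hv hx, al_eq K hv' hx, dbM_add hv hv' hx, Matrix.add_mul,
    Matrix.transpose_add]
  abel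

theorem al_smul {v : A.ι → M → Fin n → ℂ} (hv : IsF N v) (c : ℂ)
    (hx : x ∈ (A.e i).source) : al K (c • v) i x = c • al K v i x := by
  rw [al_eq K (hv.smul c) hx, al_eq K hv hx, dbM_smul hv c hx, Matrix.smul_mul,
    Matrix.transpose_smul, smul_sub]

theorem RR_add {v v' : A.ι → M → Fin n → ℂ} (hv : IsF N v) (hv' : IsF N v') :
    RR h vol K (v + v') = RR h vol K v + RR h vol K v' := by
  funext x
  simp only [RR, r1, r2, r3, Pi.add_apply, Prod.mk_add_mk, dv_add h hv hv' (ix_mem x),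
    al_add K hv hv' (ix_mem x), t2_add, t3_add, mul_add, neg_add]

theorem RR_smul {v : A.ι → M → Fin n → ℂ} (hv : IsF N v) (c : ℂ) :
    RR h vol K (c • v) = c • RR h vol K v := by
  funext x
  simp only [RR, r1, r2, r3, Pi.smul_apply, Prod.smul_mk, dv_smul h hv c (ix_mem x),
    al_smul K hv c (ix_mem x), t2_smul, t3_smul, smul_eq_mul, mul_neg, mul_left_comm]

/-! ### measurability and square integrability -/

variable [T2Space M] [MeasurableSpace M] [BorelSpace M]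

theorem aesm_r1 {s : A.ι → M → ℂ} (hs : ∀ i, A.SmAt i (s i)) (μ : Measure M) :
    AEStronglyMeasurable (r1 h vol s) μ := by
  have h1 := aesm_ix' (A := A) (f := fun j x => ((Real.sqrt (h.w j x / vol.w j x) : ℝ) : ℂ) * s j x)
    (fun j => (contOn_cw h vol j).mul (contOn_smAt (hs j))) μ
  refine h1.congr (Eventually.of_forall fun x => ?_)
  simp only [r1, o1_ix, cw]

theorem aesm_r2 {v : A.ι → M → Fin n → ℂ} (hv : ∀ i a, A.SmAt i fun x => v i x a) (μ : Measure M) :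
    AEStronglyMeasurable (r2 h vol K v) μ := by
  have h1 := aesm_toLp fun a => aesm_ix' (A := A)
    (f := fun j x => (((Real.sqrt (h.w j x / vol.w j x) : ℝ) : ℂ) • (msq (K.g j x)ᵀ *ᵥ v j x)) a)
    (fun j => by
      simp only [Pi.smul_apply, smul_eq_mul, Matrix.mulVec, dotProduct]
      exact (contOn_cw h vol j).mul (continuousOn_finsetSum _ fun b _ =>
        (continuousOn_pi.1 (continuousOn_pi.1 (contOn_msq K j) a) b).mul (contOn_smAt (hv j b)))) μ
  refine h1.congr (Eventually.of_forall fun x => ?_)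
  simp only [r2, t2, o1_ix, O2_ix, cw, Rt]

theorem aesm_r3 {U : A.ι → M → Mx n} (hU : ∀ i a b, A.SmAt i fun x => U i x a b) (μ : Measure M) :
    AEStronglyMeasurable (r3 h vol K U) μ := by
  have h1 := aesm_toLp fun p : Fin n × Fin n => aesm_ix' (A := A)
    (f := fun j x => (((Real.sqrt (h.w j x / vol.w j x) : ℝ) : ℂ) •
      ((msq (K.g j x)ᵀ * ((K.g j x)ᵀ)⁻¹) * U j x * (msq (K.g j x)ᵀ * ((K.g j x)ᵀ)⁻¹)ᵀ)) p.1 p.2)
    (fun j => by
      have h2 : ContinuousOn (fun x => msq (K.g j x)ᵀ * ((K.g j x)ᵀ)⁻¹) (A.e j).source :=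
        (contOn_msq K j).mul (contOn_gTi K j)
      have h3 : ContinuousOn (U j) (A.e j).source :=
        continuousOn_pi.2 fun a => continuousOn_pi.2 fun b => contOn_smAt (hU j a b)
      have h4 := (h2.mul h3).mul ((continuous_id.matrix_transpose).comp_continuousOn h2)
      exact (contOn_cw h vol j).mul (continuousOn_pi.1 (continuousOn_pi.1 h4 p.1) p.2)) μ
  refine h1.congr (Eventually.of_forall fun x => ?_)
  simp only [r3, t3, mE, o1_ix, O2_ix, cw, Rt, S2]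

theorem memLp_of_isD {W : Type*} [NormedAddCommGroup W] {r : M → W}
    (hm : AEStronglyMeasurable r (vm vol)) {D : A.ι → M → ℂ} (hD : R273.StV_37.IsD A D) {C : Set M}
    (hC : IsCompact C) (h0 : ∀ i, ∀ x ∈ (A.e i).source, x ∉ C → D i x = 0)
    (h1 : ∀ x, ‖r x‖ ^ 2 = gl vol (fun i y => (D i y).re) x) : MemLp r 2 (vm vol) := by
  rw [memLp_two_iff_integrable_sq_norm hm]
  have hz : ∀ x ∉ C, gl vol D x = 0 := fun x hx => by rw [gl, h0 _ x (ix_mem x) hx, smul_zero]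
  refine (integrable_of_sm (vol := vol) (gl_sm (vol := vol) hD) hC hz).re.congr
    (Eventually.of_forall fun x => ?_)
  simp only [h1, gl_re]
  rfl

theorem memLp_r1 {s : A.ι → M → ℂ} (hs : IsS N s) {C : Set M} (hC : IsCompact C)
    (h0 : ∀ i, ∀ x ∈ (A.e i).source, x ∉ C → s i x = 0) : MemLp (r1 h vol s) 2 (vm vol) :=
  memLp_of_isD vol (aesm_r1 h vol hs.sm _) (isD_ss h hs hs) hC
    (fun i x hx hx' => by simp [h0 i x hx hx']) fun x => by
      simp only [norm_r1, Complex.re_ofReal_mul, Complex.conj_mul', ← Complex.ofReal_pow,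
        Complex.ofReal_re]

theorem memLp_r2 {v : A.ι → M → Fin n → ℂ} (hv : IsF N v) {C : Set M} (hC : IsCompact C)
    (h0 : ∀ i, ∀ x ∈ (A.e i).source, x ∉ C → v i x = 0) : MemLp (r2 h vol K v) 2 (vm vol) :=
  memLp_of_isD vol (aesm_r2 h vol K hv.sm _) (isD_form h K.sm K.tr hv hv) hC
    (fun i x hx hx' => by simp [h0 i x hx hx']) fun x => by
      simp only [norm_r2, Complex.re_ofReal_mul, hq]

theorem memLp_r3 {v : A.ι → M → Fin n → ℂ} (hv : IsF N v) (hc : Cs v) :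
    MemLp (r3 h vol K (al K v)) 2 (vm vol) := by
  obtain ⟨C, hC, h0⟩ := hc
  exact memLp_of_isD vol (aesm_r3 h vol K (al_sm K hv) _) (isD_hC K h hv) hC
    (fun i x hx hx' => by simp [al_off K hv hC h0 hx hx', Hm.hC]) fun x => by
      simp only [norm_r3, Complex.re_ofReal_mul, hU_eq]

theorem memLp_r1s {s : A.ι → M → ℂ} (hs : IsS N s) (hc : Cs s) : MemLp (r1 h vol s) 2 (vm vol) := by
  obtain ⟨C, hC, h0⟩ := hc
  exact memLp_r1 h vol hs hC fun i x _ hx => h0 i x hx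

theorem memLp_r2s {v : A.ι → M → Fin n → ℂ} (hv : IsF N v) (hc : Cs v) :
    MemLp (r2 h vol K v) 2 (vm vol) := by
  obtain ⟨C, hC, h0⟩ := hc
  exact memLp_r2 h vol K hv hC fun i x _ hx => h0 i x hx

theorem memLp_dv {v : A.ι → M → Fin n → ℂ} (hv : IsF N v) (hc : Cs v) :
    MemLp (r1 h vol (dv h v)) 2 (vm vol) := by
  obtain ⟨C, hC, h0⟩ := hc
  exact memLp_r1 h vol (dv_isS h hv) hC fun i x hx hx' => dv_off h hC h0 hx hx'

theorem memLp_sh {s : A.ι → M → ℂ} (hs : IsS N s) (hc : Cs s) :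
    MemLp (r2 h vol K (sh K s)) 2 (vm vol) := by
  obtain ⟨C, hC, h0⟩ := hc
  refine memLp_r2 h vol K (sh_isF K hs) hC fun i x hx hx' => ?_
  have h1 : dbs s i x = 0 := funext fun a => dd_zero_off hC (h0 i) hx hx'
  rw [sh, h1, Matrix.mulVec_zero]

theorem memLp_RR {v : A.ι → M → Fin n → ℂ} (hv : IsF N v) (hc : Cs v) :
    MemLp (RR h vol K v) 2 (vm vol) :=
  MemLp.of_fst_snd ⟨memLp_r2s h vol K hv hc,
    MemLp.of_fst_snd ⟨(memLp_dv h vol hv hc).neg, memLp_r3 h vol K hv hc⟩⟩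

/-- leaf REG: weakly holomorphic `L²` sections are holomorphic -/
def RegStmt : Prop :=
  ∀ (n : ℕ) (M : Type) [TopologicalSpace M] [T2Space M] [MeasurableSpace M] [BorelSpace M]
    (A : Atl n M) [Countable A.ι] (N : LB A) (h : HM ((KB A)⁻¹ * N)) (vol : HM (KB A)⁻¹)
    (q : M → ℂ), MemLp q 2 (vm vol) →
    (∀ v, IsF N v → Cs v → ∫ x, conj (r1 h vol (dv h v) x) * q x ∂(vm vol) = 0) →
    ∃ F : A.ι → M → ℂ, IsS N F ∧ (∀ i, HolAt A i univ (F i)) ∧ q =ᵐ[vm vol] r1 h vol F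

/-- leaf DENS: density of test fields in the graph norm -/
def DensStmt : Prop :=
  ∀ (n : ℕ) (M : Type) [TopologicalSpace M] [T2Space M] [MeasurableSpace M] [BorelSpace M]
    (A : Atl n M) [Countable A.ι] (_ : Part A) (K : Kah A), Cut K →
    ∀ (N : LB A) (h : HM ((KB A)⁻¹ * N)) (vol : HM (KB A)⁻¹) (g : M → E2 n) (t : M → ℂ),
      MemLp g 2 (vm vol) → MemLp t 2 (vm vol) →
      (∀ v, IsF N v → Cs v → (∀ i, ∀ x ∈ (A.e i).source, dv h v i x = 0) →
        ∫ x, inner ℂ (r2 h vol K v x) (g x) ∂(vm vol) = 0) →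
      (∀ s, IsS N s → Cs s → ∫ x, inner ℂ (r2 h vol K (sh K s) x) (g x) ∂(vm vol) =
        ∫ x, conj (r1 h vol s x) * t x ∂(vm vol)) →
      ∀ ε : ℝ≥0∞, 0 < ε → ∃ v, IsF N v ∧ Cs v ∧
        eLpNorm (fun x => RR h vol K v x - (g x, t x, 0)) 2 (vm vol) ≤ ε

end

end Crest.Agent.T223.Hm
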