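import Crest.Agent.T223.Hm4_77

-- ▼ part T223/Hm5_77
section

/-!
# Row 223, module HOER (helper77), part 5: approximable triples, reduction of the density
statement to one chart
-/

set_option autoImplicit false
set_option linter.unusedSectionVars false

open Set Filter Topology Complex Matrix MeasureTheory
open scoped ContDiff Matrix ComplexConjugate ComplexOrder ENNReal

namespace Crest.Agent.T223.Hm

open Crest.Agent.R275 Crest.Agent.R275.Geo Crest.Agent.R275.Core144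
open Crest.Agent.R275.OmT75 (dl)
open Crest.Agent.R275.Pai323 (Fn sum_psi psi_off tsupport_psi)
open Crest.Agent.R273.Defs_333 Crest.Agent.R273.Kah_333 Crest.Agent.R273.Vm_333

noncomputable section

variable {n : ℕ} {M : Type} [TopologicalSpace M] {A : Atl n M} {N L : LB A} [Countable A.ι]

/-! ### the targets -/

/-- the graph element of `θ g` when `(g, t, 0)` is in the weak graph, `c = θ`, `b = ∂̄ θ` -/
def PQ (c : ℝ) (b g : E2 n) (t : ℂ) : EW n :=
  (c • g, c • t - inner ℂ b g,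
    mE (vecMulVec (WithLp.ofLp b) (WithLp.ofLp g) - vecMulVec (WithLp.ofLp g) (WithLp.ofLp b)))

theorem PQ_add (c c' : ℝ) (b b' g : E2 n) (t : ℂ) :
    PQ (c + c') (b + b') g t = PQ c b g t + PQ c' b' g t := by
  simp only [PQ, Prod.mk_add_mk, add_smul, inner_add_left, WithLp.ofLp_add, add_vecMulVec,
    vecMulVec_add, ← mE_add]
  congr 3
  · abel
  · abel

theorem PQ_zero (g : E2 n) (t : ℂ) : PQ 0 0 g t = 0 := by
  simp [PQ, mE_zero]

theorem continuous_PQ :
    Continuous fun p : ℝ × E2 n × E2 n × ℂ => PQ p.1 p.2.1 p.2.2.1 p.2.2.2 := by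
  unfold PQ mE
  refine Continuous.prodMk (by fun_prop) (Continuous.prodMk (by fun_prop) ?_)
  refine (PiLp.continuous_toLp 2 _).comp (continuous_pi fun q => ?_)
  simp only [Matrix.sub_apply, vecMulVec_apply]
  fun_prop

theorem norm_vmv (b g : E2 n) :
    ‖mE (vecMulVec (WithLp.ofLp b) (WithLp.ofLp g))‖ = ‖b‖ * ‖g‖ := by
  have h : ‖mE (vecMulVec (WithLp.ofLp b) (WithLp.ofLp g))‖ ^ 2 = (‖b‖ * ‖g‖) ^ 2 := by
    rw [mul_pow, EuclideanSpace.norm_sq_eq, EuclideanSpace.norm_sq_eq, EuclideanSpace.norm_sq_eq,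
      Fintype.sum_prod_type, Finset.sum_mul_sum]
    simp only [mE, vecMulVec_apply, norm_mul, mul_pow]
  exact (pow_left_inj₀ (norm_nonneg _) (by positivity) two_ne_zero).1 h

theorem norm_PQ (c : ℝ) (b g : E2 n) (t : ℂ) :
    ‖PQ c b g t - (g, t, 0)‖ ≤ |c - 1| * (‖g‖ + ‖t‖) + 2 * ‖b‖ * ‖g‖ := by
  have h0 : 0 ≤ ‖b‖ * ‖g‖ := by positivity
  have h1 : 0 ≤ |c - 1| * ‖g‖ := by positivity
  have h2 : 0 ≤ |c - 1| * ‖t‖ := by positivity
  simp only [PQ, Prod.mk_sub_mk, Prod.norm_mk, sub_zero, max_le_iff]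
  refine ⟨?_, ?_, ?_⟩
  · rw [show c • g - g = (c - 1) • g by rw [sub_smul, one_smul], norm_smul, Real.norm_eq_abs]
    nlinarith
  · rw [show c • t - inner ℂ b g - t = (c - 1) • t - inner ℂ b g by
      rw [sub_smul, one_smul]; abel]
    refine (norm_sub_le _ _).trans ?_
    rw [norm_smul, Real.norm_eq_abs]
    have := norm_inner_le_norm (𝕜 := ℂ) b g
    nlinarith
  · rw [mE_sub]
    refine (norm_sub_le _ _).trans ?_
    rw [norm_vmv, norm_vmv]
    nlinarith

variable (h : HM ((KB A)⁻¹ * N)) (vol : HM (KB A)⁻¹) (K : Kah A)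

/-- `∂̄ θ` in the chart `i` -/
def dbr (A : Atl n M) (θ : M → ℝ) (i : A.ι) (x : M) : Fin n → ℂ :=
  fun a => dd A I i a (fun y => (θ y : ℂ)) x

/-- `∂̄ θ` in the unitary frame -/
def bb (θ : M → ℝ) (x : M) : E2 n := WithLp.toLp 2 (S2 K (ix A x) x *ᵥ dbr A θ (ix A x) x)

/-- the target attached to a cut-off function -/
def PP (g : M → E2 n) (t : M → ℂ) (θ : M → ℝ) (x : M) : EW n := PQ (θ x) (bb K θ x) (g x) (t x)

variable {i : A.ι} {x : M} {θ θ' : M → ℝ}

theorem sa_real (hθ : A.Sm θ) (hx : x ∈ (A.e i).source) : SA A i x fun y => (θ y : ℂ) :=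
  sa_of (C1d194.smAt_ofReal (hθ i)) hx

theorem bb_eq (hθ : A.Sm θ) (hx : x ∈ (A.e i).source) :
    bb K θ x = WithLp.toLp 2 (S2 K i x *ᵥ dbr A θ i x) := by
  have h1 : dbr A θ (ix A x) x = (Jm A (ix A x) i x)ᴴ *ᵥ dbr A θ i x :=
    funext fun a => db_chain' (sa_real hθ hx) ⟨ix_mem x, hx⟩
  rw [bb, h1, S2_law K ⟨ix_mem x, hx⟩, Matrix.mulVec_mulVec]

theorem bb_add (hθ : A.Sm θ) (hθ' : A.Sm θ') (x : M) :
    bb K (fun y => θ y + θ' y) x = bb K θ x + bb K θ' x := by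
  have h1 : dbr A (fun y => θ y + θ' y) (ix A x) x = dbr A θ (ix A x) x + dbr A θ' (ix A x) x := by
    funext a
    simp only [dbr, Complex.ofReal_add]
    exact dd_add (sa_real hθ (ix_mem x)) (sa_real hθ' (ix_mem x))
  rw [bb, h1, Matrix.mulVec_add]
  rfl

theorem bb_off [T2Space M] {C : Set M} (hC : IsCompact C) (h0 : ∀ y ∉ C, θ y = 0) (hx : x ∉ C) :
    bb K θ x = 0 := by
  have h1 : dbr A θ (ix A x) x = 0 := funext fun a =>
    dd_zero_off hC (fun y hy => by simp [h0 y hy]) (ix_mem x) hx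
  rw [bb, h1, Matrix.mulVec_zero]
  rfl

theorem dl_real (a : Fin n) : dl A i a (fun y => (θ y : ℂ)) x = conj (dbr A θ i x a) := by
  rw [dbr, ← dl_conj', dl_eq]
  simp only [Complex.conj_ofReal]

theorem norm_bb {ε : ℝ} (hε : 0 ≤ ε) (hb : ∀ v : Fin n → ℂ,
    ‖∑ a, dl A (ix A x) a (fun y => (θ y : ℂ)) x * v a‖ ^ 2 ≤ ε ^ 2 * hq (K.g (ix A x) x) v) :
    ‖bb K θ x‖ ≤ ε := by
  have hx := ix_mem (A := A) x
  obtain ⟨b, hbd⟩ : ∃ b, b = S2 K (ix A x) x *ᵥ dbr A θ (ix A x) x := ⟨_, rfl⟩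
  have h1 := hb ((S2 K (ix A x) x)ᴴ *ᵥ b)
  have h2 : ∑ a, dl A (ix A x) a (fun y => (θ y : ℂ)) x * ((S2 K (ix A x) x)ᴴ *ᵥ b) a =
      star b ⬝ᵥ b := by
    conv_rhs => rw [hbd, Matrix.star_mulVec, ← Matrix.dotProduct_mulVec, ← hbd]
    simp only [dl_real]
    rfl
  have h3 : hq (K.g (ix A x) x) ((S2 K (ix A x) x)ᴴ *ᵥ b) = ‖bb K θ x‖ ^ 2 := by
    rw [hq, Matrix.mulVec_mulVec, gT_S2H K hx, Matrix.star_mulVec, ← Matrix.dotProduct_mulVec,
      Matrix.mulVec_mulVec, Matrix.conjTranspose_conjTranspose, S2_O2H K hx, Matrix.one_mulVec,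
      bb, norm_toLp, ← hbd]
  have h4 : ‖star b ⬝ᵥ b‖ = ‖bb K θ x‖ ^ 2 := by
    have h5 := inner_toLp b (WithLp.toLp 2 b)
    rw [inner_self_eq_norm_sq_to_K] at h5
    rw [← show _ = star b ⬝ᵥ b from h5, norm_pow, RCLike.norm_ofReal, abs_norm, hbd]
    rfl
  rw [h2, h3, h4] at h1
  by_contra hlt
  push Not at hlt
  have h6 : 0 < ‖bb K θ x‖ := hε.trans_lt hlt
  have h7 : ε ^ 2 < ‖bb K θ x‖ ^ 2 := by gcongr
  have h8 : 0 < ‖bb K θ x‖ ^ 2 := by positivity
  nlinarith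

variable [T2Space M] [MeasurableSpace M] [BorelSpace M]

theorem aesm_bb (hθ : A.Sm θ) (μ : Measure M) : AEStronglyMeasurable (bb K θ) μ := by
  have h1 := aesm_toLp fun a => aesm_ix' (A := A)
    (f := fun j x => ((msq (K.g j x)ᵀ * ((K.g j x)ᵀ)⁻¹) *ᵥ dbr A θ j x) a)
    (fun j => by
      have h2 : ContinuousOn (fun x => msq (K.g j x)ᵀ * ((K.g j x)ᵀ)⁻¹) (A.e j).source :=
        (contOn_msq K j).mul (contOn_gTi K j)
      simp only [Matrix.mulVec, dotProduct]
      exact continuousOn_finsetSum _ fun b _ => (continuousOn_pi.1 (continuousOn_pi.1 h2 a) b).mul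
        (contOn_smAt (smAt_of_sa fun x hx => (sa_real hθ hx).dd hx I b))) μ
  refine h1.congr (Eventually.of_forall fun x => ?_)
  simp only [bb, S2, O2_ix, Rt]

theorem aesm_PP {g : M → E2 n} {t : M → ℂ} {μ : Measure M} (hg : AEStronglyMeasurable g μ)
    (ht : AEStronglyMeasurable t μ) (hθ : A.Sm θ) : AEStronglyMeasurable (PP K g t θ) μ :=
  continuous_PQ.comp_aestronglyMeasurable ((sm_continuous hθ).aestronglyMeasurable.prodMk
    ((aesm_bb K hθ μ).prodMk (hg.prodMk ht)))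

/-! ### approximable triples -/

/-- approximable by graph elements of test fields -/
def Ap (p : M → EW n) : Prop := AEStronglyMeasurable p (vm vol) ∧ ∀ ε : ℝ≥0∞, 0 < ε →
  ∃ v, IsF N v ∧ Cs v ∧ eLpNorm (RR h vol K v - p) 2 (vm vol) ≤ ε

variable {h vol K}

theorem Ap.add {p q : M → EW n} (hp : Ap h vol K p) (hq : Ap h vol K q) : Ap h vol K (p + q) := by
  refine ⟨hp.1.add hq.1, fun ε hε => ?_⟩
  obtain ⟨v, v1, v2, v3⟩ := hp.2 (ε / 2) (ENNReal.half_pos hε.ne')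
  obtain ⟨w, w1, w2, w3⟩ := hq.2 (ε / 2) (ENNReal.half_pos hε.ne')
  refine ⟨v + w, v1.add w1, v2.add w2, ?_⟩
  rw [RR_add h vol K v1 w1, add_sub_add_comm]
  refine (eLpNorm_add_le ((memLp_RR h vol K v1 v2).1.sub hp.1) ((memLp_RR h vol K w1 w2).1.sub hq.1)
    (by norm_num)).trans ?_
  calc _ ≤ ε / 2 + ε / 2 := add_le_add v3 w3
    _ = ε := ENNReal.add_halves ε

theorem ap_zero : Ap h vol K 0 := by
  refine ⟨aestronglyMeasurable_zero, fun ε _ => ⟨0, isF_zero, cs_zero, ?_⟩⟩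
  have h1 := RR_smul h vol K (isF_zero (N := N)) 0
  rw [zero_smul, zero_smul] at h1
  rw [h1, sub_zero, eLpNorm_zero]
  exact zero_le

theorem Ap.lim {p : M → EW n} (hm : AEStronglyMeasurable p (vm vol))
    (hp : ∀ ε : ℝ≥0∞, 0 < ε → ∃ q, Ap h vol K q ∧ eLpNorm (q - p) 2 (vm vol) ≤ ε) :
    Ap h vol K p := by
  refine ⟨hm, fun ε hε => ?_⟩
  obtain ⟨q, q1, q2⟩ := hp (ε / 2) (ENNReal.half_pos hε.ne')
  obtain ⟨v, v1, v2, v3⟩ := q1.2 (ε / 2) (ENNReal.half_pos hε.ne')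
  refine ⟨v, v1, v2, ?_⟩
  rw [← sub_add_sub_cancel _ q]
  refine (eLpNorm_add_le ((memLp_RR h vol K v1 v2).1.sub q1.1) (q1.1.sub hm) (by norm_num)).trans ?_
  calc _ ≤ ε / 2 + ε / 2 := add_le_add v3 q2
    _ = ε := ENNReal.add_halves ε

theorem ap_sum {g : M → E2 n} {t : M → ℂ} {ι : Type*} (F : Finset ι) {θ : ι → M → ℝ}
    (hs : ∀ i, A.Sm (θ i)) (hp : ∀ i ∈ F, Ap h vol K (PP K g t (θ i))) :
    Ap h vol K (PP K g t fun x => ∑ i ∈ F, θ i x) := by
  classical
  induction F using Finset.induction_on with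
  | empty =>
    have h1 : (PP K g t fun x => ∑ i ∈ (∅ : Finset ι), θ i x) = 0 := by
      funext x
      simp only [PP, Finset.sum_empty]
      rw [bb_off K isCompact_empty (fun _ _ => rfl) (notMem_empty x), PQ_zero, Pi.zero_apply]
    rw [h1]
    exact ap_zero
  | insert j F hj ih =>
    have h1 : (PP K g t fun x => ∑ i ∈ insert j F, θ i x) =
        PP K g t (θ j) + PP K g t fun x => ∑ i ∈ F, θ i x := by
      funext x
      simp only [PP, Finset.sum_insert hj, Pi.add_apply]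
      rw [bb_add K (hs j) (fun k => ContDiffOn.sum fun i _ => hs i k), PQ_add]
    rw [h1]
    exact (hp j (Finset.mem_insert_self _ _)).add
      (ih fun i hi => hp i (Finset.mem_insert_of_mem hi))

theorem sigmaCompact_of_part (P : Part A) : SigmaCompactSpace M := by
  refine ⟨?_⟩
  have h1 : (univ : Set M) = ⋃ i, tsupport (P.χ i) := by
    refine (eq_univ_of_forall fun x => ?_).symm
    by_contra hx
    have h2 : ∀ i, P.ψ i x = 0 := fun i => image_eq_zero_of_notMem_tsupport fun h' =>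
      hx (mem_iUnion.2 ⟨i, tsupport_psi P i h'⟩)
    have h3 := P.sum_one x
    simp [h2] at h3
  rw [h1]
  exact isSigmaCompact_iUnion_of_isCompact _ P.χ_cpt

theorem exists_tail (P : Part A) {μ : Measure M} {f : M → ℝ} (hf : MemLp f 2 μ) {ε : ℝ≥0∞}
    (hε : 0 < ε) : ∃ C : Set M, IsCompact C ∧ eLpNorm (Cᶜ.indicator f) 2 μ ≤ ε := by
  have := sigmaCompact_of_part P
  have hm : ∀ k, MeasurableSet (compactCovering M k)ᶜ := fun k =>
    (isCompact_compactCovering M k).measurableSet.compl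
  have h1 : Tendsto (fun k => ∫⁻ x, ‖(compactCovering M k)ᶜ.indicator f x‖ₑ ^ 2 ∂μ) atTop
      (𝓝 (∫⁻ _, 0 ∂μ)) := by
    refine tendsto_lintegral_of_dominated_convergence' (fun x => ‖f x‖ₑ ^ 2)
      (fun k => (hf.1.indicator (hm k)).enorm.pow_const 2)
      (fun k => Eventually.of_forall fun x => ?_) ?_ (Eventually.of_forall fun x => ?_)
    · dsimp only
      gcongr
      exact enorm_indicator_le_enorm_self f x
    · have h2 := hf.2
      rw [e2] at h2
      exact ((ENNReal.rpow_lt_top_iff_of_pos (by norm_num)).1 h2).ne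
    · obtain ⟨k, hk⟩ := exists_mem_compactCovering x
      refine tendsto_const_nhds.congr' ?_
      filter_upwards [eventually_ge_atTop k] with l hl
      rw [indicator_of_notMem (notMem_compl_iff.2 (compactCovering_subset M hl hk))]
      simp
  rw [lintegral_zero] at h1
  obtain ⟨k, hk⟩ := (h1.eventually (ge_mem_nhds (ENNReal.pow_pos hε 2))).exists
  refine ⟨_, isCompact_compactCovering M k, ?_⟩
  rw [e2]
  calc _ ≤ (ε ^ 2) ^ (1 / 2 : ℝ) := by gcongr
    _ = ε := by rw [← ENNReal.rpow_natCast, ← ENNReal.rpow_mul]; norm_num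

/-- **reduction to one chart** -/
theorem ap_of_chart (P : Part A) (hK : Cut K) {g : M → E2 n} {t : M → ℂ}
    (hg : MemLp g 2 (vm vol)) (ht : MemLp t 2 (vm vol))
    (H : ∀ (i : A.ι) (θ : M → ℝ) (C : Set M), A.Sm θ → IsCompact C → C ⊆ (A.e i).source →
      (∀ x ∉ C, θ x = 0) → Ap h vol K (PP K g t θ)) :
    Ap h vol K fun x => (g x, t x, 0) := by
  refine Ap.lim (hg.1.prodMk (ht.1.prodMk aestronglyMeasurable_const)) fun ε hε => ?_
  have hf : MemLp (fun x => ‖g x‖ + ‖t x‖) 2 (vm vol) := hg.norm.add ht.norm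
  obtain ⟨C, hC, hC2⟩ := exists_tail P hf (ENNReal.half_pos hε.ne')
  obtain ⟨δ, hδ, hδ2⟩ := ENNReal.exists_nnreal_pos_mul_lt hg.2.ne (ENNReal.half_pos hε.ne').ne'
  have hδ' : (0 : ℝ) < δ := hδ
  obtain ⟨χ, c1, c2, c3, c4, c5⟩ := hK C hC (((δ : ℝ) / 2) ^ 2) (by positivity)
  refine ⟨PP K g t χ, ?_, ?_⟩
  · have h1 : χ = fun x => ∑ i ∈ Fn P c2.isCompact, P.ψ i x * χ x := by
      funext x
      rw [← Finset.sum_mul]
      by_cases hx : x ∈ tsupport χ
      · rw [sum_psi P c2.isCompact subset_rfl hx, one_mul]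
      · rw [image_eq_zero_of_notMem_tsupport hx, mul_zero]
    rw [h1]
    refine ap_sum _ (fun i k => (P.ψ_sm i k).mul (c1 k)) fun i _ =>
      H i _ (tsupport (P.χ i)) (fun k => (P.ψ_sm i k).mul (c1 k)) (P.χ_cpt i) (P.χ_sub i)
        fun x hx => ?_
    rw [image_eq_zero_of_notMem_tsupport fun h' => hx (tsupport_psi P i h'), zero_mul]
  · have h1 : ∀ x, ‖PP K g t χ x - (g x, t x, 0)‖ ≤
        (Cᶜ.indicator (fun x => ‖g x‖ + ‖t x‖) + fun x => (δ : ℝ) * ‖g x‖) x := by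
      intro x
      refine (norm_PQ _ _ _ _).trans (add_le_add ?_ ?_)
      · by_cases hx : x ∈ C
        · rw [c3 x hx, indicator_of_notMem (notMem_compl_iff.2 hx)]
          simp
        · rw [indicator_of_mem (show x ∈ Cᶜ from hx)]
          refine mul_le_of_le_one_left (by positivity) (abs_le.2 ⟨?_, ?_⟩)
          · linarith [(c4 x).1]
          · linarith [(c4 x).2]
      · have h2 := norm_bb K (θ := χ) (x := x) (ε := (δ : ℝ) / 2) (by positivity)
          (c5 _ x (ix_mem x))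
        exact mul_le_mul_of_nonneg_right (by linarith) (norm_nonneg _)
    refine (eLpNorm_mono_real (f := fun x => PP K g t χ x - (g x, t x, 0)) h1).trans ((eLpNorm_add_le (hf.1.indicator hC.measurableSet.compl)
      (hg.1.norm.const_mul _) (by norm_num)).trans ?_)
    have h3 : eLpNorm (fun x => (δ : ℝ) * ‖g x‖) 2 (vm vol) ≤ ε / 2 := by
      refine le_trans ?_ hδ2.le
      refine (eLpNorm_le_nnreal_smul_eLpNorm_of_ae_le_mul (c := δ) (g := g)
        (Eventually.of_forall fun x => ?_) 2).trans (le_of_eq rfl)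
      rw [← NNReal.coe_le_coe]
      simp
    calc _ ≤ ε / 2 + ε / 2 := add_le_add hC2 h3
      _ = ε := ENNReal.add_halves ε

end

end Crest.Agent.T223.Hm
end

-- ▼ part T223/Hm6_77
section

/-!
# Row 223, module HOER (helper77), part 6: tools for the chart piece of the density statement
-/

set_option autoImplicit false
set_option linter.unusedSectionVars false

open Set Filter Topology Complex Matrix MeasureTheory
open scoped ContDiff Matrix ComplexConjugate ComplexOrder ENNReal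

namespace Crest.Agent.T223.Hm

open Crest.Agent.R275 Crest.Agent.R275.Geo Crest.Agent.R275.Core144
open Crest.Agent.R275.OmT75 (dl)
open Crest.Agent.R273.Defs_333 Crest.Agent.R273.Kah_333 Crest.Agent.R273.Vm_333

noncomputable section

/-! ### quadratic bounds on compact sets -/

section quad

variable {X Y : Type*} [TopologicalSpace X] [NormedAddCommGroup Y] [NormedSpace ℝ Y]
  [ProperSpace Y] {C : Set X} {Q : X → Y → ℝ}

theorem quad_unit (hh : ∀ z y (r : ℝ), Q z (r • y) = r ^ 2 * Q z y) (z : X) {y : Y} (hy : y ≠ 0) :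
    Q z y = ‖y‖ ^ 2 * Q z (‖y‖⁻¹ • y) ∧ ‖y‖⁻¹ • y ∈ Metric.sphere (0 : Y) 1 := by
  have h0 : ‖y‖ ≠ 0 := norm_ne_zero_iff.2 hy
  refine ⟨by rw [hh]; field_simp, ?_⟩
  rw [mem_sphere_zero_iff_norm, norm_smul, norm_inv, norm_norm, inv_mul_cancel₀ h0]

theorem quad_ub (hC : IsCompact C) (hQ : ContinuousOn (fun p : X × Y => Q p.1 p.2) (C ×ˢ univ))
    (hh : ∀ z y (r : ℝ), Q z (r • y) = r ^ 2 * Q z y) :
    ∃ c : ℝ, 0 ≤ c ∧ ∀ z ∈ C, ∀ y, Q z y ≤ c ^ 2 * ‖y‖ ^ 2 := by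
  obtain ⟨B, hB⟩ := ((hC.prod (isCompact_sphere (0 : Y) 1)).image_of_continuousOn
    (hQ.mono (prod_mono subset_rfl (subset_univ _)))).bddAbove
  refine ⟨|B| + 1, by positivity, fun z hz y => ?_⟩
  by_cases hy : y = 0
  · have := hh z y 0
    rw [zero_smul, ← hy] at this
    rw [this, hy]
    simp
  · obtain ⟨h1, h2⟩ := quad_unit hh z hy
    have h3 : Q z (‖y‖⁻¹ • y) ≤ B := hB ⟨(z, _), ⟨hz, h2⟩, rfl⟩
    have h4 : B ≤ (|B| + 1) ^ 2 := by nlinarith [le_abs_self B, abs_nonneg B]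
    rw [h1, mul_comm]
    gcongr
    exact h3.trans h4

theorem quad_lb (hC : IsCompact C) (hQ : ContinuousOn (fun p : X × Y => Q p.1 p.2) (C ×ˢ univ))
    (hh : ∀ z y (r : ℝ), Q z (r • y) = r ^ 2 * Q z y) (hp : ∀ z ∈ C, ∀ y ≠ 0, 0 < Q z y) :
    ∃ c : ℝ, 0 ≤ c ∧ ∀ z ∈ C, ∀ y, ‖y‖ ^ 2 ≤ c ^ 2 * Q z y := by
  have hne : ∀ p ∈ C ×ˢ Metric.sphere (0 : Y) 1, 0 < Q p.1 p.2 := fun p hp' =>
    hp _ hp'.1 _ fun h0 => by simpa [h0] using hp'.2
  obtain ⟨B, hB⟩ := ((hC.prod (isCompact_sphere (0 : Y) 1)).image_of_continuousOn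
    ((hQ.mono (prod_mono subset_rfl (subset_univ _))).inv₀ fun p hp' => (hne p hp').ne')).bddAbove
  refine ⟨|B| + 1, by positivity, fun z hz y => ?_⟩
  by_cases hy : y = 0
  · have := hh z y 0
    rw [zero_smul, ← hy] at this
    rw [this, hy]
    simp
  · obtain ⟨h1, h2⟩ := quad_unit hh z hy
    have h3 : (Q z (‖y‖⁻¹ • y))⁻¹ ≤ B := hB ⟨(z, _), ⟨hz, h2⟩, rfl⟩
    have h4 : B ≤ (|B| + 1) ^ 2 := by nlinarith [le_abs_self B, abs_nonneg B]
    have h5 := hne (z, _) ⟨hz, h2⟩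
    have h6 : 1 ≤ (|B| + 1) ^ 2 * Q z (‖y‖⁻¹ • y) := by
      calc (1 : ℝ) = (Q z (‖y‖⁻¹ • y))⁻¹ * Q z (‖y‖⁻¹ • y) := (inv_mul_cancel₀ h5.ne').symm
        _ ≤ _ := mul_le_mul_of_nonneg_right (h3.trans h4) h5.le
    rw [h1, mul_left_comm]
    exact le_mul_of_one_le_right (by positivity) h6

end quad

/-! ### square integrable functions with compact support -/

section L2C

variable {X : Type*} [TopologicalSpace X] [T2Space X] [MeasurableSpace X] [BorelSpace X]
  {μ : Measure X} {C : Set X}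

/-- square integrable, zero off `C` -/
def L2C (μ : Measure X) (C : Set X) (f : X → ℂ) : Prop := MemLp f 2 μ ∧ ∀ z ∉ C, f z = 0

theorem L2C.add {f g : X → ℂ} (hf : L2C μ C f) (hg : L2C μ C g) : L2C μ C fun z => f z + g z :=
  ⟨hf.1.add hg.1, fun z hz => by simp only [hf.2 z hz, hg.2 z hz, add_zero]⟩

theorem L2C.sub {f g : X → ℂ} (hf : L2C μ C f) (hg : L2C μ C g) : L2C μ C fun z => f z - g z :=
  ⟨hf.1.sub hg.1, fun z hz => by simp only [hf.2 z hz, hg.2 z hz, sub_zero]⟩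

theorem L2C.sum {ι : Type*} [Fintype ι] {f : ι → X → ℂ} (hf : ∀ a, L2C μ C (f a)) :
    L2C μ C fun z => ∑ a, f a z :=
  ⟨memLp_finsetSum _ fun a _ => (hf a).1, fun z hz => Finset.sum_eq_zero fun a _ => (hf a).2 z hz⟩

theorem L2C.mul {f c : X → ℂ} (hf : L2C μ C f) (hC : IsCompact C) (hc : ContinuousOn c C) :
    L2C μ C fun z => c z * f z := by
  refine ⟨?_, fun z hz => by simp only [hf.2 z hz, mul_zero]⟩
  obtain ⟨B, hB⟩ := hC.exists_bound_of_continuousOn hc
  have h1 : (fun z => c z * f z) = fun z => C.indicator c z * f z := by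
    funext z
    by_cases hz : z ∈ C
    · rw [indicator_of_mem hz]
    · rw [hf.2 z hz, mul_zero, mul_zero]
  refine hf.1.of_le_mul (c := B) ?_ (Eventually.of_forall fun z => ?_)
  · rw [h1]
    exact ((aestronglyMeasurable_indicator_iff hC.measurableSet).2
      (hc.aestronglyMeasurable hC.measurableSet)).mul hf.1.1
  · by_cases hz : z ∈ C
    · rw [norm_mul]
      gcongr
      exact hB z hz
    · simp [hf.2 z hz]

theorem L2C.integrable [IsFiniteMeasureOnCompacts μ] {f : X → ℂ} (hf : L2C μ C f)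
    (hC : IsCompact C) : Integrable f μ :=
  memLp_one_iff_integrable.1
    (hf.1.mono_exponent_of_measure_support_ne_top hf.2 hC.measure_lt_top.ne (by norm_num))

end L2C

variable {n : ℕ} {M : Type} [TopologicalSpace M] {A : Atl n M} {N L : LB A} {i : A.ι}

/-! ### flat calculus -/

theorem Tst.contDiff {Φ : (Fin n → ℂ) → ℂ} (h : Tst A i Φ) : ContDiff ℝ ∞ Φ := by
  obtain ⟨C, h1, h2, h3⟩ := h.cs
  refine contDiff_iff_contDiffAt.2 fun z => ?_
  by_cases hz : z ∈ C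
  · exact h.sm.contDiffAt ((isOpen_Tz i).mem_nhds (h2 hz))
  · refine (contDiffAt_const (c := (0 : ℂ))).congr_of_eventuallyEq ?_
    filter_upwards [h1.isClosed.isOpen_compl.mem_nhds hz] with w hw using h3 w hw

theorem wF_off {s : ℂ} {a : Fin n} {Φ : (Fin n → ℂ) → ℂ} {C : Set (Fin n → ℂ)} (hC : IsCompact C)
    (h0 : ∀ z ∉ C, Φ z = 0) {z : Fin n → ℂ} (hz : z ∉ C) : wF s a Φ z = 0 := by
  rw [wF_congr (Ψ := fun _ => 0)]
  · simp [wF]
  · filter_upwards [hC.isClosed.isOpen_compl.mem_nhds hz] with w hw using h0 w hw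

theorem Tst.wF {Φ : (Fin n → ℂ) → ℂ} (h : Tst A i Φ) (s : ℂ) (a : Fin n) : Tst A i (wF s a Φ) := by
  obtain ⟨C, h1, h2, h3⟩ := h.cs
  exact ⟨(contDiff_wF h.contDiff).contDiffOn, C, h1, h2, fun z hz => wF_off h1 h3 hz⟩

theorem Tst.sub {Φ Ψ : (Fin n → ℂ) → ℂ} (h : Tst A i Φ) (h' : Tst A i Ψ) :
    Tst A i fun z => Φ z - Ψ z := by
  obtain ⟨C, h1, h2, h3⟩ := h.cs
  obtain ⟨C', h1', h2', h3'⟩ := h'.cs
  exact ⟨h.sm.sub h'.sm, C ∪ C', h1.union h1', union_subset h2 h2', fun z hz => by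
    rw [h3 z fun h => hz (Or.inl h), h3' z fun h => hz (Or.inr h), sub_zero]⟩

theorem wF_lin {s : ℂ} {a : Fin n} {Φ Ψ : (Fin n → ℂ) → ℂ} {z : Fin n → ℂ} (c d : ℂ)
    (h1 : DifferentiableAt ℝ Φ z) (h2 : DifferentiableAt ℝ Ψ z) :
    wF s a (fun w => c * Φ w - d * Ψ w) z = c * wF s a Φ z - d * wF s a Ψ z := by
  have h := ((h1.hasFDerivAt.const_mul c).sub (h2.hasFDerivAt.const_mul d)).fderiv
  have h' : fderiv ℝ (fun w => c * Φ w - d * Ψ w) z = c • fderiv ℝ Φ z - d • fderiv ℝ Ψ z := h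
  simp only [wF, wL_apply, h', _root_.sub_apply, _root_.smul_apply, smul_eq_mul]
  ring

theorem dd_flat (s : ℂ) (a : Fin n) (f : M → ℂ) (x : M) :
    dd A s i a f x = wF s a (fun w => f (sz A i w)) (cz A i x) := by
  rw [wF, wL_apply, fderiv_sz, fderiv_sz]
  rfl

theorem extS_supp {Φ : (Fin n → ℂ) → ℂ} (h : Tst A i Φ) :
    ∃ C, IsCompact C ∧ C ⊆ (A.e i).source ∧ ∀ j, ∀ x ∉ C, extS N i Φ j x = 0 := by
  obtain ⟨C, h1, h2, h3⟩ := h.cs
  refine ⟨_, isCompact_sz h1 h2, ?_, fun j x hx => ?_⟩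
  · rintro _ ⟨z, hz, rfl⟩
    exact sz_mem (h2 hz)
  by_cases hi : x ∈ (A.e i).source
  · rw [extS, if_pos hi, h3 _ (cz_notMem hi hx), mul_zero]
  · exact extS_off hi j

theorem extF_supp {Φ : (Fin n → ℂ) → Fin n → ℂ} (h : ∀ a, Tst A i fun z => Φ z a) :
    ∃ C, IsCompact C ∧ C ⊆ (A.e i).source ∧ ∀ j, ∀ x ∉ C, extF N i Φ j x = 0 := by
  choose C h1 h2 h3 using fun a => (h a).cs
  refine ⟨_, isCompact_sz (isCompact_iUnion h1) (iUnion_subset h2), ?_, fun j x hx => ?_⟩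
  · rintro _ ⟨z, hz, rfl⟩
    exact sz_mem (iUnion_subset h2 hz)
  by_cases hi : x ∈ (A.e i).source
  · have h4 : Φ (cz A i x) = 0 := funext fun a =>
      h3 a _ fun h' => cz_notMem hi hx (mem_iUnion.2 ⟨a, h'⟩)
    rw [extF, if_pos hi, h4, Matrix.mulVec_zero, smul_zero]
  · exact extF_off hi j

/-- the weight in flat coordinates -/
def wz (h : HM L) (i : A.ι) (z : Fin n → ℂ) : ℂ := h.w i (sz A i z)

/-- the transposed metric in flat coordinates -/
def Gz (K : Kah A) (i : A.ι) (z : Fin n → ℂ) : Mx n := (K.g i (sz A i z))ᵀ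

theorem sm_wz (h : HM L) (i : A.ι) : ContDiffOn ℝ ∞ (wz h i) (Tz A i) :=
  smAt_flat (C1d194.smAt_ofReal (h.sm i))

theorem sm_Gz (K : Kah A) (i : A.ι) (a b : Fin n) :
    ContDiffOn ℝ ∞ (fun z => Gz K i z a b) (Tz A i) := smAt_flat (K.sm i b a)

theorem wz_ne (h : HM L) {z : Fin n → ℂ} (hz : z ∈ Tz A i) : wz h i z ≠ 0 := w_ne h (sz_mem hz)

theorem extF_sz {Φ : (Fin n → ℂ) → Fin n → ℂ} {z : Fin n → ℂ} (hz : z ∈ Tz A i) :
    extF N i Φ i (sz A i z) = Φ z := by rw [extF_self (sz_mem hz), cz_sz hz]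

theorem extS_sz {Φ : (Fin n → ℂ) → ℂ} {z : Fin n → ℂ} (hz : z ∈ Tz A i) :
    extS N i Φ i (sz A i z) = Φ z := by rw [extS_self (sz_mem hz), cz_sz hz]

theorem dv_extF (h : HM L) {Φ : (Fin n → ℂ) → Fin n → ℂ} {z : Fin n → ℂ} (hz : z ∈ Tz A i) :
    dv h (extF N i Φ) i (sz A i z) =
      (wz h i z)⁻¹ * ∑ a, wF (-I) a (fun y => wz h i y * Φ y a) z := by
  rw [dv_def]
  congr 1
  refine Finset.sum_congr rfl fun a _ => ?_
  rw [dd_flat, cz_sz hz]
  exact wF_congrOn hz fun y hy => by rw [extF_sz hy]; rfl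

theorem al_extF (K : Kah A) {Φ : (Fin n → ℂ) → Fin n → ℂ} {z : Fin n → ℂ} (hz : z ∈ Tz A i)
    (k l : Fin n) : al K (extF N i Φ) i (sz A i z) k l =
      wF I k (fun y => (Gz K i y *ᵥ Φ y) l) z - wF I l (fun y => (Gz K i y *ᵥ Φ y) k) z := by
  rw [al, Matrix.of_apply, db_flat, db_flat, cz_sz hz]
  congr 1 <;> exact wF_congrOn hz fun y hy => by rw [lw, extF_sz hy]; rfl

theorem dbs_extS {Φ : (Fin n → ℂ) → ℂ} {z : Fin n → ℂ} (hz : z ∈ Tz A i) (a : Fin n) :
    dbs (extS N i Φ) i (sz A i z) a = wF I a Φ z := by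
  rw [dbs, db_flat, cz_sz hz]
  exact wF_congrOn hz fun y hy => extS_sz hy

/-! ### the flat operator -/

/-- first component -/
def pr1 (a : Fin n) : ((Fin n → ℂ) × (Fin n → ℂ)) →L[ℝ] ℂ :=
  (ContinuousLinearMap.proj a).comp (ContinuousLinearMap.fst ℝ _ _)

/-- second component -/
def pr2 (a : Fin n) : ((Fin n → ℂ) × (Fin n → ℂ)) →L[ℝ] ℂ :=
  (ContinuousLinearMap.proj a).comp (ContinuousLinearMap.snd ℝ _ _)

/-- Wirtinger derivative of a component -/
def wP (s : ℂ) (a : Fin n) (π : ((Fin n → ℂ) × (Fin n → ℂ)) →L[ℝ] ℂ) :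
    ((Fin n → ℂ) →L[ℝ] ((Fin n → ℂ) × (Fin n → ℂ))) →L[ℝ] ℂ :=
  (wL s a).comp (ContinuousLinearMap.compL ℝ _ _ _ π)

/-- divergence of the first component, `∂̄` of the second -/
def Lo (n : ℕ) : ((Fin n → ℂ) →L[ℝ] ((Fin n → ℂ) × (Fin n → ℂ))) →L[ℝ] (ℂ × (Fin n → Fin n → ℂ)) :=
  (∑ a, wP (-I) a (pr1 a)).prod (ContinuousLinearMap.pi fun k => ContinuousLinearMap.pi fun l =>
    wP I k (pr2 l) - wP I l (pr2 k))

theorem Lo_apply (D : (Fin n → ℂ) →L[ℝ] ((Fin n → ℂ) × (Fin n → ℂ))) :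
    Lo n D = (∑ a, wP (-I) a (pr1 a) D, fun k l => wP I k (pr2 l) D - wP I l (pr2 k) D) := by
  refine Prod.ext ?_ rfl
  exact _root_.sum_apply Finset.univ (fun a => wP (-I) a (pr1 a)) D

theorem wP_fderiv {s : ℂ} {a : Fin n} {π : ((Fin n → ℂ) × (Fin n → ℂ)) →L[ℝ] ℂ}
    {F : (Fin n → ℂ) → (Fin n → ℂ) × (Fin n → ℂ)} {z : Fin n → ℂ} (hF : DifferentiableAt ℝ F z) :
    wP s a π (fderiv ℝ F z) = wF s a (fun y => π (F y)) z := by
  have h := (π.hasFDerivAt.comp z hF.hasFDerivAt).fderiv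
  rw [wF, show (fun y => π (F y)) = π ∘ F from rfl, h]
  rfl

theorem wP_smulRight {s : ℂ} {a : Fin n} {π : ((Fin n → ℂ) × (Fin n → ℂ)) →L[ℝ] ℂ}
    {η : (Fin n → ℂ) → ℝ} {z : Fin n → ℂ} (hη : DifferentiableAt ℝ η z) (y : (Fin n → ℂ) × (Fin n → ℂ)) :
    wP s a π ((fderiv ℝ η z).smulRight y) = wF s a (fun w => (η w : ℂ)) z * π y := by
  have h : fderiv ℝ (fun w => (η w : ℂ)) z = Complex.ofRealCLM.comp (fderiv ℝ η z) :=
    (Complex.ofRealCLM.hasFDerivAt.comp z hη.hasFDerivAt).fderiv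
  rw [wF, h, wL_apply]
  change (1 / 2 : ℂ) * (π (fderiv ℝ η z (Pi.single a 1) • y) +
    s * π (fderiv ℝ η z (Pi.single a I) • y)) = _
  simp only [map_smul, Complex.real_smul, ContinuousLinearMap.comp_apply, Complex.ofRealCLM_apply]
  ring

/-- the coefficient of the flat operator -/
def az (h : HM L) (K : Kah A) (i : A.ι) (z : Fin n → ℂ) :
    (Fin n → ℂ) →L[ℝ] ((Fin n → ℂ) × (Fin n → ℂ)) :=
  LinearMap.toContinuousLinearMap
    { toFun := fun y => (wz h i z • y, Gz K i z *ᵥ y)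
      map_add' := fun y y' => by rw [smul_add, Matrix.mulVec_add]; rfl
      map_smul' := fun c y => by
        rw [smul_comm, Matrix.mulVec_smul]; rfl }

theorem az_apply (h : HM L) (K : Kah A) (z y : Fin n → ℂ) :
    az h K i z y = (wz h i z • y, Gz K i z *ᵥ y) := rfl

theorem sm_az (h : HM L) (K : Kah A) (i : A.ι) : ContDiffOn ℝ ∞ (az h K i) (Tz A i) := by
  refine contDiffOn_clm_apply.2 fun y => ?_
  simp only [az_apply]
  refine ((sm_wz h i).smul contDiffOn_const).prodMk (contDiffOn_pi.2 fun a => ?_)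
  simp only [Matrix.mulVec, dotProduct]
  exact ContDiffOn.sum fun b _ => (sm_Gz K i a b).mul contDiffOn_const

end

end Crest.Agent.T223.Hm
end

-- ▼ part T223/Hm7_77

/-!
# Row 223, module HOER (helper77), part 7: the weak equations in a chart
-/

set_option autoImplicit false
set_option linter.unusedSectionVars false

open Set Filter Topology Complex Matrix MeasureTheory
open scoped ContDiff Matrix ComplexConjugate ComplexOrder ENNReal

namespace Crest.Agent.T223.Hm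

open Crest.Agent.R275 Crest.Agent.R275.Geo Crest.Agent.R275.Core144
open Crest.Agent.R275.OmT75 (dl)
open Crest.Agent.R273.Defs_333 Crest.Agent.R273.Kah_333 Crest.Agent.R273.Vm_333

noncomputable section

variable {n : ℕ} {M : Type} [TopologicalSpace M] {A : Atl n M} {N L : LB A} [Countable A.ι]
  (h : HM ((KB A)⁻¹ * N)) (vol : HM (KB A)⁻¹) (K : Kah A)

/-- chart components of a vector given in the unitary frame -/
def un (i : A.ι) (x : M) (u : E2 n) : Fin n → ℂ :=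
  (o1 h vol i x)⁻¹ • ((S2 K i x)ᴴ *ᵥ WithLp.ofLp u)

/-- flat components of an `L²` field -/
def gz (g : M → E2 n) (i : A.ι) (z : Fin n → ℂ) : Fin n → ℂ :=
  un h vol K i (sz A i z) (g (sz A i z))

/-- flat component of an `L²` section -/
def tz (t : M → ℂ) (i : A.ι) (z : Fin n → ℂ) : ℂ := (o1 h vol i (sz A i z))⁻¹ * t (sz A i z)

variable {i : A.ι} {x : M} {g : M → E2 n} {t : M → ℂ}

theorem t2_un (hx : x ∈ (A.e i).source) (u : E2 n) : t2 h vol K i x (un h vol K i x u) = u := by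
  rw [t2, un, Matrix.mulVec_smul, smul_smul, mul_inv_cancel₀ (o1_ne h vol i x), one_smul,
    Matrix.mulVec_mulVec, O2_S2H K hx, Matrix.one_mulVec]

theorem t2_gz {z : Fin n → ℂ} (hz : z ∈ Tz A i) :
    t2 h vol K i (sz A i z) (gz h vol K g i z) = g (sz A i z) := t2_un h vol K (sz_mem hz) _

theorem o1_tz (z : Fin n → ℂ) : o1 h vol i (sz A i z) * tz h vol t i z = t (sz A i z) :=
  mul_inv_cancel_left₀ (o1_ne h vol i _) _

theorem hq_smul (P : Mx n) (y : Fin n → ℂ) (r : ℝ) : hq P (r • y) = r ^ 2 * hq P y := by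
  rw [hq, hq, star_smul, Matrix.mulVec_smul, smul_dotProduct, dotProduct_smul, smul_smul,
    Complex.smul_re, star_trivial, smul_eq_mul, sq]

theorem hU_smul (P U : Mx n) (r : ℝ) : hU P (r • U) = r ^ 2 * hU P U := by
  rw [hU, hU, Matrix.conjTranspose_smul, Matrix.smul_mul, Matrix.smul_mul, Matrix.mul_smul,
    Matrix.smul_mul, Matrix.smul_mul, smul_smul, Matrix.trace_smul, Complex.smul_re, star_trivial,
    smul_eq_mul, sq]

theorem hq_pos {P : Mx n} (hP : (Pᵀ).PosDef) {y : Fin n → ℂ} (hy : y ≠ 0) : 0 < hq P y :=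
  (Complex.pos_iff.1 (hP.dotProduct_mulVec_pos hy)).1

theorem contOn_wr (i : A.ι) : ContinuousOn (fun z => h.w i (sz A i z)) (Tz A i) :=
  (smAt_flat (h.sm i)).continuousOn

theorem contOn_hq (i : A.ι) : ContinuousOn
    (fun p : (Fin n → ℂ) × (Fin n → ℂ) => h.w i (sz A i p.1) * hq (K.g i (sz A i p.1)) p.2)
    (Tz A i ×ˢ univ) := by
  refine ((contOn_wr h i).comp continuousOn_fst fun p hp => hp.1).mul ?_
  have h1 : Continuous fun p : Mx n × (Fin n → ℂ) => hq p.1 p.2 := by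
    unfold hq
    exact Complex.continuous_re.comp (continuous_snd.star.dotProduct
      (continuous_fst.matrix_transpose.matrix_mulVec continuous_snd))
  exact h1.comp_continuousOn (s := Tz A i ×ˢ univ)
    (f := fun p : (Fin n → ℂ) × (Fin n → ℂ) => (K.g i (sz A i p.1), p.2))
    ((((contOn_g K i).comp (contOn_sz i) fun _ hz => sz_mem hz).comp
      continuousOn_fst fun p hp => hp.1).prodMk continuousOn_snd)

theorem contOn_hU (i : A.ι) : ContinuousOn
    (fun p : (Fin n → ℂ) × (Fin n → Fin n → ℂ) =>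
      h.w i (sz A i p.1) * hU (K.g i (sz A i p.1)) (Matrix.of p.2)) (Tz A i ×ˢ univ) := by
  refine ((contOn_wr h i).comp continuousOn_fst fun p hp => hp.1).mul ?_
  have h1 : Continuous fun p : Mx n × Mx n => (Matrix.trace (p.2ᴴ * p.1 * p.2 * p.1ᵀ)).re :=
    Complex.continuous_re.comp (((continuous_snd.matrix_conjTranspose.mul continuous_fst).mul
      continuous_snd).mul continuous_fst.matrix_transpose).matrix_trace
  have h2 := h1.comp_continuousOn (s := Tz A i ×ˢ univ)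
    (f := fun p : (Fin n → ℂ) × (Fin n → Fin n → ℂ) =>
      (((K.g i (sz A i p.1))ᵀ)⁻¹, Matrix.of p.2))
    ((((contOn_gTi K i).comp (contOn_sz i) fun _ hz => sz_mem hz).comp
      continuousOn_fst fun p hp => hp.1).prodMk continuousOn_snd)
  refine h2.congr fun p _ => ?_
  simp only [hU, Function.comp, ← Matrix.transpose_nonsing_inv, Matrix.transpose_transpose]

variable [T2Space M] [MeasurableSpace M] [BorelSpace M]

theorem int_r2 {v : A.ι → M → Fin n → ℂ} (hv : IsF N v)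
    (h0 : ∀ x ∉ (A.e i).source, v (ix A x) x = 0) (hg : AEStronglyMeasurable g (vm vol)) :
    ∫ x, inner ℂ (r2 h vol K v x) (g x) ∂(vm vol) =
      ∫ z in Tz A i, wz h i z * (star (v i (sz A i z)) ⬝ᵥ (Gz K i z *ᵥ gz h vol K g i z)) := by
  rw [← setIntegral_eq_integral_of_forall_compl_eq_zero (s := (A.e i).source)
    fun x hx => by rw [r2, h0 x hx, t2_zero, inner_zero_left],
    integral_chart vol ((aesm_r2 h vol K hv.sm _).inner hg).restrict]
  refine setIntegral_congr_fun (isOpen_Tz i).measurableSet fun z hz => ?_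
  rw [r2_eq h vol K hv (sz_mem hz), ← t2_gz h vol K (g := g) hz, inner_t2 h vol K (sz_mem hz),
    Complex.real_smul, mul_inv_cancel_left₀ (w_ne vol (sz_mem hz))]
  rfl

theorem int_r1 {s : A.ι → M → ℂ} (hs : IsS N s)
    (h0 : ∀ x ∉ (A.e i).source, s (ix A x) x = 0) (ht : AEStronglyMeasurable t (vm vol)) :
    ∫ x, conj (r1 h vol s x) * t x ∂(vm vol) =
      ∫ z in Tz A i, wz h i z * (conj (s i (sz A i z)) * tz h vol t i z) := by
  rw [← setIntegral_eq_integral_of_forall_compl_eq_zero (s := (A.e i).source)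
    fun x hx => by rw [r1, h0 x hx, mul_zero, map_zero, zero_mul],
    integral_chart vol (f := fun x => conj (r1 h vol s x) * t x)
      ((Complex.continuous_conj.comp_aestronglyMeasurable (aesm_r1 h vol hs.sm _)).mul ht).restrict]
  refine setIntegral_congr_fun (isOpen_Tz i).measurableSet fun z hz => ?_
  have h1 := w_ne vol (sz_mem hz)
  rw [r1_eq h vol hs.tr (sz_mem hz), ← o1_tz h vol (t := t) (i := i) z, map_mul, mul_mul_mul_comm,
    o1_conj h vol (sz_mem hz), Complex.real_smul, wz]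
  push_cast
  field_simp

/-- the weak divergence equation in a chart -/
theorem weak1 (hg : AEStronglyMeasurable g (vm vol)) (ht : AEStronglyMeasurable t (vm vol))
    (hW : ∀ s, IsS N s → Cs s → ∫ x, inner ℂ (r2 h vol K (sh K s) x) (g x) ∂(vm vol) =
      ∫ x, conj (r1 h vol s x) * t x ∂(vm vol)) {Φ : (Fin n → ℂ) → ℂ} (hΦ : Tst A i Φ) :
    ∫ z in Tz A i, wz h i z * ∑ a, conj (wF I a Φ z) * gz h vol K g i z a =
      ∫ z in Tz A i, wz h i z * (conj (Φ z) * tz h vol t i z) := by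
  obtain ⟨C, hC, hs, h0⟩ := extS_supp (N := N) hΦ
  have h1 := hW _ (extS_isS hΦ) (extS_cs hΦ)
  rw [int_r2 h vol K (i := i) (sh_isF K (extS_isS hΦ)) (fun x hx => by
      have h1 : dbs (extS N i Φ) (ix A x) x = 0 := funext fun a =>
        dd_zero_off hC (h0 _) (ix_mem x) fun h' => hx (hs h')
      rw [sh, h1, Matrix.mulVec_zero]) hg,
    int_r1 h vol (i := i) (extS_isS hΦ) (fun x hx => extS_off hx _) ht] at h1
  refine Eq.trans ?_ (h1.trans ?_)
  · refine setIntegral_congr_fun (isOpen_Tz i).measurableSet fun z hz => ?_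
    congr 1
    have h2 : (Gz K i z)ᴴ = Gz K i z := (posDef_gT K (sz_mem hz)).isHermitian.eq
    rw [Matrix.dotProduct_mulVec, ← h2, ← Matrix.star_mulVec]
    have h3 : Gz K i z *ᵥ sh K (extS N i Φ) i (sz A i z) = fun a => wF I a Φ z :=
      (lw_sh K _ (sz_mem hz)).trans (funext fun a => dbs_extS hz a)
    rw [h3]
    rfl
  · refine setIntegral_congr_fun (isOpen_Tz i).measurableSet fun z hz => ?_
    rw [extS_sz hz]

/-- weak `∂̄`-closedness in a chart -/
theorem weak2 (hg : AEStronglyMeasurable g (vm vol))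
    (hN : ∀ v, IsF N v → Cs v → (∀ i, ∀ x ∈ (A.e i).source, dv h v i x = 0) →
      ∫ x, inner ℂ (r2 h vol K v x) (g x) ∂(vm vol) = 0) {Φ : (Fin n → ℂ) → ℂ} (hΦ : Tst A i Φ)
    (k l : Fin n) :
    ∫ z in Tz A i, (conj (wF (-I) k Φ z) * (Gz K i z *ᵥ gz h vol K g i z) l -
      conj (wF (-I) l Φ z) * (Gz K i z *ᵥ gz h vol K g i z) k) = 0 := by
  obtain ⟨δ, hδ⟩ : ∃ δ : Fin n → Fin n → ℂ, ∀ a b, δ a b = if a = b then 1 else 0 :=
    ⟨_, fun _ _ => rfl⟩
  obtain ⟨e, he⟩ : ∃ e : (Fin n → ℂ) → Fin n → ℂ, ∀ z a, e z a =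
    (wz h i z)⁻¹ * (δ a l * wF (-I) k Φ z - δ a k * wF (-I) l Φ z) := ⟨_, fun _ _ => rfl⟩
  have hT : ∀ a, Tst A i fun z => e z a := fun a => by
    simp only [he]
    exact (((hΦ.wF _ k).mul contDiffOn_const).sub ((hΦ.wF _ l).mul contDiffOn_const)).mul
      ((sm_wz h i).inv fun z hz => wz_ne h hz)
  obtain ⟨C, hC, hs, h0⟩ := extF_supp (N := N) hT
  have hd : ∀ a z, DifferentiableAt ℝ (wF (-I) a Φ) z := fun a z =>
    ((contDiff_wF hΦ.contDiff).differentiable (by simp)) z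
  have h1 : ∀ x ∈ (A.e i).source, dv h (extF N i e) i x = 0 := by
    intro x hx
    have hz := cz_mem hx
    rw [← sz_cz hx, dv_extF h hz]
    have h2 : ∀ a, wF (-I) a (fun y => wz h i y * e y a) (cz A i x) =
        δ a l * wF (-I) a (wF (-I) k Φ) (cz A i x) - δ a k * wF (-I) a (wF (-I) l Φ) (cz A i x) := by
      intro a
      rw [← wF_lin _ _ (hd k _) (hd l _)]
      exact wF_congrOn hz fun y hy => by rw [he, mul_inv_cancel_left₀ (wz_ne h hy)]
    simp only [h2, hδ, Finset.sum_sub_distrib, ite_mul, one_mul, zero_mul, Finset.sum_ite_eq',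
      Finset.mem_univ, if_true]
    rw [wF_comm hΦ.contDiff, sub_self, mul_zero]
  have h2 := hN _ (extF_isF hT) (extF_cs hT) fun j x hx => by
    by_cases hi : x ∈ (A.e i).source
    · rw [(dv_isS h (extF_isF hT)).tr j i x ⟨hx, hi⟩, h1 x hi, mul_zero]
    · exact dv_off h hC h0 hx fun h' => hi (hs h')
  rw [int_r2 h vol K (i := i) (extF_isF hT) (fun x hx => extF_off hx _) hg] at h2
  refine Eq.trans ?_ h2
  refine setIntegral_congr_fun (isOpen_Tz i).measurableSet fun z hz => ?_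
  have h3 : conj (wz h i z) = wz h i z := Complex.conj_ofReal _
  rw [extF_sz hz, dotProduct]
  simp only [Pi.star_apply, he, star_def, map_mul, map_sub, map_inv₀, h3, mul_assoc,
    ← Finset.mul_sum, mul_inv_cancel_left₀ (wz_ne h hz), hδ, sub_mul, Finset.sum_sub_distrib,
    apply_ite conj, map_zero, ite_mul, one_mul, zero_mul, Finset.sum_ite_eq',
    Finset.mem_univ, if_true]

theorem aesm_ind {W : Type*} [TopologicalSpace W] [Zero W] {C : Set (Fin n → ℂ)} (hC : IsCompact C)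
    (hs : C ⊆ Tz A i) {f : M → W}
    (hf : AEStronglyMeasurable f ((vm vol).restrict (A.e i).source)) :
    AEStronglyMeasurable (C.indicator fun z => f (sz A i z)) volume :=
  (aestronglyMeasurable_indicator_iff hC.measurableSet).2
    ((aesm_flat vol hf).mono_measure (Measure.restrict_mono hs le_rfl))

theorem l2c_gz (hg : MemLp g 2 (vm vol)) {C : Set (Fin n → ℂ)} (hC : IsCompact C)
    (hs : C ⊆ Tz A i) (a : Fin n) : L2C volume C fun z => C.indicator (gz h vol K g i) z a := by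
  refine ⟨MemLp.eval ?_ a, fun z hz => by simp only [indicator_of_notMem hz, Pi.zero_apply]⟩
  obtain ⟨c, hc, hb⟩ := quad_lb (Q := fun z y => h.w i (sz A i z) * hq (K.g i (sz A i z)) y) hC
    ((contOn_hq h K i).mono (prod_mono hs subset_rfl)) (fun z y r => by rw [hq_smul]; ring)
    fun z hz y hy => mul_pos (h.pos i _ (sz_mem (hs hz))) (hq_pos (posDef_gT K (sz_mem (hs hz))) hy)
  refine ⟨aesm_ind vol hC hs (f := fun x => un h vol K i x (g x)) (aesm_pi fun b => ?_), ?_⟩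
  · simp only [un, Pi.smul_apply, smul_eq_mul, Matrix.mulVec, dotProduct,
      Matrix.conjTranspose_apply]
    refine (aesm_o1 h vol i _).aemeasurable.inv.aestronglyMeasurable.mul
      (Finset.aestronglyMeasurable_fun_sum _ fun d _ => ?_)
    exact (continuous_star.comp_aestronglyMeasurable (aesm_S2 K i _ d b)).mul
      (hg.eval_piLp d).1.restrict
  · refine (flat_le vol (i := i) hg.1 hc (fun z hz => indicator_of_notMem (fun h' => hz (hs h')) _)
      fun z hz => ?_).trans_lt (ENNReal.mul_lt_top ENNReal.ofReal_lt_top hg.2)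
    have hv := vol.pos i _ (sz_mem hz)
    by_cases hz' : z ∈ C
    · rw [indicator_of_mem hz', ← t2_gz h vol K (g := g) hz, norm_t2 h vol K (sz_mem hz),
        mul_inv_cancel_left₀ hv.ne']
      exact hb z hz' _
    · rw [indicator_of_notMem hz', norm_zero, zero_pow two_ne_zero]
      positivity

theorem l2c_tz (ht : MemLp t 2 (vm vol)) {C : Set (Fin n → ℂ)} (hC : IsCompact C)
    (hs : C ⊆ Tz A i) : L2C volume C (C.indicator (tz h vol t i)) := by
  refine ⟨?_, fun z hz => indicator_of_notMem hz _⟩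
  obtain ⟨c, hc, hb⟩ := quad_lb (Q := fun z (y : ℂ) => h.w i (sz A i z) * ‖y‖ ^ 2) hC
    ((((contOn_wr h i).mono hs).comp continuousOn_fst fun p hp => hp.1).mul
      (continuous_snd.norm.pow 2).continuousOn)
    (fun z y r => by rw [norm_smul, mul_pow, Real.norm_eq_abs, sq_abs]; ring)
    fun z hz y hy => mul_pos (h.pos i _ (sz_mem (hs hz))) (pow_pos (norm_pos_iff.2 hy) 2)
  refine ⟨aesm_ind vol hC hs (f := fun x => (o1 h vol i x)⁻¹ * t x)
    ((aesm_o1 h vol i _).aemeasurable.inv.aestronglyMeasurable.mul ht.1.restrict), ?_⟩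
  refine (flat_le vol (i := i) ht.1 hc (fun z hz => indicator_of_notMem (fun h' => hz (hs h')) _)
    fun z hz => ?_).trans_lt (ENNReal.mul_lt_top ENNReal.ofReal_lt_top ht.2)
  have hv := vol.pos i _ (sz_mem hz)
  by_cases hz' : z ∈ C
  · rw [indicator_of_mem hz', ← o1_tz h vol (t := t) (i := i) z, norm_t1 h vol (sz_mem hz),
      mul_inv_cancel_left₀ hv.ne']
    exact hb z hz' _
  · rw [indicator_of_notMem hz', norm_zero, zero_pow two_ne_zero]
    positivity

end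

end Crest.Agent.T223.Hm
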