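import Crest.Agent.T223.Hm0_77
import Crest.Agent.T223.HmFrA_7
import Crest.Agent.T223.Hm7_77
import Crest.Agent.T223.Hm4_77
import Crest.Agent.R271.Weyl_399
import Crest.Agent.T223.HmH_85

-- ▼ part T223/HmFr_7
section

/-!
# Row 223 (helper7): the leaf `FriedStmt` (Friedrichs' lemma)
-/

set_option autoImplicit false

open Set Filter Topology MeasureTheory Metric
open scoped ContDiff Manifold

namespace Crest.Agent.T223.Hm

/-- leaf FRIED -/
theorem fried : FriedStmt := by
  intro E V V' W _ _ _ _ _ _ _ _ _ _ _ _ _ _ μ _ Lo a C U hC hU hCU ha v w hv hw hvC hwC h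
  obtain ⟨d, hd, hdU⟩ := hC.exists_cthickening_subset_open hU hCU
  have h1 : cthickening (d / 2) C ⊆ interior (cthickening d C) :=
    (cthickening_subset_thickening' hd (by linarith) C).trans
      (interior_maximal (thickening_subset_cthickening d C) isOpen_thickening)
  obtain ⟨χ, hχ1, hχ0, -⟩ := exists_contMDiffMap_one_nhds_of_subset_interior (n := ⊤) 𝓘(ℝ, E)
    isClosed_cthickening h1
  have hχ : ContDiff ℝ ∞ χ := χ.contMDiff.contDiff
  have hχ1' : ∀ x ∈ cthickening (d / 2) C, χ x = 1 := hχ1.self_of_nhdsSet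
  have hts : tsupport (fun x => χ x • a x) ⊆ cthickening d C :=
    closure_minimal (fun x hx => by_contra fun hc => hx (by simp [hχ0 x hc])) isClosed_cthickening
  have hb : ContDiff ℝ ∞ fun x => χ x • a x := by
    refine contDiff_iff_contDiffAt.2 fun x => ?_
    by_cases hx : x ∈ tsupport fun x => χ x • a x
    · exact hχ.contDiffAt.smul (ha.contDiffAt (hU.mem_nhds (hdU (hts hx))))
    · exact contDiffAt_const.congr_of_eventuallyEq (notMem_tsupport_iff_eventuallyEq.1 hx)
  have hbc : HasCompactSupport fun x => χ x • a x :=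
    (hC.cthickening (r := d)).of_isClosed_subset (isClosed_tsupport _) hts
  have hd2 : 2 * (d / 2) = d := by ring
  refine ⟨cthickening (d / 2) C, hC.cthickening, self_subset_cthickening C,
    (cthickening_mono (by linarith) C).trans hdU, fun ε hε => ?_⟩
  obtain ⟨f, hf1, hf2, hf3, hf4⟩ := Fr7.fried_cs μ Lo hb hbc hC (half_pos hd) (hd2.symm ▸ hdU) hv hw
    hvC hwC (fun θ h1 h2 h3 => by
      rw [← h θ h1 h2 h3]
      refine integral_congr_ae (Eventually.of_forall fun x => ?_)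
      by_cases hx : x ∈ C
      · simp only [hχ1' x (self_subset_cthickening C hx), one_smul]
      · simp only [hvC x hx, map_zero]) hε
  refine ⟨f, hf1, hf2, hf3, le_trans (le_of_eq ?_) hf4⟩
  have e : (fun y => a y (f y)) = fun y => (χ y • a y) (f y) := funext fun y => by
    by_cases hy : y ∈ tsupport f
    · rw [hχ1' y (hf2 hy), one_smul]
    · rw [image_eq_zero_of_notMem_tsupport hy, map_zero, map_zero]
  rw [e]

end Crest.Agent.T223.Hm
end

-- ▼ part T223/Hm8_77
section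

/-!
# Row 223, module HOER (helper77), part 8: density of test fields in the graph norm
-/

set_option autoImplicit false
set_option linter.unusedSectionVars false

open Set Filter Topology Complex Matrix MeasureTheory
open scoped ContDiff Matrix ComplexConjugate ComplexOrder ENNReal

namespace Crest.Agent.T223.Hm

open Crest.Agent.R275 Crest.Agent.R275.Geo Crest.Agent.R275.Core144
open Crest.Agent.R275.OmT75 (dl)
open Crest.Agent.R273.Defs_333 Crest.Agent.R273.Kah_333 Crest.Agent.R273.Vm_333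

noncomputable section

variable {n : ℕ} {M : Type} [TopologicalSpace M] {A : Atl n M} {N L : LB A} [Countable A.ι]
  (h : HM ((KB A)⁻¹ * N)) (vol : HM (KB A)⁻¹) (K : Kah A)

/-- from flat data to the graph space -/
def TT (i : A.ι) (z : Fin n → ℂ) (y : Fin n → ℂ) (d : ℂ × (Fin n → Fin n → ℂ)) : EW n :=
  (t2 h vol K i (sz A i z) y, -(o1 h vol i (sz A i z) * ((wz h i z)⁻¹ * d.1)),
    t3 h vol K i (sz A i z) (Matrix.of d.2))

/-- the flat right hand side -/
def WT (i : A.ι) (ϑ : (Fin n → ℂ) → ℂ) (z : Fin n → ℂ) (y : Fin n → ℂ) (τ : ℂ) :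
    ℂ × (Fin n → Fin n → ℂ) :=
  (wz h i z * (∑ a, wF (-I) a ϑ z * y a - ϑ z * τ),
    fun k l => wF I k ϑ z * (Gz K i z *ᵥ y) l - wF I l ϑ z * (Gz K i z *ᵥ y) k)

variable {i : A.ι} {x : M} {g : M → E2 n} {t : M → ℂ} {θ : M → ℝ} {z : Fin n → ℂ}

theorem TT_sub (y y' : Fin n → ℂ) (d d' : ℂ × (Fin n → Fin n → ℂ)) :
    TT h vol K i z y d - TT h vol K i z y' d' = TT h vol K i z (y - y') (d - d') := by
  simp only [TT, Prod.mk_sub_mk, t2_sub, ← t3_sub, Prod.fst_sub, Prod.snd_sub]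
  congr 2
  ring

theorem TT_zero : TT h vol K i z 0 0 = 0 := by
  simp only [TT, t2_zero, Prod.fst_zero, Prod.snd_zero, mul_zero, neg_zero]
  rw [show Matrix.of (0 : Fin n → Fin n → ℂ) = 0 from rfl, t3_zero]
  rfl

theorem WT_zero (ϑ : (Fin n → ℂ) → ℂ) : WT h K i ϑ z 0 0 = 0 := by
  simp only [WT, Matrix.mulVec_zero, Pi.zero_apply, mul_zero, sub_zero, Finset.sum_const_zero]
  rfl

theorem wF_real {Φ : (Fin n → ℂ) → ℂ} (hr : ∀ z, conj (Φ z) = Φ z) (a : Fin n) (z : Fin n → ℂ) :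
    conj (wF I a Φ z) = wF (-I) a Φ z := by
  have h1 := wF_conj (s := -I) (a := a) (Φ := Φ) (z := z)
  simp only [hr, map_neg, Complex.conj_I, neg_neg] at h1
  exact h1.symm

theorem wF_real' {Φ : (Fin n → ℂ) → ℂ} (hr : ∀ z, conj (Φ z) = Φ z) (a : Fin n) (z : Fin n → ℂ) :
    conj (wF (-I) a Φ z) = wF I a Φ z := by rw [← wF_real hr, Complex.conj_conj]

theorem PP_chart (hθ : A.Sm θ) {ϑ : (Fin n → ℂ) → ℂ} (hϑ : ∀ z ∈ Tz A i, ϑ z = θ (sz A i z))
    (hr : ∀ z, conj (ϑ z) = ϑ z) (hz : z ∈ Tz A i) :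
    PP K g t θ (sz A i z) = TT h vol K i z (ϑ z • gz h vol K g i z)
      (WT h K i ϑ z (gz h vol K g i z) (tz h vol t i z)) := by
  have hx := sz_mem hz
  have hd : dbr A θ i (sz A i z) = fun a => wF I a ϑ z := funext fun a => by
    rw [dbr, dd_flat, cz_sz hz]
    exact wF_congrOn hz fun y hy => (hϑ y hy).symm
  rw [PP, bb_eq K hθ hx, hd, ← t2_gz h vol K (g := g) hz, ← o1_tz h vol (t := t) (i := i) z, PQ, TT,
    WT]
  generalize gz h vol K g i z = y
  generalize tz h vol t i z = τ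
  refine Prod.ext ?_ (Prod.ext ?_ ?_)
  · dsimp only
    rw [t2_smul, hϑ z hz, Complex.coe_smul]
  · dsimp only
    rw [inner_toLp, t2, dotProduct_smul, Matrix.star_mulVec, ← Matrix.dotProduct_mulVec,
      Matrix.mulVec_mulVec, S2H_O2 K hx, Matrix.one_mulVec, inv_mul_cancel_left₀ (wz_ne h hz),
      Complex.real_smul, ← hϑ z hz, dotProduct]
    simp only [Pi.star_apply, star_def, wF_real hr, smul_eq_mul]
    ring
  · dsimp only
    have h1 : (Matrix.of fun k l =>
        wF I k ϑ z * (Gz K i z *ᵥ y) l - wF I l ϑ z * (Gz K i z *ᵥ y) k) =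
        vecMulVec (fun a => wF I a ϑ z) (Gz K i z *ᵥ y) -
          vecMulVec (Gz K i z *ᵥ y) fun a => wF I a ϑ z := by
      ext k l
      simp only [Matrix.of_apply, Matrix.sub_apply, vecMulVec_apply]
      ring
    rw [h1, t3, t2, Matrix.mul_sub, Matrix.sub_mul, Matrix.mul_vecMulVec, Matrix.mul_vecMulVec,
      Matrix.vecMulVec_mul, Matrix.vecMulVec_mul, Matrix.vecMul_transpose, Matrix.vecMul_transpose,
      Matrix.mulVec_mulVec, Gz, S2_gT K hx, vecMulVec_smul, smul_vecMulVec, smul_sub]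

theorem RR_chart [T2Space M] {f : (Fin n → ℂ) → Fin n → ℂ} (hT : ∀ a, Tst A i fun z => f z a)
    (hf : ContDiff ℝ ∞ f) (hz : z ∈ Tz A i) :
    RR h vol K (extF N i f) (sz A i z) =
      TT h vol K i z (f z) (Lo n (fderiv ℝ (fun y => az h K i y (f y)) z)) := by
  have hx := sz_mem hz
  have hv := extF_isF (N := N) hT
  have hD : DifferentiableAt ℝ (fun y => az h K i y (f y)) z :=
    (((sm_az h K i).contDiffAt ((isOpen_Tz i).mem_nhds hz)).clm_apply
      hf.contDiffAt).differentiableAt (by simp)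
  rw [RR, TT, r2_eq h vol K hv hx, r1_eq h vol (dv_isS h hv).tr hx, r3_eq h vol K hv hx, extF_sz hz,
    dv_extF h hz, Lo_apply]
  simp only [wP_fderiv hD]
  congr 3
  ext k l
  exact al_extF K hz k l

theorem memW {C : Set (Fin n → ℂ)} {H : (Fin n → ℂ) → ℂ × (Fin n → Fin n → ℂ)}
    (h1 : L2C volume C fun z => (H z).1) (h2 : ∀ k l, L2C volume C fun z => (H z).2 k l) :
    MemLp H 2 volume ∧ ∀ z ∉ C, H z = 0 :=
  ⟨MemLp.of_fst_snd ⟨h1.1, MemLp.of_eval fun k => MemLp.of_eval fun l => (h2 k l).1⟩,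
    fun z hz => Prod.ext (h1.2 z hz) (funext fun k => funext fun l => (h2 k l).2 z hz)⟩

theorem intW {C : Set (Fin n → ℂ)} (hC : IsCompact C) {H : (Fin n → ℂ) → ℂ × (Fin n → Fin n → ℂ)}
    (h1 : L2C volume C fun z => (H z).1) (h2 : ∀ k l, L2C volume C fun z => (H z).2 k l) :
    Integrable H volume :=
  memLp_one_iff_integrable.1 ((memW h1 h2).1.mono_exponent_of_measure_support_ne_top (memW h1 h2).2
    hC.measure_lt_top.ne (by norm_num))

theorem integral_W {H : (Fin n → ℂ) → ℂ × (Fin n → Fin n → ℂ)} (hi : Integrable H volume)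
    (h1 : ∫ z, (H z).1 = 0) (h2 : ∀ k l, ∫ z, (H z).2 k l = 0) : ∫ z, H z = 0 := by
  refine Prod.ext ?_ (funext fun k => funext fun l => ?_)
  · exact ((ContinuousLinearMap.fst ℝ ℂ (Fin n → Fin n → ℂ)).integral_comp_comm hi).symm.trans h1
  · exact (((ContinuousLinearMap.proj (R := ℝ) (φ := fun _ : Fin n => ℂ) l).comp
      ((ContinuousLinearMap.proj (R := ℝ) (φ := fun _ : Fin n => Fin n → ℂ) k).comp
        (ContinuousLinearMap.snd ℝ ℂ (Fin n → Fin n → ℂ)))).integral_comp_comm hi).symm.trans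
      (h2 k l)

theorem eLpNorm_prod_le {X Y Z : Type*} [MeasurableSpace X] [NormedAddCommGroup Y]
    [NormedAddCommGroup Z] {μ : Measure X} {f : X → Y × Z} (hf : AEStronglyMeasurable f μ) :
    eLpNorm f 2 μ ≤ eLpNorm (fun x => (f x).1) 2 μ + eLpNorm (fun x => (f x).2) 2 μ := by
  have h1 : ∀ x, ‖f x‖ ≤ ((fun x => ‖(f x).1‖) + fun x => ‖(f x).2‖) x := fun x => by
    rw [Prod.norm_def]
    exact max_le_add_of_nonneg (norm_nonneg _) (norm_nonneg _)
  refine (eLpNorm_mono_real h1).trans ((eLpNorm_add_le hf.fst.norm hf.snd.norm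
    (by norm_num)).trans ?_)
  rw [eLpNorm_norm, eLpNorm_norm]

variable [T2Space M] [MeasurableSpace M] [BorelSpace M]

/-- the weak equation in the form of Friedrichs' lemma -/
theorem weak_eq (hg : MemLp g 2 (vm vol)) (ht : MemLp t 2 (vm vol))
    (hN : ∀ v, IsF N v → Cs v → (∀ i, ∀ x ∈ (A.e i).source, dv h v i x = 0) →
      ∫ x, inner ℂ (r2 h vol K v x) (g x) ∂(vm vol) = 0)
    (hW : ∀ s, IsS N s → Cs s → ∫ x, inner ℂ (r2 h vol K (sh K s) x) (g x) ∂(vm vol) =
      ∫ x, conj (r1 h vol s x) * t x ∂(vm vol))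
    {C : Set (Fin n → ℂ)} (hC : IsCompact C) (hs : C ⊆ Tz A i) {ϑ : (Fin n → ℂ) → ℂ}
    (hT : Tst A i ϑ) (h0 : ∀ z ∉ C, ϑ z = 0) (hr : ∀ z, conj (ϑ z) = ϑ z)
    (η : (Fin n → ℂ) → ℝ) (hη : ContDiff ℝ ∞ η) :
    ∫ z, Lo n ((fderiv ℝ η z).smulRight (az h K i z (ϑ z • C.indicator (gz h vol K g i) z))) =
      -∫ z, η z • WT h K i ϑ z (C.indicator (gz h vol K g i) z) (C.indicator (tz h vol t i) z) := by
  have hgf := l2c_gz h vol K hg hC hs
  have htf := l2c_tz h vol ht hC hs
  have e1 : ∀ z ∈ C, C.indicator (gz h vol K g i) z = gz h vol K g i z :=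
    fun z hz => indicator_of_mem hz _
  have e2 : ∀ z ∈ C, C.indicator (tz h vol t i) z = tz h vol t i z :=
    fun z hz => indicator_of_mem hz _
  generalize C.indicator (gz h vol K g i) = gf at *
  generalize C.indicator (tz h vol t i) = tf at *
  have hηc : ContDiff ℝ ∞ fun z => (η z : ℂ) := Complex.ofRealCLM.contDiff.comp hη
  have cη : ContinuousOn (fun z => (η z : ℂ)) C := hηc.continuous.continuousOn
  have cdη : ∀ s a, ContinuousOn (wF s a fun z => (η z : ℂ)) C := fun s a =>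
    (contDiff_wF hηc).continuous.continuousOn
  have cϑ : ContinuousOn ϑ C := hT.contDiff.continuous.continuousOn
  have cdϑ : ∀ s a, ContinuousOn (wF s a ϑ) C := fun s a =>
    (contDiff_wF hT.contDiff).continuous.continuousOn
  have cw : ContinuousOn (wz h i) C := (sm_wz h i).continuousOn.mono hs
  have hlf : ∀ l, L2C volume C fun z => (Gz K i z *ᵥ gf z) l := fun l =>
    L2C.sum fun b => (hgf b).mul hC ((sm_Gz K i l b).continuousOn.mono hs)
  have hF : ∀ z, Lo n ((fderiv ℝ η z).smulRight (az h K i z (ϑ z • gf z))) =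
      (∑ a, wF (-I) a (fun z => (η z : ℂ)) z * (wz h i z * (ϑ z * gf z a)),
        fun k l => wF I k (fun z => (η z : ℂ)) z * (ϑ z * (Gz K i z *ᵥ gf z) l) -
          wF I l (fun z => (η z : ℂ)) z * (ϑ z * (Gz K i z *ᵥ gf z) k)) := fun z => by
    rw [Lo_apply, az_apply, Matrix.mulVec_smul]
    simp only [wP_smulRight (hη.differentiable (by simp) z)]
    rfl
  have hG : ∀ z, η z • WT h K i ϑ z (gf z) (tf z) =
      ((η z : ℂ) * (wz h i z * (∑ a, wF (-I) a ϑ z * gf z a - ϑ z * tf z)), fun k l =>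
        (η z : ℂ) * (wF I k ϑ z * (Gz K i z *ᵥ gf z) l - wF I l ϑ z * (Gz K i z *ᵥ gf z) k)) :=
    fun z => rfl
  simp only [hF, hG]
  have i1 := intW hC (H := fun z =>
      (∑ a, wF (-I) a (fun z => (η z : ℂ)) z * (wz h i z * (ϑ z * gf z a)),
        fun k l => wF I k (fun z => (η z : ℂ)) z * (ϑ z * (Gz K i z *ᵥ gf z) l) -
          wF I l (fun z => (η z : ℂ)) z * (ϑ z * (Gz K i z *ᵥ gf z) k)))
    (L2C.sum fun a => (((hgf a).mul hC cϑ).mul hC cw).mul hC (cdη _ a))
    fun k l => (((hlf l).mul hC cϑ).mul hC (cdη _ k)).sub (((hlf k).mul hC cϑ).mul hC (cdη _ l))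
  have i2 := intW hC (H := fun z =>
      ((η z : ℂ) * (wz h i z * (∑ a, wF (-I) a ϑ z * gf z a - ϑ z * tf z)), fun k l =>
        (η z : ℂ) * (wF I k ϑ z * (Gz K i z *ᵥ gf z) l - wF I l ϑ z * (Gz K i z *ᵥ gf z) k)))
    ((((L2C.sum fun a => (hgf a).mul hC (cdϑ _ a)).sub (htf.mul hC cϑ)).mul hC cw).mul hC cη)
    fun k l => (((hlf l).mul hC (cdϑ _ k)).sub ((hlf k).mul hC (cdϑ _ l))).mul hC cη
  rw [eq_neg_iff_add_eq_zero, ← integral_add i1 i2]
  obtain ⟨φ, hφ⟩ : ∃ φ : (Fin n → ℂ) → ℂ, φ = fun z => (η z : ℂ) * ϑ z := ⟨_, rfl⟩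
  have hφT : Tst A i φ := hφ ▸ hT.mul hηc.contDiffOn
  have hφ0 : ∀ z ∉ C, φ z = 0 := fun z hz => by simp only [hφ, h0 z hz, mul_zero]
  have hφr : ∀ z, conj (φ z) = φ z := fun z => by simp only [hφ, map_mul, hr, Complex.conj_ofReal]
  have hφd : ∀ s a z, wF s a φ z = wF s a (fun z => (η z : ℂ)) z * ϑ z + η z * wF s a ϑ z :=
    fun s a z => hφ ▸ wF_mul (hηc.differentiable (by simp) z) (hT.contDiff.differentiable (by simp) z)
  have cφ : ContinuousOn φ C := hφT.contDiff.continuous.continuousOn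
  have cdφ : ∀ s a, ContinuousOn (wF s a φ) C := fun s a =>
    (contDiff_wF hφT.contDiff).continuous.continuousOn
  have hoff : ∀ s a, ∀ z ∉ C, wF s a φ z = 0 := fun s a z hz => wF_off hC hφ0 hz
  refine integral_W (i1.add i2) ?_ fun k l => ?_
  · have h1 := weak1 h vol K hg.1 ht.1 hW hφT
    simp only [wF_real hφr, hφr] at h1
    rw [setIntegral_eq_integral_of_forall_compl_eq_zero fun z hz => by
        simp [hoff _ _ z fun h' => hz (hs h')],
      setIntegral_eq_integral_of_forall_compl_eq_zero fun z hz => by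
        simp [hφ0 z fun h' => hz (hs h')]] at h1
    have h2 : (fun z => wz h i z * ∑ a, wF (-I) a φ z * gz h vol K g i z a) =
        fun z => wz h i z * ∑ a, wF (-I) a φ z * gf z a := by
      funext z
      by_cases hz : z ∈ C
      · rw [e1 z hz]
      · simp [hoff _ _ z hz]
    have h3 : (fun z => wz h i z * (φ z * tz h vol t i z)) = fun z => wz h i z * (φ z * tf z) := by
      funext z
      by_cases hz : z ∈ C
      · rw [e2 z hz]
      · simp [hφ0 z hz]
    rw [h2, h3, ← sub_eq_zero, ← integral_sub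
      (((L2C.sum fun a => (hgf a).mul hC (cdφ _ a)).mul hC cw).integrable hC)
      (((htf.mul hC cφ).mul hC cw).integrable hC)] at h1
    refine Eq.trans (integral_congr_ae (Eventually.of_forall fun z => ?_)) h1
    simp only [Prod.fst_add, hφd, add_mul, Finset.sum_add_distrib, mul_add, mul_sub, Finset.mul_sum]
    rw [hφ, add_sub_assoc]
    congr 1
    · exact Finset.sum_congr rfl fun a _ => by ring
    · congr 1
      · exact Finset.sum_congr rfl fun a _ => by ring
      · ring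
  · have h1 := weak2 h vol K hg.1 hN hφT k l
    simp only [wF_real' hφr] at h1
    rw [setIntegral_eq_integral_of_forall_compl_eq_zero fun z hz => by
        simp [hoff _ _ z fun h' => hz (hs h')]] at h1
    refine Eq.trans (integral_congr_ae (Eventually.of_forall fun z => ?_)) h1
    by_cases hz : z ∈ C
    · simp only [Prod.snd_add, Pi.add_apply, hφd, e1 z hz]
      ring
    · simp only [Prod.snd_add, Pi.add_apply, hoff _ _ z hz, (hlf _).2 z hz]
      ring

/-- **the chart piece** -/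
theorem ap_chart (hg : MemLp g 2 (vm vol)) (ht : MemLp t 2 (vm vol))
    (hN : ∀ v, IsF N v → Cs v → (∀ i, ∀ x ∈ (A.e i).source, dv h v i x = 0) →
      ∫ x, inner ℂ (r2 h vol K v x) (g x) ∂(vm vol) = 0)
    (hW : ∀ s, IsS N s → Cs s → ∫ x, inner ℂ (r2 h vol K (sh K s) x) (g x) ∂(vm vol) =
      ∫ x, conj (r1 h vol s x) * t x ∂(vm vol))
    (i : A.ι) (θ : M → ℝ) (C0 : Set M) (hθ : A.Sm θ) (hC0 : IsCompact C0)
    (hs0 : C0 ⊆ (A.e i).source) (h00 : ∀ x ∉ C0, θ x = 0) : Ap h vol K (PP K g t θ) := by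
  have hm := aesm_PP K hg.1 ht.1 hθ
  refine ⟨hm, fun ε hε => ?_⟩
  obtain ⟨C, hCd⟩ : ∃ C, C = cz A i '' C0 := ⟨_, rfl⟩
  have hC : IsCompact C := hCd ▸ hC0.image_of_continuousOn ((contOn_cz i).mono hs0)
  have hs : C ⊆ Tz A i := by
    rw [hCd]
    rintro _ ⟨x, hx, rfl⟩
    exact cz_mem (hs0 hx)
  have hC1 : ∀ z ∈ Tz A i, z ∉ C → sz A i z ∉ C0 := fun z hz hz' h' =>
    hz' (hCd ▸ ⟨_, h', cz_sz hz⟩)
  obtain ⟨ϑ, hϑd⟩ : ∃ ϑ : (Fin n → ℂ) → ℂ, ϑ = (Tz A i).indicator fun z => (θ (sz A i z) : ℂ) :=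
    ⟨_, rfl⟩
  have hϑ : ∀ z ∈ Tz A i, ϑ z = θ (sz A i z) := fun z hz => by rw [hϑd, indicator_of_mem hz]
  have h0 : ∀ z ∉ C, ϑ z = 0 := fun z hz => by
    by_cases hz' : z ∈ Tz A i
    · rw [hϑ z hz', h00 _ (hC1 z hz' hz), Complex.ofReal_zero]
    · rw [hϑd, indicator_of_notMem hz']
  have hr : ∀ z, conj (ϑ z) = ϑ z := fun z => by
    by_cases hz' : z ∈ Tz A i
    · rw [hϑ z hz', Complex.conj_ofReal]
    · rw [hϑd, indicator_of_notMem hz', map_zero]
  have hT : Tst A i ϑ := ⟨(smAt_flat (C1d194.smAt_ofReal (hθ i))).congr hϑ, C, hC, hs, h0⟩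
  have hgf := l2c_gz h vol K hg hC hs
  have htf := l2c_tz h vol ht hC hs
  have hwk := weak_eq h vol K hg ht hN hW hC hs hT h0 hr
  have hP : ∀ z ∈ Tz A i, PP K g t θ (sz A i z) =
      TT h vol K i z (ϑ z • C.indicator (gz h vol K g i) z)
        (WT h K i ϑ z (C.indicator (gz h vol K g i) z) (C.indicator (tz h vol t i) z)) := by
    intro z hz
    by_cases hz' : z ∈ C
    · rw [indicator_of_mem hz', indicator_of_mem hz', PP_chart h vol K hθ hϑ hr hz]
    · rw [indicator_of_notMem hz', indicator_of_notMem hz', smul_zero, WT_zero, TT_zero, PP,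
        h00 _ (hC1 z hz hz'), bb_off K hC0 h00 (hC1 z hz hz'), PQ_zero]
  generalize C.indicator (gz h vol K g i) = gf at *
  generalize C.indicator (tz h vol t i) = tf at *
  have cϑ : ContinuousOn ϑ C := hT.contDiff.continuous.continuousOn
  have cdϑ : ∀ s a, ContinuousOn (wF s a ϑ) C := fun s a =>
    (contDiff_wF hT.contDiff).continuous.continuousOn
  have cw : ContinuousOn (wz h i) C := (sm_wz h i).continuousOn.mono hs
  have hlf : ∀ l, L2C volume C fun z => (Gz K i z *ᵥ gf z) l := fun l =>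
    L2C.sum fun b => (hgf b).mul hC ((sm_Gz K i l b).continuousOn.mono hs)
  obtain ⟨w1, w2⟩ := memW (C := C) (H := fun z => WT h K i ϑ z (gf z) (tf z))
    (((L2C.sum fun a => (hgf a).mul hC (cdϑ _ a)).sub (htf.mul hC cϑ)).mul hC cw)
    fun k l => ((hlf l).mul hC (cdϑ _ k)).sub ((hlf k).mul hC (cdϑ _ l))
  have v2 : ∀ z ∉ C, ϑ z • gf z = 0 := fun z hz => by rw [h0 z hz, zero_smul]
  obtain ⟨C', hC', hCC', hs', H⟩ := fried (Fin n → ℂ) (Fin n → ℂ) ((Fin n → ℂ) × (Fin n → ℂ))
    (ℂ × (Fin n → Fin n → ℂ)) volume (Lo n) (az h K i) C (Tz A i) hC (isOpen_Tz i) hs (sm_az h K i)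
    (fun z => ϑ z • gf z) _ (MemLp.of_eval fun a => ((hgf a).mul hC cϑ).1) w1 v2 w2
    fun η hη _ _ => hwk η hη
  obtain ⟨c1, hc1, b1⟩ := quad_ub (Q := fun z y => h.w i (sz A i z) * hq (K.g i (sz A i z)) y) hC'
    ((contOn_hq h K i).mono (prod_mono hs' subset_rfl)) fun z y r => by rw [hq_smul]; ring
  obtain ⟨c2, hc2, b2⟩ := quad_ub (Q := fun z (d : ℂ × (Fin n → Fin n → ℂ)) =>
      h.w i (sz A i z) * ‖(wz h i z)⁻¹ * d.1‖ ^ 2 +
        h.w i (sz A i z) * hU (K.g i (sz A i z)) (Matrix.of d.2)) hC'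
    (by
      refine ContinuousOn.add ((((contOn_wr h i).mono hs').comp continuousOn_fst
        fun p hp => hp.1).mul ((((((sm_wz h i).continuousOn.mono hs').inv₀ fun z hz =>
          wz_ne h (hs' hz)).comp continuousOn_fst fun p hp => hp.1).mul
            (continuous_snd.fst).continuousOn).norm.pow 2)) ?_
      exact (contOn_hU h K i).comp
        (f := fun p : (Fin n → ℂ) × ℂ × (Fin n → Fin n → ℂ) => (p.1, p.2.2)) (by fun_prop)
        fun p hp => ⟨hs' hp.1, trivial⟩)
    fun z d r => by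
      rw [Prod.smul_fst, Prod.smul_snd, show Matrix.of (r • d.2) = r • Matrix.of d.2 from rfl,
        hU_smul, mul_smul_comm, norm_smul, mul_pow, Real.norm_eq_abs, sq_abs]
      ring
  obtain ⟨δ, hδ, hδ2⟩ := ENNReal.exists_nnreal_pos_mul_lt
    (a := ENNReal.ofReal c1 + ENNReal.ofReal c2) (by simp) hε.ne'
  obtain ⟨f, f1, f2, f3, f4⟩ := H δ (by exact_mod_cast hδ)
  have f0 : ∀ z ∉ C', f z = 0 := fun z hz => image_eq_zero_of_notMem_tsupport fun h' => hz (f2 h')
  have hTf : ∀ a, Tst A i fun z => f z a := fun a =>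
    ⟨(contDiff_pi.1 f1 a).contDiffOn, C', hC', hs', fun z hz => by rw [f0 z hz]; rfl⟩
  have hv := extF_isF (N := N) hTf
  refine ⟨_, hv, extF_cs hTf, ?_⟩
  have hY := (memLp_RR h vol K hv (extF_cs hTf)).1.sub hm
  have hY0 : ∀ x ∉ (A.e i).source, (RR h vol K (extF N i f) - PP K g t θ) x = 0 := by
    intro x hx
    obtain ⟨C1, k1, k2, k3⟩ := extF_supp (N := N) hTf
    have hx1 : x ∉ C1 := fun h' => hx (k2 h')
    have hx0 : x ∉ C0 := fun h' => hx (hs0 h')
    rw [Pi.sub_apply, PP, h00 x hx0, bb_off K hC0 h00 hx0, PQ_zero, sub_zero, RR, r1, r2, r3,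
      k3 _ x hx1, dv_off h k1 k3 (ix_mem x) hx1, al_off K hv k1 k3 (ix_mem x) hx1, t2_zero, t3_zero,
      mul_zero, neg_zero]
    rfl
  have hY1 : ∀ z ∈ Tz A i, (RR h vol K (extF N i f) - PP K g t θ) (sz A i z) =
      TT h vol K i z (f z - ϑ z • gf z)
        (Lo n (fderiv ℝ (fun y => az h K i y (f y)) z) - WT h K i ϑ z (gf z) (tf z)) :=
    fun z hz => by rw [Pi.sub_apply, RR_chart h vol K hTf f1 hz, hP z hz, TT_sub]
  have hY2 : ∀ z ∉ C', f z - ϑ z • gf z = 0 ∧
      Lo n (fderiv ℝ (fun y => az h K i y (f y)) z) - WT h K i ϑ z (gf z) (tf z) = 0 := by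
    intro z hz
    have hz' : z ∉ C := fun h' => hz (hCC' h')
    refine ⟨by rw [f0 z hz, v2 z hz', sub_zero], ?_⟩
    have h1 : (fun y => az h K i y (f y)) =ᶠ[𝓝 z] fun _ => 0 := by
      filter_upwards [hC'.isClosed.isOpen_compl.mem_nhds hz] with y hy
      rw [f0 y hy, map_zero]
    rw [h1.fderiv_eq, w2 z hz']
    simp
  have k1 := le_flat vol (i := i) hY.fst (F := f - fun z => ϑ z • gf z) hc1
    (fun x hx => by rw [hY0 x hx]; rfl) fun z hz => by
      rw [hY1 z hz, Pi.sub_apply]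
      by_cases hz' : z ∈ C'
      · rw [TT, norm_t2 h vol K (sz_mem hz), mul_inv_cancel_left₀ (vol.pos i _ (sz_mem hz)).ne']
        exact b1 z hz' _
      · rw [(hY2 z hz').1, (hY2 z hz').2, TT_zero]
        simp
  have k2 := le_flat vol (i := i) hY.snd (F := fun z =>
      Lo n (fderiv ℝ (fun y => az h K i y (f y)) z) - WT h K i ϑ z (gf z) (tf z)) hc2
    (fun x hx => by rw [hY0 x hx]; rfl) fun z hz => by
      rw [hY1 z hz]
      by_cases hz' : z ∈ C'
      · have hv := vol.pos i _ (sz_mem hz)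
        refine le_trans ?_ (b2 z hz' _)
        rw [← mul_inv_cancel_left₀ hv.ne' (h.w _ _ * ‖_‖ ^ 2),
          ← mul_inv_cancel_left₀ hv.ne' (_ * hU _ _),
          ← norm_t1 h vol (sz_mem hz), ← norm_t3 h vol K (sz_mem hz), ← mul_add, TT]
        refine mul_le_mul_of_nonneg_left ?_ hv.le
        rw [Prod.norm_mk, norm_neg]
        rcases max_choice ‖o1 h vol i (sz A i z) * ((wz h i z)⁻¹ * (Lo n (fderiv ℝ
          (fun y => az h K i y (f y)) z) - WT h K i ϑ z (gf z) (tf z)).1)‖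
          ‖t3 h vol K i (sz A i z) (Matrix.of (Lo n (fderiv ℝ
          (fun y => az h K i y (f y)) z) - WT h K i ϑ z (gf z) (tf z)).2)‖ with e | e <;> rw [e]
        · exact le_add_of_nonneg_right (by positivity)
        · exact le_add_of_nonneg_left (by positivity)
      · rw [(hY2 z hz').1, (hY2 z hz').2, TT_zero]
        simp
  calc _ ≤ _ := eLpNorm_prod_le hY
    _ ≤ ENNReal.ofReal c1 * δ + ENNReal.ofReal c2 * δ :=
        add_le_add (k1.trans (by gcongr)) (k2.trans (by gcongr))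
    _ ≤ ε := by rw [← add_mul, mul_comm]; exact hδ2.le

theorem dens : DensStmt := by
  intro n M _ _ _ _ A _ P K hK N h vol g t hg ht hN hW
  exact (ap_of_chart P hK hg ht (ap_chart h vol K hg ht hN hW)).2

end

end Crest.Agent.T223.Hm
end

-- ▼ part T223/HmR_61
section

/-!
# Row 223, module HOER (helper61): weakly holomorphic `L²` sections are holomorphic
-/

set_option autoImplicit false
set_option linter.unusedSectionVars false

open Set Filter Topology Complex Matrix MeasureTheory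
open scoped ContDiff Matrix ComplexConjugate ComplexOrder ENNReal

namespace Crest.Agent.T223.Hm

open Crest.Agent.R275 Crest.Agent.R275.Geo Crest.Agent.R275.Core144
open Crest.Agent.R275.OmT75 (dl)
open Crest.Agent.R273.Defs_333 Crest.Agent.R273.Kah_333 Crest.Agent.R273.Vm_333
open Crest.Agent.R271

noncomputable section

variable {n : ℕ} {M : Type} [TopologicalSpace M] {A : Atl n M} {N : LB A} [Countable A.ι]
  [T2Space M] [MeasurableSpace M] [BorelSpace M] (h : HM ((KB A)⁻¹ * N)) (vol : HM (KB A)⁻¹)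

/-- the flat coefficient of an `L²` section -/
def qf61 (q : M → ℂ) (i : A.ι) (z : Fin n → ℂ) : ℂ := (o1 h vol i (sz A i z))⁻¹ * q (sz A i z)

theorem qf61_loc {q : M → ℂ} (hq : MemLp q 2 (vm vol)) (i : A.ι) :
    LocallyIntegrableOn (qf61 h vol q i) (Tz A i) := by
  rw [locallyIntegrableOn_iff (isOpen_Tz i).isLocallyClosed]
  intro C hs hC
  have hm : AEStronglyMeasurable (qf61 h vol q i) (volume.restrict (Tz A i)) :=
    aesm_flat vol (f := fun x => (o1 h vol i x)⁻¹ * q x)
      ((aesm_o1 h vol i _).aemeasurable.inv.aestronglyMeasurable.mul hq.1.restrict)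
  have hm' : AEStronglyMeasurable (qf61 h vol q i) (volume.restrict C) :=
    hm.mono_measure (Measure.restrict_mono hs le_rfl)
  obtain ⟨B, hB⟩ := hC.exists_bound_of_continuousOn (f := fun z => (h.w i (sz A i z))⁻¹)
    (((smAt_flat (h.sm i)).continuousOn.inv₀ fun z hz => (h.pos i _ (sz_mem hz)).ne').mono hs)
  have h1 := flat_le vol (i := i) hq.1 (F := C.indicator (qf61 h vol q i)) (c := |B| + 1)
    (by positivity) (fun z hz => indicator_of_notMem (fun h' => hz (hs h')) _) fun z hz => by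
      have h2 := vol.pos i _ (sz_mem hz)
      by_cases hzC : z ∈ C
      · have h3 : (h.w i (sz A i z))⁻¹ ≤ (|B| + 1) ^ 2 := by
          have h4 := (le_abs_self _).trans ((hB z hzC).trans (le_abs_self B))
          nlinarith [abs_nonneg B]
        rw [indicator_of_mem hzC, qf61, norm_mul, mul_pow, norm_inv, inv_pow,
          o1_sq h vol (sz_mem hz), inv_div, div_eq_inv_mul, mul_assoc]
        gcongr
      · rw [indicator_of_notMem hzC, norm_zero, zero_pow two_ne_zero]
        positivity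
  rw [eLpNorm_indicator_eq_eLpNorm_restrict hC.measurableSet] at h1
  have : IsFiniteMeasure ((volume : Measure (Fin n → ℂ)).restrict C) :=
    isFiniteMeasure_restrict.2 hC.measure_lt_top.ne
  have h2 : MemLp (qf61 h vol q i) 2 (volume.restrict C) :=
    ⟨hm', h1.trans_lt (ENNReal.mul_lt_top ENNReal.ofReal_lt_top hq.2)⟩
  exact h2.integrable one_le_two

theorem qf61_weak {q : M → ℂ} (hq : MemLp q 2 (vm vol))
    (h0 : ∀ v, IsF N v → Cs v → ∫ x, conj (r1 h vol (dv h v) x) * q x ∂(vm vol) = 0) (i : A.ι) :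
    Weyl399.WeakHol (qf61 h vol q i) (Tz A i) := by
  intro j φ hφ hc hs
  set Φ : (Fin n → ℂ) → Fin n → ℂ :=
    fun z a => ((h.w i (sz A i z) : ℂ))⁻¹ * (if a = j then conj (φ z) else 0) with hΦ
  have hz : ∀ z ∉ tsupport φ, Φ z = 0 := fun z hz => by
    funext a
    simp [hΦ, image_eq_zero_of_notMem_tsupport hz]
  have hT : ∀ a, Tst A i fun z => Φ z a := fun a => by
    refine ⟨ContDiffOn.mul ?_ ?_, _, hc, hs, fun z hz' => congrFun (hz z hz') a⟩
    · exact (Complex.ofRealCLM.contDiff.comp_contDiffOn (smAt_flat (h.sm i))).inv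
        fun z hz => w_ne h (sz_mem hz)
    · split_ifs
      · exact (Complex.conjCLE.contDiff.comp hφ).contDiffOn
      · exact contDiffOn_const
  have hv := extF_isF (N := N) hT
  have hoff : ∀ k, ∀ x ∉ sz A i '' tsupport φ, extF N i Φ k x = 0 := fun k x hx => by
    by_cases hi : x ∈ (A.e i).source
    · rw [extF, if_pos hi, hz _ (cz_notMem hi hx), Matrix.mulVec_zero, smul_zero]
    · exact extF_off hi k
  have hd : ∀ z ∈ Tz A i, dv h (extF N i Φ) i (sz A i z) =
      ((h.w i (sz A i z) : ℂ))⁻¹ * conj (Weyl399.dbar j φ z) := fun z hz => by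
    rw [dv, Finset.sum_eq_single j]
    · rw [dl_flat, cz_sz hz, wF_congrOn (Ψ := fun w => conj (φ w)) hz fun w hw => by
        rw [extF_self (sz_mem hw), cz_sz hw, hΦ]
        simp only [if_true]
        rw [mul_inv_cancel_left₀ (w_ne h (sz_mem hw))], wF_conj, map_neg, Complex.conj_I, neg_neg]
      rfl
    · intro a _ ha
      rw [dl_flat, cz_sz hz, wF_congrOn (Ψ := fun _ => 0) hz fun w hw => by
        rw [extF_self (sz_mem hw), hΦ]
        simp [ha]]
      simp [wF]
    · simp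
  have h1 := h0 _ hv ⟨_, isCompact_sz hc hs, hoff⟩
  have hm : AEStronglyMeasurable (fun x => conj (r1 h vol (dv h (extF N i Φ)) x) * q x) (vm vol) :=
    (Complex.continuous_conj.comp_aestronglyMeasurable
      (aesm_r1 h vol (dv_isS h hv).sm _)).mul hq.1
  rw [← setIntegral_eq_integral_of_forall_compl_eq_zero (s := (A.e i).source) fun x hx => by
      rw [r1, dv_off h (isCompact_sz hc hs) hoff (ix_mem x) fun ⟨w, hw, hw'⟩ =>
        hx (hw' ▸ sz_mem (hs hw))]
      simp, integral_chart vol hm.restrict] at h1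
  rw [← setIntegral_eq_integral_of_forall_compl_eq_zero (s := Tz A i) fun z hz => by
      rw [show Weyl399.dbar j φ z = 0 from wF_zero_off (s := I) fun h' => hz (hs h'), mul_zero],
    ← h1]
  refine setIntegral_congr_fun (isOpen_Tz i).measurableSet fun z hz => ?_
  have h2 := o1_conj h vol (sz_mem hz)
  have h3 := o1_ne h vol i (sz A i z)
  have h4 := w_ne h (sz_mem hz)
  have h5 := w_ne vol (sz_mem hz)
  have h6 : conj (o1 h vol i (sz A i z)) =
      (h.w i (sz A i z) : ℂ) / vol.w i (sz A i z) * (o1 h vol i (sz A i z))⁻¹ := by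
    rw [← Complex.ofReal_div, ← h2, mul_inv_cancel_right₀ h3]
  simp only [r1_eq h vol (dv_isS h hv).tr (sz_mem hz), hd z hz, qf61, map_mul, h6, map_inv₀,
    Complex.conj_ofReal, Complex.conj_conj, Complex.real_smul]
  field_simp

/-- **leaf REG** -/
theorem reg : RegStmt := by
  intro n M _ _ _ _ A _ N h vol q hq h0
  choose H hH hae using fun i =>
    Weyl399.weyl (isOpen_Tz i) (qf61_loc h vol hq i) (qf61_weak h vol hq h0 i)
  have hol : ∀ i, HolAt A i univ fun x => H i (cz A i x) := fun i => by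
    have h1 : DifferentiableOn ℂ (fun z : Cn n => H i (WithLp.ofLp z)) (A.e i).target :=
      (hH i).comp (PiLp.continuousLinearEquiv 2 ℂ (fun _ : Fin n => ℂ)).differentiableOn
        fun _ hz => hz
    refine (h1.mono inter_subset_left).congr fun z hz => ?_
    simp only [cz, (A.e i).right_inv hz.1]
  have ha : ∀ i, ∀ᵐ x ∂(vm vol), x ∈ (A.e i).source → q x = o1 h vol i x * H i (cz A i x) :=
    fun i => by
      rw [← ae_restrict_iff' (A.e i).open_source.measurableSet]
      refine ae_of_flat vol ?_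
      filter_upwards [hae i, ae_restrict_mem (isOpen_Tz i).measurableSet] with z hz hz'
      rw [cz_sz hz', ← hz, qf61, mul_inv_cancel_left₀ (o1_ne h vol i _)]
  have hc : ∀ i, ContinuousOn (fun x => H i (cz A i x)) (A.e i).source := fun i => by
    simpa using contOn_holAt (hol i)
  refine ⟨fun i x => H i (cz A i x), ⟨fun i => ?_, fun i j => ?_⟩, hol, ?_⟩
  · simpa [Atl.SmAt] using (hol i).contDiffOn isOpen_univ
  · have := isOpenPos_vm vol
    have ho := (A.e i).open_source.inter (A.e j).open_source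
    refine Measure.eqOn_open_of_ae_eq (μ := vm vol) (f := fun x => H i (cz A i x))
      (g := fun x => N.g i j x * H j (cz A j x)) ?_ ho ((hc i).mono inter_subset_left)
      ((contOn_Ng N i j).mul ((hc j).mono inter_subset_right))
    rw [EventuallyEq, ae_restrict_iff' ho.measurableSet]
    filter_upwards [ha i, ha j] with x h1 h2 hx
    refine mul_left_cancel₀ (o1_ne h vol i x) ?_
    rw [← h1 hx.1, h2 hx.2, o1_law h vol hx, mul_assoc]
  · filter_upwards [ae_all_iff.2 ha] with x hx using hx _ (ix_mem x)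

end

end Crest.Agent.T223.Hm
end

-- ▼ part T223/Hm9_77

/-!
# Row 223, module HOER (helper77), part 9: Hoermander's theorem on a complete Kaehler manifold
-/

namespace Crest.Agent.T223.Hm

theorem hoer : HoerStmt := hoer_of dens reg

end Crest.Agent.T223.Hm
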