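import Crest.Agent.T223.Fr_38

/-!
# Row 223, module EVO (helper41): linear algebra with respect to a positive Hermitian matrix

`nq`, `trg` as in the frame `Fr_38`; `nrm g A = re tr (g⁻¹ A g⁻¹ A)`.
* `exists_diag`  : simultaneous diagonalisation
* `nq_le_trg`    : `P ≥ 0 → P ≤ (tr_g P) g`
* `sq_le_nrm`    : `(tr_g A)² ≤ n |A|²`
* `nrm_le_of_lower` : `A + b g ≥ 0 → |A|² ≤ (tr_g A + n b)² + n b²`
-/

set_option autoImplicit false

open Matrix
open scoped ComplexConjugate ComplexOrder MatrixOrder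

namespace Crest.Agent.T223.Ev

open Crest.Agent.R275.Geo Crest.Agent.T223.Tr

noncomputable section

variable {n : ℕ}

/-- the squared norm with respect to `g` -/
def nrm (g A : Mat n) : ℝ := (trace (g⁻¹ * A * g⁻¹ * A)).re

theorem nq_eq (A : Mat n) (v : Cn n) :
    nq A v = (star (fun a => conj (v a)) ⬝ᵥ (A *ᵥ fun a => conj (v a))).re := by
  unfold nq
  congr 1
  simp only [dotProduct, mulVec, Pi.star_apply, Finset.mul_sum, RCLike.star_def, Complex.conj_conj]
  refine Finset.sum_congr rfl fun a _ => Finset.sum_congr rfl fun b _ => ?_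
  ring

theorem nq_add (A B : Mat n) (v : Cn n) : nq (A + B) v = nq A v + nq B v := by
  simp only [nq, Matrix.add_apply, add_mul, Finset.sum_add_distrib, Complex.add_re]

theorem nq_smul (c : ℝ) (A : Mat n) (v : Cn n) : nq ((c : ℂ) • A) v = c * nq A v := by
  simp only [nq, Matrix.smul_apply, smul_eq_mul, mul_assoc, ← Finset.mul_sum, Complex.re_ofReal_mul]

theorem nq_neg (A : Mat n) (v : Cn n) : nq (-A) v = -nq A v := by
  simp only [nq, Matrix.neg_apply, neg_mul, Finset.sum_neg_distrib, Complex.neg_re]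

theorem nq_sub (A B : Mat n) (v : Cn n) : nq (A - B) v = nq A v - nq B v := by
  rw [sub_eq_add_neg, nq_add, nq_neg, sub_eq_add_neg]

theorem nq_nonneg {P : Mat n} (hP : P.PosSemidef) (v : Cn n) : 0 ≤ nq P v := by
  rw [nq_eq]
  exact (Complex.nonneg_iff.1 (hP.dotProduct_mulVec_nonneg _)).1


theorem nq_pos {g : Mat n} (hg : g.PosDef) {v : Cn n} (hv : v ≠ 0) : 0 < nq g v := by
  rw [nq_eq]
  refine (Complex.pos_iff.1 (hg.dotProduct_mulVec_pos ?_)).1
  intro h
  apply hv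
  ext a
  simpa using congrFun h a

/-- simultaneous diagonalisation -/
theorem exists_diag {g A : Mat n} (hg : g.PosDef) (hA : A.IsHermitian) :
    ∃ (T : Mat n) (d : Fin n → ℝ), Tᴴ * g * T = 1 ∧ T * Tᴴ = g⁻¹ ∧
      Tᴴ * A * T = diagonal (fun i => (d i : ℂ)) := by
  have hgi : (g⁻¹).PosDef := hg.inv
  set S : Mat n := CFC.sqrt g⁻¹ with hS
  have hSS : S * S = g⁻¹ := CFC.sqrt_mul_sqrt_self _ hgi.posSemidef.nonneg
  have hSh : Sᴴ = S := (CFC.sqrt_nonneg g⁻¹).posSemidef.1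
  have hu : IsUnit g.det := (isUnit_iff_isUnit_det g).1 hg.isUnit
  have hSgS : S * g * S = 1 := by
    have h1 : S * (S * g) = 1 := by rw [← mul_assoc, hSS, nonsing_inv_mul _ hu]
    exact mul_eq_one_comm.1 h1
  have hB : (S * A * S).IsHermitian := by
    have := isHermitian_conjTranspose_mul_mul S hA
    rwa [hSh] at this
  set U : Mat n := (hB.eigenvectorUnitary : Mat n) with hU
  have hU1 : Uᴴ * U = 1 := by
    rw [← star_eq_conjTranspose]; exact Unitary.coe_star_mul_self _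
  have hU2 : U * Uᴴ = 1 := by
    rw [← star_eq_conjTranspose]; exact Unitary.coe_mul_star_self _
  refine ⟨S * U, hB.eigenvalues, ?_, ?_, ?_⟩
  · rw [conjTranspose_mul, hSh]
    calc Uᴴ * S * g * (S * U) = Uᴴ * (S * g * S) * U := by simp only [mul_assoc]
      _ = 1 := by rw [hSgS, mul_one, hU1]
  · rw [conjTranspose_mul, hSh]
    calc S * U * (Uᴴ * S) = S * (U * Uᴴ) * S := by simp only [mul_assoc]
      _ = g⁻¹ := by rw [hU2, mul_one, hSS]
  · rw [conjTranspose_mul, hSh]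
    have h := hB.conjStarAlgAut_star_eigenvectorUnitary
    rw [Unitary.conjStarAlgAut_star_apply] at h
    calc Uᴴ * S * A * (S * U) = Uᴴ * (S * A * S) * U := by simp only [mul_assoc]
      _ = _ := h

theorem trg_frame {g T : Mat n} (h : T * Tᴴ = g⁻¹) (A : Mat n) :
    trace (g⁻¹ * A) = trace (Tᴴ * A * T) := by
  rw [← h, trace_mul_comm (Tᴴ * A) T, mul_assoc]

theorem nrm_frame {g T : Mat n} (h : T * Tᴴ = g⁻¹) (A B : Mat n) :
    trace (g⁻¹ * A * g⁻¹ * B) = trace ((Tᴴ * A * T) * (Tᴴ * B * T)) := by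
  rw [← h]
  calc trace (T * Tᴴ * A * (T * Tᴴ) * B) = trace (T * (Tᴴ * A * T * (Tᴴ * B))) := by
        simp only [mul_assoc]
    _ = trace ((Tᴴ * A * T * (Tᴴ * B)) * T) := trace_mul_comm _ _
    _ = _ := by simp only [mul_assoc]

/-- every vector is `conj (T y)` -/
theorem nq_frame {g T : Mat n} (h : Tᴴ * g * T = 1) (v : Cn n) :
    ∃ y : Fin n → ℂ, ∀ A : Mat n, nq A v = (star y ⬝ᵥ ((Tᴴ * A * T) *ᵥ y)).re := by
  have h1 : T * (Tᴴ * g) = 1 := mul_eq_one_comm.1 h
  refine ⟨(Tᴴ * g) *ᵥ fun a => conj (v a), fun A => ?_⟩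
  rw [nq_eq]
  set x : Fin n → ℂ := fun a => conj (v a)
  set y := (Tᴴ * g) *ᵥ x
  have hx : x = T *ᵥ y := by rw [mulVec_mulVec, h1, one_mulVec]
  rw [hx, ← mulVec_mulVec, ← mulVec_mulVec, dotProduct_mulVec (star y) Tᴴ, ← star_mulVec]

theorem diag_form (d : Fin n → ℝ) (y : Fin n → ℂ) :
    (star y ⬝ᵥ ((diagonal fun i => (d i : ℂ)) *ᵥ y)).re = ∑ i, d i * ‖y i‖ ^ 2 := by
  simp only [dotProduct, mulVec_diagonal, Pi.star_apply, Complex.re_sum]
  refine Finset.sum_congr rfl fun i _ => ?_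
  rw [RCLike.star_def, mul_left_comm, Complex.conj_mul', Complex.re_ofReal_mul]
  norm_cast

/-- the data of a simultaneous diagonalisation -/
theorem exists_eig {g A : Mat n} (hg : g.PosDef) (hA : A.IsHermitian) :
    ∃ d : Fin n → ℝ, trg g A = ∑ i, d i ∧ nrm g A = ∑ i, d i ^ 2 ∧
      (∀ v, ∃ y : Fin n → ℝ, (∀ i, 0 ≤ y i) ∧ nq A v = ∑ i, d i * y i ∧ nq g v = ∑ i, y i) ∧
      ∀ i, ∃ v, nq A v = d i ∧ nq g v = 1 := by
  obtain ⟨T, d, h1, h2, h3⟩ := exists_diag hg hA
  refine ⟨d, ?_, ?_, fun v => ?_, fun i => ?_⟩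
  · rw [trg, trg_frame h2, h3, trace_diagonal, Complex.re_sum]
    simp
  · rw [nrm, nrm_frame h2, h3, diagonal_mul_diagonal, trace_diagonal, Complex.re_sum]
    refine Finset.sum_congr rfl fun i _ => ?_
    simp [sq]
  · obtain ⟨y, hy⟩ := nq_frame h1 v
    refine ⟨fun i => ‖y i‖ ^ 2, fun i => by positivity, ?_, ?_⟩
    · rw [hy, h3, diag_form]
    · rw [hy, h1]
      have := diag_form (fun _ => (1 : ℝ)) y
      simpa using this
  · have key : ∀ B : Mat n, nq B (WithLp.toLp 2 fun a => conj (T a i)) = ((Tᴴ * B * T) i i).re := by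
      intro B
      unfold nq
      congr 1
      simp only [mul_apply, conjTranspose_apply, RCLike.star_def, Complex.conj_conj,
        Finset.sum_mul]
      rw [Finset.sum_comm]
      refine Finset.sum_congr rfl fun a _ => Finset.sum_congr rfl fun b _ => ?_
      ring
    refine ⟨WithLp.toLp 2 fun a => conj (T a i), ?_, ?_⟩
    · rw [key, h3]; simp
    · rw [key, h1]; simp

theorem trg_add (g A B : Mat n) : trg g (A + B) = trg g A + trg g B := by
  simp only [trg, mul_add, trace_add, Complex.add_re]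

theorem trg_neg (g A : Mat n) : trg g (-A) = -trg g A := by
  simp only [trg, mul_neg, trace_neg, Complex.neg_re]

theorem trg_sub (g A B : Mat n) : trg g (A - B) = trg g A - trg g B := by
  simp only [trg, mul_sub, trace_sub, Complex.sub_re]

theorem trg_smul (g A : Mat n) (c : ℝ) : trg g ((c : ℂ) • A) = c * trg g A := by
  simp only [trg, Matrix.mul_smul, trace_smul, smul_eq_mul, Complex.re_ofReal_mul]

theorem trg_self {g : Mat n} (hg : g.PosDef) : trg g g = n := by
  have hu : IsUnit g.det := (isUnit_iff_isUnit_det g).1 hg.isUnit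
  simp [trg, nonsing_inv_mul _ hu]


theorem nrm_nonneg {g A : Mat n} (hg : g.PosDef) (hA : A.IsHermitian) : 0 ≤ nrm g A := by
  obtain ⟨d, -, h2, -, -⟩ := exists_eig hg hA
  rw [h2]
  exact Finset.sum_nonneg fun i _ => sq_nonneg _

/-- `(tr_g A)² ≤ n |A|²` -/
theorem sq_le_nrm {g A : Mat n} (hg : g.PosDef) (hA : A.IsHermitian) :
    trg g A ^ 2 ≤ n * nrm g A := by
  obtain ⟨d, h1, h2, -, -⟩ := exists_eig hg hA
  rw [h1, h2]
  simpa using sq_sum_le_card_mul_sum_sq (s := Finset.univ) (f := d)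

/-- a lower bound for `A` gives a lower bound for the trace -/
theorem trg_lower {g A : Mat n} (hg : g.PosDef) (hA : A.IsHermitian) {b : ℝ}
    (h : ∀ v, 0 ≤ nq A v + b * nq g v) : 0 ≤ trg g A + n * b := by
  obtain ⟨d, h1, -, -, h4⟩ := exists_eig hg hA
  have hd : ∀ i, 0 ≤ d i + b := fun i => by
    obtain ⟨v, hv1, hv2⟩ := h4 i
    have := h v
    rwa [hv1, hv2, mul_one] at this
  have : trg g A + n * b = ∑ i, (d i + b) := by
    rw [h1, Finset.sum_add_distrib]; simp
  rw [this]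
  exact Finset.sum_nonneg fun i _ => hd i

/-- an upper bound for `A` gives an upper bound for the trace -/
theorem trg_upper {g A : Mat n} (hg : g.PosDef) (hA : A.IsHermitian) {b : ℝ}
    (h : ∀ v, nq A v ≤ b * nq g v) : trg g A ≤ n * b := by
  have := trg_lower hg hA.neg (b := b) fun v => by rw [nq_neg]; linarith [h v]
  rw [trg_neg] at this
  linarith

/-- `A + b g ≥ 0 → A + b g ≤ (tr_g A + n b) g` -/
theorem nq_le_trg {g A : Mat n} (hg : g.PosDef) (hA : A.IsHermitian) {b : ℝ}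
    (h : ∀ v, 0 ≤ nq A v + b * nq g v) (v : Cn n) :
    nq A v + b * nq g v ≤ (trg g A + n * b) * nq g v := by
  obtain ⟨d, h1, -, h3, h4⟩ := exists_eig hg hA
  have hd : ∀ i, 0 ≤ d i + b := fun i => by
    obtain ⟨v, hv1, hv2⟩ := h4 i
    have := h v
    rwa [hv1, hv2, mul_one] at this
  have e : trg g A + n * b = ∑ i, (d i + b) := by
    rw [h1, Finset.sum_add_distrib]; simp
  obtain ⟨y, hy0, hy1, hy2⟩ := h3 v
  rw [e, hy1, hy2, Finset.mul_sum, ← Finset.sum_add_distrib, Finset.mul_sum]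
  refine Finset.sum_le_sum fun i _ => ?_
  have : d i + b ≤ ∑ j, (d j + b) :=
    Finset.single_le_sum (f := fun j => d j + b) (fun j _ => hd j) (Finset.mem_univ i)
  nlinarith [hy0 i]

/-- `A + b g ≥ 0 → |A|² ≤ (tr_g A + n b)² + n b²` -/
theorem nrm_le_of_lower {g A : Mat n} (hg : g.PosDef) (hA : A.IsHermitian) {b : ℝ} (hb : 0 ≤ b)
    (h : ∀ v, 0 ≤ nq A v + b * nq g v) : nrm g A ≤ (trg g A + n * b) ^ 2 + n * b ^ 2 := by
  obtain ⟨d, h1, h2, -, h4⟩ := exists_eig hg hA
  have hd : ∀ i, 0 ≤ d i + b := fun i => by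
    obtain ⟨v, hv1, hv2⟩ := h4 i
    have := h v
    rwa [hv1, hv2, mul_one] at this
  have e : trg g A + n * b = ∑ i, (d i + b) := by
    rw [h1, Finset.sum_add_distrib]; simp
  have h5 : ∑ i, (d i + b) ^ 2 ≤ (∑ i, (d i + b)) ^ 2 := by
    rw [sq, Finset.sum_mul]
    refine Finset.sum_le_sum fun i _ => ?_
    have : d i + b ≤ ∑ j, (d j + b) :=
      Finset.single_le_sum (f := fun j => d j + b) (fun j _ => hd j) (Finset.mem_univ i)
    nlinarith [hd i]
  have h6 : ∑ i, d i ^ 2 ≤ ∑ i, ((d i + b) ^ 2 + b ^ 2) :=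
    Finset.sum_le_sum fun i _ => by nlinarith [hd i]
  rw [Finset.sum_add_distrib] at h6
  simp only [Finset.sum_const, Finset.card_univ, Fintype.card_fin, nsmul_eq_mul] at h6
  rw [e, h2]
  linarith



end

end Crest.Agent.T223.Ev
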