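import Crest.Agent.T223.Fr_38
import Crest.Agent.T223.TrPb_90

/-!
# Row 223, base API of the frame, part A (helper38): invariance of the chart calculus

`HolAt T z` : `T` holomorphic near `z`;  `pbk T g w = (jac T w)ᵀ g (T w) conj (jac T w)`;
`Rel T z g1 g2` : `T` is a local biholomorphism at `z` and `g1 = pbk T g2` near `z`.
All quantities of `Fr_38` §1 transform tensorially: `Rel.kahAt`, `Rel.ldet`, `Rel.ric`, `Rel.scal`,
`Rel.lap`, `Rel.gsq`, `Rel.Rm`, `Rel.bis`, `Rel.bkge`, `Rel.bkle`, `Rel.nabRic`.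
-/

set_option autoImplicit false
set_option linter.unusedVariables false

open Set Filter Topology Metric
open scoped ContDiff ComplexConjugate Matrix ComplexOrder

namespace Crest.Agent.T223

open Crest.Agent.R275.Geo Crest.Agent.R275.EDR890 Crest.Agent.R273.Kah_333
open Crest.Agent.R273.Hess_333 Crest.Agent.R273.HessB_333
open Crest.Agent.T223.Br Crest.Agent.T223.Tr

noncomputable section

variable {n : ℕ}

/-! ### entrywise calculus -/

/-- smooth entries at `z` -/
def SmM (g : Cn n → Mat n) (z : Cn n) : Prop := ∀ a b, ContDiffAt ℝ ∞ (fun w => g w a b) z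

theorem SmM.diff {g : Cn n → Mat n} {z : Cn n} (h : SmM g z) (a b : Fin n) :
    DifferentiableAt ℝ (fun w => g w a b) z := (h a b).differentiableAt (by simp)

theorem SmM.mul {g h : Cn n → Mat n} {z : Cn n} (hg : SmM g z) (hh : SmM h z) :
    SmM (fun w => g w * h w) z := by
  intro a b
  simp only [Matrix.mul_apply]
  exact ContDiffAt.sum fun c _ => (hg a c).mul (hh c b)

theorem SmM.add {g h : Cn n → Mat n} {z : Cn n} (hg : SmM g z) (hh : SmM h z) :
    SmM (fun w => g w + h w) z := fun a b => (hg a b).add (hh a b)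

theorem SmM.sub {g h : Cn n → Mat n} {z : Cn n} (hg : SmM g z) (hh : SmM h z) :
    SmM (fun w => g w - h w) z := fun a b => (hg a b).sub (hh a b)

theorem SmM.neg {g : Cn n → Mat n} {z : Cn n} (hg : SmM g z) :
    SmM (fun w => - g w) z := fun a b => (hg a b).neg

theorem SmM.smul {g : Cn n → Mat n} {f : Cn n → ℂ} {z : Cn n} (hf : ContDiffAt ℝ ∞ f z)
    (hg : SmM g z) : SmM (fun w => f w • g w) z := fun a b => hf.mul (hg a b)

theorem SmM.sum {ι : Type*} (S : Finset ι) {g : ι → Cn n → Mat n} {z : Cn n}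
    (hg : ∀ i ∈ S, SmM (g i) z) : SmM (fun w => ∑ i ∈ S, g i w) z := by
  intro a b
  simp only [Matrix.sum_apply]
  exact ContDiffAt.sum fun i hi => hg i hi a b

theorem SmM.wdM {g : Cn n → Mat n} {z : Cn n} (hg : SmM g z) (s : WI n) : SmM (wdM s g) z :=
  fun a b => contDiffAt_wd (hg a b) s

theorem SmM.congr {g h : Cn n → Mat n} {z : Cn n} (hg : SmM g z) (e : h =ᶠ[𝓝 z] g) : SmM h z :=
  fun a b => (hg a b).congr_of_eventuallyEq (e.mono fun w hw => by simp only [hw])

theorem SmM.det {g : Cn n → Mat n} {z : Cn n} (hg : SmM g z) :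
    ContDiffAt ℝ ∞ (fun w => (g w).det) z := by
  simp only [Matrix.det_apply']
  exact ContDiffAt.sum fun σ _ => contDiffAt_const.mul (contDiffAt_prod fun i _ => hg _ _)

theorem SmM.inv {g : Cn n → Mat n} {z : Cn n} (hg : SmM g z) (h0 : (g z).det ≠ 0) :
    SmM (fun w => (g w)⁻¹) z := by
  intro a b
  simp only [Matrix.inv_def, Matrix.smul_apply, smul_eq_mul, Ring.inverse_eq_inv',
    Matrix.adjugate_apply]
  refine (hg.det.inv h0).mul (SmM.det (g := fun w => (g w).updateRow b (Pi.single a 1)) ?_)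
  intro c d
  simp only [Matrix.updateRow_apply]
  split_ifs
  · exact contDiffAt_const
  · exact hg c d

theorem smM_hess {u : Cn n → ℝ} {z : Cn n} (hu : ContDiffAt ℝ ∞ u z) : SmM (hess u) z :=
  fun a b => contDiffAt_hess hu a b

theorem wdM_congr {g h : Cn n → Mat n} {z : Cn n} (e : g =ᶠ[𝓝 z] h) (s : WI n) :
    wdM s g z = wdM s h z := by
  ext a b
  exact wd_congr (e.mono fun w hw => by simp only [hw]) s

theorem wdM_congr' {g h : Cn n → Mat n} {z : Cn n} (e : g =ᶠ[𝓝 z] h) (s : WI n) :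
    wdM s g =ᶠ[𝓝 z] wdM s h := e.eventually_nhds.mono fun _ hw => wdM_congr hw s

theorem wdM_mul {g h : Cn n → Mat n} {z : Cn n} (hg : SmM g z) (hh : SmM h z) (s : WI n) :
    wdM s (fun w => g w * h w) z = wdM s g z * h z + g z * wdM s h z := by
  ext a b
  simp only [wdM, Matrix.of_apply, Matrix.mul_apply, Matrix.add_apply]
  rw [wd_sum Finset.univ (fun c _ => (hg.diff a c).fun_mul (hh.diff c b)), ← Finset.sum_add_distrib]
  exact Finset.sum_congr rfl fun c _ => wd_mul (hg.diff a c) (hh.diff c b) s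

theorem wdM_add {g h : Cn n → Mat n} {z : Cn n} (hg : SmM g z) (hh : SmM h z) (s : WI n) :
    wdM s (fun w => g w + h w) z = wdM s g z + wdM s h z := by
  ext a b
  exact wd_add (hg.diff a b) (hh.diff a b) s

theorem wdM_smul {g : Cn n → Mat n} {f : Cn n → ℂ} {z : Cn n} (hf : DifferentiableAt ℝ f z)
    (hg : SmM g z) (s : WI n) :
    wdM s (fun w => f w • g w) z = wd s f z • g z + f z • wdM s g z := by
  ext a b
  exact wd_mul hf (hg.diff a b) s

theorem wdM_const_smul {g : Cn n → Mat n} (c : ℂ) {z : Cn n} (hg : SmM g z) (s : WI n) :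
    wdM s (fun w => c • g w) z = c • wdM s g z := by
  rw [wdM_smul (differentiableAt_const c) hg, wd_const, zero_smul, zero_add]



theorem wdM_sum {ι : Type*} (S : Finset ι) {g : ι → Cn n → Mat n} {z : Cn n}
    (hg : ∀ i ∈ S, SmM (g i) z) (s : WI n) :
    wdM s (fun w => ∑ i ∈ S, g i w) z = ∑ i ∈ S, wdM s (g i) z := by
  ext a b
  simp only [wdM, Matrix.of_apply, Matrix.sum_apply]
  exact wd_sum S (fun i hi => (hg i hi).diff a b) s

theorem wdM_const (c : Mat n) (z : Cn n) (s : WI n) : wdM s (fun _ => c) z = 0 := by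
  ext a b
  exact wd_const _ _ _

theorem wdM_comm {g : Cn n → Mat n} {z : Cn n} (hg : SmM g z) (r s : WI n) :
    wdM r (wdM s g) z = wdM s (wdM r g) z := by
  ext a b
  exact wd_comm (hg a b) r s

theorem wdM_comp {g : Cn n → Mat n} {T : Cn n → Cn n} {z : Cn n} (hg : SmM g (T z))
    (hT : DifferentiableAt ℂ T z) (s : WI n) :
    wdM s (fun w => g (T w)) z = ∑ b, cj s.1 (jac T z b s.2) • wdM (s.1, b) g (T z) := by
  ext a c
  simp only [wdM, Matrix.of_apply, Matrix.sum_apply, Matrix.smul_apply]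
  exact wd_comp (f := fun w => g w a c) (hg.diff a c) hT s

/-! ### holomorphic maps -/

/-- `T` is holomorphic near `z` -/
def HolAt (T : Cn n → Cn n) (z : Cn n) : Prop := ∀ᶠ w in 𝓝 z, DifferentiableAt ℂ T w

theorem HolAt.eventually {T : Cn n → Cn n} {z : Cn n} (h : HolAt T z) : ∀ᶠ w in 𝓝 z, HolAt T w :=
  h.eventually_nhds

theorem HolAt.diff {T : Cn n → Cn n} {z : Cn n} (h : HolAt T z) : DifferentiableAt ℂ T z :=
  h.self_of_nhds

theorem HolAt.omega {T : Cn n → Cn n} {z : Cn n} (h : HolAt T z) : ContDiffAt ℂ ω T z :=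
  contDiffAt_of_eventually h

theorem HolAt.cd {T : Cn n → Cn n} {z : Cn n} (h : HolAt T z) : ContDiffAt ℝ ∞ T z :=
  (h.omega.restrict_scalars ℝ).of_le le_top

theorem HolAt.tendsto {T : Cn n → Cn n} {z : Cn n} (h : HolAt T z) : Tendsto T (𝓝 z) (𝓝 (T z)) :=
  h.diff.continuousAt

theorem HolAt.jac_omega {T : Cn n → Cn n} {z : Cn n} (h : HolAt T z) (b a : Fin n) :
    ContDiffAt ℂ ω (fun w => jac T w b a) z := by
  have h1 : ContDiffAt ℂ ω (fderiv ℂ T) z := h.omega.fderiv_right (by simp)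
  have h2 : ContDiffAt ℂ ω (fun w => fderiv ℂ T w (EuclideanSpace.single a 1)) z :=
    h1.clm_apply contDiffAt_const
  exact (EuclideanSpace.proj b : Cn n →L[ℂ] ℂ).contDiff.contDiffAt.comp z h2

theorem HolAt.jac_diff {T : Cn n → Cn n} {z : Cn n} (h : HolAt T z) (b a : Fin n) :
    DifferentiableAt ℂ (fun w => jac T w b a) z := (h.jac_omega b a).differentiableAt (by simp)

theorem HolAt.jac_cd {T : Cn n → Cn n} {z : Cn n} (h : HolAt T z) (b a : Fin n) :
    ContDiffAt ℝ ∞ (fun w => jac T w b a) z := ((h.jac_omega b a).restrict_scalars ℝ).of_le le_top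

theorem HolAt.jacc_cd {T : Cn n → Cn n} {z : Cn n} (h : HolAt T z) (b a : Fin n) :
    ContDiffAt ℝ ∞ (fun w => conj (jac T w b a)) z :=
  (Complex.conjCLE : ℂ →L[ℝ] ℂ).contDiff.contDiffAt.comp z (h.jac_cd b a)

theorem HolAt.smP {T : Cn n → Cn n} {z : Cn n} (h : HolAt T z) : SmM (fun w => (jac T w)ᵀ) z :=
  fun a b => h.jac_cd b a

theorem HolAt.smQ {T : Cn n → Cn n} {z : Cn n} (h : HolAt T z) :
    SmM (fun w => (jac T w).map conj) z := fun a b => h.jacc_cd a b

theorem HolAt.wd_jac {T : Cn n → Cn n} {z : Cn n} (h : HolAt T z) (b a d : Fin n) :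
    wd (true, d) (fun w => jac T w b a) z = 0 := wd_hol (h.jac_diff b a) d

theorem HolAt.wd_jacc {T : Cn n → Cn n} {z : Cn n} (h : HolAt T z) (b a c : Fin n) :
    wd (false, c) (fun w => conj (jac T w b a)) z = 0 := by
  have h1 := conj_wd (true, c) ((h.jac_cd b a).differentiableAt (by simp))
  rw [h.wd_jac, map_zero] at h1
  exact h1.symm

theorem HolAt.dbP {T : Cn n → Cn n} {z : Cn n} (h : HolAt T z) (d : Fin n) :
    wdM (true, d) (fun w => (jac T w)ᵀ) z = 0 := by
  ext a b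
  exact h.wd_jac b a d

theorem HolAt.dQ {T : Cn n → Cn n} {z : Cn n} (h : HolAt T z) (c : Fin n) :
    wdM (false, c) (fun w => (jac T w).map conj) z = 0 := by
  ext a b
  exact h.wd_jacc a b c

theorem jac_eq_wd {T : Cn n → Cn n} {z : Cn n} (h : DifferentiableAt ℂ T z) (b a : Fin n) :
    jac T z b a = wd (false, a) (fun w => T w b) z := by
  have h1 : DifferentiableAt ℂ (fun w => T w b) z :=
    (EuclideanSpace.proj b : Cn n →L[ℂ] ℂ).differentiableAt.comp z h
  rw [wd_hol' h1]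
  have h2 : fderiv ℂ (fun w => T w b) z = (EuclideanSpace.proj b : Cn n →L[ℂ] ℂ).comp
      (fderiv ℂ T z) :=
    ((EuclideanSpace.proj b : Cn n →L[ℂ] ℂ).hasFDerivAt.comp z h.hasFDerivAt).fderiv
  rw [h2]
  rfl

theorem HolAt.jac_symm {T : Cn n → Cn n} {z : Cn n} (h : HolAt T z) (b a c : Fin n) :
    wd (false, c) (fun w => jac T w b a) z = wd (false, a) (fun w => jac T w b c) z := by
  have h1 : ∀ a, (fun w => jac T w b a) =ᶠ[𝓝 z] wd (false, a) (fun w => T w b) := fun a =>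
    Eventually.mono h fun w hw => jac_eq_wd hw b a
  rw [wd_congr (h1 a), wd_congr (h1 c)]
  exact wd_comm ((EuclideanSpace.proj b : Cn n →L[ℂ] ℂ).restrictScalars ℝ
    |>.contDiff.contDiffAt.comp z h.cd) _ _

theorem HolAt.jacc_symm {T : Cn n → Cn n} {z : Cn n} (h : HolAt T z) (b a c : Fin n) :
    wd (true, c) (fun w => conj (jac T w b a)) z = wd (true, a) (fun w => conj (jac T w b c)) z := by
  have h1 := conj_wd (false, c) ((h.jac_cd b a).differentiableAt (by simp))
  have h2 := conj_wd (false, a) ((h.jac_cd b c).differentiableAt (by simp))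
  rw [h.jac_symm] at h1
  exact h1.symm.trans h2

/-! ### pull-back of matrix fields -/

/-- pull-back of a field of `(1,1)`-tensors -/
def pbk (T : Cn n → Cn n) (g : Cn n → Mat n) (w : Cn n) : Mat n :=
  (jac T w)ᵀ * g (T w) * (jac T w).map conj

theorem SmM.comp {g : Cn n → Mat n} {T : Cn n → Cn n} {z : Cn n} (hg : SmM g (T z))
    (hT : HolAt T z) : SmM (fun w => g (T w)) z := fun a b => (hg a b).comp z hT.cd

theorem SmM.pbk {g : Cn n → Mat n} {T : Cn n → Cn n} {z : Cn n} (hg : SmM g (T z))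
    (hT : HolAt T z) : SmM (pbk T g) z := (hT.smP.mul (hg.comp hT)).mul hT.smQ

theorem hC_pull (L : Cn n →L[ℂ] Cn n) (g : Mat n) (v : Cn n) :
    hC ((mat L)ᵀ * g * (mat L).map conj) v = hC g (L v) := by
  unfold hC
  simp only [Tr.apply_eq_sum L v, Matrix.mul_apply, Matrix.transpose_apply, Matrix.map_apply,
    map_sum, map_mul, Finset.sum_mul, Finset.mul_sum]
  have h : ∀ F : Fin n → Fin n → Fin n → Fin n → ℂ,
      ∑ a, ∑ b, ∑ c, ∑ d, F a b c d = ∑ d, ∑ c, ∑ b, ∑ a, F a b c d := by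
    intro F
    calc ∑ a, ∑ b, ∑ c, ∑ d, F a b c d = ∑ a, ∑ b, ∑ d, ∑ c, F a b c d := by
          refine Finset.sum_congr rfl fun a _ => Finset.sum_congr rfl fun b _ => Finset.sum_comm
      _ = ∑ a, ∑ d, ∑ b, ∑ c, F a b c d := Finset.sum_congr rfl fun a _ => Finset.sum_comm
      _ = ∑ d, ∑ a, ∑ b, ∑ c, F a b c d := Finset.sum_comm
      _ = ∑ d, ∑ a, ∑ c, ∑ b, F a b c d :=
          Finset.sum_congr rfl fun d _ => Finset.sum_congr rfl fun a _ => Finset.sum_comm
      _ = ∑ d, ∑ c, ∑ a, ∑ b, F a b c d := Finset.sum_congr rfl fun d _ => Finset.sum_comm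
      _ = ∑ d, ∑ c, ∑ b, ∑ a, F a b c d :=
          Finset.sum_congr rfl fun d _ => Finset.sum_congr rfl fun c _ => Finset.sum_comm
  rw [h]
  refine Finset.sum_congr rfl fun a _ => Finset.sum_congr rfl fun b _ =>
    Finset.sum_congr rfl fun c _ => Finset.sum_congr rfl fun d _ => ?_
  ring

theorem hC_pbk (T : Cn n → Cn n) (g : Cn n → Mat n) (z v : Cn n) :
    hC (pbk T g z) v = hC (g (T z)) (fderiv ℂ T z v) := hC_pull _ _ _

theorem nq_pbk (T : Cn n → Cn n) (g : Cn n → Mat n) (z v : Cn n) :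
    nq (pbk T g z) v = nq (g (T z)) (fderiv ℂ T z v) := nq_pull _ _ _

theorem hess_pbk {u : Cn n → ℝ} {T : Cn n → Cn n} {z : Cn n} (hu : ContDiffAt ℝ ∞ u (T z))
    (hT : HolAt T z) : hess (fun w => u (T w)) z = pbk T (hess u) z := by
  ext a b
  rw [hess_comp hu hT]
  simp only [pbk, Matrix.mul_apply, Matrix.transpose_apply, Matrix.map_apply, Finset.sum_mul, jac,
    Matrix.of_apply]
  exact Finset.sum_comm

theorem d_pbk {g : Cn n → Mat n} {T : Cn n → Cn n} {z : Cn n} (hg : SmM g (T z))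
    (hT : HolAt T z) (c : Fin n) : wdM (false, c) (pbk T g) z =
      (wdM (false, c) (fun w => (jac T w)ᵀ) z * g (T z)
        + (jac T z)ᵀ * wdM (false, c) (fun w => g (T w)) z) * (jac T z).map conj := by
  unfold pbk
  rw [wdM_mul (hT.smP.mul (hg.comp hT)) hT.smQ, hT.dQ, wdM_mul hT.smP (hg.comp hT),
    Matrix.mul_zero, add_zero]

theorem db_pbk {g : Cn n → Mat n} {T : Cn n → Cn n} {z : Cn n} (hg : SmM g (T z))
    (hT : HolAt T z) (d : Fin n) : wdM (true, d) (pbk T g) z =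
      (jac T z)ᵀ * (wdM (true, d) (fun w => g (T w)) z * (jac T z).map conj
        + g (T z) * wdM (true, d) (fun w => (jac T w).map conj) z) := by
  unfold pbk
  simp only [Matrix.mul_assoc]
  rw [wdM_mul hT.smP ((hg.comp hT).mul hT.smQ), hT.dbP, wdM_mul (hg.comp hT) hT.smQ,
    Matrix.zero_mul, zero_add]

theorem posDef_pull {J g : Mat n} (hJ : J.det ≠ 0) (hg : g.PosDef) :
    (Jᵀ * g * J.map conj).PosDef := by
  have h1 : Jᵀ = (J.map conj)ᴴ := by ext a b; simp
  rw [h1]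
  refine hg.conjTranspose_mul_mul_same ?_
  refine Matrix.mulVec_injective_iff_isUnit.2 ((Matrix.isUnit_iff_isUnit_det _).2 ?_)
  have h2 : (J.map conj).det = conj J.det := (RingHom.map_det (starRingEnd ℂ) J).symm
  rw [h2]
  exact isUnit_iff_ne_zero.2 (by simpa using hJ)

theorem inv_pull {J : Mat n} (g : Mat n) :
    (Jᵀ * g * J.map conj)⁻¹ = (J.map conj)⁻¹ * g⁻¹ * (Jᵀ)⁻¹ := by
  rw [Matrix.mul_inv_rev, Matrix.mul_inv_rev, Matrix.mul_assoc]

theorem unitP {J : Mat n} (hJ : J.det ≠ 0) : IsUnit (Jᵀ).det := by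
  rw [Matrix.det_transpose]; exact isUnit_iff_ne_zero.2 hJ

theorem unitQ {J : Mat n} (hJ : J.det ≠ 0) : IsUnit (J.map conj).det := by
  have h2 : (J.map conj).det = conj J.det := (RingHom.map_det (starRingEnd ℂ) J).symm
  rw [h2]
  exact isUnit_iff_ne_zero.2 (by simpa using hJ)

theorem mid_pull {J : Mat n} (hJ : J.det ≠ 0) (g X Y : Mat n) :
    X * J.map conj * (Jᵀ * g * J.map conj)⁻¹ * (Jᵀ * Y) = X * g⁻¹ * Y := by
  rw [inv_pull]
  calc X * J.map conj * ((J.map conj)⁻¹ * g⁻¹ * (Jᵀ)⁻¹) * (Jᵀ * Y)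
      = X * (J.map conj * (J.map conj)⁻¹) * g⁻¹ * ((Jᵀ)⁻¹ * Jᵀ) * Y := by
        simp only [Matrix.mul_assoc]
    _ = X * g⁻¹ * Y := by
        rw [Matrix.mul_nonsing_inv _ (unitQ hJ), Matrix.nonsing_inv_mul _ (unitP hJ),
          Matrix.mul_one, Matrix.mul_one]

theorem trg_pull {J : Mat n} (hJ : J.det ≠ 0) (g H : Mat n) :
    trg (Jᵀ * g * J.map conj) (Jᵀ * H * J.map conj) = trg g H := by
  unfold trg
  congr 1
  rw [← Matrix.mul_assoc, Matrix.trace_mul_comm, ← Matrix.mul_assoc]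
  have h := mid_pull hJ g 1 H
  rw [Matrix.one_mul, Matrix.one_mul] at h
  rw [h]

theorem nqi_eq_trg (G : Mat n) (ξ : Cn n) :
    nqi G ξ = trg G (Matrix.of fun a b => ξ a * conj (ξ b)) := by
  unfold nqi trg
  congr 1
  simp only [Matrix.trace, Matrix.diag_apply, Matrix.mul_apply, Matrix.of_apply, mul_assoc]
  exact Finset.sum_comm

theorem dz_comp {u : Cn n → ℝ} {T : Cn n → Cn n} {z : Cn n} (hu : DifferentiableAt ℝ u (T z))
    (hT : DifferentiableAt ℂ T z) (a : Fin n) :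
    dz (fun w => u (T w)) z a = ∑ b, jac T z b a * dz u (T z) b :=
  wd_comp (f := cu u) (Complex.ofRealCLM.differentiableAt.comp _ hu) hT (false, a)

theorem nqi_pull {J : Mat n} (hJ : J.det ≠ 0) (g : Mat n) {ξ η : Cn n}
    (h : ∀ a, η a = ∑ b, J b a * ξ b) : nqi (Jᵀ * g * J.map conj) η = nqi g ξ := by
  rw [nqi_eq_trg, nqi_eq_trg, ← trg_pull hJ g]
  congr 1
  ext a b
  simp only [Matrix.of_apply, h, Matrix.mul_apply, Matrix.transpose_apply, Matrix.map_apply,
    map_sum, map_mul, Finset.sum_mul, Finset.mul_sum]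
  refine Finset.sum_congr rfl fun c _ => Finset.sum_congr rfl fun d _ => ?_
  ring

theorem bis_eq (g : Cn n → Mat n) (z v w : Cn n) :
    bis g z v w = (∑ c, ∑ d, hC (Rm g z c d) v * w c * conj (w d)).re := by
  unfold bis hC
  congr 1
  simp only [Finset.sum_mul]
  calc ∑ a, ∑ b, ∑ c, ∑ d, Rm g z c d a b * v a * conj (v b) * w c * conj (w d)
      = ∑ a, ∑ c, ∑ b, ∑ d, Rm g z c d a b * v a * conj (v b) * w c * conj (w d) :=
        Finset.sum_congr rfl fun a _ => Finset.sum_comm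
    _ = ∑ c, ∑ a, ∑ b, ∑ d, Rm g z c d a b * v a * conj (v b) * w c * conj (w d) :=
        Finset.sum_comm
    _ = ∑ c, ∑ a, ∑ d, ∑ b, Rm g z c d a b * v a * conj (v b) * w c * conj (w d) :=
        Finset.sum_congr rfl fun c _ => Finset.sum_congr rfl fun a _ => Finset.sum_comm
    _ = ∑ c, ∑ d, ∑ a, ∑ b, Rm g z c d a b * v a * conj (v b) * w c * conj (w d) :=
        Finset.sum_congr rfl fun c _ => Finset.sum_comm

theorem hC_sum {ι : Type*} (S : Finset ι) (H : ι → Mat n) (v : Cn n) :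
    hC (∑ i ∈ S, H i) v = ∑ i ∈ S, hC (H i) v := by
  unfold hC
  simp only [Matrix.sum_apply, Finset.sum_mul]
  calc ∑ a, ∑ b, ∑ i ∈ S, H i a b * v a * conj (v b)
      = ∑ a, ∑ i ∈ S, ∑ b, H i a b * v a * conj (v b) :=
        Finset.sum_congr rfl fun a _ => Finset.sum_comm
    _ = _ := Finset.sum_comm

theorem hC_smul (c : ℂ) (H : Mat n) (v : Cn n) : hC (c • H) v = c * hC H v := by
  unfold hC
  simp only [Matrix.smul_apply, smul_eq_mul, Finset.mul_sum, mul_assoc]


theorem nq_eq_re (H : Mat n) (v : Cn n) : nq H v = (hC H v).re := rfl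

/-! ### curvature -/

theorem Rm_congr {g h : Cn n → Mat n} {z : Cn n} (e : g =ᶠ[𝓝 z] h) (c d : Fin n) :
    Rm g z c d = Rm h z c d := by
  unfold Rm
  rw [wdM_congr (wdM_congr' e _), wdM_congr e, wdM_congr e, e.self_of_nhds]

theorem Rm_comp {g : Cn n → Mat n} {T : Cn n → Cn n} {z : Cn n}
    (hg : ∀ᶠ y in 𝓝 (T z), SmM g y) (hT : HolAt T z) (c d : Fin n) :
    Rm (fun w => g (T w)) z c d =
      ∑ k, ∑ l, (jac T z k c * conj (jac T z l d)) • Rm g (T z) k l := by
  have hg0 := hg.self_of_nhds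
  have h1 : wdM (true, d) (fun w => g (T w)) =ᶠ[𝓝 z]
      fun w => ∑ l, conj (jac T w l d) • wdM (true, l) g (T w) := by
    filter_upwards [hT.tendsto.eventually hg, hT] with w hw hw'
    exact wdM_comp hw hw' (true, d)
  have h2 : wdM (false, c) (wdM (true, d) (fun w => g (T w))) z =
      ∑ k, ∑ l, (jac T z k c * conj (jac T z l d)) •
        wdM (false, k) (wdM (true, l) g) (T z) := by
    rw [wdM_congr h1, wdM_sum _ fun l _ =>
      SmM.smul (hT.jacc_cd l d) ((hg0.wdM (true, l)).comp hT), Finset.sum_comm]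
    refine Finset.sum_congr rfl fun l _ => ?_
    rw [wdM_smul ((hT.jacc_cd l d).differentiableAt (by simp)) ((hg0.wdM (true, l)).comp hT),
      hT.wd_jacc, zero_smul, zero_add, wdM_comp (hg0.wdM (true, l)) hT.diff, Finset.smul_sum]
    refine Finset.sum_congr rfl fun k _ => ?_
    rw [smul_smul, mul_comm]
    rfl
  unfold Rm
  rw [h2, wdM_comp hg0 hT.diff, wdM_comp hg0 hT.diff]
  simp only [Finset.sum_mul, Finset.mul_sum, smul_add, Finset.sum_add_distrib, smul_neg,
    Finset.sum_neg_distrib, Matrix.smul_mul, Matrix.mul_smul, smul_smul, cj_true, cj_false]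
  congr 1
  rw [Finset.sum_comm]
  refine Finset.sum_congr rfl fun k _ => Finset.sum_congr rfl fun l _ => ?_
  rw [mul_comm]

theorem Rm_pbk {g : Cn n → Mat n} {T : Cn n → Cn n} {z : Cn n}
    (hg : ∀ᶠ y in 𝓝 (T z), SmM g y) (h0 : (g (T z)).det ≠ 0) (hT : HolAt T z)
    (hJ : (jac T z).det ≠ 0) (c d : Fin n) :
    Rm (pbk T g) z c d = (jac T z)ᵀ * Rm (fun w => g (T w)) z c d * (jac T z).map conj := by
  have hg0 := hg.self_of_nhds
  have hh : SmM (fun w => g (T w)) z := hg0.comp hT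
  have h1 : wdM (true, d) (pbk T g) =ᶠ[𝓝 z] fun w =>
      (jac T w)ᵀ * (wdM (true, d) (fun w => g (T w)) w * (jac T w).map conj
        + g (T w) * wdM (true, d) (fun w => (jac T w).map conj) w) := by
    filter_upwards [hT.tendsto.eventually hg, hT.eventually] with w hw hw'
    exact db_pbk hw hw' d
  have h2 : wdM (false, c) (wdM (true, d) (fun w => (jac T w).map conj)) z = 0 := by
    rw [wdM_comm hT.smQ]
    have h3 : wdM (false, c) (fun w => (jac T w).map conj) =ᶠ[𝓝 z] fun _ => 0 :=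
      hT.eventually.mono fun w hw => hw.dQ c
    rw [wdM_congr h3, wdM_const]
  have hu : IsUnit (g (T z)).det := isUnit_iff_ne_zero.2 h0
  unfold Rm
  rw [wdM_congr h1, wdM_mul hT.smP (((hh.wdM _).mul hT.smQ).add (hh.mul (hT.smQ.wdM _))),
    wdM_add ((hh.wdM _).mul hT.smQ) (hh.mul (hT.smQ.wdM _)), wdM_mul (hh.wdM _) hT.smQ,
    wdM_mul hh (hT.smQ.wdM _), h2, hT.dQ, d_pbk hg0 hT, db_pbk hg0 hT]
  unfold pbk
  rw [mid_pull hJ]
  simp only [Matrix.mul_add, Matrix.add_mul, Matrix.mul_assoc, Matrix.mul_zero, add_zero,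
    Matrix.mul_nonsing_inv_cancel_left _ _ hu, Matrix.nonsing_inv_mul_cancel_left _ _ hu,
    Matrix.mul_neg, Matrix.neg_mul]
  abel

theorem sum_pull (L : Cn n →L[ℂ] Cn n) (F : Fin n → Fin n → ℂ) (w : Cn n) :
    ∑ c, ∑ d, (∑ k, ∑ l, mat L k c * conj (mat L l d) * F k l) * w c * conj (w d) =
      ∑ k, ∑ l, F k l * L w k * conj (L w l) := by
  have h := hC_pull L (Matrix.of F) w
  unfold hC at h
  simp only [Matrix.of_apply] at h
  rw [← h]
  refine Finset.sum_congr rfl fun c _ => Finset.sum_congr rfl fun d _ => ?_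
  congr 2
  simp only [Matrix.mul_apply, Matrix.transpose_apply, Matrix.map_apply, Matrix.of_apply,
    Finset.sum_mul]
  rw [Finset.sum_comm]
  refine Finset.sum_congr rfl fun k _ => Finset.sum_congr rfl fun l _ => ?_
  ring

theorem closed_pbk {g : Cn n → Mat n} {T : Cn n → Cn n} {z : Cn n} (hg : SmM g (T z))
    (hT : HolAt T z) (hc : ∀ a b c,
      wd (false, c) (fun y => g y a b) (T z) = wd (false, a) (fun y => g y c b) (T z))
    (a b c : Fin n) :
    wd (false, c) (fun y => pbk T g y a b) z = wd (false, a) (fun y => pbk T g y c b) z := by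
  have key : ∀ a c, wd (false, c) (fun y => pbk T g y a b) z =
      ∑ q, ((∑ p, wd (false, c) (fun w => jac T w p a) z * g (T z) p q) +
        ∑ k, ∑ p, jac T z p a * jac T z k c * wd (false, k) (fun y => g y p q) (T z)) *
          conj (jac T z q b) := by
    intro a c
    have h := congrFun (congrFun (d_pbk hg hT c) a) b
    rw [wdM_comp hg hT.diff] at h
    refine Eq.trans h ?_
    simp only [Matrix.mul_apply, Matrix.add_apply, Matrix.map_apply, Matrix.transpose_apply, wdM,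
      Matrix.of_apply, Matrix.sum_apply, Matrix.smul_apply, smul_eq_mul, cj_false, Finset.mul_sum,
      mul_assoc]
  rw [key a c, key c a]
  refine Finset.sum_congr rfl fun q _ => ?_
  congr 2
  · exact Finset.sum_congr rfl fun p _ => by rw [hT.jac_symm]
  · rw [Finset.sum_comm]
    refine Finset.sum_congr rfl fun p _ => Finset.sum_congr rfl fun k _ => ?_
    rw [hc p q k]
    ring

theorem closed_pbk' {g : Cn n → Mat n} {T : Cn n → Cn n} {z : Cn n} (hg : SmM g (T z))
    (hT : HolAt T z) (hc : ∀ a b c,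
      wd (true, c) (fun y => g y a b) (T z) = wd (true, b) (fun y => g y a c) (T z))
    (a b c : Fin n) :
    wd (true, c) (fun y => pbk T g y a b) z = wd (true, b) (fun y => pbk T g y a c) z := by
  have key : ∀ b c, wd (true, c) (fun y => pbk T g y a b) z =
      ∑ p, jac T z p a * ((∑ k, ∑ q, conj (jac T z k c) * conj (jac T z q b) *
        wd (true, k) (fun y => g y p q) (T z)) +
        ∑ q, g (T z) p q * wd (true, c) (fun w => conj (jac T w q b)) z) := by
    intro b c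
    have h := congrFun (congrFun (db_pbk hg hT c) a) b
    rw [wdM_comp hg hT.diff] at h
    refine Eq.trans h ?_
    simp only [Matrix.mul_apply, Matrix.add_apply, Matrix.map_apply, Matrix.transpose_apply, wdM,
      Matrix.of_apply, Matrix.sum_apply, Matrix.smul_apply, smul_eq_mul, cj_true, Finset.sum_mul]
    refine Finset.sum_congr rfl fun p _ => ?_
    congr 2
    refine Finset.sum_congr rfl fun q _ => Finset.sum_congr rfl fun k _ => ?_
    ring
  rw [key b c, key c b]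
  refine Finset.sum_congr rfl fun p _ => ?_
  congr 2
  · rw [Finset.sum_comm]
    refine Finset.sum_congr rfl fun q _ => Finset.sum_congr rfl fun k _ => ?_
    rw [hc p q k]
    ring
  · exact Finset.sum_congr rfl fun q _ => by rw [hT.jacc_symm]

theorem HolAt.det_ne {T : Cn n → Cn n} {z : Cn n} (hT : HolAt T z) (hJ : (jac T z).det ≠ 0) :
    ∀ᶠ w in 𝓝 z, (jac T w).det ≠ 0 :=
  (SmM.det (g := jac T) hT.jac_cd).continuousAt.eventually_ne hJ

theorem KahAt.congr {g h : Cn n → Mat n} {z : Cn n} (hg : KahAt g z) (e : h =ᶠ[𝓝 z] g) :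
    KahAt h z := by
  refine ⟨?_, ?_, ?_, ?_⟩
  · filter_upwards [hg.smE, e.eventually_nhds] with w hw he
    exact SmM.congr hw he
  · filter_upwards [hg.pos, e] with w hw he
    rw [he]; exact hw
  · filter_upwards [hg.closed, e.eventually_nhds] with w hw he a b c
    have h1 : ∀ a b, (fun y => h y a b) =ᶠ[𝓝 w] fun y => g y a b := fun a b =>
      Eventually.mono he fun y hy => by simp only [hy]
    rw [wd_congr (h1 a b), wd_congr (h1 c b)]
    exact hw a b c
  · filter_upwards [hg.closed', e.eventually_nhds] with w hw he a b c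
    have h1 : ∀ a b, (fun y => h y a b) =ᶠ[𝓝 w] fun y => g y a b := fun a b =>
      Eventually.mono he fun y hy => by simp only [hy]
    rw [wd_congr (h1 a b), wd_congr (h1 a c)]
    exact hw a b c

theorem KahAt.pbk {g : Cn n → Mat n} {T : Cn n → Cn n} {z : Cn n} (hg : KahAt g (T z))
    (hT : HolAt T z) (hJ : (jac T z).det ≠ 0) : KahAt (pbk T g) z := by
  have h1 : ∀ᶠ w in 𝓝 z, KahAt g (T w) := hT.tendsto.eventually hg.eventually
  refine ⟨?_, ?_, ?_, ?_⟩
  · filter_upwards [h1, hT.eventually] with w hw hw'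
    exact SmM.pbk hw.sm hw'
  · filter_upwards [h1, hT.det_ne hJ] with w hw hw'
    exact posDef_pull hw' hw.pos.self_of_nhds
  · filter_upwards [h1, hT.eventually] with w hw hw'
    exact closed_pbk hw.sm hw' hw.closed.self_of_nhds
  · filter_upwards [h1, hT.eventually] with w hw hw'
    exact closed_pbk' hw.sm hw' hw.closed'.self_of_nhds

theorem KahAt.posDef {g : Cn n → Mat n} {z : Cn n} (hg : KahAt g z) : (g z).PosDef :=
  hg.pos.self_of_nhds

theorem KahAt.det_ne {g : Cn n → Mat n} {z : Cn n} (hg : KahAt g z) : (g z).det ≠ 0 :=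
  hg.posDef.det_pos.ne'

theorem cd_ldet {g : Cn n → Mat n} {z : Cn n} (hg : SmM g z) (hp : (g z).PosDef) :
    ContDiffAt ℝ ∞ (ldet g) z :=
  (Complex.reCLM.contDiff.contDiffAt.comp z hg.det).log (det_re_pos hp).ne'

theorem KahAt.cd_ldet {g : Cn n → Mat n} {z : Cn n} (hg : KahAt g z) :
    ContDiffAt ℝ ∞ (ldet g) z := T223.cd_ldet hg.sm hg.posDef

theorem KahAt.smM_ric {g : Cn n → Mat n} {z : Cn n} (hg : KahAt g z) : SmM (ric g) z :=
  (smM_hess hg.cd_ldet).neg

theorem KahAt.ric_herm {g : Cn n → Mat n} {z : Cn n} (hg : KahAt g z) : (ric g z).IsHermitian :=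
  (hess_herm hg.cd_ldet).neg

theorem cd_trg {g H : Cn n → Mat n} {z : Cn n} (hg : SmM g z) (h0 : (g z).det ≠ 0)
    (hH : SmM H z) : ContDiffAt ℝ ∞ (fun w => trg (g w) (H w)) z := by
  have h := (hg.inv h0).mul hH
  unfold trg
  refine Complex.reCLM.contDiff.contDiffAt.comp z ?_
  simp only [Matrix.trace, Matrix.diag_apply]
  exact ContDiffAt.sum fun a _ => h a a

theorem KahAt.cd_scal {g : Cn n → Mat n} {z : Cn n} (hg : KahAt g z) :
    ContDiffAt ℝ ∞ (scal g) z := cd_trg hg.sm hg.det_ne hg.smM_ric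

theorem ldet_congr {g h : Cn n → Mat n} {z : Cn n} (e : g =ᶠ[𝓝 z] h) :
    ldet g =ᶠ[𝓝 z] ldet h := e.mono fun w hw => by simp only [ldet, hw]

theorem ric_congr {g h : Cn n → Mat n} {z : Cn n} (e : g =ᶠ[𝓝 z] h) : ric g z = ric h z := by
  unfold ric
  rw [hess_congr (ldet_congr e)]

theorem ric_congr' {g h : Cn n → Mat n} {z : Cn n} (e : g =ᶠ[𝓝 z] h) : ric g =ᶠ[𝓝 z] ric h :=
  e.eventually_nhds.mono fun _ hw => ric_congr hw

theorem ldet_pbk {g : Cn n → Mat n} {T : Cn n → Cn n} {z : Cn n} (hp : (g (T z)).PosDef)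
    (hJ : (jac T z).det ≠ 0) :
    ldet (pbk T g) z = ldet g (T z) + Real.log (‖(jac T z).det‖ ^ 2) := by
  unfold ldet pbk
  rw [det_pull, Real.log_mul (by positivity) (det_re_pos hp).ne', add_comm]

theorem HolAt.det_diff {T : Cn n → Cn n} {z : Cn n} (hT : HolAt T z) :
    DifferentiableAt ℂ (fun w => (jac T w).det) z := by
  have h : ContDiffAt ℂ ω (fun w => (jac T w).det) z := by
    simp only [Matrix.det_apply']
    exact ContDiffAt.sum fun σ _ => contDiffAt_const.mul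
      (contDiffAt_prod fun i _ => hT.jac_omega _ _)
  exact h.differentiableAt (by simp)

theorem ric_pbk {g : Cn n → Mat n} {T : Cn n → Cn n} {z : Cn n} (hg : SmM g (T z))
    (hp : ∀ᶠ y in 𝓝 (T z), (g y).PosDef) (hT : HolAt T z) (hJ : (jac T z).det ≠ 0) :
    ric (pbk T g) z = pbk T (ric g) z := by
  have h1 : ldet (pbk T g) =ᶠ[𝓝 z]
      fun w => ldet g (T w) + Real.log (‖(jac T w).det‖ ^ 2) := by
    filter_upwards [hT.tendsto.eventually hp, hT.det_ne hJ] with w hw hw'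
    exact ldet_pbk hw hw'
  have h2 := cd_ldet hg hp.self_of_nhds
  have h3 : ContDiffAt ℝ ∞ (fun w => Real.log (‖(jac T w).det‖ ^ 2)) z :=
    ((SmM.det (g := jac T) hT.jac_cd).norm_sq ℝ).log (by positivity)
  unfold ric
  have h5 : ContDiffAt ℝ ∞ (fun w => ldet g (T w)) z := h2.comp z hT.cd
  rw [hess_congr h1, hess_add h5 h3,
    hess_log_norm (hT.eventually.mono fun w hw => hw.det_diff) hJ, add_zero, hess_pbk h2 hT]
  simp only [pbk, Matrix.mul_neg, Matrix.neg_mul]

/-- `T` is a local biholomorphism at `z`, `g2` is Kaehler at `T z` and `g1 = T^* g2` near `z` -/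
structure Rel (T : Cn n → Cn n) (z : Cn n) (g1 g2 : Cn n → Mat n) : Prop where
  hol : HolAt T z
  det : (jac T z).det ≠ 0
  kah : KahAt g2 (T z)
  eq : g1 =ᶠ[𝓝 z] pbk T g2

namespace Rel

variable {T : Cn n → Cn n} {z : Cn n} {g1 g2 : Cn n → Mat n}

theorem eventually (h : Rel T z g1 g2) : ∀ᶠ w in 𝓝 z, Rel T w g1 g2 := by
  filter_upwards [h.hol.eventually, h.hol.det_ne h.det, h.hol.tendsto.eventually h.kah.eventually,
    h.eq.eventually_nhds] with w h1 h2 h3 h4
  exact ⟨h1, h2, h3, h4⟩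

theorem kahAt (h : Rel T z g1 g2) : KahAt g1 z := (h.kah.pbk h.hol h.det).congr h.eq

theorem eq0 (h : Rel T z g1 g2) : g1 z = pbk T g2 z := h.eq.self_of_nhds

theorem surj (h : Rel T z g1 g2) : Function.Surjective (fderiv ℂ T z) := by
  have h1 : Function.Injective (fderiv ℂ T z) := by
    rw [← det_ne_zero_iff, ← det_mat]
    exact h.det
  exact LinearMap.surjective_of_injective (f := (fderiv ℂ T z : Cn n →ₗ[ℂ] Cn n)) h1

theorem nq (h : Rel T z g1 g2) (v : Cn n) : nq (g1 z) v = nq (g2 (T z)) (fderiv ℂ T z v) := by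
  rw [h.eq0, nq_pbk]

theorem ldet (h : Rel T z g1 g2) :
    ldet g1 z = ldet g2 (T z) + Real.log (‖(jac T z).det‖ ^ 2) := by
  rw [← ldet_pbk h.kah.posDef h.det]
  exact (ldet_congr h.eq).self_of_nhds

theorem ric (h : Rel T z g1 g2) : ric g1 z = pbk T (ric g2) z := by
  rw [ric_congr h.eq, ric_pbk h.kah.sm h.kah.pos h.hol h.det]

theorem ricE (h : Rel T z g1 g2) : T223.ric g1 =ᶠ[𝓝 z] pbk T (T223.ric g2) :=
  h.eventually.mono fun _ hw => hw.ric

theorem trg (h : Rel T z g1 g2) (H : Cn n → Mat n) :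
    trg (g1 z) (pbk T H z) = trg (g2 (T z)) (H (T z)) := by
  rw [h.eq0]
  exact trg_pull h.det _ _

theorem scal (h : Rel T z g1 g2) : scal g1 z = scal g2 (T z) := by
  unfold T223.scal
  rw [h.ric, h.trg]

theorem lap (h : Rel T z g1 g2) {u1 u2 : Cn n → ℝ} (hu : ContDiffAt ℝ ∞ u2 (T z))
    (e : u1 =ᶠ[𝓝 z] fun w => u2 (T w)) : lap g1 u1 z = lap g2 u2 (T z) := by
  unfold T223.lap
  rw [hess_congr e, hess_pbk hu h.hol, h.trg]

theorem gsq (h : Rel T z g1 g2) {u1 u2 : Cn n → ℝ} (hu : DifferentiableAt ℝ u2 (T z))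
    (e : u1 =ᶠ[𝓝 z] fun w => u2 (T w)) : gsq g1 u1 z = gsq g2 u2 (T z) := by
  unfold T223.gsq
  rw [h.eq0]
  refine nqi_pull h.det _ fun a => ?_
  rw [← dz_comp hu h.hol.diff]
  exact wd_congr (e.mono fun w hw => by simp only [cu, hw]) _

theorem Rm (h : Rel T z g1 g2) (c d : Fin n) : Rm g1 z c d =
    ∑ k, ∑ l, (jac T z k c * conj (jac T z l d)) • pbk T (fun y => Rm g2 y k l) z := by
  rw [Rm_congr h.eq, Rm_pbk h.kah.smE h.kah.det_ne h.hol h.det, Rm_comp h.kah.smE h.hol]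
  simp only [pbk, Matrix.mul_sum, Matrix.sum_mul, Matrix.mul_smul, Matrix.smul_mul]

theorem bis (h : Rel T z g1 g2) (v w : Cn n) :
    bis g1 z v w = bis g2 (T z) (fderiv ℂ T z v) (fderiv ℂ T z w) := by
  rw [bis_eq, bis_eq]
  refine congrArg Complex.re ?_
  rw [← sum_pull (fderiv ℂ T z) (fun k l => hC (Br.Rm g2 (T z) k l) (fderiv ℂ T z v)) w]
  simp only [h.Rm, hC_sum, hC_smul, hC_pbk, jac_eq]

theorem bkge (h : Rel T z g1 g2) (l : ℝ) : BKge g1 z l ↔ BKge g2 (T z) l := by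
  refine ⟨fun H v w => ?_, fun H v w => ?_⟩
  · obtain ⟨v, rfl⟩ := h.surj v
    obtain ⟨w, rfl⟩ := h.surj w
    rw [← h.nq, ← h.nq, ← h.bis]
    exact H v w
  · rw [h.nq, h.nq, h.bis]
    exact H _ _

theorem bkle (h : Rel T z g1 g2) (K : ℝ) : BKle g1 z K ↔ BKle g2 (T z) K := by
  refine ⟨fun H v w => ?_, fun H v w => ?_⟩
  · obtain ⟨v, rfl⟩ := h.surj v
    obtain ⟨w, rfl⟩ := h.surj w
    rw [← h.nq, ← h.nq, ← h.bis]
    exact H v w
  · rw [h.nq, h.nq, h.bis]
    exact H _ _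

/-- covariant derivative of a `(1,1)`-tensor field -/
theorem nab (h : Rel T z g1 g2) {H1 H2 : Cn n → Mat n} (hH : SmM H2 (T z))
    (e : H1 =ᶠ[𝓝 z] pbk T H2) (k : Fin n) :
    wdM (false, k) H1 z - wdM (false, k) g1 z * (g1 z)⁻¹ * H1 z =
      ∑ l, jac T z l k • ((jac T z)ᵀ * (wdM (false, l) H2 (T z)
        - wdM (false, l) g2 (T z) * (g2 (T z))⁻¹ * H2 (T z)) * (jac T z).map conj) := by
  have hu : IsUnit (g2 (T z)).det := isUnit_iff_ne_zero.2 h.kah.det_ne
  rw [wdM_congr e, wdM_congr h.eq, e.self_of_nhds, h.eq0, d_pbk hH h.hol, d_pbk h.kah.sm h.hol]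
  unfold pbk
  rw [Matrix.mul_assoc (jac T z)ᵀ (H2 (T z)), mid_pull h.det, wdM_comp hH h.hol.diff,
    wdM_comp h.kah.sm h.hol.diff]
  simp only [Matrix.add_mul, Matrix.mul_assoc, Matrix.mul_sub, Matrix.sub_mul,
    Matrix.mul_nonsing_inv_cancel_left _ _ hu, Matrix.mul_sum, Matrix.sum_mul, Matrix.mul_smul,
    Matrix.smul_mul, smul_sub, Finset.sum_sub_distrib, cj_false]
  abel

theorem nabRic (h : Rel T z g1 g2) (k : Fin n) :
    nabRic g1 z k = ∑ l, jac T z l k • pbk T (fun y => nabRic g2 y l) z :=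
  h.nab h.kah.smM_ric h.ricE k

theorem nabRic_sum (h : Rel T z g1 g2) (a v : Cn n) :
    ∑ k, a k * hC (T223.nabRic g1 z k) v =
      ∑ l, fderiv ℂ T z a l * hC (T223.nabRic g2 (T z) l) (fderiv ℂ T z v) := by
  simp only [h.nabRic, hC_sum, hC_smul, hC_pbk, Tr.apply_eq_sum (fderiv ℂ T z) a, Finset.mul_sum,
    Finset.sum_mul]
  rw [Finset.sum_comm]
  refine Finset.sum_congr rfl fun l _ => Finset.sum_congr rfl fun k _ => ?_
  rw [jac_eq]
  ring

/-- product `H g⁻¹ H'` of two `(1,1)`-tensors -/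
theorem mul_inv_mul (h : Rel T z g1 g2) (H H' : Cn n → Mat n) :
    pbk T H z * (g1 z)⁻¹ * pbk T H' z = pbk T (fun y => H y * (g2 y)⁻¹ * H' y) z := by
  rw [h.eq0]
  unfold pbk
  rw [Matrix.mul_assoc (jac T z)ᵀ (H' (T z)), mid_pull h.det]
  simp only [Matrix.mul_assoc]

end Rel

end

end Crest.Agent.T223
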