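import Crest.Agent.T223.FrA_38

/-!
# Row 223, base API of the frame, part B (helper38): time dependent calculus, the manifold

* joint smoothness: `cd_wd_joint`, `cd_hess_joint`, `KRFat.cd_ric`, `KRFat.cd_scal`, `KRFat.cd_Rm`,
  `hasDerivAt_wd`, `hasDerivAt_hess`, `KRFat.hasDerivAt_ric`
* `RelT` (time dependent `Rel`): `RelT.krfAt`, `RelT.ricT`, `RelT.lyh`, `RelT.box`
* the manifold: `tm A i j` (transition map), `KahOn.rel`, `kahOn_gc`, `pull_eq`, `pull_gc`,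
  `rel_pull`, `relT_pull`, `relT_tm`, chart independence lemmas `KahOn.*_indep`
* potentials: `trOn_gφ`, `kahAt_gφ`, `krfAt_pot`, `krfAt_gφ`
-/

set_option autoImplicit false
set_option linter.unusedVariables false

open Set Filter Topology Metric
open scoped ContDiff ComplexConjugate Matrix ComplexOrder

namespace Crest.Agent.T223

open Crest.Agent.R275.Geo Crest.Agent.R275.EDR890 Crest.Agent.R273.Kah_333
open Crest.Agent.R273.Hess_333 Crest.Agent.R273.HessB_333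
open Crest.Agent.R275.Core144
open Crest.Agent.T223.Br Crest.Agent.T223.Tr

noncomputable section

variable {n : ℕ}

/-! ### joint smoothness in `(t, z)` -/

theorem tendsto_slice (t : ℝ) (z : Cn n) :
    Tendsto (fun w : Cn n => ((t, w) : ℝ × Cn n)) (𝓝 z) (𝓝 (t, z)) :=
  (Continuous.prodMk_right t).continuousAt

theorem tendsto_line (t : ℝ) (z : Cn n) :
    Tendsto (fun s : ℝ => ((s, z) : ℝ × Cn n)) (𝓝 t) (𝓝 (t, z)) :=
  (Continuous.prodMk_left z).continuousAt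

theorem cd_slice {W : Type*} [NormedAddCommGroup W] [NormedSpace ℝ W] {F : ℝ → Cn n → W} {t : ℝ}
    {z : Cn n} (h : ContDiffAt ℝ ∞ (fun q : ℝ × Cn n => F q.1 q.2) (t, z)) :
    ContDiffAt ℝ ∞ (F t) z := h.comp z (contDiffAt_const.prodMk contDiffAt_id)

theorem cd_line {W : Type*} [NormedAddCommGroup W] [NormedSpace ℝ W] {F : ℝ → Cn n → W} {t : ℝ}
    {z : Cn n} (h : ContDiffAt ℝ ∞ (fun q : ℝ × Cn n => F q.1 q.2) (t, z)) :
    ContDiffAt ℝ ∞ (fun s => F s z) t := h.comp t (contDiffAt_id.prodMk contDiffAt_const)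

theorem cd_static {W : Type*} [NormedAddCommGroup W] [NormedSpace ℝ W] {f : Cn n → W} (t : ℝ)
    {z : Cn n} (h : ContDiffAt ℝ ∞ f z) : ContDiffAt ℝ ∞ (fun q : ℝ × Cn n => f q.2) (t, z) :=
  ContDiffAt.comp (t, z) (g := f) h contDiffAt_snd

theorem cd_wd_joint {F : ℝ → Cn n → ℂ} {t : ℝ} {z : Cn n}
    (h : ContDiffAt ℝ ∞ (fun q : ℝ × Cn n => F q.1 q.2) (t, z)) (s : WI n) :
    ContDiffAt ℝ ∞ (fun q : ℝ × Cn n => wd s (F q.1) q.2) (t, z) := by
  have h1 : ContDiffAt ℝ ∞ (Function.uncurry fun (q : ℝ × Cn n) (w : Cn n) => F q.1 w)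
      ((t, z), z) :=
    ContDiffAt.comp ((t, z), z) (g := fun q : ℝ × Cn n => F q.1 q.2)
      (f := fun p : (ℝ × Cn n) × Cn n => (p.1.1, p.2)) h
      ((contDiffAt_fst.comp _ contDiffAt_fst).prodMk contDiffAt_snd)
  have h2 : ContDiffAt ℝ ∞ (fun q : ℝ × Cn n => fderiv ℝ (F q.1) q.2) (t, z) :=
    ContDiffAt.fderiv (f := fun (q : ℝ × Cn n) (w : Cn n) => F q.1 w) (g := fun q => q.2) h1
      contDiffAt_snd (by simp)
  exact ((wdLc s).contDiff.contDiffAt).comp (t, z) h2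


theorem cd_cu_joint {φ : ℝ → Cn n → ℝ} {t : ℝ} {z : Cn n}
    (h : ContDiffAt ℝ ∞ (fun q : ℝ × Cn n => φ q.1 q.2) (t, z)) :
    ContDiffAt ℝ ∞ (fun q : ℝ × Cn n => cu (φ q.1) q.2) (t, z) :=
  Complex.ofRealCLM.contDiff.contDiffAt.comp (t, z) h

theorem cd_hess_joint {φ : ℝ → Cn n → ℝ} {t : ℝ} {z : Cn n}
    (h : ContDiffAt ℝ ∞ (fun q : ℝ × Cn n => φ q.1 q.2) (t, z)) (a b : Fin n) :
    ContDiffAt ℝ ∞ (fun q : ℝ × Cn n => hess (φ q.1) q.2 a b) (t, z) :=
  cd_wd_joint (F := fun t => wd (true, b) (cu (φ t)))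
    (cd_wd_joint (F := fun t => cu (φ t)) (cd_cu_joint h) _) _

/-- `∂_t` commutes with `fderiv` in `z` -/
theorem hasDerivAt_fderiv {W : Type*} [NormedAddCommGroup W] [NormedSpace ℝ W]
    {F : ℝ → Cn n → W} {t : ℝ} {z : Cn n}
    (h : ContDiffAt ℝ ∞ (fun q : ℝ × Cn n => F q.1 q.2) (t, z)) (v : Cn n) :
    HasDerivAt (fun s => fderiv ℝ (F s) z v)
      (fderiv ℝ (fun w => deriv (fun s => F s w) t) z v) t := by
  set G : ℝ × Cn n → W := fun q => F q.1 q.2 with hG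
  have h2 : ContDiffAt ℝ 2 G (t, z) := h.of_le (WithTop.coe_le_coe.2 le_top)
  have h1 : ∀ᶠ q in 𝓝 ((t, z) : ℝ × Cn n), DifferentiableAt ℝ G q := by
    filter_upwards [h2.eventually (by simp)] with q hq
    exact hq.differentiableAt (by simp)
  have hD : HasFDerivAt (fderiv ℝ G) (fderiv ℝ (fderiv ℝ G) (t, z)) (t, z) :=
    ((h2.fderiv_right (m := 1) (by norm_num)).differentiableAt (by simp)).hasFDerivAt
  have hsym : IsSymmSndFDerivAt ℝ G (t, z) := h2.isSymmSndFDerivAt (by simp)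
  have e1 : (fun s => fderiv ℝ (F s) z v) =ᶠ[𝓝 t] fun s => fderiv ℝ G (s, z) (0, v) := by
    filter_upwards [(tendsto_line t z).eventually h1] with s hs
    have h3 : HasFDerivAt (fun w : Cn n => ((s, w) : ℝ × Cn n))
        (ContinuousLinearMap.inr ℝ ℝ (Cn n)) z := hasFDerivAt_prodMk_right s z
    have h4 : fderiv ℝ (F s) z = _ := (hs.hasFDerivAt.comp z h3).fderiv
    rw [h4]
    rfl
  have e2 : (fun w => deriv (fun s => F s w) t) =ᶠ[𝓝 z] fun w => fderiv ℝ G (t, w) (1, 0) := by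
    filter_upwards [(tendsto_slice t z).eventually h1] with w hw
    have h3 : HasDerivAt (fun s : ℝ => ((s, w) : ℝ × Cn n)) (1, 0) t :=
      (hasDerivAt_id t).prodMk (hasDerivAt_const t w)
    exact (hw.hasFDerivAt.comp_hasDerivAt t h3).deriv
  have h5 : HasDerivAt (fun s : ℝ => fderiv ℝ G (s, z)) (fderiv ℝ (fderiv ℝ G) (t, z) (1, 0)) t :=
    hD.comp_hasDerivAt t ((hasDerivAt_id t).prodMk (hasDerivAt_const t z))
  have h6 : HasDerivAt (fun s : ℝ => fderiv ℝ G (s, z) (0, v))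
      (fderiv ℝ (fderiv ℝ G) (t, z) (1, 0) (0, v)) t :=
    (ContinuousLinearMap.apply ℝ W ((0, v) : ℝ × Cn n)).hasFDerivAt.comp_hasDerivAt t h5
  have h7 : HasFDerivAt (fun w : Cn n => fderiv ℝ G (t, w) (1, 0))
      ((ContinuousLinearMap.apply ℝ W ((1, 0) : ℝ × Cn n)).comp
        ((fderiv ℝ (fderiv ℝ G) (t, z)).comp (ContinuousLinearMap.inr ℝ ℝ (Cn n)))) z :=
    (ContinuousLinearMap.apply ℝ W ((1, 0) : ℝ × Cn n)).hasFDerivAt.comp z
      (hD.comp z (hasFDerivAt_prodMk_right t z))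
  rw [e2.fderiv_eq, h7.fderiv]
  refine (h6.congr_of_eventuallyEq e1).congr_deriv ?_
  exact hsym _ _

theorem hasDerivAt_wd {F : ℝ → Cn n → ℂ} {t : ℝ} {z : Cn n}
    (h : ContDiffAt ℝ ∞ (fun q : ℝ × Cn n => F q.1 q.2) (t, z)) (r : WI n) :
    HasDerivAt (fun s => wd r (F s) z) (wd r (fun w => deriv (fun s => F s w) t) z) t := by
  unfold wd wdL
  exact ((hasDerivAt_fderiv h _).fun_add ((hasDerivAt_fderiv h _).fun_const_smul _)).fun_const_smul _

theorem hasDerivAt_hess {φ : ℝ → Cn n → ℝ} {t : ℝ} {z : Cn n}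
    (h : ∀ᶠ q : ℝ × Cn n in 𝓝 (t, z), ContDiffAt ℝ ∞ (fun q : ℝ × Cn n => φ q.1 q.2) q)
    (a b : Fin n) :
    HasDerivAt (fun s => hess (φ s) z a b) (hess (fun w => deriv (fun s => φ s w) t) z a b) t := by
  have h1 := hasDerivAt_wd (F := fun t => wd (true, b) (cu (φ t)))
    (cd_wd_joint (F := fun t => cu (φ t)) (cd_cu_joint h.self_of_nhds) _) (false, a)
  refine h1.congr_deriv (wd_congr ?_ _)
  filter_upwards [((tendsto_slice t z).eventually h).eventually_nhds] with w hw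
  rw [(hasDerivAt_wd (F := fun t => cu (φ t)) (cd_cu_joint hw.self_of_nhds) (true, b)).deriv]
  refine wd_congr ?_ _
  filter_upwards [hw] with y hy
  exact (((cd_line hy).differentiableAt (by simp)).hasDerivAt.ofReal_comp).deriv

section joint

variable {X : Type*} [NormedAddCommGroup X] [NormedSpace ℝ X]

theorem cdM_mul {g h : X → Mat n} {x : X} (hg : ∀ a b, ContDiffAt ℝ ∞ (fun w => g w a b) x)
    (hh : ∀ a b, ContDiffAt ℝ ∞ (fun w => h w a b) x) (a b : Fin n) :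
    ContDiffAt ℝ ∞ (fun w => (g w * h w) a b) x := by
  simp only [Matrix.mul_apply]
  exact ContDiffAt.sum fun c _ => (hg a c).mul (hh c b)

theorem cdM_det {g : X → Mat n} {x : X} (hg : ∀ a b, ContDiffAt ℝ ∞ (fun w => g w a b) x) :
    ContDiffAt ℝ ∞ (fun w => (g w).det) x := by
  simp only [Matrix.det_apply']
  exact ContDiffAt.sum fun σ _ => contDiffAt_const.mul (contDiffAt_prod fun i _ => hg _ _)

theorem cdM_inv {g : X → Mat n} {x : X} (hg : ∀ a b, ContDiffAt ℝ ∞ (fun w => g w a b) x)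
    (h0 : (g x).det ≠ 0) (a b : Fin n) : ContDiffAt ℝ ∞ (fun w => (g w)⁻¹ a b) x := by
  simp only [Matrix.inv_def, Matrix.smul_apply, smul_eq_mul, Ring.inverse_eq_inv',
    Matrix.adjugate_apply]
  refine ((cdM_det hg).inv h0).mul (cdM_det (g := fun w => (g w).updateRow b (Pi.single a 1)) ?_)
  intro c d
  simp only [Matrix.updateRow_apply]
  split_ifs
  · exact contDiffAt_const
  · exact hg c d

theorem cdM_trg {g H : X → Mat n} {x : X} (hg : ∀ a b, ContDiffAt ℝ ∞ (fun w => g w a b) x)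
    (h0 : (g x).det ≠ 0) (hH : ∀ a b, ContDiffAt ℝ ∞ (fun w => H w a b) x) :
    ContDiffAt ℝ ∞ (fun w => trg (g w) (H w)) x := by
  have h := cdM_mul (cdM_inv hg h0) hH
  unfold trg
  refine Complex.reCLM.contDiff.contDiffAt.comp x ?_
  simp only [Matrix.trace, Matrix.diag_apply]
  exact ContDiffAt.sum fun a _ => h a a



end joint

namespace KRFat

variable {g : ℝ → Cn n → Mat n} {t : ℝ} {z : Cn n}

theorem posDef (h : KRFat g t z) : (g t z).PosDef := h.pos.self_of_nhds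

theorem det_ne (h : KRFat g t z) : (g t z).det ≠ 0 := h.posDef.det_pos.ne'

theorem cd_inv (h : KRFat g t z) (a b : Fin n) :
    ContDiffAt ℝ ∞ (fun q : ℝ × Cn n => (g q.1 q.2)⁻¹ a b) (t, z) :=
  cdM_inv (g := fun q : ℝ × Cn n => g q.1 q.2) h.sm h.det_ne a b

theorem cd_ldet (h : KRFat g t z) :
    ContDiffAt ℝ ∞ (fun q : ℝ × Cn n => ldet (g q.1) q.2) (t, z) :=
  (Complex.reCLM.contDiff.contDiffAt.comp (t, z)
    (cdM_det (g := fun q : ℝ × Cn n => g q.1 q.2) h.sm)).log (det_re_pos h.posDef).ne'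

theorem cd_ric (h : KRFat g t z) (a b : Fin n) :
    ContDiffAt ℝ ∞ (fun q : ℝ × Cn n => ric (g q.1) q.2 a b) (t, z) :=
  (cd_hess_joint (φ := fun t => ldet (g t)) h.cd_ldet a b).neg

theorem cd_scal (h : KRFat g t z) :
    ContDiffAt ℝ ∞ (fun q : ℝ × Cn n => scal (g q.1) q.2) (t, z) :=
  cdM_trg (g := fun q : ℝ × Cn n => g q.1 q.2) h.sm h.det_ne h.cd_ric






theorem cd_gsq (h : KRFat g t z) {φ : ℝ → Cn n → ℝ}
    (hφ : ContDiffAt ℝ ∞ (fun q : ℝ × Cn n => φ q.1 q.2) (t, z)) :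
    ContDiffAt ℝ ∞ (fun q : ℝ × Cn n => gsq (g q.1) (φ q.1) q.2) (t, z) := by
  have h1 : ∀ a, ContDiffAt ℝ ∞ (fun q : ℝ × Cn n => dz (φ q.1) q.2 a) (t, z) := fun a =>
    cd_wd_joint (F := fun t => cu (φ t)) (cd_cu_joint hφ) _
  unfold gsq nqi
  refine Complex.reCLM.contDiff.contDiffAt.comp (t, z) ?_
  exact ContDiffAt.sum fun a _ => ContDiffAt.sum fun b _ => ((h.cd_inv b a).mul (h1 a)).mul
    ((Complex.conjCLE : ℂ →L[ℝ] ℂ).contDiff.contDiffAt.comp (t, z) (h1 b))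

theorem hasDerivAt_g (h : KRFat g t z) (a b : Fin n) :
    HasDerivAt (fun s => g s z a b) (-ric (g t) z a b) t :=
  (h.flow.self_of_nhds a b).congr_deriv (by simp [ric])

theorem hasDerivAt_ric (h : KRFat g t z) (a b : Fin n) :
    HasDerivAt (fun s => ric (g s) z a b) (ricT g t z a b) t :=
  ((cd_line (F := fun t w => ric (g t) w a b) (h.cd_ric a b)).differentiableAt
    (by simp)).hasDerivAt

theorem congr (h : KRFat g t z) {g' : ℝ → Cn n → Mat n}
    (e : ∀ᶠ q : ℝ × Cn n in 𝓝 (t, z), g' q.1 q.2 = g q.1 q.2) : KRFat g' t z := by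
  have e1 : ∀ᶠ q : ℝ × Cn n in 𝓝 (t, z), g' q.1 =ᶠ[𝓝 q.2] g q.1 :=
    e.eventually_nhds.mono fun q hq => (tendsto_slice q.1 q.2).eventually hq
  have e2 : ∀ᶠ q : ℝ × Cn n in 𝓝 (t, z), KahAt (g' q.1) q.2 := by
    filter_upwards [h.eventually, e1] with q hq hq'
    exact hq.kahAt.congr hq'
  refine ⟨?_, e2.mono fun q hq => hq.posDef, e2.mono fun q hq => hq.closed.self_of_nhds,
    e2.mono fun q hq => hq.closed'.self_of_nhds, ?_⟩
  · filter_upwards [h.smE, e.eventually_nhds] with q hq hq' a b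
    exact (hq a b).congr_of_eventuallyEq (hq'.mono fun r hr => by simp only [hr])
  · filter_upwards [h.flow, e.eventually_nhds, e1] with q hq hq' hq'' a b
    rw [hess_congr (ldet_congr hq'')]
    exact (hq a b).congr_of_eventuallyEq
      (((tendsto_line q.1 q.2).eventually hq').mono fun s hs => by simp only [hs])

end KRFat

theorem hasDerivAt_pull (P Q : Mat n) {H : ℝ → Mat n} {H' : Mat n} {t : ℝ}
    (h : ∀ a b, HasDerivAt (fun s => H s a b) (H' a b) t) (a b : Fin n) :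
    HasDerivAt (fun s => (P * H s * Q) a b) ((P * H' * Q) a b) t := by
  simp only [Matrix.mul_apply]
  exact HasDerivAt.fun_sum fun c _ => (HasDerivAt.fun_sum fun d _ =>
    (h d c).const_mul _).mul_const _

theorem KRFat.pbk {g : ℝ → Cn n → Mat n} {T : Cn n → Cn n} {t : ℝ} {z : Cn n}
    (h : KRFat g t (T z)) (hT : HolAt T z) (hJ : (jac T z).det ≠ 0) :
    KRFat (fun s => pbk T (g s)) t z := by
  have hc : Tendsto (fun q : ℝ × Cn n => ((q.1, T q.2) : ℝ × Cn n)) (𝓝 (t, z)) (𝓝 (t, T z)) :=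
    continuousAt_fst.prodMk (ContinuousAt.comp (g := T) hT.diff.continuousAt continuousAt_snd)
  have hs : Tendsto (fun q : ℝ × Cn n => q.2) (𝓝 (t, z)) (𝓝 z) := continuousAt_snd
  have h1 : ∀ᶠ q : ℝ × Cn n in 𝓝 (t, z), KRFat g q.1 (T q.2) ∧ HolAt T q.2 ∧
      (jac T q.2).det ≠ 0 :=
    (hc.eventually h.eventually).and ((hs.eventually hT.eventually).and
      (hs.eventually (hT.det_ne hJ)))
  have e2 : ∀ᶠ q : ℝ × Cn n in 𝓝 (t, z), KahAt (T223.pbk T (g q.1)) q.2 :=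
    h1.mono fun q hq => hq.1.kahAt.pbk hq.2.1 hq.2.2
  refine ⟨?_, e2.mono fun q hq => hq.posDef, e2.mono fun q hq => hq.closed.self_of_nhds,
    e2.mono fun q hq => hq.closed'.self_of_nhds, ?_⟩
  · filter_upwards [h1] with q hq
    have h2 : ∀ a b, ContDiffAt ℝ ∞ (fun r : ℝ × Cn n => g r.1 (T r.2) a b) q := fun a b =>
      ContDiffAt.comp q (g := fun r : ℝ × Cn n => g r.1 r.2 a b)
        (f := fun r : ℝ × Cn n => (r.1, T r.2)) (hq.1.sm a b)
        (contDiffAt_fst.prodMk (cd_static q.1 hq.2.1.cd))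
    exact cdM_mul (cdM_mul (fun a b => cd_static q.1 (hq.2.1.smP a b)) h2)
      (fun a b => cd_static q.1 (hq.2.1.smQ a b))
  · filter_upwards [h1] with q hq a b
    have h2 := ric_pbk hq.1.kahAt.sm hq.1.kahAt.pos hq.2.1 hq.2.2
    have h3 : hess (ldet (T223.pbk T (g q.1))) q.2 =
        (jac T q.2)ᵀ * hess (ldet (g q.1)) (T q.2) * (jac T q.2).map conj := by
      have h4 := congrArg Neg.neg h2
      simpa only [ric, T223.pbk, neg_neg, Matrix.mul_neg, Matrix.neg_mul] using h4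
    rw [h3]
    exact hasDerivAt_pull _ _ hq.1.flow.self_of_nhds a b

/-- time dependent version of `Rel` -/
structure RelT (T : Cn n → Cn n) (t : ℝ) (z : Cn n) (g1 g2 : ℝ → Cn n → Mat n) : Prop where
  hol : HolAt T z
  det : (jac T z).det ≠ 0
  krf : KRFat g2 t (T z)
  eq : ∀ᶠ q : ℝ × Cn n in 𝓝 (t, z), g1 q.1 q.2 = pbk T (g2 q.1) q.2

namespace RelT

variable {T : Cn n → Cn n} {t : ℝ} {z : Cn n} {g1 g2 : ℝ → Cn n → Mat n}

theorem tendsto (h : RelT T t z g1 g2) :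
    Tendsto (fun q : ℝ × Cn n => ((q.1, T q.2) : ℝ × Cn n)) (𝓝 (t, z)) (𝓝 (t, T z)) :=
  continuousAt_fst.prodMk (ContinuousAt.comp (g := T) h.hol.diff.continuousAt continuousAt_snd)

theorem eventually (h : RelT T t z g1 g2) :
    ∀ᶠ q : ℝ × Cn n in 𝓝 (t, z), RelT T q.1 q.2 g1 g2 := by
  have hs : Tendsto (fun q : ℝ × Cn n => q.2) (𝓝 (t, z)) (𝓝 z) := continuousAt_snd
  filter_upwards [hs.eventually h.hol.eventually, hs.eventually (h.hol.det_ne h.det),
    h.tendsto.eventually h.krf.eventually, h.eq.eventually_nhds] with q h1 h2 h3 h4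
  exact ⟨h1, h2, h3, h4⟩

theorem rel (h : RelT T t z g1 g2) : Rel T z (g1 t) (g2 t) :=
  ⟨h.hol, h.det, h.krf.kahAt, (tendsto_slice t z).eventually h.eq⟩

theorem krfAt (h : RelT T t z g1 g2) : KRFat g1 t z := (h.krf.pbk h.hol h.det).congr h.eq

theorem ricT (h : RelT T t z g1 g2) : ricT g1 t z = pbk T (ricT g2 t) z := by
  ext a b
  have h1 : (fun s => ric (g1 s) z a b) =ᶠ[𝓝 t] fun s => pbk T (ric (g2 s)) z a b := by
    filter_upwards [(tendsto_line t z).eventually h.eventually] with s hs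
    rw [hs.rel.ric]
  exact ((hasDerivAt_pull _ _ h.krf.hasDerivAt_ric a b).congr_of_eventuallyEq h1).deriv

theorem lyh (h : RelT T t z g1 g2) (τ : ℝ) (c : ℂ) (a v : Cn n) :
    lyh g1 τ t z c a v = lyh g2 τ t (T z) c (fderiv ℂ T z a) (fderiv ℂ T z v) := by
  unfold T223.lyh
  rw [h.rel.bis, h.rel.nabRic_sum, h.ricT, h.rel.ric, h.rel.mul_inv_mul, ← nq_pbk T
    (fun y => T223.ricT g2 t y + ric (g2 t) y * (g2 t y)⁻¹ * ric (g2 t) y
      + ((τ⁻¹ : ℝ) : ℂ) • ric (g2 t) y)]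
  simp only [pbk, Matrix.mul_add, Matrix.add_mul, Matrix.mul_smul, Matrix.smul_mul]

theorem box (h : RelT T t z g1 g2) {φ1 φ2 : ℝ → Cn n → ℝ} (hφ : ContDiffAt ℝ ∞ (φ2 t) (T z))
    (e : ∀ᶠ q : ℝ × Cn n in 𝓝 (t, z), φ1 q.1 q.2 = φ2 q.1 (T q.2)) :
    box g1 φ1 t z = box g2 φ2 t (T z) := by
  unfold T223.box
  rw [h.rel.lap hφ ((tendsto_slice t z).eventually e)]
  congr 1
  exact Filter.EventuallyEq.deriv_eq ((tendsto_line t z).eventually e)

end RelT

/-! ### the manifold -/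

variable {M : Type} [TopologicalSpace M] {A : Atl n M}

/-- the transition map from the chart `i` to the chart `j` -/
def tm (A : Atl n M) (i j : A.ι) : Cn n → Cn n := fun w => A.e j ((A.e i).symm w)

theorem tm_apply {i : A.ι} (j : A.ι) {x : M} (hi : x ∈ (A.e i).source) :
    tm A i j (A.e i x) = A.e j x := by
  unfold tm
  rw [(A.e i).left_inv hi]

theorem jac_tm (i j : A.ι) (x : M) : jac (tm A i j) (A.e i x) = Jm A i j x := rfl

theorem holAt_tm {i j : A.ι} {x : M} (hi : x ∈ (A.e i).source) (hj : x ∈ (A.e j).source) :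
    HolAt (tm A i j) (A.e i x) := by
  filter_upwards [(isOpen_ov (A := A) i j).mem_nhds (mem_ov ⟨hi, hj⟩)] with w hw
  exact (A.holo i j).differentiableAt ((isOpen_ov i j).mem_nhds hw)

theorem tendsto_symm {i : A.ι} {x : M} (hi : x ∈ (A.e i).source) :
    Tendsto (A.e i).symm (𝓝 (A.e i x)) (𝓝 x) := (A.e i).tendsto_symm hi

/-- a property near `x`, read in the chart `i` -/
theorem ev_chart {i : A.ι} {x : M} (hi : x ∈ (A.e i).source) {P : M → Prop}
    (h : ∀ᶠ y in 𝓝 x, P y) : ∀ᶠ w in 𝓝 (A.e i x), ∃ y ∈ (A.e i).source, A.e i y = w ∧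
      (A.e i).symm w = y ∧ P y := by
  filter_upwards [(tendsto_symm hi).eventually h,
    (A.e i).open_target.mem_nhds ((A.e i).map_source hi)] with w hw hw'
  exact ⟨_, (A.e i).map_target hw', (A.e i).right_inv hw', rfl, hw⟩

theorem det_tm {i j : A.ι} {x : M} (hi : x ∈ (A.e i).source) (hj : x ∈ (A.e j).source) :
    (jac (tm A i j) (A.e i x)).det ≠ 0 := by
  have h1 : (fun w => tm A j i (tm A i j w)) =ᶠ[𝓝 (A.e i x)] id := by
    filter_upwards [ev_chart hi ((A.e j).open_source.mem_nhds hj)] with w hw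
    obtain ⟨y, hy, rfl, -, hy'⟩ := hw
    rw [tm_apply j hy, tm_apply i hy']
    rfl
  have h2 := (holAt_tm hj hi).diff
  rw [← tm_apply j hi] at h2
  have h3 := fderiv_comp (A.e i x) h2 (holAt_tm hi hj).diff
  have h4 : fderiv ℂ (tm A j i ∘ tm A i j) (A.e i x) = ContinuousLinearMap.id ℂ _ := by
    rw [← fderiv_id (x := A.e i x)]
    exact h1.fderiv_eq
  have h5 := congrArg mat (h3.symm.trans h4)
  rw [mat_comp, mat_id] at h5
  have h6 := congrArg Matrix.det h5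
  rw [Matrix.det_mul, Matrix.det_one] at h6
  exact right_ne_zero_of_mul_eq_one h6

theorem inC_tm {W : Type*} {i j : A.ι} {x : M} (hi : x ∈ (A.e i).source)
    (hj : x ∈ (A.e j).source) (f : M → W) :
    inC A i f =ᶠ[𝓝 (A.e i x)] fun w => inC A j f (tm A i j w) := by
  filter_upwards [ev_chart hi ((A.e j).open_source.mem_nhds hj)] with w hw
  obtain ⟨y, hy, rfl, -, hy'⟩ := hw
  rw [tm_apply j hy]
  simp only [inC, (A.e i).left_inv hy, (A.e j).left_inv hy']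

theorem inC_apply {W : Type*} {i : A.ι} {x : M} (hi : x ∈ (A.e i).source) (f : M → W) :
    inC A i f (A.e i x) = f x := by
  simp only [inC, (A.e i).left_inv hi]


theorem sm_inC {W : Type*} [NormedAddCommGroup W] [NormedSpace ℝ W] {f : M → W} (h : A.Sm f)
    {i : A.ι} {x : M} (hi : x ∈ (A.e i).source) : ContDiffAt ℝ ∞ (inC A i f) (A.e i x) :=
  (h i).contDiffAt ((A.e i).open_target.mem_nhds ((A.e i).map_source hi))

theorem hess_inC_tm {i j : A.ι} {x : M} (hi : x ∈ (A.e i).source) (hj : x ∈ (A.e j).source)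
    {f : M → ℝ} (h : ContDiffAt ℝ ∞ (inC A j f) (A.e j x)) :
    hess (inC A i f) (A.e i x) =
      (Jm A i j x)ᵀ * hess (inC A j f) (A.e j x) * (Jm A i j x).map conj := by
  rw [hess_congr (inC_tm hi hj f), ← tm_apply j hi] at *
  exact hess_pbk h (holAt_tm hi hj)

theorem TrOn.mono {G : MF A} {U V : Set M} (h : TrOn G U) (hV : V ⊆ U) : TrOn G V :=
  fun i j x hx hxV => h i j x hx (hV hxV)

theorem KahOn.mono {G : MF A} {U V : Set M} (h : KahOn G U) (hV : V ⊆ U) : KahOn G V :=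
  ⟨fun i x hx hxV => h.kah i x hx (hV hxV), h.tr.mono hV⟩

theorem TrOn.eq_pbk {G : MF A} {U : Set M} (h : TrOn G U) {i j : A.ι} {x : M}
    (hi : x ∈ (A.e i).source) (hj : x ∈ (A.e j).source) (hx : x ∈ U) :
    G i (A.e i x) = pbk (tm A i j) (G j) (A.e i x) := by
  rw [h i j x ⟨hi, hj⟩ hx, pbk, tm_apply j hi, jac_tm]

theorem TrOn.ev_pbk {G : MF A} {U : Set M} (h : TrOn G U) {i j : A.ι} {x : M}
    (hi : x ∈ (A.e i).source) (hj : x ∈ (A.e j).source) (hU : U ∈ 𝓝 x) :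
    G i =ᶠ[𝓝 (A.e i x)] pbk (tm A i j) (G j) := by
  filter_upwards [ev_chart hi (inter_mem ((A.e j).open_source.mem_nhds hj) hU)] with w hw
  obtain ⟨y, hy, rfl, -, hy'⟩ := hw
  exact h.eq_pbk hy hy'.1 hy'.2

theorem rel_tm {G : MF A} {U : Set M} (h : TrOn G U) {i j : A.ι} {x : M}
    (hi : x ∈ (A.e i).source) (hj : x ∈ (A.e j).source) (hU : U ∈ 𝓝 x)
    (hk : KahAt (G j) (A.e j x)) : Rel (tm A i j) (A.e i x) (G i) (G j) :=
  ⟨holAt_tm hi hj, det_tm hi hj, by rw [tm_apply j hi]; exact hk, h.ev_pbk hi hj hU⟩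

theorem KahOn.rel {G : MF A} {U : Set M} (h : KahOn G U) {i j : A.ι} {x : M}
    (hi : x ∈ (A.e i).source) (hj : x ∈ (A.e j).source) (hU : U ∈ 𝓝 x) :
    Rel (tm A i j) (A.e i x) (G i) (G j) :=
  rel_tm h.tr hi hj hU (h.kah j x hj (mem_of_mem_nhds hU))


theorem gc_apply (K : Kah A) {i : A.ι} {x : M} (hi : x ∈ (A.e i).source) :
    gc K i (A.e i x) = K.g i x := by
  simp only [gc, (A.e i).left_inv hi]

theorem kahAt_gc (K : Kah A) (i : A.ι) {z : Cn n} (hz : z ∈ (A.e i).target) :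
    KahAt (gc K i) z := by
  have h := (A.e i).open_target.mem_nhds hz
  refine ⟨?_, ?_, ?_, ?_⟩
  · filter_upwards [h] with w hw a b
    exact (K.sm i a b).contDiffAt ((A.e i).open_target.mem_nhds hw)
  · filter_upwards [h] with w hw
    exact K.pos i _ ((A.e i).map_target hw)
  · filter_upwards [h] with w hw
    exact K.closed i w hw
  · filter_upwards [h] with w hw
    exact K.closed' i w hw

theorem trOn_gc (K : Kah A) (U : Set M) : TrOn (gc K) U := by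
  intro i j x hx _
  rw [gc_apply K hx.1, gc_apply K hx.2]
  exact K.tr i j x hx

theorem kahOn_gc (K : Kah A) (U : Set M) : KahOn (gc K) U :=
  ⟨fun i x hx _ => kahAt_gc K i ((A.e i).map_source hx), trOn_gc K U⟩



/-! ### chart independence -/



theorem TrOn.lap_indep {G : MF A} {U : Set M} (hG : TrOn G U) {i j : A.ι}
    {x : M} (hi : x ∈ (A.e i).source) (hj : x ∈ (A.e j).source) (hx : x ∈ U) {f : M → ℝ}
    (hf : ContDiffAt ℝ ∞ (inC A j f) (A.e j x)) :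
    lap (G i) (inC A i f) (A.e i x) = lap (G j) (inC A j f) (A.e j x) := by
  unfold lap
  rw [hG i j x ⟨hi, hj⟩ hx, hess_inC_tm hi hj hf]
  exact trg_pull (det_tm hi hj) _ _

theorem TrOn.gsq_indep {G : MF A} {U : Set M} (hG : TrOn G U) {i j : A.ι}
    {x : M} (hi : x ∈ (A.e i).source) (hj : x ∈ (A.e j).source) (hx : x ∈ U) {f : M → ℝ}
    (hf : DifferentiableAt ℝ (inC A j f) (A.e j x)) :
    gsq (G i) (inC A i f) (A.e i x) = gsq (G j) (inC A j f) (A.e j x) := by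
  unfold gsq
  rw [hG i j x ⟨hi, hj⟩ hx]
  refine nqi_pull (det_tm hi hj) _ fun a => ?_
  rw [← tm_apply j hi] at hf ⊢
  have h1 := dz_comp hf (holAt_tm hi hj).diff a
  rw [← h1]
  exact wd_congr ((inC_tm hi hj f).mono fun w hw => by simp only [cu, hw]) _

theorem lvol_indep (K0 : Kah A) {G : MF A} {U : Set M} (hG : TrOn G U) {i j : A.ι}
    {x : M} (hi : x ∈ (A.e i).source) (hj : x ∈ (A.e j).source) (hx : x ∈ U)
    (hp : (G j (A.e j x)).PosDef) : lvol K0 G i x = lvol K0 G j x := by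
  have h1 : ∀ H : MF A, TrOn H U → (H j (A.e j x)).PosDef → ldet (H i) (A.e i x) =
      ldet (H j) (A.e j x) + Real.log (‖(jac (tm A i j) (A.e i x)).det‖ ^ 2) := by
    intro H hH hp
    rw [← tm_apply j hi] at hp ⊢
    rw [← ldet_pbk hp (det_tm hi hj)]
    unfold ldet
    rw [hH.eq_pbk hi hj hx]
  unfold lvol
  rw [h1 G hG hp, h1 (gc K0) (trOn_gc K0 U) (kahAt_gc K0 j ((A.e j).map_source hj)).posDef]
  ring

namespace KahOn

variable {G : MF A} {U : Set M} {i j : A.ι} {x : M}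

theorem trOn_ric (h : KahOn G U) (hU : IsOpen U) : TrOn (fun i => ric (G i)) U := by
  intro i j x hx hxU
  have h1 := (h.rel hx.1 hx.2 (hU.mem_nhds hxU)).ric
  rw [pbk, tm_apply j hx.1, jac_tm] at h1
  exact h1

theorem scal_indep (h : KahOn G U) (hi : x ∈ (A.e i).source) (hj : x ∈ (A.e j).source)
    (hU : U ∈ 𝓝 x) : scal (G i) (A.e i x) = scal (G j) (A.e j x) := by
  rw [(h.rel hi hj hU).scal, tm_apply j hi]



end KahOn

/-! ### pull-backs under holomorphic maps `Cn n → M` -/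


theorem pull_eq {G : MF A} {U : Set M} (h : TrOn G U) {f : Cn n → M} {W : Set (Cn n)}
    (hf : Hol A f W) {w : Cn n} (hw : w ∈ W) (hU : f w ∈ U) {i : A.ι}
    (hi : f w ∈ (A.e i).source) : pull G f w = pbF G i f w := by
  have hj := (A.cover (f w)).choose_spec
  unfold pull pbF
  rw [(rd_trans (hf w hw).1 hi hj ((hf w hw).2 i hi)).2, h i _ (f w) ⟨hi, hj⟩ hU,
    Matrix.transpose_mul, Matrix.map_mul]
  simp only [Matrix.mul_assoc]

theorem pull_gc (K : Kah A) (f : Cn n → M) (w : Cn n) : pull (gc K) f w = pbm K f w := by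
  unfold pull pbF pbm pbi
  rw [gc_apply K (A.cover (f w)).choose_spec]


theorem holAt_rd {f : Cn n → M} {W : Set (Cn n)} (hf : Hol A f W) (hW : IsOpen W) {w : Cn n}
    (hw : w ∈ W) {i : A.ι} (hi : f w ∈ (A.e i).source) : HolAt (rd A i f) w :=
  (hf.eventually hW hw hi).mono fun _ h => h.2.2

theorem det_rd {f : Cn n → M} {W : Set (Cn n)} (hf : Imm A f W) {w : Cn n}
    (hw : w ∈ W) {i : A.ι} (hi : f w ∈ (A.e i).source) : (jac (rd A i f) w).det ≠ 0 := by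
  rw [jac_eq, det_mat, det_ne_zero_iff]
  exact hf.2 w hw i hi

theorem rel_pull {G : MF A} {U : Set M} (h : KahOn G U) {ψ : Cn n → M} {W : Set (Cn n)}
    (hψ : Imm A ψ W) (hW : IsOpen W) {w : Cn n} (hw : w ∈ W) (hU : U ∈ 𝓝 (ψ w)) {i : A.ι}
    (hi : ψ w ∈ (A.e i).source) : Rel (rd A i ψ) w (pull G ψ) (G i) := by
  refine ⟨holAt_rd hψ.1 hW hw hi, det_rd hψ hw hi, h.kah i _ hi (mem_of_mem_nhds hU), ?_⟩
  filter_upwards [hψ.1.eventually hW hw hi, (hψ.1 w hw).1 hU] with y hy hy'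
  exact pull_eq h.tr hψ.1 hy.1 hy' hy.2.1

theorem kahAt_pull {G : MF A} {U : Set M} (h : KahOn G U) {ψ : Cn n → M} {W : Set (Cn n)}
    (hψ : Imm A ψ W) (hW : IsOpen W) {w : Cn n} (hw : w ∈ W) (hU : U ∈ 𝓝 (ψ w)) :
    KahAt (pull G ψ) w :=
  (rel_pull h hψ hW hw hU (A.cover (ψ w)).choose_spec).kahAt

theorem relT_pull {G : ℝ → MF A} {ψ : Cn n → M} {W : Set (Cn n)} (hψ : Imm A ψ W) (hW : IsOpen W)
    {t : ℝ} {w : Cn n} (hw : w ∈ W) (h : ∀ᶠ q : ℝ × M in 𝓝 (t, ψ w), TrOn (G q.1) {q.2})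
    {i : A.ι} (hi : ψ w ∈ (A.e i).source) (hk : KRFat (fun s => G s i) t (A.e i (ψ w))) :
    RelT (rd A i ψ) t w (fun s => pull (G s) ψ) (fun s => G s i) := by
  refine ⟨holAt_rd hψ.1 hW hw hi, det_rd hψ hw hi, hk, ?_⟩
  have hs : Tendsto (fun q : ℝ × Cn n => q.2) (𝓝 (t, w)) (𝓝 w) := continuousAt_snd
  have hc : Tendsto (fun q : ℝ × Cn n => ((q.1, ψ q.2) : ℝ × M)) (𝓝 (t, w)) (𝓝 (t, ψ w)) :=
    Tendsto.prodMk_nhds continuousAt_fst ((hψ.1 w hw).1.tendsto.comp hs)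
  filter_upwards [hc.eventually h, hs.eventually (hψ.1.eventually hW hw hi)] with q hq hq'
  exact pull_eq hq hψ.1 hq'.1 rfl hq'.2.1

/-- `f ∘ ψ` read through the chart `i` -/
theorem comp_rd {V : Type*} {ψ : Cn n → M} {w : Cn n} (hc : ContinuousAt ψ w) {i : A.ι}
    (hi : ψ w ∈ (A.e i).source) (f : M → V) :
    (fun y => f (ψ y)) =ᶠ[𝓝 w] fun y => inC A i f (rd A i ψ y) := by
  filter_upwards [hc ((A.e i).open_source.mem_nhds hi)] with y hy
  exact (inC_apply hy f).symm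

/-! ### potentials -/


theorem closed'_hess {u : Cn n → ℝ} {z : Cn n} (hu : ∀ᶠ w in 𝓝 z, ContDiffAt ℝ ∞ u w)
    (a b c : Fin n) :
    wd (true, c) (fun w => hess u w a b) z = wd (true, b) (fun w => hess u w a c) z := by
  obtain ⟨U, hU, hUo, hUz⟩ := _root_.eventually_nhds_iff.1 hu
  exact wdb_hess hUo (fun w hw => (hU w hw).contDiffWithinAt) hUz a b c

/-- `g0 + ∂∂̄ u` is Kaehler where it is positive -/
theorem KahAt.add_hess {g0 : Cn n → Mat n} {u : Cn n → ℝ} {z : Cn n} (h0 : KahAt g0 z)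
    (hu : ∀ᶠ w in 𝓝 z, ContDiffAt ℝ ∞ u w) (hp : ∀ᶠ w in 𝓝 z, (g0 w + hess u w).PosDef) :
    KahAt (fun w => g0 w + hess u w) z := by
  refine ⟨?_, hp, ?_, ?_⟩
  · filter_upwards [h0.smE, hu] with w h1 h2
    exact SmM.add h1 (smM_hess h2)
  · filter_upwards [h0.smE, h0.closed, hu] with w h1 h2 h3 a b c
    simp only [Matrix.add_apply]
    rw [wd_add (SmM.diff h1 a b) ((smM_hess h3).diff a b),
      wd_add (SmM.diff h1 c b) ((smM_hess h3).diff c b), h2 a b c, wd_hess h3]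
  · filter_upwards [h0.smE, h0.closed', hu.eventually_nhds] with w h1 h2 h3 a b c
    simp only [Matrix.add_apply]
    rw [wd_add (SmM.diff h1 a b) ((smM_hess h3.self_of_nhds).diff a b),
      wd_add (SmM.diff h1 a c) ((smM_hess h3.self_of_nhds).diff a c), h2 a b c, closed'_hess h3]

theorem pot_eq {g0 : Cn n → Mat n} {u : Cn n → ℝ} {z : Cn n} (h0 : KahAt g0 z)
    (hu : ContDiffAt ℝ ∞ u z) (t : ℝ) :
    g0 z - (t : ℂ) • ric g0 z + hess u z = g0 z + hess (fun w => t * ldet g0 w + u w) z := by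
  rw [hess_add (contDiffAt_const.mul h0.cd_ldet) hu, hess_const_mul t h0.cd_ldet]
  simp only [ric, smul_neg, sub_neg_eq_add, add_assoc]

theorem kahAt_pot {g0 : Cn n → Mat n} {u : Cn n → ℝ} {z : Cn n} (h0 : KahAt g0 z)
    (hu : ∀ᶠ w in 𝓝 z, ContDiffAt ℝ ∞ u w) (t : ℝ)
    (hp : ∀ᶠ w in 𝓝 z, (g0 w - (t : ℂ) • ric g0 w + hess u w).PosDef) :
    KahAt (fun w => g0 w - (t : ℂ) • ric g0 w + hess u w) z := by
  have e : (fun w => g0 w - (t : ℂ) • ric g0 w + hess u w) =ᶠ[𝓝 z]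
      fun w => g0 w + hess (fun w => t * ldet g0 w + u w) w := by
    filter_upwards [h0.eventually, hu] with w h1 h2
    exact pot_eq h1 h2 t
  refine (h0.add_hess ?_ ?_).congr e
  · filter_upwards [h0.eventually, hu] with w h1 h2
    exact (contDiffAt_const.mul h1.cd_ldet).add h2
  · filter_upwards [hp, e] with w h1 h2
    rw [← h2]; exact h1

/-- the complex Monge-Ampere flow solves the Kaehler-Ricci flow (start time `t0`) -/
theorem krfAt_pot {g0 : Cn n → Mat n} {φ : ℝ → Cn n → ℝ} {t : ℝ} {z : Cn n} (t0 : ℝ)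
    (h0 : KahAt g0 z)
    (hs : ∀ᶠ q : ℝ × Cn n in 𝓝 (t, z), ContDiffAt ℝ ∞ (fun q : ℝ × Cn n => φ q.1 q.2) q)
    (hp : ∀ᶠ q : ℝ × Cn n in 𝓝 (t, z),
      (g0 q.2 - ((q.1 - t0 : ℝ) : ℂ) • ric g0 q.2 + hess (φ q.1) q.2).PosDef)
    (he : ∀ᶠ q : ℝ × Cn n in 𝓝 (t, z), HasDerivAt (fun s => φ s q.2)
      (ldet (fun w => g0 w - ((q.1 - t0 : ℝ) : ℂ) • ric g0 w + hess (φ q.1) w) q.2
        - ldet g0 q.2) q.1) :
    KRFat (fun s w => g0 w - ((s - t0 : ℝ) : ℂ) • ric g0 w + hess (φ s) w) t z := by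
  have hsn : Tendsto (fun q : ℝ × Cn n => q.2) (𝓝 (t, z)) (𝓝 z) := continuousAt_snd
  have h1 : ∀ᶠ q : ℝ × Cn n in 𝓝 (t, z), KahAt g0 q.2 := hsn.eventually h0.eventually
  have e2 : ∀ᶠ q : ℝ × Cn n in 𝓝 (t, z),
      KahAt (fun w => g0 w - ((q.1 - t0 : ℝ) : ℂ) • ric g0 w + hess (φ q.1) w) q.2 := by
    filter_upwards [h1, hs.eventually_nhds, hp.eventually_nhds] with q a1 a2 a3
    exact kahAt_pot a1 (((tendsto_slice q.1 q.2).eventually a2).mono fun w hw => cd_slice hw) _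
      ((tendsto_slice q.1 q.2).eventually a3)
  refine ⟨?_, hp, e2.mono fun q hq => hq.closed.self_of_nhds,
    e2.mono fun q hq => hq.closed'.self_of_nhds, ?_⟩
  · filter_upwards [h1, hs] with q a1 a2 a b
    refine ((cd_static q.1 (a1.sm a b)).sub (ContDiffAt.mul ?_
      (cd_static q.1 (a1.smM_ric a b)))).add (cd_hess_joint a2 a b)
    exact Complex.ofRealCLM.contDiff.contDiffAt.comp _ (contDiffAt_fst.sub contDiffAt_const)
  · filter_upwards [h1, hs.eventually_nhds, he.eventually_nhds, e2] with q a1 a2 a3 a4 a b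
    have b1 := hasDerivAt_hess a2 a b
    have b2 : (fun w => deriv (fun s => φ s w) q.1) =ᶠ[𝓝 q.2] fun w =>
        ldet (fun w => g0 w - ((q.1 - t0 : ℝ) : ℂ) • ric g0 w + hess (φ q.1) w) w - ldet g0 w :=
      ((tendsto_slice q.1 q.2).eventually a3).mono fun w hw => hw.deriv
    rw [hess_congr b2, hess_sub a4.cd_ldet a1.cd_ldet] at b1
    have b3 : HasDerivAt (fun s : ℝ => ((s - t0 : ℝ) : ℂ) * ric g0 q.2 a b)
        (((1 : ℝ) : ℂ) * ric g0 q.2 a b) q.1 :=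
      (((hasDerivAt_id q.1).sub_const t0).ofReal_comp).mul_const _
    refine (((hasDerivAt_const q.1 (g0 q.2 a b)).fun_sub b3).fun_add b1).congr_deriv ?_
    simp [ric]


end

end Crest.Agent.T223
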