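import Crest.Agent.R273.RMan4_798

/-!
# Row 223 (S0345), bridge, definitions (helper13)

`wdM s g z`  : entrywise Wirtinger derivative of a matrix valued function,
`Rm g z c d` : the matrix `(a, b) ↦ R_{a b̄ c d̄} = -∂_c ∂̄_d g_{a b̄} + (∂_c g · g⁻¹ · ∂̄_d g)_{a b}`,
`bis g z v w`: the bisectional curvature numerator `R(v, v̄, w, w̄)`,
`BKpos K`    : positive holomorphic bisectional curvature in every chart,
`Exh K ρ`    : a smooth proper exhaustion with `|dρ| ≤ 1`,
`YauStmt n`  : the intrinsic form of the uniformisation statement.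
-/

set_option autoImplicit false

open Set Filter Topology Complex
open scoped ContDiff Matrix ComplexConjugate

namespace Crest.Agent.T223.Br

open Crest.Agent.R275.Geo Crest.Agent.R275.EDR890 Crest.Agent.R273.Kah_333
open Crest.Agent.R273.RMan4_798 Crest.Agent.R273.Ric_798

noncomputable section

variable {n : ℕ}

/-- entrywise Wirtinger derivative (`(false, c)` is `∂_c`, `(true, d)` is `∂̄_d`) -/
def wdM (s : WI n) (g : Cn n → Matrix (Fin n) (Fin n) ℂ) (z : Cn n) : Matrix (Fin n) (Fin n) ℂ :=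
  Matrix.of fun a b => wd s (fun w => g w a b) z

/-- `Rm g z c d a b = R_{a b̄ c d̄}` for `g z a b = g_{a b̄}` -/
def Rm (g : Cn n → Matrix (Fin n) (Fin n) ℂ) (z : Cn n) (c d : Fin n) :
    Matrix (Fin n) (Fin n) ℂ :=
  -wdM (false, c) (wdM (true, d) g) z + wdM (false, c) g z * (g z)⁻¹ * wdM (true, d) g z

/-- `R(v, v̄, w, w̄)` -/
def bis (g : Cn n → Matrix (Fin n) (Fin n) ℂ) (z v w : Cn n) : ℝ :=
  (∑ a, ∑ b, ∑ c, ∑ d, Rm g z c d a b * v a * conj (v b) * w c * conj (w d)).re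

variable {M : Type} [TopologicalSpace M] {A : Atl n M}

/-- the Kaehler matrix read in the chart `i` -/
def gc (K : Kah A) (i : A.ι) (z : Cn n) : Matrix (Fin n) (Fin n) ℂ := K.g i ((A.e i).symm z)

/-- positive holomorphic bisectional curvature -/
def BKpos (K : Kah A) : Prop :=
  ∀ i, ∀ z ∈ (A.e i).target, ∀ v w : Cn n, v ≠ 0 → w ≠ 0 → 0 < bis (gc K i) z v w

/-- a smooth proper exhaustion function with `|dρ| ≤ 1` for the Riemannian metric
`G (KK K i) z u v = Re ∑ g_{a b̄} u_a conj(v_b)` -/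
structure Exh (K : Kah A) (ρ : M → ℝ) : Prop where
  sm : A.Sm ρ
  cpt : ∀ c : ℝ, IsCompact {x | ρ x ≤ c}
  grad : ∀ i, ∀ z ∈ (A.e i).target, ∀ v : Cn n,
    (fderiv ℝ (fun w => ρ ((A.e i).symm w)) z v) ^ 2 ≤ G (KK K i) z v v


end

end Crest.Agent.T223.Br
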