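import Crest.Agent.T223.QcRig_35

/-!
# Row 223, module QC (helper47): the abstract interface and the exact leaf statements

`PG E M` : a class of "good germs" of maps `E → M` (holomorphic immersions into the region) with
their pulled back quadratic forms and a Lipschitz function `ρ`.
-/

set_option autoImplicit false
set_option linter.unusedSectionVars false
set_option linter.unusedVariables false

open Set Filter Topology Metric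

noncomputable section

namespace Crest.Agent.T223.Qc47

open Crest.Agent.T223.Qc35

/-- abstract pseudogroup data.  Instance: `H ψ z` := `ψ` is a holomorphic immersion near `z` and
`ψ z ∈ U`; `Q ψ z v := nq (pull G ψ z) v / r ^ 2`; `L := 2 c r`. -/
structure PG (E : Type) [NormedAddCommGroup E] [InnerProductSpace ℂ E] (M : Type)
    [TopologicalSpace M] where
  H : (E → M) → E → Prop
  Q : (E → M) → E → E → ℝ
  ρ : M → ℝ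
  L : ℝ
  L_nonneg : 0 ≤ L
  ev : ∀ {ψ z}, H ψ z → ∀ᶠ w in 𝓝 z, H ψ w
  cont : ∀ {ψ z}, H ψ z → ContinuousAt ψ z
  congr : ∀ {ψ ψ' z}, H ψ z → ψ' =ᶠ[𝓝 z] ψ → H ψ' z ∧ Q ψ' z = Q ψ z
  comp : ∀ {ψ : E → M} {γ : E → E} {z : E}, H ψ (γ z) → (∀ᶠ w in 𝓝 z, DifferentiableAt ℂ γ w) →
    Function.Injective (fderiv ℂ γ z) →
    H (fun w => ψ (γ w)) z ∧ ∀ v, Q (fun w => ψ (γ w)) z v = Q ψ (γ z) (fderiv ℂ γ z v)
  trans : ∀ {ψ φ : E → M} {z w : E}, H ψ z → H φ w → ψ z = φ w →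
    ∃ τ : E → E, (∀ᶠ y in 𝓝 z, DifferentiableAt ℂ τ y) ∧ τ z = w ∧
      Function.Injective (fderiv ℂ τ z) ∧ ∀ᶠ y in 𝓝 z, φ (τ y) = ψ y
  inj : ∀ {ψ z}, H ψ z → ∃ s ∈ 𝓝 z, InjOn ψ s
  herm : ∀ {ψ z}, H ψ z → ∃ B : E →L[ℂ] E, ∀ v, Q ψ z v = ‖B v‖ ^ 2
  lip : ∀ {ψ : E → M} {D : Set E} {a : ℝ}, 0 ≤ a → IsOpen D → Convex ℝ D →
    (∀ z ∈ D, H ψ z ∧ ∀ v, Q ψ z v ≤ 2 * a ^ 2 * ‖v‖ ^ 2) →
    ∀ z ∈ D, ∀ w ∈ D, ρ (ψ z) ≤ ρ (ψ w) + L * a * ‖z - w‖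

variable {E : Type} [NormedAddCommGroup E] [InnerProductSpace ℂ E] {M : Type} [TopologicalSpace M]

/-- `ψ` is an `ε`-flat quasi-chart on `D` -/
def PG.Good (P : PG E M) (ψ : E → M) (D : Set E) (ε : ℝ) : Prop :=
  ∀ z ∈ D, P.H ψ z ∧ ∀ v, |P.Q ψ z v - ‖v‖ ^ 2| ≤ ε * ‖v‖ ^ 2

/-- a germ at `0` which is isometric at `0` -/
def PG.Seed (P : PG E M) (χ : E → M) : Prop := P.H χ 0 ∧ ∀ v, P.Q χ 0 v = ‖v‖ ^ 2

/-- `ψ` is tangent to `χ` at `0` -/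
def Tan (ψ χ : E → M) : Prop :=
  ∃ τ : E → E, (∀ᶠ y in 𝓝 0, DifferentiableAt ℂ τ y) ∧ τ 0 = 0 ∧ fderiv ℂ τ 0 = 1 ∧
    ∀ᶠ y in 𝓝 0, ψ y = χ (τ y)

/-- every seed in `{ρ ≤ σ}` is tangent to an `ε`-flat quasi-chart on `D` -/
def PG.Ch (P : PG E M) (D : Set E) (ε σ : ℝ) : Prop :=
  ∀ χ, P.Seed χ → P.ρ (χ 0) ≤ σ → ∃ ψ, P.Good ψ D ε ∧ Tan ψ χ


/-- leaf POLAR: an almost isometry becomes an isometry after a small linear change -/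
def PolarStmt (E : Type) [NormedAddCommGroup E] [InnerProductSpace ℂ E] : Prop :=
  ∀ (η : ℝ) (B : E →L[ℂ] E), 0 ≤ η → η ≤ 1 / 2 → NIL η B →
    ∃ S : E →L[ℂ] E, ‖S - 1‖ ≤ η ∧ ∀ v, ‖B (S v)‖ = ‖v‖

/-- leaf LIFT (35): the transition between two flat quasi-charts on a convex set -/
def LiftStmt (E : Type) [NormedAddCommGroup E] [InnerProductSpace ℂ E] : Prop :=
  ∀ s Λ δ : ℝ, 0 < s → 0 < δ → ∃ η : ℝ, 0 < η ∧
    ∀ (M : Type) [TopologicalSpace M] [T2Space M] (P : PG E M) (ψ φ : E → M) (V V' : Set E)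
      (z0 : E) (τ : E → E), IsOpen V → Convex ℝ V → ball z0 s ⊆ V → V ⊆ ball z0 Λ → IsOpen V' →
      (∀ z ∈ V, closedBall z (2 * δ) ⊆ V') → P.Good ψ V η → P.Good φ V' η →
      (∀ᶠ y in 𝓝 z0, DifferentiableAt ℂ τ y) → τ z0 = z0 → ‖fderiv ℂ τ z0 - 1‖ ≤ η →
      (∀ᶠ y in 𝓝 z0, φ (τ y) = ψ y) →
      ∃ γ : E → E, DifferentiableOn ℂ γ V ∧ ∀ z ∈ V, φ (γ z) = ψ z ∧ ‖γ z - z‖ ≤ δ

/-- EXT (47): small flat quasi-charts everywhere give large flat quasi-charts -/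
def ExtStmt (n : ℕ) : Prop :=
  ∀ s R ε' : ℝ, 0 < s → 0 < ε' → ∃ ε N : ℝ, 0 < ε ∧ 0 ≤ N ∧
    ∀ (M : Type) [TopologicalSpace M] [T2Space M] (P : PG (EuclideanSpace ℂ (Fin n)) M) (σ : ℝ),
      P.Ch (ball 0 s) ε σ → P.Ch (ball 0 R) ε' (σ - N * P.L)



end Crest.Agent.T223.Qc47
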