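import Crest.Agent.T223.QcAdd_47
import Crest.Agent.T223.QcIf_47
import Crest.Agent.R266.SCV
import Crest.Agent.R275.Geo_509
import Crest.Agent.T223.BrDef_13
import Crest.Agent.T223.TrDef_90
import Crest.Agent.T223.Gr3_44

-- ▼ part T223/QcSplit_47
section

/-!
# Row 223, quasi-charts (helper47), part 3: the nonlinear splitting (Cartan's lemma on boxes)
-/

set_option autoImplicit false
set_option linter.unusedSectionVars false
set_option linter.unusedVariables false

open Set Filter Topology Metric Complex MeasureTheory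
open scoped Real Interval

noncomputable section

namespace Crest.Agent.T223.Qc47

open Crest.Agent.R266.SCV

variable {E : Type} [NormedAddCommGroup E] [NormedSpace ℂ E] [FiniteDimensional ℂ E]

/-- the iteration -/
def itA (T : (E → E) → E → E) (k : E → E) : ℕ → E → E
  | 0 => fun _ => 0
  | m + 1 => T fun z => k (z + itA T k m z)

/-- **nonlinear splitting**: `(id + k) ∘ (id + a) = id + b` on the overlap -/
theorem nl_split (C : Cyl E) {xl x0 x1 xr c d R : ℝ} (h01 : x0 < x1) (hcd : c ≤ d)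
    (hR : 0 ≤ R) (hl : xr - xl ≤ R) (hl1 : xl ≤ x0) (hr1 : x1 ≤ xr) (hRd : d - c ≤ R)
    {k : E → E} {O' : Set E} {δ ε : ℝ} (hδ : 0 < δ) (hε : 0 ≤ ε) (hO' : IsOpen O')
    (hk : DifferentiableOn ℂ k O') (hkb : ∀ z ∈ O', ‖k z‖ ≤ ε)
    (hO : ∀ z ∈ C.bx x0 x1 c d, ball z (2 * δ) ⊆ O')
    (hsm : (3 * Jc R ^ 2 / (x1 - x0) + 1) * ε ≤ δ / 2) :
    ∃ a b : E → E, DifferentiableOn ℂ a (C.bx xl x1 c d) ∧ DifferentiableOn ℂ b (C.bx x0 xr c d) ∧
      (∀ z ∈ C.bx xl x1 c d, ‖a z‖ ≤ (3 * Jc R ^ 2 / (x1 - x0) + 1) * ε) ∧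
      (∀ z ∈ C.bx x0 xr c d, ‖b z‖ ≤ (3 * Jc R ^ 2 / (x1 - x0) + 1) * ε) ∧
      ∀ z ∈ C.bx x0 x1 c d, z + a z + k (z + a z) = z + b z := by
  have : CompleteSpace E := FiniteDimensional.complete ℂ E
  obtain ⟨T, hT, hTs⟩ := Cyl.add_split (F := E) C h01 hcd hR hl hl1 hr1 hRd
  set K : ℝ := 3 * Jc R ^ 2 / (x1 - x0) + 1 with hK
  have hK0 : 0 ≤ K := by
    have : 0 < x1 - x0 := by linarith
    positivity
  set O : Set E := C.bx x0 x1 c d with hOd
  set D : Set E := C.bx xl x1 c d with hD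
  have hOD : O ⊆ D := fun z hz => ⟨hz.1, ⟨lt_of_le_of_lt hl1 hz.2.1.1, hz.2.1.2⟩, hz.2.2⟩
  -- composition with a small map
  have hcomp : ∀ a : E → E, DifferentiableOn ℂ a D → (∀ z ∈ D, ‖a z‖ ≤ K * ε) →
      (∀ z ∈ O, z + a z ∈ ball z δ) ∧ DifferentiableOn ℂ (fun z => k (z + a z)) O ∧
        ∀ z ∈ O, ‖k (z + a z)‖ ≤ ε := by
    intro a ha hb
    have h1 : ∀ z ∈ O, z + a z ∈ ball z δ := fun z hz => by
      rw [mem_ball, dist_eq_norm, add_sub_cancel_left]
      linarith [hb z (hOD hz)]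
    have h2 : ∀ z ∈ O, z + a z ∈ O' := fun z hz =>
      hO z hz (ball_subset_ball (by linarith) (h1 z hz))
    exact ⟨h1, hk.comp (differentiableOn_id.add (ha.mono hOD)) h2, fun z hz => hkb _ (h2 z hz)⟩
  -- the contraction estimate
  have hcon : ∀ (a a' : E → E) (s : ℝ), 0 ≤ s → DifferentiableOn ℂ a D →
      (∀ z ∈ D, ‖a z‖ ≤ K * ε) → DifferentiableOn ℂ a' D → (∀ z ∈ D, ‖a' z‖ ≤ K * ε) →
      (∀ z ∈ D, ‖a z - a' z‖ ≤ s) →
      ∀ z ∈ D, ‖T (fun w => k (w + a w)) z - T (fun w => k (w + a' w)) z‖ ≤ s / 2 := by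
    intro a a' s hs ha hb ha' hb' hd z hz
    obtain ⟨m1, d1, b1⟩ := hcomp a ha hb
    obtain ⟨m2, d2, b2⟩ := hcomp a' ha' hb'
    rw [← hTs _ _ ε ε d1 b1 d2 b2 z hz.1]
    have hlip : ∀ w ∈ O, ‖k (w + a w) - k (w + a' w)‖ ≤ ε / δ * s := by
      intro w hw
      refine (lip_of_bound hδ (hk.mono (hO w hw)) (fun y hy => hkb y (hO w hw hy)) (m1 w hw)
        (m2 w hw)).trans ?_
      rw [add_sub_add_left_eq_sub]
      exact mul_le_mul_of_nonneg_left (hd w (hOD hw)) (by positivity)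
    refine ((hT _ (ε / δ * s) (by positivity) (d1.sub d2) hlip).2.1 z hz).trans ?_
    have : K * (ε / δ) ≤ 1 / 2 := by
      rw [← mul_div_assoc, div_le_iff₀ hδ]
      linarith
    nlinarith
  have hit : ∀ m, DifferentiableOn ℂ (itA T k m) D ∧ ∀ z ∈ D, ‖itA T k m z‖ ≤ K * ε := by
    intro m
    induction m with
    | zero => exact ⟨differentiableOn_const _, fun z _ => by simp [itA]; positivity⟩
    | succ m ih =>
      obtain ⟨_, d1, b1⟩ := hcomp _ ih.1 ih.2
      exact ⟨(hT _ ε hε d1 b1).1, (hT _ ε hε d1 b1).2.1⟩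
  have hgeo : ∀ m, ∀ z ∈ D, ‖itA T k (m + 1) z - itA T k m z‖ ≤ K * ε * (1 / 2) ^ m := by
    intro m
    induction m with
    | zero => intro z hz; simpa [show itA T k 0 z = 0 from rfl] using (hit 1).2 z hz
    | succ m ih =>
      intro z hz
      refine (hcon _ _ _ (by positivity) (hit (m + 1)).1 (hit (m + 1)).2 (hit m).1 (hit m).2 ih
        z hz).trans (le_of_eq ?_)
      ring
  have hcau : ∀ z ∈ D, ∃ w, Tendsto (fun m => itA T k m z) atTop (𝓝 w) := fun z hz =>
    cauchySeq_tendsto_of_complete (cauchySeq_of_le_geometric (1 / 2) (K * ε) (by norm_num)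
      fun m => by rw [dist_comm, dist_eq_norm]; exact hgeo m z hz)
  choose! a ha using hcau
  have hdist : ∀ m, ∀ z ∈ D, ‖itA T k m z - a z‖ ≤ 2 * (K * ε) * (1 / 2) ^ m := by
    intro m z hz
    have := dist_le_of_le_geometric_of_tendsto (1 / 2) (K * ε) (by norm_num)
      (fun m => by rw [dist_comm, dist_eq_norm]; exact hgeo m z hz) (ha z hz) m
    rw [dist_eq_norm] at this
    refine this.trans (le_of_eq ?_)
    ring
  have hlim0 : Tendsto (fun m : ℕ => 2 * (K * ε) * (1 / 2 : ℝ) ^ m) atTop (𝓝 0) := by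
    simpa using (tendsto_pow_atTop_nhds_zero_of_lt_one (r := (1 / 2 : ℝ)) (by norm_num)
      (by norm_num)).const_mul (2 * (K * ε))
  have hunif : TendstoUniformlyOn (itA T k) a atTop D := by
    refine Metric.tendstoUniformlyOn_iff.2 fun η hη => ?_
    filter_upwards [hlim0.eventually (gt_mem_nhds hη)] with m hm z hz
    rw [dist_comm, dist_eq_norm]
    exact lt_of_le_of_lt (hdist m z hz) hm
  have had : DifferentiableOn ℂ a D :=
    (analyticOnNhd_of_tendstoLocallyUniformlyOn (C.isOpen_bx _ _ _ _)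
      hunif.tendstoLocallyUniformlyOn (Eventually.of_forall fun m => (hit m).1)).differentiableOn
  have hab : ∀ z ∈ D, ‖a z‖ ≤ K * ε := fun z hz =>
    le_of_tendsto' (ha z hz).norm fun m => (hit m).2 z hz
  obtain ⟨_, d1, b1⟩ := hcomp a had hab
  have hfix : ∀ z ∈ D, T (fun w => k (w + a w)) z = a z := by
    intro z hz
    refine tendsto_nhds_unique ?_ ((ha z hz).comp (tendsto_add_atTop_nat 1))
    rw [tendsto_iff_norm_sub_tendsto_zero]
    refine squeeze_zero (fun m => norm_nonneg _) (fun m => ?_) hlim0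
    refine (hcon _ _ _ (by positivity) (hit m).1 (hit m).2 had hab (hdist m) z hz).trans ?_
    have : 0 ≤ 2 * (K * ε) * (1 / 2 : ℝ) ^ m := by positivity
    linarith
  obtain ⟨-, -, b, hb1, hb2, hb3⟩ := hT _ ε hε d1 b1
  refine ⟨a, b, had, hb1, hab, hb2, fun z hz => ?_⟩
  rw [hb3, hfix z (hOD hz), add_assoc]

end Crest.Agent.T223.Qc47
end
private theorem rz_7277e67782 : type_of% @_root_.Crest.Agent.T223.Qc47.itA.eq_def := @_root_.Crest.Agent.T223.Qc47.itA.eq_def -- L23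
private theorem rz_fc0c57a73c : type_of% @_root_.Crest.Agent.T223.Qc47.itA.eq_1 := @_root_.Crest.Agent.T223.Qc47.itA.eq_1 -- L23
end

-- ▼ part T223/QcStep_47
section

/-!
# Row 223, quasi-charts (helper47), part 4: one gluing step
-/

set_option autoImplicit false
set_option linter.unusedSectionVars false
set_option linter.unusedVariables false

open Set Filter Topology Metric Complex
open scoped Real

noncomputable section

namespace Crest.Agent.T223.Qc47

open Crest.Agent.R266.SCV Crest.Agent.T223.Qc35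

variable {E : Type} [NormedAddCommGroup E] [InnerProductSpace ℂ E] [FiniteDimensional ℂ E]

section general

variable {M : Type} [TopologicalSpace M] {P : PG E M}

theorem PG.Good.mono {ψ : E → M} {D D' : Set E} {ε ε' : ℝ} (h : P.Good ψ D ε) (hD : D' ⊆ D)
    (hε : ε ≤ ε') : P.Good ψ D' ε' := fun z hz =>
  ⟨(h z (hD hz)).1, fun v => ((h z (hD hz)).2 v).trans
    (mul_le_mul_of_nonneg_right hε (sq_nonneg _))⟩

theorem inj_of_near {T : E →L[ℂ] E} {ν : ℝ} (hT : ‖T - 1‖ ≤ ν) (hν : ν ≤ 1 / 2) (v : E) :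
    |‖T v‖ - ‖v‖| ≤ ν * ‖v‖ := by
  have h1 : ‖T v - v‖ ≤ ν * ‖v‖ := by
    have := (T - 1).le_of_opNorm_le hT v
    simpa using this
  exact (abs_norm_sub_norm_le _ _).trans h1

/-- composition of a flat chart with a map whose derivative is near the identity -/
theorem good_comp {ψ : E → M} {D : Set E} {ε ν : ℝ} (hε : 0 ≤ ε) (h : P.Good ψ D ε) {g : E → E}
    {z : E} (hg : ∀ᶠ w in 𝓝 z, DifferentiableAt ℂ g w) (hz : g z ∈ D)
    (hν : ‖fderiv ℂ g z - 1‖ ≤ ν) (hν2 : ν ≤ 1 / 2) {φ : E → M}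
    (hφ : φ =ᶠ[𝓝 z] fun w => ψ (g w)) :
    P.H φ z ∧ ∀ v, |P.Q φ z v - ‖v‖ ^ 2| ≤ (3 * ε + 3 * ν) * ‖v‖ ^ 2 := by
  have hν0 : 0 ≤ ν := (norm_nonneg _).trans hν
  have hn := inj_of_near hν hν2
  have hinj : Function.Injective (fderiv ℂ g z) := by
    refine (injective_iff_map_eq_zero _).2 fun v hv => ?_
    have := hn v
    rw [hv, norm_zero, zero_sub, abs_neg, abs_norm] at this
    exact norm_eq_zero.1 (by nlinarith [norm_nonneg v])
  obtain ⟨h1, h2⟩ := P.comp (h _ hz).1 hg hinj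
  obtain ⟨h3, h4⟩ := P.congr h1 hφ
  refine ⟨h3, fun v => ?_⟩
  rw [h4, h2]
  have a1 := abs_le.1 ((h _ hz).2 (fderiv ℂ g z v))
  have a2 := abs_le.1 (hn v)
  set A := ‖fderiv ℂ g z v‖
  set b := ‖v‖
  have hb : 0 ≤ b := norm_nonneg _
  have hA : 0 ≤ A := norm_nonneg _
  have hνb : 0 ≤ ν * b := mul_nonneg hν0 hb
  have hνb2 : ν * b ≤ b / 2 := by nlinarith
  have b1 : A ^ 2 ≤ 3 * b ^ 2 := by nlinarith
  have b2 : A ^ 2 - b ^ 2 ≤ 3 * ν * b ^ 2 := by nlinarith
  have b3 : b ^ 2 - A ^ 2 ≤ 3 * ν * b ^ 2 := by nlinarith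
  have b4 : ε * A ^ 2 ≤ 3 * ε * b ^ 2 := by nlinarith
  rw [abs_le]
  constructor <;> nlinarith

theorem Tan.comp {ψ χ φ : E → M} (h : Tan ψ χ) {g : E → E}
    (hg : ∀ᶠ w in 𝓝 0, DifferentiableAt ℂ g w) (g0 : g 0 = 0) (g1 : fderiv ℂ g 0 = 1)
    (hφ : φ =ᶠ[𝓝 0] fun w => ψ (g w)) : Tan φ χ := by
  obtain ⟨τ, t1, t2, t3, t4⟩ := h
  have hc : Tendsto g (𝓝 0) (𝓝 0) := by
    have := hg.self_of_nhds.continuousAt.tendsto
    rwa [g0] at this
  refine ⟨fun w => τ (g w), ?_, by simp [g0, t2], ?_, ?_⟩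
  · filter_upwards [hg, hc.eventually t1] with w h1 h2
    exact h2.comp w h1
  · have h1 : DifferentiableAt ℂ τ (g 0) := by rw [g0]; exact t1.self_of_nhds
    have := fderiv_comp (𝕜 := ℂ) 0 h1 hg.self_of_nhds
    rw [g0, t3, g1] at this
    exact this
  · filter_upwards [hφ, hc.eventually t4] with w h1 h2
    rw [h1, h2]

theorem PG.Ch.mono {D D' : Set E} {ε ε' σ σ' : ℝ} (h : P.Ch D ε σ) (hD : D' ⊆ D) (hε : ε ≤ ε')
    (hσ : σ' ≤ σ) : P.Ch D' ε' σ' := fun χ h1 h2 => by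
  obtain ⟨ψ, a, b⟩ := h χ h1 (h2.trans hσ)
  exact ⟨ψ, a.mono hD hε, b⟩

end general

theorem exists_zero {b : E → E} {κ μ : ℝ} (hκ : 0 < κ) (hμ0 : 0 ≤ μ) (hμ : μ ≤ κ / 2)
    (hb : DifferentiableOn ℂ b (ball 0 (2 * κ))) (hbb : ∀ z ∈ ball (0 : E) (2 * κ), ‖b z‖ ≤ μ) :
    ∃ w : E, ‖w‖ ≤ μ ∧ w + b w = 0 := by
  have : CompleteSpace E := FiniteDimensional.complete ℂ E
  have hsub : closedBall (0 : E) μ ⊆ ball 0 κ := closedBall_subset_ball (by linarith)
  have hsub2 : closedBall (0 : E) μ ⊆ ball 0 (2 * κ) := closedBall_subset_ball (by linarith)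
  have hmaps : MapsTo (fun w => -b w) (closedBall (0 : E) μ) (closedBall 0 μ) := fun w hw => by
    rw [mem_closedBall_zero_iff, norm_neg]
    exact hbb w (hsub2 hw)
  have hc : ContractingWith (1 / 2) (hmaps.restrict (fun w => -b w) _ _) := by
    refine ⟨by norm_num, LipschitzWith.of_dist_le_mul fun x y => ?_⟩
    show dist (-b x) (-b y) ≤ _
    rw [dist_neg_neg, dist_eq_norm, Subtype.dist_eq, dist_eq_norm]
    refine (lip_of_bound hκ hb hbb (hsub x.2) (hsub y.2)).trans ?_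
    refine mul_le_mul_of_nonneg_right ?_ (norm_nonneg _)
    rw [div_le_iff₀ hκ]
    push_cast
    linarith
  obtain ⟨w, hw, hfix, -⟩ := hc.exists_fixedPoint' isClosed_closedBall.isComplete hmaps
    (x := 0) (mem_closedBall_self hμ0) (edist_ne_top _ _)
  refine ⟨w, mem_closedBall_zero_iff.1 hw, ?_⟩
  have : -b w = w := hfix
  rw [add_eq_zero_iff_eq_neg]
  exact this.symm

theorem exists_inv {D : E →L[ℂ] E} {ν : ℝ} (hD : ‖D‖ ≤ ν) (hν : ν ≤ 1 / 2) :
    ∃ T : E →L[ℂ] E, ‖T - 1‖ ≤ 2 * ν ∧ (1 + D).comp T = 1 := by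
  have : CompleteSpace E := FiniteDimensional.complete ℂ E
  have h1 : ‖-D‖ < 1 := by rw [norm_neg]; linarith
  set u := Units.oneSub (-D) h1 with hu
  have hu1 : (u : E →L[ℂ] E) = 1 + D := by simp [hu]
  have h2 : (1 + D) * (↑u⁻¹ : E →L[ℂ] E) = 1 := by rw [← hu1]; exact u.mul_inv
  refine ⟨↑u⁻¹, ?_, h2⟩
  set T : E →L[ℂ] E := ↑u⁻¹
  have h3 : T - 1 = -(D * (T - 1)) - D := by
    have : T = 1 - D * T := by rw [← h2]; noncomm_ring
    calc T - 1 = (1 - D * T) - 1 := by rw [← this]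
      _ = _ := by noncomm_ring
  have h4 : ‖T - 1‖ ≤ ν * ‖T - 1‖ + ν := by
    calc ‖T - 1‖ = ‖-(D * (T - 1)) - D‖ := by rw [← h3]
      _ ≤ ‖-(D * (T - 1))‖ + ‖D‖ := norm_sub_le _ _
      _ ≤ ν * ‖T - 1‖ + ν := by
        rw [norm_neg]
        exact add_le_add ((norm_mul_le _ _).trans
          (mul_le_mul_of_nonneg_right hD (norm_nonneg _))) hD
  nlinarith [norm_nonneg (T - 1), (norm_nonneg D).trans hD]

/-- a direction and a family of shrinking convex cylinders -/
structure Fam (E : Type) [NormedAddCommGroup E] [InnerProductSpace ℂ E] where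
  u : E
  ℓ : E →L[ℂ] ℂ
  W : ℝ → Set E
  one : ℓ u = 1
  nu : ‖u‖ = 1
  nℓ : ∀ v, ‖ℓ v‖ ≤ ‖v‖
  opn : ∀ κ, IsOpen (W κ)
  cvx : ∀ κ, Convex ℝ (W κ)
  inv : ∀ κ, ∀ z ∈ W κ, ∀ ζ : ℂ, z + ζ • u ∈ W κ
  mar : ∀ κ κ' z w, z ∈ W κ' → ‖w - z‖ ≤ κ' - κ → w ∈ W κ

namespace Fam

variable (F : Fam E)

/-- the cylinder with margin `κ` -/
def cyl (κ : ℝ) : Cyl E := ⟨F.u, F.ℓ, F.W κ, F.one, F.opn κ, F.inv κ⟩

/-- the box with margin `κ` -/
def B (κ xl xr c d : ℝ) : Set E := (F.cyl κ).bx (xl + κ) (xr - κ) (c + κ) (d - κ)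

theorem mem_B {κ xl xr c d : ℝ} {z : E} : z ∈ F.B κ xl xr c d ↔ z ∈ F.W κ ∧
    (xl + κ < (F.ℓ z).re ∧ (F.ℓ z).re < xr - κ) ∧ (c + κ < (F.ℓ z).im ∧ (F.ℓ z).im < d - κ) :=
  Iff.rfl

theorem isOpen_B (κ xl xr c d : ℝ) : IsOpen (F.B κ xl xr c d) := Cyl.isOpen_bx _ _ _ _ _

theorem convex_B (κ xl xr c d : ℝ) : Convex ℝ (F.B κ xl xr c d) := by
  have h1 := (convex_Ioo (xl + κ) (xr - κ)).linear_preimage
    (reLm ∘ₗ (F.ℓ : E →ₗ[ℂ] ℂ).restrictScalars ℝ)
  have h2 := (convex_Ioo (c + κ) (d - κ)).linear_preimage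
    (imLm ∘ₗ (F.ℓ : E →ₗ[ℂ] ℂ).restrictScalars ℝ)
  exact (F.cvx κ).inter (h1.inter h2)

theorem re_le (v : E) : |(F.ℓ v).re| ≤ ‖v‖ := (abs_re_le_norm _).trans (F.nℓ v)

theorem im_le (v : E) : |(F.ℓ v).im| ≤ ‖v‖ := (abs_im_le_norm _).trans (F.nℓ v)

variable {F}

theorem B_mar {κ κ' xl xr c d xl' xr' : ℝ} {z w : E} (hz : z ∈ F.B κ' xl' xr' c d)
    (hw : ‖w - z‖ ≤ κ' - κ) (hl : xl ≤ xl') (hr : xr' ≤ xr) : w ∈ F.B κ xl xr c d := by
  have h1 := abs_le.1 ((F.re_le (w - z)).trans hw)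
  have h2 := abs_le.1 ((F.im_le (w - z)).trans hw)
  rw [map_sub, sub_re] at h1
  rw [map_sub, sub_im] at h2
  obtain ⟨a, ⟨b1, b2⟩, c1, c2⟩ := F.mem_B.1 hz
  exact F.mem_B.2 ⟨F.mar κ κ' z w a hw, ⟨by linarith, by linarith⟩, by linarith, by linarith⟩

theorem B_mono {κ κ' xl xr c d xl' xr' : ℝ} (hκ : κ ≤ κ') (hl : xl ≤ xl') (hr : xr' ≤ xr) :
    F.B κ' xl' xr' c d ⊆ F.B κ xl xr c d := fun z hz =>
  B_mar hz (by simpa using hκ) hl hr

theorem B_shift {κ xl xr c d t : ℝ} {z : E} (hz : z ∈ F.B κ (xl - t) (xr - t) c d) :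
    z + (t : ℂ) • F.u ∈ F.B κ xl xr c d := by
  obtain ⟨a, ⟨b1, b2⟩, c1, c2⟩ := F.mem_B.1 hz
  have e : F.ℓ (z + (t : ℂ) • F.u) = F.ℓ z + t := by simp [F.one]
  refine F.mem_B.2 ⟨F.inv κ z a _, ?_⟩
  rw [e, add_re, add_im, ofReal_re, ofReal_im]
  exact ⟨⟨by linarith, by linarith⟩, by linarith, by linarith⟩

end Fam

/-- `D`-charts give `D'`-charts at depth `N` -/
def Im (D D' : Set E) (N : ℝ) : Prop :=
  ∀ ε' : ℝ, 0 < ε' → ∃ ε : ℝ, 0 < ε ∧
    ∀ (M : Type) [TopologicalSpace M] [T2Space M] (P : PG E M) (σ : ℝ),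
      P.Ch D ε σ → P.Ch D' ε' (σ - N * P.L)

theorem Im.of_subset {D D' : Set E} (h : D' ⊆ D) : Im D D' 0 := fun ε' hε' =>
  ⟨ε', hε', fun M _ _ P σ hc => hc.mono h le_rfl (by simp)⟩

theorem Im.trans {D D' D'' : Set E} {N N' : ℝ} (h : Im D D' N) (h' : Im D' D'' N') :
    Im D D'' (N + N') := fun ε'' hε'' => by
  obtain ⟨ε', hε', h1⟩ := h' ε'' hε''
  obtain ⟨ε, hε, h2⟩ := h ε' hε'
  refine ⟨ε, hε, fun M _ _ P σ hc => ?_⟩
  have := h1 M P _ (h2 M P σ hc)
  exact this.mono subset_rfl le_rfl (le_of_eq (by ring))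

/-- **one gluing step**: the box grows to the left by `s / 2` and shrinks by `6 κ` -/
theorem im_step (hP : PolarStmt E) (hL : LiftStmt E) (F : Fam E) {s κ Λ xl xr c d : ℝ}
    (hs : 0 < s) (hκ : 0 < κ) (hκs : 2 * κ ≤ s) (hW : ball 0 s ⊆ F.W (6 * κ))
    (hl : xl + 6 * κ ≤ -s) (hr : s ≤ xr - 6 * κ) (hc : c + 6 * κ ≤ -s) (hd : s ≤ d - 6 * κ)
    (hΛ : F.B 0 xl xr c d ⊆ ball 0 Λ) :
    Im (F.B 0 xl xr c d) (F.B (6 * κ) (xl - s / 2) xr c d) (s / 2) := by
  intro ε' hε'
  set t : ℝ := s / 2 with ht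
  have ht0 : 0 < t := by rw [ht]; linarith
  set R : ℝ := (xr - xl + t) + (d - c) with hR
  have hR0 : 0 ≤ R := by rw [hR]; linarith
  set x0 : ℝ := xl + 4 * κ with hx0
  set x1 : ℝ := xr - t - 4 * κ with hx1
  have h01 : x0 < x1 := by rw [hx0, hx1]; linarith
  set K : ℝ := 3 * Jc R ^ 2 / (x1 - x0) + 1 with hK
  have hK0 : 0 < K := by
    have : 0 < x1 - x0 := by linarith
    positivity
  have hK1 : 1 ≤ K := by
    have : 0 < x1 - x0 := by linarith
    have : 0 ≤ 3 * Jc R ^ 2 / (x1 - x0) := by positivity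
    linarith
  have hball : ball (0 : E) s ⊆ F.B (6 * κ) xl xr c d := by
    intro z hz
    have h0 := mem_ball_zero_iff.1 hz
    have h1 := abs_lt.1 (lt_of_le_of_lt (F.re_le z) h0)
    have h2 := abs_lt.1 (lt_of_le_of_lt (F.im_le z) h0)
    exact F.mem_B.2 ⟨hW hz, ⟨by linarith, by linarith⟩, by linarith, by linarith⟩
  have hΛ0 : 0 < Λ := by
    have := hΛ (Fam.B_mono (by linarith) le_rfl le_rfl (hball (mem_ball_self hs)))
    simpa using this
  -- the small number `ν = μ / κ`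
  obtain ⟨ν, hν0, hν1, hν2, hν3⟩ : ∃ ν : ℝ, 0 < ν ∧ ν ≤ 1 / 4 ∧ 30 * ν ≤ ε' ∧
      ν * (2 * (Λ + t)) ≤ κ / 2 := by
    have hp : 0 < 2 * (Λ + t) := by positivity
    refine ⟨min (1 / 4) (min (ε' / 30) (κ / 2 / (2 * (Λ + t)))), by positivity, min_le_left _ _,
      ?_, ?_⟩
    · linarith [min_le_right (1 / 4) (min (ε' / 30) (κ / 2 / (2 * (Λ + t)))),
        min_le_left (ε' / 30) (κ / 2 / (2 * (Λ + t)))]
    · rw [← le_div_iff₀ hp]
      exact (min_le_right _ _).trans (min_le_right _ _)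
  set δL : ℝ := ν * κ / K with hδL
  have hδL0 : 0 < δL := by positivity
  have hKδ : K * δL = ν * κ := by rw [hδL]; field_simp
  have hνκ : ν * κ ≤ κ / 4 := by nlinarith
  have hδLκ : δL ≤ κ / 4 := by nlinarith
  obtain ⟨η, hη0, hη⟩ := hL t (Λ + t) δL ht0 hδL0
  refine ⟨min η (min (1 / 2) (ε' / 18)), by positivity, ?_⟩
  set ε : ℝ := min η (min (1 / 2) (ε' / 18)) with hε
  have hε0 : 0 < ε := by positivity
  have hεη : ε ≤ η := min_le_left _ _
  have hε1 : ε ≤ 1 / 2 := (min_le_right _ _).trans (min_le_left _ _)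
  have hε2 : ε ≤ ε' / 18 := (min_le_right _ _).trans (min_le_right _ _)
  intro M _ _ P σ hCh χ hχ hχσ
  have hLt : 0 ≤ t * P.L := mul_nonneg ht0.le P.L_nonneg
  set D0 : Set E := F.B 0 xl xr c d with hD0
  obtain ⟨ψ0, hψ0, hT0⟩ := hCh χ hχ (by linarith)
  set z0 : E := -((t : ℂ) • F.u) with hz0
  have hz0n : ‖z0‖ = t := by
    rw [hz0, norm_neg, norm_smul, F.nu, norm_real, Real.norm_of_nonneg ht0.le, mul_one]
  have hsD0 : ball (0 : E) s ⊆ D0 := hball.trans (Fam.B_mono (by linarith) le_rfl le_rfl)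
  have hz0s : z0 ∈ ball (0 : E) s := by rw [mem_ball_zero_iff, hz0n, ht]; linarith
  have hz0D : z0 ∈ D0 := hsD0 hz0s
  have h00 : ψ0 0 = χ 0 := by
    obtain ⟨τ, -, t2, -, t4⟩ := hT0
    rw [t4.self_of_nhds, t2]
  -- the new seed
  obtain ⟨Bm, hBm⟩ := P.herm (hψ0 z0 hz0D).1
  obtain ⟨S, hS1, hS2⟩ := hP ε Bm hε0.le hε1 fun v => by
    rw [← hBm]; exact (hψ0 z0 hz0D).2 v
  have hSd : ∀ w, HasFDerivAt (fun w => z0 + S w) S w := fun w => S.hasFDerivAt.const_add z0
  have hSinj : Function.Injective S := by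
    refine (injective_iff_map_eq_zero _).2 fun v hv => ?_
    have := hS2 v
    rw [hv, map_zero, norm_zero] at this
    exact norm_eq_zero.1 this.symm
  have hseed : P.Seed fun w => ψ0 (z0 + S w) := by
    have h1 : P.H ψ0 ((fun w => z0 + S w) 0) := by simpa using (hψ0 z0 hz0D).1
    obtain ⟨a1, a2⟩ := P.comp (γ := fun w => z0 + S w) (z := 0) h1
      (Eventually.of_forall fun w => (hSd w).differentiableAt)
      (by rw [(hSd 0).fderiv]; exact hSinj)
    refine ⟨a1, fun v => ?_⟩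
    rw [a2, (hSd 0).fderiv, map_zero, add_zero, hBm, hS2]
  have hρ : P.ρ (ψ0 z0) ≤ σ := by
    have := P.lip (ψ := ψ0) (D := D0) (a := 1) zero_le_one (F.isOpen_B _ _ _ _ _)
      (F.convex_B _ _ _ _ _) (fun z hz => ⟨(hψ0 z hz).1, fun v => by
        have := (abs_le.1 ((hψ0 z hz).2 v)).2
        nlinarith [sq_nonneg ‖v‖]⟩) z0 hz0D 0 (hsD0 (mem_ball_self hs))
    rw [h00, sub_zero, hz0n] at this
    linarith
  obtain ⟨ψp, hψp, τp, tp1, tp2, tp3, tp4⟩ := hCh _ hseed (by simpa using hρ)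
  set φ : E → M := fun z => ψp (z - z0) with hφ
  have hshift : ∀ {k : ℝ} {z : E}, z ∈ F.B k (xl - t) (xr - t) c d → z - z0 ∈ F.B k xl xr c d :=
    fun hz => by rw [hz0, sub_neg_eq_add]; exact Fam.B_shift hz
  have hφG : P.Good φ (F.B 0 (xl - t) (xr - t) c d) ε := by
    intro z hz
    have hd : ∀ w : E, HasFDerivAt (fun w => w - z0) (ContinuousLinearMap.id ℂ E) w :=
      fun w => (hasFDerivAt_id w).sub_const z0
    obtain ⟨a1, a2⟩ := P.comp (γ := fun w => w - z0) (z := z) (hψp _ (hshift hz)).1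
      (Eventually.of_forall fun w => (hd w).differentiableAt)
      (by rw [(hd z).fderiv]; exact fun _ _ h => h)
    refine ⟨a1, fun v => ?_⟩
    rw [a2, (hd z).fderiv]
    exact (hψp _ (hshift hz)).2 v
  -- the transition
  set V : Set E := F.B (2 * κ) xl (xr - t) c d with hV
  have hsub0 : Tendsto (fun y => y - z0) (𝓝 z0) (𝓝 0) := by
    have : Continuous fun y : E => y - z0 := by fun_prop
    simpa using this.tendsto z0
  obtain ⟨γ, hγ, hγ2⟩ := hη M P φ ψ0 V D0 z0 (fun y => z0 + S (τp (y - z0)))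
    (F.isOpen_B _ _ _ _ _) (F.convex_B _ _ _ _ _)
    (fun z hz => by
      have h1 : ‖z - z0‖ < t := by rwa [mem_ball, dist_eq_norm] at hz
      have h2 : z ∈ ball (0 : E) s := by
        rw [mem_ball_zero_iff]
        linarith [norm_le_norm_sub_add z z0]
      have h3 : z - z0 ∈ ball (0 : E) s := by rw [mem_ball_zero_iff]; linarith
      obtain ⟨a, ⟨b1, b2⟩, c1, c2⟩ := F.mem_B.1 (hball h2)
      obtain ⟨-, ⟨-, b3⟩, -⟩ := F.mem_B.1 (hball h3)
      have e : F.ℓ (z - z0) = F.ℓ z + t := by simp [hz0, F.one]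
      rw [e, add_re, ofReal_re] at b3
      exact F.mem_B.2 ⟨F.mar _ _ z z a (by simp; linarith), ⟨by linarith, by linarith⟩,
        by linarith, by linarith⟩)
    (fun z hz => by
      have h1 := mem_ball_zero_iff.1 (hΛ (Fam.B_mono (by linarith) le_rfl (by linarith) hz))
      rw [mem_ball, dist_eq_norm]
      linarith [norm_sub_le z z0])
    (F.isOpen_B _ _ _ _ _)
    (fun z hz w hw => Fam.B_mar hz (by
      rw [mem_closedBall, dist_eq_norm] at hw
      linarith) le_rfl (by linarith))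
    (hφG.mono (Fam.B_mono (by linarith) (by linarith) le_rfl) hεη) (hψ0.mono subset_rfl hεη)
    (by
      filter_upwards [hsub0.eventually tp1] with y hy
      exact (S.differentiableAt.comp y (hy.comp y (differentiableAt_id.sub_const z0))).const_add z0)
    (by simp [tp2])
    (by
      have h1 : HasFDerivAt τp (1 : E →L[ℂ] E) (z0 - z0) := by
        rw [sub_self, ← tp3]; exact tp1.self_of_nhds.hasFDerivAt
      have h0 : HasFDerivAt (fun x : E => x - z0) (ContinuousLinearMap.id ℂ E) z0 :=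
        (hasFDerivAt_id z0).sub_const z0
      have h2 := (S.hasFDerivAt.comp z0 (h1.comp (f := fun x : E => x - z0) z0 h0)).const_add z0
      have h3 : fderiv ℂ (fun y => z0 + S (τp (y - z0))) z0 = S := by
        rw [show (fun y => z0 + S (τp (y - z0))) =
          fun y => z0 + (S ∘ τp ∘ fun x => x - z0) y from rfl, h2.fderiv]
        ext v
        simp
      rw [h3]
      exact hS1.trans hεη)
    (by
      filter_upwards [hsub0.eventually tp4] with y hy
      exact hy.symm)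
  -- the splitting
  obtain ⟨a, b, ha, hb, hab, hbb, hsp⟩ := nl_split (F.cyl (4 * κ)) (xl := xl - t + 4 * κ)
    (x0 := x0) (x1 := x1) (xr := xr - 4 * κ) (c := c + 4 * κ) (d := d - 4 * κ) (R := R) h01
    (by linarith) hR0 (by rw [hR]; linarith) (by rw [hx0]; linarith) (by rw [hx1]; linarith)
    (by rw [hR]; linarith) (k := fun z => γ z - z) (O' := V) (δ := κ) (ε := δL) hκ hδL0.le
    (F.isOpen_B _ _ _ _ _) (hγ.sub differentiableOn_id) (fun z hz => (hγ2 z hz).2)
    (fun z hz w hw => Fam.B_mar (κ' := 4 * κ) (xl' := xl) (xr' := xr - t) hz (by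
      rw [mem_ball, dist_eq_norm] at hw
      linarith) le_rfl le_rfl) (by rw [← hK, hKδ]; linarith)
  rw [← hK, hKδ] at hab hbb
  change DifferentiableOn ℂ a (F.B (4 * κ) (xl - t) (xr - t) c d) at ha
  change DifferentiableOn ℂ b (F.B (4 * κ) xl xr c d) at hb
  change ∀ z ∈ F.B (4 * κ) (xl - t) (xr - t) c d, _ at hab
  change ∀ z ∈ F.B (4 * κ) xl xr c d, _ at hbb
  change ∀ z ∈ F.B (4 * κ) xl (xr - t) c d, _ at hsp
  classical
  set ψ1 : E → M := fun z => if (F.ℓ z).re < x1 then φ (z + a z) else ψ0 (z + b z) with hψ1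
  have hleft : ∀ z ∈ F.B (4 * κ) (xl - t) (xr - t) c d, ψ1 z = φ (z + a z) := fun z hz =>
    if_pos (F.mem_B.1 hz).2.1.2
  have hright : ∀ z ∈ F.B (4 * κ) xl xr c d, ψ1 z = ψ0 (z + b z) := by
    intro z hz
    by_cases hx : (F.ℓ z).re < x1
    · have hzO : z ∈ F.B (4 * κ) xl (xr - t) c d :=
        F.mem_B.2 ⟨(F.mem_B.1 hz).1, ⟨(F.mem_B.1 hz).2.1.1, hx⟩, (F.mem_B.1 hz).2.2⟩
      have hzV : z + a z ∈ V := Fam.B_mar hzO (by
        rw [add_sub_cancel_left]
        linarith [hab z (Fam.B_mono le_rfl (by linarith) le_rfl hzO)]) le_rfl le_rfl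
      have h1 := hsp z hzO
      simp only [add_sub_cancel] at h1
      simp only [hψ1, if_pos hx]
      rw [← (hγ2 _ hzV).1, h1]
    · exact if_neg hx
  have hpiece : ∀ {ψ : E → M} {e : E → E} {yl yr : ℝ}, P.Good ψ (F.B 0 yl yr c d) ε →
      DifferentiableOn ℂ e (F.B (4 * κ) yl yr c d) →
      (∀ z ∈ F.B (4 * κ) yl yr c d, ‖e z‖ ≤ ν * κ) →
      (∀ z ∈ F.B (4 * κ) yl yr c d, ψ1 z = ψ (z + e z)) →
      ∀ z ∈ F.B (5 * κ) yl yr c d, ‖fderiv ℂ e z‖ ≤ ν ∧
        P.H ψ1 z ∧ ∀ v, |P.Q ψ1 z v - ‖v‖ ^ 2| ≤ (3 * ε + 3 * ν) * ‖v‖ ^ 2 := by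
    intro ψ e yl yr hψ he heb hψe z hz
    have hbz : ball z κ ⊆ F.B (4 * κ) yl yr c d := fun w hw => Fam.B_mar hz (by
      rw [mem_ball, dist_eq_norm] at hw
      linarith) le_rfl le_rfl
    have hn : F.B (4 * κ) yl yr c d ∈ 𝓝 z := mem_of_superset (ball_mem_nhds z hκ) hbz
    have hz4 := hbz (mem_ball_self hκ)
    have hD : ‖fderiv ℂ e z‖ ≤ ν := by
      have := norm_fderiv_le_of_ball hκ (he.mono hbz) fun w hw => heb w (hbz hw)
      rwa [mul_div_cancel_right₀ _ hκ.ne'] at this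
    refine ⟨hD, good_comp hε0.le hψ (g := fun w => w + e w) ?_ ?_ ?_ (by linarith) ?_⟩
    · filter_upwards [(F.isOpen_B _ _ _ _ _).eventually_mem hz4] with w hw
      exact differentiableAt_id.add (he.differentiableAt ((F.isOpen_B _ _ _ _ _).mem_nhds hw))
    · exact Fam.B_mar hz4 (by rw [add_sub_cancel_left]; linarith [heb z hz4]) le_rfl le_rfl
    · have h1 := ((hasFDerivAt_id z).add (he.differentiableAt hn).hasFDerivAt).fderiv
      rw [show (fun w => w + e w) = id + e from rfl, h1]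
      refine le_trans (le_of_eq ?_) hD
      congr 1
      ext v
      simp
    · filter_upwards [hn] with w hw
      exact hψe w hw
  have hG1 : P.Good ψ1 (F.B (5 * κ) (xl - t) xr c d) (3 * ε + 3 * ν) := by
    intro z hz
    obtain ⟨a1, ⟨b1, b2⟩, c1⟩ := F.mem_B.1 hz
    by_cases hx : (F.ℓ z).re < xr - t - 5 * κ
    · exact (hpiece hφG ha hab hleft z (F.mem_B.2 ⟨a1, ⟨b1, hx⟩, c1⟩)).2
    · exact (hpiece hψ0 hb hbb hright z (F.mem_B.2 ⟨a1, ⟨by linarith [not_lt.1 hx], b2⟩, c1⟩)).2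
  -- normalisation
  have hs4 : ball (0 : E) (2 * κ) ⊆ F.B (5 * κ) xl xr c d :=
    (ball_subset_ball hκs).trans (hball.trans (Fam.B_mono (by linarith) le_rfl le_rfl))
  have hs5 : ball (0 : E) (2 * κ) ⊆ F.B (4 * κ) xl xr c d :=
    hs4.trans (Fam.B_mono (by linarith) le_rfl le_rfl)
  obtain ⟨w, hw1, hw2⟩ := exists_zero (b := b) (μ := ν * κ) hκ (by positivity) (by linarith)
    (hb.mono hs5) fun z hz => hbb z (hs5 hz)
  have hwb : w ∈ ball (0 : E) (2 * κ) := by rw [mem_ball_zero_iff]; linarith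
  obtain ⟨T, hT1, hT2⟩ := exists_inv (hpiece hψ0 hb hbb hright w (hs4 hwb)).1 (by linarith)
  have hTd : ∀ z, HasFDerivAt (fun z => w + T z) T z := fun z => T.hasFDerivAt.const_add w
  refine ⟨fun z => ψ1 (w + T z), fun z hz => ?_, ?_⟩
  · have hzn : ‖z‖ ≤ Λ + t := by
      obtain ⟨a1, ⟨b1, b2⟩, c1⟩ := F.mem_B.1 hz
      by_cases hx : (F.ℓ z).re < xr - t - 6 * κ
      · have h1 := mem_ball_zero_iff.1 (hΛ (Fam.B_mono (by linarith) le_rfl le_rfl
          (hshift (F.mem_B.2 ⟨a1, ⟨b1, hx⟩, c1⟩))))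
        linarith [norm_le_norm_sub_add z z0]
      · have h1 := mem_ball_zero_iff.1 (hΛ (Fam.B_mono (κ' := 6 * κ) (by linarith) le_rfl le_rfl
          (F.mem_B.2 ⟨a1, ⟨by linarith [not_lt.1 hx], b2⟩, c1⟩)))
        linarith
    have hmem : w + T z ∈ F.B (5 * κ) (xl - t) xr c d := by
      refine Fam.B_mar hz ?_ le_rfl le_rfl
      have h1 : ‖T z - z‖ ≤ 2 * ν * ‖z‖ := by
        simpa using (T - 1).le_of_opNorm_le hT1 z
      have h2 : 2 * ν * ‖z‖ ≤ 2 * ν * (Λ + t) := by gcongr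
      rw [add_sub_assoc]
      linarith [norm_add_le w (T z - z)]
    obtain ⟨a1, a2⟩ := good_comp (by positivity) hG1 (g := fun z => w + T z) (z := z) (ν := 2 * ν)
      (Eventually.of_forall fun y => (hTd y).differentiableAt) hmem
      (by rw [(hTd z).fderiv]; exact hT1) (by linarith) EventuallyEq.rfl
    refine ⟨a1, fun v => (a2 v).trans ?_⟩
    exact mul_le_mul_of_nonneg_right (by linarith) (sq_nonneg _)
  · have hcw : Tendsto (fun z => w + T z) (𝓝 0) (𝓝 w) := by
      simpa using (hTd 0).continuousAt.tendsto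
    have hnw : ∀ᶠ z in 𝓝 (0 : E), w + T z ∈ F.B (4 * κ) xl xr c d :=
      hcw.eventually ((F.isOpen_B _ _ _ _ _).eventually_mem (hs5 hwb))
    refine hT0.comp (g := fun z => (w + T z) + b (w + T z)) ?_ (by simpa using hw2) ?_ ?_
    · filter_upwards [hnw] with z hz
      exact (hTd z).differentiableAt.add ((hb.differentiableAt
        ((F.isOpen_B _ _ _ _ _).mem_nhds hz)).comp z (hTd z).differentiableAt)
    · have h1 : HasFDerivAt b (fderiv ℂ b w) (w + T 0) := by
        rw [map_zero, add_zero]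
        exact (hb.differentiableAt ((F.isOpen_B _ _ _ _ _).mem_nhds (hs5 hwb))).hasFDerivAt
      have h2 := ((hTd 0).add (h1.comp 0 (hTd 0))).fderiv
      rw [show (fun z => (w + T z) + b (w + T z)) =
        (fun z => w + T z) + b ∘ fun z => w + T z from rfl, h2, ← hT2]
      ext v
      simp
    · filter_upwards [hnw] with z hz
      exact hright _ hz

end Crest.Agent.T223.Qc47
end
end

-- ▼ part T223/QcExt_47
section

/-!
# Row 223, quasi-charts (helper47), part 5: boxes in `ℂⁿ`, `ExtStmt`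
-/

set_option autoImplicit false
set_option linter.unusedSectionVars false
set_option linter.unusedVariables false

open Set Filter Topology Metric Complex

noncomputable section

namespace Crest.Agent.T223.Qc47

variable {n : ℕ}

local notation "En" => EuclideanSpace ℂ (Fin n)

/-- the fourth roots of unity -/
def om (m : Fin 4) : ℂ := I ^ (m : ℕ)

theorem norm_om (m : Fin 4) : ‖om m‖ = 1 := by simp [om]

theorem om_ne (m : Fin 4) : om m ≠ 0 := fun h => by simpa [h] using norm_om m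

theorem om_add (m i : Fin 4) : om (m + i) = om m * om i := by
  fin_cases m <;> fin_cases i <;> simp [om, pow_succ] <;> rfl

/-- the `4 n` real functionals -/
def lam (k : Fin n × Fin 4) (z : En) : ℝ := (om k.2 * z k.1).re

theorem lam_le (k : Fin n × Fin 4) (z : En) : lam k z ≤ ‖z‖ := by
  refine (re_le_norm _).trans ?_
  rw [norm_mul, norm_om, one_mul]
  exact PiLp.norm_apply_le z k.1

theorem lam_sub (k : Fin n × Fin 4) (z w : En) : lam k (w - z) = lam k w - lam k z := by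
  simp [lam, mul_sub]

/-- boxes -/
def Box (h : Fin n × Fin 4 → ℝ) : Set En := {z | ∀ k, lam k z < h k}

theorem Box_mono {h h' : Fin n × Fin 4 → ℝ} (hh : ∀ k, h' k ≤ h k) : (Box h' : Set En) ⊆ Box h :=
  fun z hz k => (hz k).trans_le (hh k)

theorem ball_sub_Box {h : Fin n × Fin 4 → ℝ} {r : ℝ} (hh : ∀ k, r ≤ h k) :
    ball (0 : En) r ⊆ Box h := fun z hz k =>
  (lam_le k z).trans_lt ((mem_ball_zero_iff.1 hz).trans_le (hh k))

theorem Box_sub_ball {h : Fin n × Fin 4 → ℝ} {Λ : ℝ} (hΛ : 0 < Λ) (hh : ∀ k, h k ≤ Λ) :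
    (Box h : Set En) ⊆ ball 0 ((2 * n + 1) * Λ) := by
  intro z hz
  have hj : ∀ j, ‖z j‖ ≤ 2 * Λ := by
    intro j
    have a0 := (hz (j, 0)).trans_le (hh _)
    have a1 := (hz (j, 1)).trans_le (hh _)
    have a2 := (hz (j, 2)).trans_le (hh _)
    have a3 := (hz (j, 3)).trans_le (hh _)
    simp [lam, om, pow_succ] at a0 a1 a2 a3
    have b1 : |(z j).re| ≤ Λ := abs_le.2 ⟨by linarith, by linarith⟩
    have b2 : |(z j).im| ≤ Λ := abs_le.2 ⟨by linarith, by linarith⟩
    linarith [norm_le_abs_re_add_abs_im (z j)]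
  rw [mem_ball_zero_iff, EuclideanSpace.norm_eq, Real.sqrt_lt' (by positivity)]
  have h1 : ∑ j, ‖z j‖ ^ 2 ≤ ∑ _j : Fin n, (2 * Λ) ^ 2 :=
    Finset.sum_le_sum fun j _ => pow_le_pow_left₀ (norm_nonneg _) (hj j) 2
  rw [Finset.sum_const, Finset.card_univ, Fintype.card_fin, nsmul_eq_mul] at h1
  have hn : (0 : ℝ) ≤ n := Nat.cast_nonneg n
  have : (n : ℝ) * (2 * Λ) ^ 2 < ((2 * n + 1) * Λ) ^ 2 := by
    have hΛ2 : 0 < Λ ^ 2 := by positivity
    nlinarith [mul_nonneg (mul_nonneg hn hn) hΛ2.le]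
  linarith

/-- the family of cylinders for the face `k0` of the box -/
def fam (h : Fin n × Fin 4 → ℝ) (k0 : Fin n × Fin 4) : Fam En where
  u := EuclideanSpace.single k0.1 (-(om k0.2)⁻¹)
  ℓ := (-om k0.2) • EuclideanSpace.proj k0.1
  W := fun κ => {z | ∀ k : Fin n × Fin 4, k.1 ≠ k0.1 → lam k z < h k - κ}
  one := by simp [om_ne]
  nu := by simp [norm_om]
  nℓ := fun v => by
    simpa [norm_om] using PiLp.norm_apply_le v k0.1
  opn := fun κ => by
    simp only [setOf_forall]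
    refine isOpen_iInter_of_finite fun k => isOpen_iInter_of_finite fun _ => ?_
    refine isOpen_lt ?_ continuous_const
    unfold lam
    fun_prop
  cvx := fun κ x hx y hy a b ha hb hab k hk => by
    have e : lam k (a • x + b • y) = a * lam k x + b * lam k y := by
      simp [lam]
      ring
    rw [e]
    have h1 := hx k hk
    have h2 := hy k hk
    rcases eq_or_lt_of_le ha with h0 | h0
    · subst h0
      have : b = 1 := by linarith
      subst this
      linarith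
    · have h3 := mul_lt_mul_of_pos_left h1 h0
      have h4 := mul_le_mul_of_nonneg_left h2.le hb
      have h5 : a * (h k - κ) + b * (h k - κ) = h k - κ := by rw [← add_mul, hab, one_mul]
      linarith
  inv := fun κ z hz ζ k hk => by
    have := hz k hk
    simpa [lam, hk] using this
  mar := fun κ κ' z w hz hw k hk => by
    have h1 := hz k hk
    have h2 := lam_le k (w - z)
    rw [lam_sub] at h2
    linarith

theorem lam_line (h : Fin n × Fin 4 → ℝ) (k0 : Fin n × Fin 4) (z : En) :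
    lam (k0.1, k0.2 + 0) z = -((fam h k0).ℓ z).re ∧ lam (k0.1, k0.2 + 1) z = ((fam h k0).ℓ z).im ∧
    lam (k0.1, k0.2 + 2) z = ((fam h k0).ℓ z).re ∧ lam (k0.1, k0.2 + 3) z = -((fam h k0).ℓ z).im := by
  have e : (fam h k0).ℓ z = -(om k0.2 * z k0.1) := by simp [fam]
  simp only [lam, om_add, e]
  have o0 : om 0 = 1 := by simp [om]
  have o1 : om 1 = I := by simp [om]
  have o2 : om 2 = -1 := by simp [om]
  have o3 : om 3 = -I := by simp [om, pow_succ]
  rw [o0, o1, o2, o3]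
  refine ⟨?_, ?_, ?_, ?_⟩ <;> simp <;> ring

theorem B_sub_Box (h : Fin n × Fin 4 → ℝ) (k0 : Fin n × Fin 4) :
    (fam h k0).B 0 (-h (k0.1, k0.2 + 0)) (h (k0.1, k0.2 + 2)) (-h (k0.1, k0.2 + 3))
      (h (k0.1, k0.2 + 1)) ⊆ Box h := by
  intro z hz k
  obtain ⟨a, ⟨b1, b2⟩, c1, c2⟩ := (fam h k0).mem_B.1 hz
  obtain ⟨l0, l1, l2, l3⟩ := lam_line h k0 z
  by_cases hk : k.1 = k0.1
  · obtain ⟨i, hi⟩ : ∃ i, k = (k0.1, k0.2 + i) := ⟨k.2 - k0.2, Prod.ext hk (by simp)⟩
    subst hi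
    fin_cases i
    · show lam (k0.1, k0.2 + 0) z < h (k0.1, k0.2 + 0)
      linarith
    · show lam (k0.1, k0.2 + 1) z < h (k0.1, k0.2 + 1)
      linarith
    · show lam (k0.1, k0.2 + 2) z < h (k0.1, k0.2 + 2)
      linarith
    · show lam (k0.1, k0.2 + 3) z < h (k0.1, k0.2 + 3)
      linarith
  · simpa using a k hk

/-- one face of the box is pushed out -/
theorem im_face (hP : PolarStmt En) (hL : LiftStmt En) {h h' : Fin n × Fin 4 → ℝ}
    (k0 : Fin n × Fin 4) {s κ : ℝ} (hs : 0 < s) (hκ : 0 < κ) (hκs : 2 * κ ≤ s)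
    (hh : ∀ k, s + 6 * κ ≤ h k) (h1 : h' k0 ≤ h k0 + s / 2 - 6 * κ)
    (h2 : ∀ k, k ≠ k0 → h' k ≤ h k - 6 * κ) : Im (Box h : Set En) (Box h') (s / 2) := by
  obtain ⟨Λ, hΛ⟩ := (Set.finite_range h).bddAbove
  have hΛ' : ∀ k, h k ≤ Λ := fun k => hΛ ⟨k, rfl⟩
  have hΛ0 : 0 < Λ := by linarith [hh k0, hΛ' k0]
  have key := im_step hP hL (fam h k0) (xl := -h (k0.1, k0.2 + 0)) (xr := h (k0.1, k0.2 + 2))
    (c := -h (k0.1, k0.2 + 3)) (d := h (k0.1, k0.2 + 1)) hs hκ hκs
    (fun z hz k _ => by linarith [lam_le k z, mem_ball_zero_iff.1 hz, hh k])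
    (by linarith [hh (k0.1, k0.2 + 0)]) (by linarith [hh (k0.1, k0.2 + 2)])
    (by linarith [hh (k0.1, k0.2 + 3)]) (by linarith [hh (k0.1, k0.2 + 1)])
    ((B_sub_Box h k0).trans (Box_sub_ball hΛ0 hΛ'))
  have hsub : (Box h' : Set En) ⊆ (fam h k0).B (6 * κ) (-h (k0.1, k0.2 + 0) - s / 2)
      (h (k0.1, k0.2 + 2)) (-h (k0.1, k0.2 + 3)) (h (k0.1, k0.2 + 1)) := by
    intro z hz
    obtain ⟨l0, l1, l2, l3⟩ := lam_line h k0 z
    have e0 : (k0.1, k0.2 + 0) = k0 := by simp
    have ne : ∀ i : Fin 4, i ≠ 0 → (k0.1, k0.2 + i) ≠ k0 := fun i hi he => by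
      have := congrArg Prod.snd he
      simp only [add_eq_left] at this
      exact hi this
    have a0 := hz (k0.1, k0.2 + 0)
    have a1 := (hz (k0.1, k0.2 + 1)).trans_le (h2 _ (ne 1 (by decide)))
    have a2 := (hz (k0.1, k0.2 + 2)).trans_le (h2 _ (ne 2 (by decide)))
    have a3 := (hz (k0.1, k0.2 + 3)).trans_le (h2 _ (ne 3 (by decide)))
    rw [← e0] at h1
    refine (fam h k0).mem_B.2 ⟨fun k hk => (hz k).trans_le (h2 k fun he => hk (by rw [he])),
      ⟨by linarith, by linarith⟩, by linarith, by linarith⟩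
  have := ((Im.of_subset (B_sub_Box h k0)).trans key).trans (Im.of_subset hsub)
  simpa using this

/-- all faces are pushed out -/
theorem im_round (hP : PolarStmt En) (hL : LiftStmt En) {s κ a : ℝ} (hs : 0 < s) (hκ : 0 < κ)
    (hκs : 2 * κ ≤ s) (ha : s + 6 * κ + (4 * n) * (6 * κ) ≤ a) :
    ∃ N : ℝ, 0 ≤ N ∧ Im (Box fun _ => a : Set En)
      (Box fun _ => a + s / 2 - (4 * n) * (6 * κ)) N := by
  classical
  have key : ∀ S : Finset (Fin n × Fin 4), ∃ N : ℝ, 0 ≤ N ∧ Im (Box fun _ => a : Set En)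
      (Box fun k => a - S.card * (6 * κ) + if k ∈ S then s / 2 else 0) N := by
    intro S
    induction S using Finset.induction_on with
    | empty => exact ⟨0, le_rfl, Im.of_subset (Box_mono fun k => by simp)⟩
    | insert k0 S hk0 ih =>
      obtain ⟨N, hN, ih⟩ := ih
      have hc : (S.card : ℝ) ≤ 4 * n := by
        have := S.card_le_univ
        rw [Fintype.card_prod, Fintype.card_fin, Fintype.card_fin] at this
        have h2 : (S.card : ℝ) ≤ (n * 4 : ℕ) := by exact_mod_cast this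
        push_cast at h2
        linarith
      have hc2 : (S.card : ℝ) * (6 * κ) ≤ 4 * n * (6 * κ) := by gcongr
      refine ⟨N + s / 2, by linarith, ih.trans (im_face hP hL k0 hs hκ hκs (fun k => ?_) ?_
        fun k hk => ?_)⟩
      · split_ifs <;> linarith
      · simp only [Finset.card_insert_of_notMem hk0, Finset.mem_insert_self, if_true, if_neg hk0]
        push_cast
        linarith
      · simp only [Finset.card_insert_of_notMem hk0, Finset.mem_insert, hk, false_or]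
        push_cast
        linarith
  obtain ⟨N, hN, h⟩ := key Finset.univ
  refine ⟨N + 0, by linarith, h.trans (Im.of_subset (Box_mono fun k => ?_))⟩
  simp only [Finset.card_univ, Fintype.card_prod, Fintype.card_fin, Finset.mem_univ, if_true]
  push_cast
  linarith

/-- **EXT** -/
theorem extStmt (hP : PolarStmt En) (hL : LiftStmt En) : ExtStmt n := by
  intro s0 R ε' hs0 hε'
  have hn : (0 : ℝ) ≤ n := Nat.cast_nonneg n
  set a0 : ℝ := s0 / (2 * n + 1) with ha0
  have ha00 : 0 < a0 := by positivity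
  set s : ℝ := a0 / 2 with hs
  have hs' : 0 < s := by positivity
  set κ : ℝ := s / (24 * (4 * n + 1)) with hκ
  have hκ0 : 0 < κ := by positivity
  have hκ1 : 6 * κ + (4 * n) * (6 * κ) = s / 4 := by rw [hκ]; field_simp; ring
  have hκ2 : 0 ≤ (4 * n) * (6 * κ) := by positivity
  have key : ∀ m : ℕ, ∃ N : ℝ, 0 ≤ N ∧ Im (ball (0 : En) s0) (Box fun _ => a0 + m * (s / 4)) N := by
    intro m
    induction m with
    | zero =>
      refine ⟨0, le_rfl, Im.of_subset ?_⟩
      have := Box_sub_ball (n := n) (h := fun _ => a0 + (0 : ℕ) * (s / 4)) ha00 (fun k => by simp)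
      rwa [show (2 * (n : ℝ) + 1) * a0 = s0 by rw [ha0]; field_simp] at this
    | succ m ih =>
      obtain ⟨N, hN, ih⟩ := ih
      have hm : 0 ≤ (m : ℝ) * (s / 4) := by positivity
      obtain ⟨N', hN', h⟩ := im_round hP hL (a := a0 + m * (s / 4)) hs' hκ0 (by linarith)
        (by linarith)
      refine ⟨N + N' + 0, by linarith, (ih.trans h).trans (Im.of_subset (Box_mono fun k => ?_))⟩
      push_cast
      linarith
  obtain ⟨m, hm⟩ := exists_nat_ge (R / (s / 4))
  rw [div_le_iff₀ (by positivity)] at hm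
  obtain ⟨N, hN, h⟩ := key m
  obtain ⟨ε, hε, h2⟩ := (h.trans (Im.of_subset (ball_sub_Box (r := R) fun k => by linarith))) ε' hε'
  exact ⟨ε, N + 0, hε, by linarith, h2⟩

end Crest.Agent.T223.Qc47
end
end

-- ▼ part T223/QcImpA_48
section

/-!
# Row 223, module QC / IMP (helper48): holomorphic Picard iteration along rays

`exists_ray_sol` : for a bounded holomorphic `A : E → E →L[ℂ] B` on a small ball there is a
holomorphic `P` with `P 0 = 1` and `d/ds P (s z) = P (s z) * A (s z) z`.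
-/

set_option autoImplicit false
set_option linter.unusedSectionVars false
set_option linter.unusedVariables false

open Set Filter Topology Metric MeasureTheory
open scoped ContDiff

namespace Crest.Agent.T223.Qc48

open Crest.Agent.R266.SCV

noncomputable section

variable {E : Type} [NormedAddCommGroup E] [NormedSpace ℂ E] [FiniteDimensional ℂ E]
variable {B : Type} [NormedRing B] [NormedAlgebra ℂ B] [CompleteSpace B]

/-- the terms of the Dyson series -/
def dy (A : E → E →L[ℂ] B) : ℕ → E → B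
  | 0 => fun _ => 1
  | k + 1 => fun z => ∫ s in (0 : ℝ)..1, dy A k ((s : ℂ) • z) * A ((s : ℂ) • z) z

theorem smul_mem_ball {r : ℝ} {z : E} (hz : z ∈ ball (0 : E) r) {s : ℝ} (hs : s ∈ Icc (0 : ℝ) 1) :
    (s : ℂ) • z ∈ ball (0 : E) r := by
  rw [mem_ball_zero_iff] at hz ⊢
  rw [norm_smul, Complex.norm_real, Real.norm_of_nonneg hs.1]
  calc s * ‖z‖ ≤ 1 * ‖z‖ := by gcongr; exact hs.2
    _ < r := by rwa [one_mul]

/-- the integral operator preserves holomorphy -/
theorem hol_step {A : E → E →L[ℂ] B} {r : ℝ} (hA : DifferentiableOn ℂ A (ball 0 r)) {Q : E → B}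
    (hQ : DifferentiableOn ℂ Q (ball 0 r)) :
    DifferentiableOn ℂ (fun z => ∫ s in (0 : ℝ)..1, Q ((s : ℂ) • z) * A ((s : ℂ) • z) z)
      (ball 0 r) := by
  have hm : MapsTo (fun p : E × ℝ => (p.2 : ℂ) • p.1) (ball (0 : E) r ×ˢ uIcc (0 : ℝ) 1)
      (ball 0 r) := by
    intro p hp
    refine smul_mem_ball hp.1 ?_
    have := hp.2
    rwa [uIcc_of_le zero_le_one] at this
  have hc : Continuous (fun p : E × ℝ => (p.2 : ℂ) • p.1) := by fun_prop
  have h := analyticOnNhd_intervalIntegral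
    (f := fun p : E × ℝ => Q ((p.2 : ℂ) • p.1) * A ((p.2 : ℂ) • p.1) p.1) (a := 0) (b := 1)
    (U := ball (0 : E) r) isOpen_ball ?_ ?_
  · exact h.differentiableOn
  · refine (hQ.continuousOn.comp hc.continuousOn hm).mul ?_
    exact (hA.continuousOn.comp hc.continuousOn hm).clm_apply continuous_fst.continuousOn
  · intro t ht
    have hm' : MapsTo (fun z : E => (t : ℂ) • z) (ball (0 : E) r) (ball 0 r) :=
      fun z hz => hm (show (z, t) ∈ ball (0 : E) r ×ˢ uIcc (0 : ℝ) 1 from ⟨hz, ht⟩)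
    have hd : DifferentiableOn ℂ (fun z : E => (t : ℂ) • z) (ball (0 : E) r) := by fun_prop
    exact (hQ.comp hd hm').mul ((hA.comp hd hm').clm_apply differentiableOn_id)

theorem norm_step {A : E → E →L[ℂ] B} {r C m : ℝ} (hC : ∀ z ∈ ball (0 : E) r, ‖A z‖ ≤ C)
    {Q : E → B} (hQ : ∀ z ∈ ball (0 : E) r, ‖Q z‖ ≤ m) {z : E} (hz : z ∈ ball (0 : E) r) :
    ‖∫ s in (0 : ℝ)..1, Q ((s : ℂ) • z) * A ((s : ℂ) • z) z‖ ≤ m * (C * r) := by
  have h := intervalIntegral.norm_integral_le_of_norm_le_const (a := (0 : ℝ)) (b := 1)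
    (C := m * (C * r)) (f := fun s : ℝ => Q ((s : ℂ) • z) * A ((s : ℂ) • z) z) ?_
  · simpa using h
  · intro s hs
    rw [uIoc_of_le zero_le_one] at hs
    have hs' := smul_mem_ball hz ⟨hs.1.le, hs.2⟩
    have hm : 0 ≤ m := (norm_nonneg _).trans (hQ _ hs')
    have hC0 : 0 ≤ C := (norm_nonneg _).trans (hC _ hs')
    refine (norm_mul_le _ _).trans (mul_le_mul (hQ _ hs') ?_ (norm_nonneg _) hm)
    refine ((A _).le_opNorm z).trans (mul_le_mul (hC _ hs') ?_ (norm_nonneg _) hC0)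
    exact (mem_ball_zero_iff.1 hz).le

theorem dy_hol {A : E → E →L[ℂ] B} {r : ℝ} (hA : DifferentiableOn ℂ A (ball 0 r)) (k : ℕ) :
    DifferentiableOn ℂ (dy A k) (ball 0 r) := by
  induction k with
  | zero => exact differentiableOn_const _
  | succ k ih => exact hol_step hA ih

theorem dy_norm {A : E → E →L[ℂ] B} {r C : ℝ} (hC : ∀ z ∈ ball (0 : E) r, ‖A z‖ ≤ C) (k : ℕ) :
    ∀ z ∈ ball (0 : E) r, ‖dy A k z‖ ≤ ‖(1 : B)‖ * (C * r) ^ k := by
  induction k with
  | zero => intro z hz; simp [dy]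
  | succ k ih =>
    intro z hz
    refine (norm_step hC ih hz).trans (le_of_eq ?_)
    ring

/-- the fixed point equation -/
theorem exists_fix (h1B : ‖(1 : B)‖ ≤ 1) {A : E → E →L[ℂ] B} {r C : ℝ} (hr : 0 < r)
    (hA : DifferentiableOn ℂ A (ball 0 r)) (hC : ∀ z ∈ ball (0 : E) r, ‖A z‖ ≤ C)
    (hCr : C * r ≤ 1 / 4) :
    ∃ P : E → B, DifferentiableOn ℂ P (ball 0 r) ∧ (∀ z ∈ ball (0 : E) r, ‖P z - 1‖ ≤ 1 / 2) ∧
      ∀ z ∈ ball (0 : E) r, P z = 1 + ∫ s in (0 : ℝ)..1, P ((s : ℂ) • z) * A ((s : ℂ) • z) z := by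
  have hC0 : 0 ≤ C := (norm_nonneg _).trans (hC 0 (mem_ball_self hr))
  set q : ℝ := C * r with hq
  have hq0 : 0 ≤ q := by positivity
  have hq1 : q < 1 := by linarith
  have hsum : Summable (fun k : ℕ => q ^ k) := summable_geometric_of_lt_one hq0 hq1
  have hb : ∀ k, ∀ z ∈ ball (0 : E) r, ‖dy A k z‖ ≤ q ^ k := by
    intro k z hz
    refine (dy_norm hC k z hz).trans ?_
    have := pow_nonneg hq0 k
    nlinarith
  have hU : TendstoUniformlyOn (fun N z => ∑ k ∈ Finset.range N, dy A k z)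
      (fun z => ∑' k, dy A k z) atTop (ball 0 r) := tendstoUniformlyOn_tsum_nat hsum hb
  set P : E → B := fun z => ∑' k, dy A k z with hP
  have hPd : DifferentiableOn ℂ P (ball 0 r) := by
    refine (analyticOnNhd_of_tendstoLocallyUniformlyOn isOpen_ball hU.tendstoLocallyUniformlyOn
      (Eventually.of_forall fun N => ?_)).differentiableOn
    exact DifferentiableOn.fun_sum fun k _ => dy_hol hA k
  have hs : ∀ z ∈ ball (0 : E) r, Summable fun k => dy A k z := fun z hz =>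
    Summable.of_norm_bounded hsum (fun k => hb k z hz)
  have hP1 : ∀ z ∈ ball (0 : E) r, P z = 1 + ∑' k, dy A (k + 1) z := by
    intro z hz
    simp only [hP]
    rw [(hs z hz).tsum_eq_zero_add]
    rfl
  have hPb : ∀ z ∈ ball (0 : E) r, ‖P z‖ ≤ 2 := by
    intro z hz
    refine (tsum_of_norm_bounded hsum.hasSum (fun k => hb k z hz)).trans ?_
    rw [tsum_geometric_of_lt_one hq0 hq1, inv_le_comm₀ (by linarith) (by norm_num)]
    linarith
  have hfix : ∀ z ∈ ball (0 : E) r,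
      P z = 1 + ∫ s in (0 : ℝ)..1, P ((s : ℂ) • z) * A ((s : ℂ) • z) z := by
    intro z hz
    rw [hP1 z hz]
    congr 1
    -- partial sums converge on both sides
    have hcz : Continuous (fun s : ℝ => (s : ℂ) • z) := by fun_prop
    have hmz : MapsTo (fun s : ℝ => (s : ℂ) • z) (uIcc (0 : ℝ) 1) (ball 0 r) := by
      intro s hs'
      rw [uIcc_of_le zero_le_one] at hs'
      exact smul_mem_ball hz hs'
    have hint : ∀ Q : E → B, DifferentiableOn ℂ Q (ball 0 r) →
        IntervalIntegrable (fun s : ℝ => Q ((s : ℂ) • z) * A ((s : ℂ) • z) z) volume 0 1 := by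
      intro Q hQ
      refine ContinuousOn.intervalIntegrable ?_
      exact (hQ.continuousOn.comp hcz.continuousOn hmz).mul
        ((hA.continuousOn.comp hcz.continuousOn hmz).clm_apply continuousOn_const)
    have h1 : Tendsto (fun N => ∑ k ∈ Finset.range N, dy A (k + 1) z) atTop
        (𝓝 (∑' k, dy A (k + 1) z)) :=
      ((summable_nat_add_iff 1).2 (hs z hz)).hasSum.tendsto_sum_nat
    refine tendsto_nhds_unique h1 ?_
    rw [Metric.tendsto_atTop]
    intro ε hε
    obtain ⟨N0, hN0⟩ := eventually_atTop.1 ((Metric.tendstoUniformlyOn_iff.1 hU) ε hε)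
    refine ⟨N0, fun N hN => ?_⟩
    have hSd : DifferentiableOn ℂ (fun y => ∑ k ∈ Finset.range N, dy A k y) (ball 0 r) :=
      DifferentiableOn.fun_sum fun k _ => dy_hol hA k
    have h2 : ∑ k ∈ Finset.range N, dy A (k + 1) z = ∫ s in (0 : ℝ)..1,
        (∑ k ∈ Finset.range N, dy A k ((s : ℂ) • z)) * A ((s : ℂ) • z) z := by
      simp only [Finset.sum_mul]
      rw [intervalIntegral.integral_finsetSum (fun k _ => hint _ (dy_hol hA k))]
      rfl
    rw [h2, dist_eq_norm, ← intervalIntegral.integral_sub (hint _ hSd) (hint _ hPd)]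
    simp only [← sub_mul]
    have h3 := norm_step (Q := fun y => (∑ k ∈ Finset.range N, dy A k y) - P y) (m := ε) hC
      (fun y hy => by
        have := hN0 N hN y hy
        rw [dist_comm, dist_eq_norm] at this
        exact this.le) hz
    refine h3.trans_lt ?_
    nlinarith
  refine ⟨P, hPd, fun z hz => ?_, hfix⟩
  rw [hfix z hz, add_sub_cancel_left]
  refine (norm_step hC hPb hz).trans ?_
  linarith

/-- the solution along rays -/
theorem exists_ray_sol (h1B : ‖(1 : B)‖ ≤ 1) {A : E → E →L[ℂ] B} {r C : ℝ} (hr : 0 < r)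
    (hA : DifferentiableOn ℂ A (ball 0 r)) (hC : ∀ z ∈ ball (0 : E) r, ‖A z‖ ≤ C)
    (hCr : C * r ≤ 1 / 4) :
    ∃ P : E → B, DifferentiableOn ℂ P (ball 0 r) ∧ P 0 = 1 ∧
      (∀ z ∈ ball (0 : E) r, ‖P z - 1‖ ≤ 1 / 2) ∧
      ∀ z ∈ ball (0 : E) r, ∀ t ∈ Icc (0 : ℝ) 1,
        P ((t : ℂ) • z) = 1 + ∫ s in (0 : ℝ)..t, P ((s : ℂ) • z) * A ((s : ℂ) • z) z := by
  obtain ⟨P, hPd, hP1, hfix⟩ := exists_fix h1B hr hA hC hCr
  refine ⟨P, hPd, ?_, hP1, fun z hz t ht => ?_⟩
  · rw [hfix 0 (mem_ball_self hr)]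
    simp
  · rw [hfix _ (smul_mem_ball hz ht)]
    congr 1
    have h1 : ∀ s : ℝ, P ((s : ℂ) • (t : ℂ) • z) * A ((s : ℂ) • (t : ℂ) • z) ((t : ℂ) • z) =
        t • (fun u : ℝ => P ((u : ℂ) • z) * A ((u : ℂ) • z) z) (t * s) := by
      intro s
      simp only [map_smul, smul_smul, mul_smul_comm, Complex.ofReal_mul, mul_comm (s : ℂ) (t : ℂ)]
      rfl
    simp only [h1]
    rw [intervalIntegral.integral_smul]
    have h2 := intervalIntegral.smul_integral_comp_mul_left (a := (0 : ℝ)) (b := 1)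
      (fun u : ℝ => P ((u : ℂ) • z) * A ((u : ℂ) • z) z) t
    simpa using h2

end

end Crest.Agent.T223.Qc48
private theorem rz_556361748b : type_of% @_root_.Crest.Agent.T223.Qc48.dy.eq_def := @_root_.Crest.Agent.T223.Qc48.dy.eq_def -- L27
private theorem rz_c4d8ed6348 : type_of% @_root_.Crest.Agent.T223.Qc48.dy.eq_1 := @_root_.Crest.Agent.T223.Qc48.dy.eq_1 -- L27
end

-- ▼ part T223/QcImpB_48
section

/-!
# Row 223, module QC / IMP (helper48): flat metrics are pull-backs (operator form)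

`flat_op` : `dH = H A + A* H`, `A` holomorphic ⇒ `H = P* H(0) P`, `dP = P A`, `P` holomorphic.
`exists_flat_chart` : with the symmetry `A z x y = A z y x`, `P = D w`; the inverse `σ` of `w`
is defined on a definite ball and `σ^* H = H 0`.
-/

set_option autoImplicit false
set_option linter.unusedSectionVars false
set_option linter.unusedVariables false

open Set Filter Topology Metric MeasureTheory
open scoped ContDiff NNReal InnerProductSpace

namespace Crest.Agent.T223.Qc48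

open Crest.Agent.R266.SCV Crest.Agent.R275.Geo

noncomputable section

variable {n : ℕ}

/-- operators on the model space -/
abbrev Op (n : ℕ) : Type := Cn n →L[ℂ] Cn n

theorem hasDerivAt_ray (z : Cn n) (t : ℝ) : HasDerivAt (fun s : ℝ => (s : ℂ) • z) z t := by
  have h := (Complex.ofRealCLM.hasDerivAt (x := t)).smul_const z
  simpa using h

section alg

variable {B : Type} [CStarAlgebra B]

theorem isUnit_of_close {P : B} (h : ‖P - 1‖ ≤ 1 / 2) : IsUnit P := by
  have h1 : ‖1 - P‖ < 1 := by rw [norm_sub_rev]; linarith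
  have := (Units.oneSub (1 - P) h1).isUnit
  simpa using this

theorem hasDerivAt_star {f : ℝ → B} {f' : B} {t : ℝ} {s : Set ℝ}
    (h : HasDerivWithinAt f f' s t) : HasDerivWithinAt (fun u => star (f u)) (star f') s t := by
  have h1 := ((starL' ℝ : B ≃L[ℝ] B).toContinuousLinearMap.hasFDerivAt
    (x := f t)).comp_hasDerivWithinAt t h
  exact h1

theorem hasFDerivAt_star {f : Cn n → B} {f' : Cn n →L[ℝ] B} {z : Cn n}
    (h : HasFDerivAt f f' z) : HasFDerivAt (fun u => star (f u))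
      ((starL' ℝ : B ≃L[ℝ] B).toContinuousLinearMap.comp f') z :=
  ((starL' ℝ : B ≃L[ℝ] B).toContinuousLinearMap.hasFDerivAt (x := f z)).comp z h

theorem flat_op (h1B : ‖(1 : B)‖ ≤ 1) {A : Cn n → Cn n →L[ℂ] B} {H : Cn n → B} {r C : ℝ} (hr : 0 < r)
    (hA : DifferentiableOn ℂ A (ball 0 r)) (hC : ∀ z ∈ ball (0 : Cn n) r, ‖A z‖ ≤ C)
    (hCr : C * r ≤ 1 / 4) (hH : DifferentiableOn ℝ H (ball 0 r))
    (hdH : ∀ z ∈ ball (0 : Cn n) r, ∀ x, fderiv ℝ H z x = H z * A z x + star (A z x) * H z)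
    (hsa : star (H 0) = H 0) (hu : IsUnit (H 0)) :
    ∃ P : Cn n → B, DifferentiableOn ℂ P (ball 0 r) ∧ P 0 = 1 ∧
      (∀ z ∈ ball (0 : Cn n) r, ‖P z - 1‖ ≤ 1 / 2) ∧
      (∀ z ∈ ball (0 : Cn n) r, H z = star (P z) * H 0 * P z) ∧
      ∀ z ∈ ball (0 : Cn n) r, ∀ x, fderiv ℂ P z x = P z * A z x := by
  obtain ⟨P, hPd, hP0, hP1, hray⟩ :=
    exists_ray_sol (B := B) h1B hr hA hC hCr
  have hC0 : 0 ≤ C := ((A 0).opNorm_nonneg).trans (hC 0 (mem_ball_self hr))
  have hfac : ∀ z ∈ ball (0 : Cn n) r, H z = star (P z) * H 0 * P z := by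
    intro z hz
    have hcz : Continuous (fun s : ℝ => (s : ℂ) • z) := by fun_prop
    have hmz : MapsTo (fun s : ℝ => (s : ℂ) • z) (Icc (0 : ℝ) 1) (ball 0 r) :=
      fun s hs => smul_mem_ball hz hs
    set a : ℝ → B := fun s => A ((s : ℂ) • z) z with ha
    set p : ℝ → B := fun s => P ((s : ℂ) • z) with hp
    set h : ℝ → B := fun s => H ((s : ℂ) • z) with hh
    have hac : ContinuousOn a (Icc 0 1) :=
      (hA.continuousOn.comp hcz.continuousOn hmz).clm_apply continuousOn_const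
    have hpc : ContinuousOn p (Icc 0 1) := hPd.continuousOn.comp hcz.continuousOn hmz
    have hhc : ContinuousOn h (Icc 0 1) := hH.continuousOn.comp hcz.continuousOn hmz
    have hab : ∀ s ∈ Icc (0 : ℝ) 1, ‖a s‖ ≤ 1 / 4 := by
      intro s hs
      refine ((A _).le_opNorm z).trans (le_trans ?_ hCr)
      exact mul_le_mul (hC _ (hmz hs)) (mem_ball_zero_iff.1 hz).le (norm_nonneg _) hC0
    have hpd : ∀ s ∈ Ico (0 : ℝ) 1, HasDerivWithinAt p (p s * a s) (Ici s) s := by
      intro s hs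
      have hc : ContinuousOn (fun u => p u * a u) (Icc 0 1) := hpc.mul hac
      have hI : Icc s 1 ∈ 𝓝[Ici s] s := Icc_mem_nhdsGE hs.2
      have hI0 : Icc (0 : ℝ) 1 ∈ 𝓝[Ici s] s := mem_of_superset hI (Icc_subset_Icc_left hs.1)
      have hI0' : Icc (0 : ℝ) 1 ∈ 𝓝[Ioi s] s := nhdsWithin_mono _ Ioi_subset_Ici_self hI0
      have h1 : HasDerivWithinAt (fun t => ∫ u in (0 : ℝ)..t, p u * a u) (p s * a s) (Ici s) s := by
        refine intervalIntegral.integral_hasDerivWithinAt_right (t := Ioi s) ?_ ?_ ?_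
        · refine ContinuousOn.intervalIntegrable (hc.mono ?_)
          rw [uIcc_of_le hs.1]
          exact Icc_subset_Icc_right hs.2.le
        · exact ⟨Icc 0 1, hI0', hc.aestronglyMeasurable measurableSet_Icc⟩
        · exact (hc s ⟨hs.1, hs.2.le⟩).mono_of_mem_nhdsWithin hI0'
      refine (h1.const_add 1).congr_of_eventuallyEq ?_ ?_
      · filter_upwards [hI0] with t ht
        exact hray z hz t ht
      · exact hray z hz s ⟨hs.1, hs.2.le⟩
    have hhd : ∀ s ∈ Ico (0 : ℝ) 1,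
        HasDerivWithinAt h (h s * a s + star (a s) * h s) (Ici s) s := by
      intro s hs
      have hs' := hmz ⟨hs.1, hs.2.le⟩
      have h1 := ((hH.differentiableAt (isOpen_ball.mem_nhds hs')).hasFDerivAt).comp_hasDerivAt s
        (hasDerivAt_ray z s)
      rw [hdH _ hs'] at h1
      exact h1.hasDerivWithinAt
    set D : ℝ → B := fun s => h s - star (p s) * H 0 * p s with hD
    have hDc : ContinuousOn D (Icc 0 1) :=
      hhc.sub ((hpc.star.mul continuousOn_const).mul hpc)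
    have hDd : ∀ s ∈ Ico (0 : ℝ) 1,
        HasDerivWithinAt D (D s * a s + star (a s) * D s) (Ici s) s := by
      intro s hs
      have h1 := (hhd s hs).sub (((hasDerivAt_star (hpd s hs)).mul_const (H 0)).mul (hpd s hs))
      refine h1.congr_deriv ?_
      simp only [hD, star_mul, sub_mul, mul_sub, mul_assoc]
      abel
    have hD0 : ‖D 0‖ ≤ 0 := by
      simp [hD, hh, hp, hP0]
    have hG := norm_le_gronwallBound_of_norm_deriv_right_le (δ := 0) (K := 1 / 2) (ε := 0) hDc hDd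
      hD0 (fun s hs => by
        have h1 := hab s ⟨hs.1, hs.2.le⟩
        have h2 := norm_mul_le (D s) (a s)
        have h3 := norm_mul_le (star (a s)) (D s)
        rw [norm_star] at h3
        have h4 := norm_add_le (D s * a s) (star (a s) * D s)
        have h5 := norm_nonneg (D s)
        nlinarith) 1 ⟨zero_le_one, le_rfl⟩
    rw [gronwallBound_ε0_δ0] at hG
    have h6 : D 1 = 0 := norm_le_zero_iff.1 hG
    simp only [hD, hh, hp, Complex.ofReal_one, one_smul] at h6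
    exact sub_eq_zero.1 h6
  refine ⟨P, hPd, hP0, hP1, hfac, fun z hz x => ?_⟩
  have hzn := isOpen_ball.mem_nhds hz
  have hPz : HasFDerivAt P (fderiv ℂ P z) z := (hPd.differentiableAt hzn).hasFDerivAt
  have hPr := hPz.restrictScalars ℝ
  have h1 := ((hasFDerivAt_star hPr).mul_const' (H 0)).mul' hPr
  have h2 : H =ᶠ[𝓝 z] fun y => star (P y) * H 0 * P y := by
    filter_upwards [hzn] with y hy using hfac y hy
  have h3 := (h1.congr_of_eventuallyEq h2).fderiv
  set S : B := star (P z) * H 0 with hS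
  set Δ : Cn n → B := fun y => S * (fderiv ℂ P z y - P z * A z y) with hΔ
  have key : ∀ y, Δ y + star (Δ y) = 0 := by
    intro y
    have h4 := hdH z hz y
    rw [h3] at h4
    have h5 : star (P z) * H 0 * fderiv ℂ P z y + star (fderiv ℂ P z y) * H 0 * P z
        = H z * A z y + star (A z y) * H z := by
      rw [← h4]
      simp [hS]
    rw [hfac z hz] at h5
    simp only [hΔ, hS, star_mul, star_sub, star_star, hsa]
    have : star (P z) * H 0 * (fderiv ℂ P z y - P z * A z y) +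
        (star (fderiv ℂ P z y) - star (A z y) * star (P z)) * (H 0 * P z) =
        (star (P z) * H 0 * fderiv ℂ P z y + star (fderiv ℂ P z y) * H 0 * P z) -
        (star (P z) * H 0 * P z * A z y + star (A z y) * (star (P z) * H 0 * P z)) := by
      noncomm_ring
    rw [this, h5, sub_self]
  have hI : Δ (Complex.I • x) = Complex.I • Δ x := by
    simp only [hΔ, map_smul, mul_smul_comm, ← smul_sub]
  have h6 := key (Complex.I • x)
  rw [hI, star_smul, Complex.star_def, Complex.conj_I, neg_smul, ← sub_eq_add_neg, ← smul_sub] at h6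
  have h7 : Δ x - star (Δ x) = 0 := (smul_eq_zero.1 h6).resolve_left Complex.I_ne_zero
  have h8 : (2 : ℂ) • Δ x = 0 := by
    rw [two_smul]
    have := key x
    rw [← sub_eq_zero.1 h7] at this
    exact this
  have h9 : Δ x = 0 := (smul_eq_zero.1 h8).resolve_left two_ne_zero
  have hSu : IsUnit S := ((isUnit_of_close (hP1 z hz)).star).mul hu
  exact sub_eq_zero.1 (hSu.mul_right_eq_zero.1 h9)

end alg

theorem half_le_of_close {P : Op n} (h : ‖P - 1‖ ≤ 1 / 2) (u : Cn n) : ‖u‖ ≤ 2 * ‖P u‖ := by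
  have h1 : ‖(P - 1) u‖ ≤ 1 / 2 * ‖u‖ :=
    ((P - 1).le_opNorm u).trans (mul_le_mul_of_nonneg_right h (norm_nonneg _))
  have h2 : u = P u - (P - 1) u := by simp
  have h3 : ‖u‖ ≤ ‖P u‖ + ‖(P - 1) u‖ := by
    conv_lhs => rw [h2]
    exact norm_sub_le _ _
  linarith

theorem exists_flat_chart {A : Cn n → Cn n →L[ℂ] Op n} {H : Cn n → Op n} {r C : ℝ} (hr : 0 < r)
    (hA : DifferentiableOn ℂ A (ball 0 r)) (hC : ∀ z ∈ ball (0 : Cn n) r, ‖A z‖ ≤ C)
    (hCr : C * r ≤ 1 / 4) (hH : DifferentiableOn ℝ H (ball 0 r))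
    (hdH : ∀ z ∈ ball (0 : Cn n) r, ∀ x, fderiv ℝ H z x = H z * A z x + star (A z x) * H z)
    (hsa : star (H 0) = H 0) (hu : IsUnit (H 0))
    (hsym : ∀ z ∈ ball (0 : Cn n) r, ∀ x y, A z x y = A z y x) :
    ∃ σ : Cn n → Cn n, DifferentiableOn ℂ σ (ball 0 (r / 4)) ∧
      MapsTo σ (ball 0 (r / 4)) (ball 0 r) ∧ σ 0 = 0 ∧
      fderiv ℂ σ 0 = ContinuousLinearMap.id ℂ (Cn n) ∧
      ∀ z ∈ ball (0 : Cn n) (r / 4), ∀ v, ‖fderiv ℂ σ z v‖ ≤ 2 * ‖v‖ ∧
        ⟪fderiv ℂ σ z v, H (σ z) (fderiv ℂ σ z v)⟫_ℂ = ⟪v, H 0 v⟫_ℂ := by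
  obtain ⟨P, hPd, hP0, hP1, hfac, hdP⟩ := flat_op (B := Op n) ContinuousLinearMap.norm_id_le hr hA hC hCr hH hdH hsa hu
  obtain ⟨w0, hw0⟩ : ∃ f : Cn n → Cn n, ∀ a ∈ ball (0 : Cn n) r, HasFDerivAt f (P a) a := by
    refine (convex_ball (0 : Cn n) r).exists_forall_hasFDerivAt_of_fderiv_symmetric isOpen_ball
      (hPd.restrictScalars ℝ) (fun a ha x y => ?_)
    have hd := hPd.differentiableAt (isOpen_ball.mem_nhds ha)
    rw [fderiv_real_eq hd, fderiv_real_eq hd, hdP a ha, hdP a ha]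
    simp only [mul_apply_eq_comp, hsym a ha x y]
  set w : Cn n → Cn n := fun z => w0 z - w0 0 with hw
  have hwd : ∀ a ∈ ball (0 : Cn n) r, HasFDerivAt w (P a) a := fun a ha => (hw0 a ha).sub_const _
  have hwz : w 0 = 0 := by simp [hw]
  set f' : Cn n ≃L[ℂ] Cn n := ContinuousLinearEquiv.refl ℂ (Cn n) with hf'
  have happ : ApproximatesLinearOn w (f' : Cn n →L[ℂ] Cn n) (ball 0 r) (1 / 2 : ℝ≥0) := by
    intro x hx y hy
    have h1 := (convex_ball (0 : Cn n) r).norm_image_sub_le_of_norm_hasFDerivWithin_le'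
      (f := w) (f' := P) (φ := (f' : Cn n →L[ℂ] Cn n)) (C := 1 / 2)
      (fun a ha => (hwd a ha).hasFDerivWithinAt) (fun a ha => hP1 a ha) hy hx
    simpa using h1
  have hc : Subsingleton (Cn n) ∨ (1 / 2 : ℝ≥0) < ‖(f'.symm : Cn n →L[ℂ] Cn n)‖₊⁻¹ := by
    rcases subsingleton_or_nontrivial (Cn n) with h | h
    · exact Or.inl h
    · right
      have : ‖(f'.symm : Cn n →L[ℂ] Cn n)‖₊ = 1 := by
        simp [hf']
      rw [this]
      norm_num
  set e := happ.toOpenPartialHomeomorph w _ hc isOpen_ball with he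
  have hes : e.source = ball 0 r := rfl
  have hef : ∀ y, e y = w y := fun y => rfl
  have htar : ball (0 : Cn n) (r / 4) ⊆ e.target := by
    intro y hy
    rcases subsingleton_or_nontrivial (Cn n) with h | h
    · have : y = e 0 := Subsingleton.elim _ _
      rw [this]
      exact e.map_source (mem_ball_self hr)
    · have h1 := happ.surjOn_closedBall_of_nonlinearRightInverse f'.toNonlinearRightInverse
        (ε := r / 2) (b := 0) (by positivity) (closedBall_subset_ball (by linarith))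
      have h2 : (f'.toNonlinearRightInverse.nnnorm : ℝ) = 1 := by
        have : f'.toNonlinearRightInverse.nnnorm = ‖(f'.symm : Cn n →L[ℂ] Cn n)‖₊ := rfl
        rw [this]
        simp [hf']
      rw [h2, hwz] at h1
      obtain ⟨x, hx, hxy⟩ := h1 (show y ∈ closedBall (0 : Cn n) _ from by
        rw [mem_closedBall_zero_iff]
        have := mem_ball_zero_iff.1 hy
        push_cast
        linarith)
      rw [← hxy, ← hef]
      exact e.map_source (closedBall_subset_ball (by linarith) hx)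
  have hder : ∀ y ∈ ball (0 : Cn n) (r / 4), ∃ L : Op n, HasFDerivAt e.symm L y ∧
      ∀ v, P (e.symm y) (L v) = v := by
    intro y hy
    have hx : e.symm y ∈ ball (0 : Cn n) r := e.map_target (htar hy)
    obtain ⟨u, hu'⟩ := isUnit_of_close (hP1 _ hx)
    set T : Cn n ≃L[ℂ] Cn n := ContinuousLinearEquiv.unitsEquiv ℂ (Cn n) u with hT
    have hTP : (T : Cn n →L[ℂ] Cn n) = P (e.symm y) := by
      rw [← hu']
      ext v : 1
      simp [hT]
    have h1 : HasFDerivAt e (T : Cn n →L[ℂ] Cn n) (e.symm y) := by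
      rw [hTP]
      exact hwd _ hx
    refine ⟨_, e.hasFDerivAt_symm (htar hy) h1, fun v => ?_⟩
    rw [← hTP]
    simp
  have h00 : e.symm 0 = 0 := by
    have := e.left_inv (x := 0) (mem_ball_self hr)
    rwa [hef, hwz] at this
  refine ⟨e.symm, fun y hy => ?_, fun y hy => e.map_target (htar hy), h00, ?_, fun y hy v => ?_⟩
  · obtain ⟨L, hL, -⟩ := hder y hy
    exact hL.differentiableAt.differentiableWithinAt
  · obtain ⟨L, hL, hLP⟩ := hder 0 (mem_ball_self (by positivity))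
    rw [hL.fderiv]
    ext v : 1
    have := hLP v
    rw [h00, hP0] at this
    simpa using this
  · obtain ⟨L, hL, hLP⟩ := hder y hy
    have hx : e.symm y ∈ ball (0 : Cn n) r := e.map_target (htar hy)
    rw [hL.fderiv]
    refine ⟨by simpa [hLP] using half_le_of_close (hP1 _ hx) (L v), ?_⟩
    rw [hfac _ hx]
    simp only [mul_apply_eq_comp, hLP, ContinuousLinearMap.star_eq_adjoint]
    rw [ContinuousLinearMap.adjoint_inner_right, hLP]

end

end Crest.Agent.T223.Qc48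
end

-- ▼ part T223/QcImpDef_48
section

/-!
# Row 223, module QC / IMP (helper48): statements

* `KB G r ε`  : `G` is a smooth Kaehler matrix on `ball 0 r`, `1/2 ≤ G ≤ 2`, `|bis| ≤ ε`
* `LimStmt n` : compactness of such matrices as `ε → 0` (the limit has holomorphic Christoffel symbols)
* `ImpStmt n` : improvement of one chart: almost flat holomorphic coordinates on a definite ball
-/

set_option autoImplicit false

open Set Filter Topology Metric
open scoped ContDiff ComplexConjugate Matrix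

namespace Crest.Agent.T223.Qc48

open Crest.Agent.R275.Geo Crest.Agent.R275.EDR890 Crest.Agent.T223.Br Crest.Agent.T223.Tr

noncomputable section

variable {n : ℕ}

/-- a smooth Kaehler matrix on `ball 0 r`, comparable to the flat one, with small curvature -/
structure KB (G : Cn n → Matrix (Fin n) (Fin n) ℂ) (r ε : ℝ) : Prop where
  sm : ∀ a b, ContDiffOn ℝ ∞ (fun z => G z a b) (ball 0 r)
  herm : ∀ z ∈ ball (0 : Cn n) r, (G z).IsHermitian
  closed : ∀ z ∈ ball (0 : Cn n) r, ∀ a b c,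
    wd (false, c) (fun w => G w a b) z = wd (false, a) (fun w => G w c b) z
  closed' : ∀ z ∈ ball (0 : Cn n) r, ∀ a b c,
    wd (true, c) (fun w => G w a b) z = wd (true, b) (fun w => G w a c) z
  lo : ∀ z ∈ ball (0 : Cn n) r, ∀ v, ‖v‖ ^ 2 / 2 ≤ nq (G z) v
  hi : ∀ z ∈ ball (0 : Cn n) r, ∀ v, nq (G z) v ≤ 2 * ‖v‖ ^ 2
  cur : ∀ z ∈ ball (0 : Cn n) r, ∀ v w, |bis G z v w| ≤ ε * nq (G z) v * nq (G z) w

/-- compactness: a sequence with curvature tending to zero has a subsequence converging to a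
matrix field with holomorphic Christoffel symbols -/
def LimStmt (n : ℕ) : Prop :=
  ∃ C : ℝ, 0 < C ∧ ∀ (G : ℕ → Cn n → Matrix (Fin n) (Fin n) ℂ) (ε : ℕ → ℝ),
    Tendsto ε atTop (𝓝 0) → (∀ j, KB (G j) 1 (ε j)) →
    ∃ (φ : ℕ → ℕ) (G0 : Cn n → Matrix (Fin n) (Fin n) ℂ)
      (Γ : Fin n → Cn n → Matrix (Fin n) (Fin n) ℂ), StrictMono φ ∧
      (∀ a b, TendstoUniformlyOn (fun j z => G (φ j) z a b) (fun z => G0 z a b) atTop
        (ball 0 (1 / 2))) ∧
      (∀ a b, DifferentiableOn ℝ (fun z => G0 z a b) (ball 0 (1 / 2))) ∧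
      (∀ c a p, DifferentiableOn ℂ (fun z => Γ c z a p) (ball 0 (1 / 2))) ∧
      (∀ c a p, ∀ z ∈ ball (0 : Cn n) (1 / 2), ‖Γ c z a p‖ ≤ C) ∧
      (∀ c, ∀ z ∈ ball (0 : Cn n) (1 / 2), wdM (false, c) G0 z = Γ c z * G0 z) ∧
      (∀ c a p, ∀ z ∈ ball (0 : Cn n) (1 / 2), Γ c z a p = Γ a z c p)

/-- improvement of one chart -/
def ImpStmt (n : ℕ) : Prop :=
  ∃ r1 : ℝ, 0 < r1 ∧ r1 ≤ 1 / 2 ∧ ∀ ε' : ℝ, 0 < ε' → ∃ ε0 : ℝ, 0 < ε0 ∧
    ∀ G : Cn n → Matrix (Fin n) (Fin n) ℂ, KB G 1 ε0 →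
      ∃ σ : Cn n → Cn n, DifferentiableOn ℂ σ (ball 0 r1) ∧ MapsTo σ (ball 0 r1) (ball 0 1) ∧
        σ 0 = 0 ∧ fderiv ℂ σ 0 = ContinuousLinearMap.id ℂ (Cn n) ∧
        ∀ z ∈ ball (0 : Cn n) r1, ∀ v,
          (1 - ε') * nq (G 0) v ≤ nq (G (σ z)) (fderiv ℂ σ z v) ∧
          nq (G (σ z)) (fderiv ℂ σ z v) ≤ (1 + ε') * nq (G 0) v

end

end Crest.Agent.T223.Qc48
end

-- ▼ part T223/Gr4_44

/-!
# Row 223 (helper44): compactness of Kaehler matrices with curvature tending to zero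

* `arz` : Arzela-Ascoli for asymptotically equicontinuous sequences
* `limStmt n : Qc48.LimStmt n`
-/

set_option autoImplicit false

open Set Filter Topology Complex Metric
open scoped ContDiff ComplexConjugate Matrix

namespace Crest.Agent.T223.Gr

open Crest.Agent.R275.Geo Crest.Agent.R275.EDR890 Crest.Agent.R273.Hess_333
open Crest.Agent.T223.Br Crest.Agent.T223.Tr

noncomputable section

/-- Arzela-Ascoli for asymptotically equicontinuous sequences -/
theorem arz {X E : Type*} [MetricSpace X] [NormedAddCommGroup E] [ProperSpace E] {S : Set X}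
    (hS : IsCompact S) (f : ℕ → X → E) {C : ℝ} (hb : ∀ j, ∀ x ∈ S, ‖f j x‖ ≤ C)
    (hc : ∀ j, ContinuousOn (f j) S)
    (heq : ∀ x ∈ S, ∀ ε > 0, ∃ δ > 0, ∀ᶠ j in atTop, ∀ y ∈ S, dist y x < δ →
      dist (f j x) (f j y) < ε) :
    ∃ (φ : ℕ → ℕ) (g : X → E), StrictMono φ ∧ ContinuousOn g S ∧ (∀ x ∈ S, ‖g x‖ ≤ C) ∧
      ∀ {E' : Type} [PseudoMetricSpace E'] (Φ : E → E'), Continuous Φ →
        TendstoUniformlyOn (fun j x => Φ (f (φ j) x)) (fun x => Φ (g x)) atTop S := by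
  classical
  have : CompactSpace S := isCompact_iff_compactSpace.1 hS
  let F : ℕ → BoundedContinuousFunction S E := fun j =>
    BoundedContinuousFunction.mkOfCompact ⟨fun x : S => f j x, (hc j).domRestrict⟩
  have hF : ∀ j (x : S), F j x = f j x := fun _ _ => rfl
  have hK : IsCompact (closure (range F)) := by
    refine BoundedContinuousFunction.arzela_ascoli (closedBall (0 : E) C) (isCompact_closedBall _ _)
      _ ?_ ?_
    · rintro _ x ⟨j, rfl⟩
      rw [mem_closedBall_zero_iff, hF]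
      exact hb j x x.2
    · intro x
      rw [Metric.equicontinuousAt_iff_right]
      intro ε hε
      obtain ⟨δ, hδ, h⟩ := heq x x.2 ε hε
      obtain ⟨j0, hj0⟩ := eventually_atTop.1 h
      have h1 : ∀ᶠ y in 𝓝 x, ∀ j ∈ Finset.range j0, dist (F j x) (F j y) < ε := by
        rw [Filter.eventually_all_finset]
        intro j _
        have := Metric.tendsto_nhds.1 ((F j).continuous.tendsto x) ε hε
        filter_upwards [this] with y hy
        rwa [dist_comm]
      filter_upwards [h1, Metric.ball_mem_nhds x hδ] with y hy hy2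
      rintro ⟨_, j, rfl⟩
      by_cases hj : j < j0
      · exact hy j (Finset.mem_range.2 hj)
      · exact hj0 j (not_lt.1 hj) y y.2 hy2
  obtain ⟨G, -, φ, hφ, hlim⟩ := hK.tendsto_subseq (x := F) fun j => subset_closure ⟨j, rfl⟩
  have hu := BoundedContinuousFunction.tendsto_iff_tendstoUniformly.1 hlim
  have hGb : ∀ x : S, ‖G x‖ ≤ C := fun x =>
    le_of_tendsto (hu.tendsto_at x).norm (Eventually.of_forall fun j => hb _ x x.2)
  refine ⟨φ, fun x => if h : x ∈ S then G ⟨x, h⟩ else 0, hφ, ?_, ?_, ?_⟩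
  · rw [continuousOn_iff_continuous_domRestrict]
    refine G.continuous.congr fun x => ?_
    simp [x.2]
  · intro x hx
    simp only [hx, dif_pos]
    exact hGb _
  · intro E' _ Φ hΦ
    have hΦu := (isCompact_closedBall (0 : E) C).uniformContinuousOn_of_continuous hΦ.continuousOn
    rw [Metric.tendstoUniformlyOn_iff]
    intro ε hε
    obtain ⟨δ, hδ, h⟩ := Metric.uniformContinuousOn_iff.1 hΦu ε hε
    filter_upwards [Metric.tendstoUniformly_iff.1 hu δ hδ] with j hj x hx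
    simp only [hx, dif_pos]
    exact h _ (mem_closedBall_zero_iff.2 (hGb _)) _ (mem_closedBall_zero_iff.2 (hb _ x hx))
      (hj ⟨x, hx⟩)

variable {n : ℕ}

theorem hb_of_kb {G : Cn n → Mat n} {r ε : ℝ} (H : Qc48.KB G r ε) : HB G 0 r 2 |ε| where
  sm := H.sm
  herm := H.herm
  lo z hz v := by linarith [H.lo z hz v]
  hi := H.hi
  cur z hz v w := by
    have h1 : 0 ≤ nq (G z) v := le_trans (by positivity) (H.lo z hz v)
    have h2 : 0 ≤ nq (G z) w := le_trans (by positivity) (H.lo z hz w)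
    refine (H.cur z hz v w).trans ?_
    gcongr
    exact le_abs_self _
  Λ_pos := two_pos
  K_nonneg := abs_nonneg _

/-- the real derivative of `G a b` in terms of `G` and `Γ` -/
def DG (a b : Fin n) (q : (Fin n → Fin n → ℂ) × (Fin n → Fin n → Fin n → ℂ)) : Cn n →L[ℝ] ℂ :=
  ∑ c, ((ze (false, c)).smulRight (∑ k, q.2 c a k * q.1 k b) +
    (ze (true, c)).smulRight (conj (∑ k, q.2 c b k * q.1 k a)))

theorem continuous_DG (a b : Fin n) : Continuous (DG (n := n) a b) := by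
  have h : ∀ (s : WI n) (w : ℂ), (ze s).smulRight w = w • ze s := fun s w => by
    ext1 v
    simp only [ContinuousLinearMap.smulRight_apply, smul_apply, smul_eq_mul, mul_comm]
  unfold DG
  simp only [h]
  refine continuous_finsetSum _ fun c _ => Continuous.add ?_ ?_
  · have h1 : Continuous fun q : (Fin n → Fin n → ℂ) × (Fin n → Fin n → Fin n → ℂ) =>
      ∑ k, q.2 c a k * q.1 k b := by fun_prop
    exact h1.smul continuous_const
  · have h1 : Continuous fun q : (Fin n → Fin n → ℂ) × (Fin n → Fin n → Fin n → ℂ) =>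
      ∑ k, q.2 c b k * q.1 k a := by fun_prop
    exact (continuous_conj.comp h1).smul continuous_const

theorem wdL_DG (a b c : Fin n) (q : (Fin n → Fin n → ℂ) × (Fin n → Fin n → Fin n → ℂ)) :
    wdL (false, c) (DG a b q) = ∑ k, q.2 c a k * q.1 k b := by
  have h : ∀ (r s : WI n) (w : ℂ), wdL r ((ze s).smulRight w) = wdL r (ze s) * w := by
    intro r s w
    simp only [wdL, ContinuousLinearMap.smulRight_apply, smul_eq_mul]
    ring
  rw [DG, ← wdLc_apply, map_sum]
  simp [wdLc_apply, wdL_add, h, wdL_ze]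

theorem HB.fderiv_eq {G : Cn n → Mat n} {z0 z : Cn n} {r Λ K : ℝ} (H : HB G z0 r Λ K)
    (hz : z ∈ ball z0 r) (a b : Fin n) :
    fderiv ℝ (fun w => G w a b) z = DG a b (fun a b => G z a b, fun c a p => Gam G c z a p) := by
  ext1 v
  rw [apply_eq_sum, sum_WI, add_comm, ← Finset.sum_add_distrib, DG,
    sum_apply]
  refine Finset.sum_congr rfl fun c _ => ?_
  have h1 : ∀ a b, ∑ k, Gam G c z a k * G z k b = wdM (false, c) G z a b := fun a b => by
    rw [← H.Gam_mul hz c, Matrix.mul_apply]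
  have h2 : conj (wdM (false, c) G z b a) = wdM (true, c) G z a b := by
    have := H.wdM_ct' hz (false, c)
    simp only [Bool.not_false] at this
    rw [← this]; rfl
  simp only [add_apply, ContinuousLinearMap.smulRight_apply, h1, h2]
  rfl

theorem limStmt (n : ℕ) : Qc48.LimStmt n := by
  obtain ⟨C, hC0, hC⟩ := grad n (1 / 8) 2 1 (by norm_num)
  refine ⟨C + 8, by linarith, fun G' ε' hε' H' => ?_⟩
  obtain ⟨j0, hj0⟩ := eventually_atTop.1 (hε'.abs.eventually (gt_mem_nhds (by simp : |(0 : ℝ)| < 1)))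
  set G : ℕ → Cn n → Mat n := fun j => G' (j + j0) with hG
  set ε : ℕ → ℝ := fun j => |ε' (j + j0)| with hεd
  have hε : Tendsto ε atTop (𝓝 0) := by
    simpa using (hε'.comp (tendsto_add_atTop_nat j0)).abs
  have H : ∀ j, HB (G j) 0 1 2 (ε j) := fun j => hb_of_kb (H' _)
  have hsub : ∀ {z : Cn n} {s : ℝ}, z ∈ closedBall (0 : Cn n) s →
      ball z (1 / 8) ⊆ ball 0 (s + 1 / 8) := fun {z s} hz w hw => by
    have := dist_triangle w z 0
    rw [mem_ball] at hw ⊢
    rw [mem_closedBall] at hz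
    linarith
  have hb : ∀ j, ∀ z ∈ ball (0 : Cn n) (7 / 8), HB (G j) z (1 / 8) 2 1 := fun j z hz =>
    (H j).mono ((hsub (ball_subset_closedBall hz)).trans (ball_subset_ball (by norm_num)))
      (hj0 _ (Nat.le_add_left _ _)).le
  have h78 : ball (0 : Cn n) (7 / 8) ⊆ ball 0 1 := ball_subset_ball (by norm_num)
  have h34 : closedBall (0 : Cn n) (3 / 4) ⊆ ball 0 (7 / 8) := closedBall_subset_ball (by norm_num)
  have h12 : ball (0 : Cn n) (1 / 2) ⊆ closedBall 0 (3 / 4) :=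
    ball_subset_closedBall.trans (closedBall_subset_closedBall (by norm_num))
  set f : ℕ → Cn n → (Fin n → Fin n → ℂ) × (Fin n → Fin n → Fin n → ℂ) := fun j z =>
    (fun a b => G j z a b, fun c a p => Gam (G j) c z a p) with hf
  set B : ℕ → ℝ := fun j => n * (16 * ε j * 2 ^ 2) * 2 with hB
  have hB0 : Tendsto B atTop (𝓝 0) := by
    simpa [hB] using (((hε.const_mul 16).mul_const (2 ^ 2)).const_mul (n : ℝ)).mul_const 2
  obtain ⟨φ, g, hφ, hgc, hgb, hlim⟩ := arz (isCompact_closedBall (0 : Cn n) (3 / 4)) f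
    (C := C + 8)
    (fun j z hz => by
      refine norm_prod_le_iff.2 ⟨?_, ?_⟩
      · refine (pi_norm_le_iff_of_nonneg (by linarith)).2 fun a =>
          (pi_norm_le_iff_of_nonneg (by linarith)).2 fun b => ?_
        linarith [(H j).G_le (h78 (h34 hz)) a b]
      · refine (pi_norm_le_iff_of_nonneg (by linarith)).2 fun c =>
          (pi_norm_le_iff_of_nonneg (by linarith)).2 fun a =>
          (pi_norm_le_iff_of_nonneg (by linarith)).2 fun p => ?_
        linarith [(hC _ _ (hb j z (h34 hz))).2.2 c a p])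
    (fun j z hz => by
      refine ContinuousAt.continuousWithinAt (ContinuousAt.prodMk ?_ ?_)
      · exact continuousAt_pi.2 fun a => continuousAt_pi.2 fun b =>
          ((H j).cd (h78 (h34 hz)) a b).continuousAt
      · exact continuousAt_pi.2 fun c => continuousAt_pi.2 fun a => continuousAt_pi.2 fun p =>
          ((H j).cd_Gam (h78 (h34 hz)) c a p).continuousAt)
    (fun x hx η hη => by
      refine ⟨min (1 / 32) (η / (64 * (C + 1))), by positivity, ?_⟩
      have h1 : Tendsto (fun j => 4 * (n * B j) * (1 / 16)) atTop (𝓝 0) := by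
        have := ((hB0.const_mul (n : ℝ)).const_mul 4).mul_const (1 / 16)
        rwa [mul_zero, mul_zero, zero_mul] at this
      filter_upwards [h1.eventually (gt_mem_nhds (half_pos hη))] with j hj y hy hxy
      have h2 : ‖y - x‖ < 1 / 32 := by rw [← dist_eq_norm]; exact hxy.trans_le (min_le_left _ _)
      have h3 : ‖y - x‖ * (64 * (C + 1)) < η := by
        rw [← dist_eq_norm, ← lt_div_iff₀ (by positivity)]; exact hxy.trans_le (min_le_right _ _)
      have h4 := norm_nonneg (y - x)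
      have hs : ball x (1 / 8) ⊆ ball 0 (7 / 8) :=
        (hsub hx).trans (ball_subset_ball (by norm_num))
      rw [Prod.dist_eq, max_lt_iff]
      constructor
      · refine (dist_pi_lt_iff hη).2 fun a => (dist_pi_lt_iff hη).2 fun b => ?_
        have h5 := (convex_ball (0 : Cn n) (7 / 8)).norm_image_sub_le_of_norm_fderiv_le (𝕜 := ℝ)
          (f := fun w => G j w a b) (fun w hw => (H j).df (h78 hw) a b)
          (fun w hw => (hC _ _ (hb j w hw)).2.1 a b) (h34 hx) (h34 hy)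
        rw [dist_comm, dist_eq_norm]
        refine h5.trans_lt ?_
        nlinarith
      · refine (dist_pi_lt_iff hη).2 fun c => (dist_pi_lt_iff hη).2 fun a =>
          (dist_pi_lt_iff hη).2 fun p => ?_
        have h5 := ah_modulusN (f := fun w => Gam (G j) c w a p) (z := x) (y := y) (R := 1 / 16)
          (R' := 1 / 8) (A := C) (B := B j) (by norm_num) (by norm_num)
          (fun w hw => ((H j).cd_Gam (h78 (hs hw)) c a p).contDiffWithinAt)
          (fun w hw => (hC _ _ (hb j w (hs hw))).2.2 c a p)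
          (fun w hw b => (H j).wd_Gam_le (h78 (hs hw)) c b a p) (by linarith)
        rw [dist_comm, dist_eq_norm]
        refine h5.trans_lt ?_
        have : 2 * C * ‖y - x‖ / (1 / 16) = 32 * C * ‖y - x‖ := by ring
        rw [this]
        nlinarith)
  have hG0 : ∀ a b, TendstoUniformlyOn (fun j z => G (φ j) z a b) (fun z => (g z).1 a b) atTop
      (closedBall 0 (3 / 4)) := fun a b => hlim (fun q => q.1 a b) (by fun_prop)
  have hΓ0 : ∀ c a p, TendstoUniformlyOn (fun j z => Gam (G (φ j)) c z a p)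
      (fun z => (g z).2 c a p) atTop (closedBall 0 (3 / 4)) := fun c a p =>
    hlim (fun q => q.2 c a p) (by fun_prop)
  have hD : ∀ a b, ∀ z ∈ ball (0 : Cn n) (1 / 2),
      HasFDerivAt (fun z => (g z).1 a b) (DG a b (g z)) z := fun a b z hz =>
    hasFDerivAt_of_tendstoUniformlyOn (f := fun j z => G (φ j) z a b) isOpen_ball
      ((hlim (DG a b) (continuous_DG a b)).mono h12)
      (fun j w hw => by
        have h1 := (H (φ j)).fderiv_eq (h78 (h34 (h12 hw))) a b
        have h2 := ((H (φ j)).df (h78 (h34 (h12 hw))) a b).hasFDerivAt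
        rw [h1] at h2
        exact h2)
      (fun w hw => (hG0 a b).tendsto_at (h12 hw)) hz
  refine ⟨fun j => φ j + j0, fun z => Matrix.of (g z).1, fun c z => Matrix.of ((g z).2 c),
    fun i j h => Nat.add_lt_add_right (hφ h) _, fun a b => (hG0 a b).mono h12,
    fun a b z hz => (hD a b z hz).differentiableAt.differentiableWithinAt, fun c a p => ?_,
    fun c a p z hz => ?_, fun c z hz => ?_, fun c a p z hz => ?_⟩
  · refine (Crest.Agent.R266.SCV.analyticOnNhd_of_basis (EuclideanSpace.basisFun (Fin n) ℂ).toBasis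
      isOpen_ball ?_ fun x hx i => ?_).differentiableOn
    · have h1 : Continuous fun q : (Fin n → Fin n → ℂ) × (Fin n → Fin n → Fin n → ℂ) =>
        q.2 c a p := by fun_prop
      exact h1.comp_continuousOn (hgc.mono h12)
    · set v := (EuclideanSpace.basisFun (Fin n) ℂ).toBasis i with hv
      have hv1 : ‖v‖ ≤ 1 := by simp [hv]
      have hs : ball x (1 / 8) ⊆ closedBall 0 (3 / 4) :=
        (hsub (ball_subset_closedBall hx)).trans
          (ball_subset_closedBall.trans (closedBall_subset_closedBall (by norm_num)))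
      have hm : ∀ w ∈ closedBall (0 : ℂ) (1 / 16), x + w • v ∈ closedBall 0 (3 / 4) :=
        fun w hw => hs (line_mem hv1 (closedBall_subset_ball (by norm_num) hw))
      have := ah_limit (f := fun j ζ => Gam (G (φ j)) c (x + ζ • v) a p)
        (g := fun ζ => (g (x + ζ • v)).2 c a p) (R := 1 / 16) (R' := 1 / 8)
        (B := fun j => n * B (φ j)) (by norm_num) (by norm_num)
        (fun j => contDiffOn_line (f := fun w => Gam (G (φ j)) c w a p) hv1 fun w hw =>
          ((H _).cd_Gam (h78 (h34 (hs hw))) c a p).contDiffWithinAt)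
        (fun j w hw => norm_dbL_line (f := fun w => Gam (G (φ j)) c w a p) hv1
          (((H _).cd_Gam (h78 (h34 (hm w hw))) c a p).differentiableAt (by simp))
          fun b => (H _).wd_Gam_le (h78 (h34 (hm w hw))) c b a p)
        (by simpa using (hB0.comp hφ.tendsto_atTop).const_mul (n : ℝ))
        (((hΓ0 c a p).comp fun ζ : ℂ => x + ζ • v).mono fun w hw => hm w (ball_subset_closedBall hw))
      exact this.differentiableAt (ball_mem_nhds _ (by norm_num))
  · have h1 := hgb z (h12 hz)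
    exact (((norm_le_pi_norm _ p).trans (norm_le_pi_norm _ a)).trans (norm_le_pi_norm _ c)).trans
      ((norm_snd_le _).trans h1)
  · ext a b
    rw [wdM_apply, wd, Matrix.mul_apply]
    simp only [Matrix.of_apply]
    rw [(hD a b z hz).fderiv, wdL_DG]
  · refine tendsto_nhds_unique ((hΓ0 c a p).tendsto_at (h12 hz)) ?_
    refine ((hΓ0 a c p).tendsto_at (h12 hz)).congr fun j => ?_
    simp only [Gam, Matrix.mul_apply, wdM_apply]
    refine Finset.sum_congr rfl fun k _ => ?_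
    rw [(H' (φ j + j0)).closed z (h78 (h34 (h12 hz))) c k a]

end

end Crest.Agent.T223.Gr

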