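import Crest.Agent.T223.LxInt_83

-- ▼ part T223/LxLoc_83
section

/-!
# Row 223 (helper83): the local Schauder estimate at scale `ρ ^ 2`
-/

set_option autoImplicit false
set_option linter.unusedSectionVars false

open Set Metric Filter Topology
open scoped ContDiff

noncomputable section

namespace Crest.Agent.T223.Lx

open Crest.Agent.N207 Crest.Agent.N207.P

variable {n : ℕ} {V : Type*} [NormedAddCommGroup V] [NormedSpace ℝ V]

/-- scaled sup and Hoelder bound -/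
def BS (ρ : ℝ) (T : Set (En n)) (A : ℝ) (g : En n → V) : Prop :=
  (∀ y ∈ T, ‖g y‖ ≤ A) ∧ ∀ y ∈ T, ∀ y' ∈ T, ρ * ‖g y - g y'‖ ≤ A * √(dist y y')

section bs

variable {ρ : ℝ} {T : Set (En n)} {A A' : ℝ} {g g' : En n → V}

theorem BS.mono (h : BS ρ T A g) (hA : A ≤ A') : BS ρ T A' g :=
  ⟨fun y hy => (h.1 y hy).trans hA, fun y hy y' hy' => (h.2 y hy y' hy').trans
    (mul_le_mul_of_nonneg_right hA (Real.sqrt_nonneg _))⟩

theorem BS.sub {T' : Set (En n)} (h : BS ρ T A g) (hT : T' ⊆ T) : BS ρ T' A g :=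
  ⟨fun y hy => h.1 y (hT hy), fun y hy y' hy' => h.2 y (hT hy) y' (hT hy')⟩

theorem BS.add (hρ : 0 ≤ ρ) (h : BS ρ T A g) (h' : BS ρ T A' g') :
    BS ρ T (A + A') (fun y => g y + g' y) := by
  refine ⟨fun y hy => (norm_add_le _ _).trans (add_le_add (h.1 y hy) (h'.1 y hy)),
    fun y hy y' hy' => ?_⟩
  have e : g y + g' y - (g y' + g' y') = (g y - g y') + (g' y - g' y') := by abel
  have := mul_le_mul_of_nonneg_left (norm_add_le (g y - g y') (g' y - g' y')) hρ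
  rw [e]
  linarith [h.2 y hy y' hy', h'.2 y hy y' hy']

theorem BS.neg (h : BS ρ T A g) : BS ρ T A (fun y => -g y) :=
  ⟨fun y hy => by simpa using h.1 y hy, fun y hy y' hy' => by
    rw [neg_sub_neg, norm_sub_rev]; exact h.2 y hy y' hy'⟩

theorem bs_sum {ι : Type*} (hρ : 0 ≤ ρ) (s : Finset ι) {g : ι → En n → V}
    (h : ∀ i ∈ s, BS ρ T A (g i)) : BS ρ T (s.card * A) (fun y => ∑ i ∈ s, g i y) := by
  classical
  induction s using Finset.induction_on with
  | empty => exact ⟨by simp, by simp⟩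
  | insert i s hi ih =>
    simp only [Finset.sum_insert hi, Finset.card_insert_of_notMem hi]
    exact ((h i (Finset.mem_insert_self _ _)).add hρ
      (ih fun j hj => h j (Finset.mem_insert_of_mem hj))).mono (le_of_eq (by push_cast; ring))

theorem bs_sum2 (hρ : 0 ≤ ρ) {g : Fin n → Fin n → En n → V} (h : ∀ k l, BS ρ T A (g k l)) :
    BS ρ T (n * (n * A)) (fun y => ∑ k, ∑ l, g k l y) := by
  simpa using bs_sum hρ Finset.univ fun k _ => bs_sum hρ Finset.univ fun l _ => h k l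

theorem BS.smul (hρ : 0 ≤ ρ) {φ : En n → ℝ} (h : BS ρ T A φ) (h' : BS ρ T A' g) :
    BS ρ T (2 * A * A') (fun y => φ y • g y) := by
  refine ⟨fun y hy => ?_, fun y hy y' hy' => ?_⟩
  · have h1 : 0 ≤ A := (norm_nonneg _).trans (h.1 y hy)
    have h2 : 0 ≤ A' := (norm_nonneg _).trans (h'.1 y hy)
    rw [norm_smul]
    nlinarith [mul_le_mul (h.1 y hy) (h'.1 y hy) (norm_nonneg _) h1, mul_nonneg h1 h2]
  · have h1 : 0 ≤ A := (norm_nonneg _).trans (h.1 y hy)
    have e : φ y • g y - φ y' • g y' = φ y • (g y - g y') + (φ y - φ y') • g y' := by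
      rw [smul_sub, sub_smul]; abel
    have h3 := mul_le_mul_of_nonneg_left (norm_add_le (φ y • (g y - g y')) ((φ y - φ y') • g y')) hρ
    rw [norm_smul, norm_smul] at h3
    have a1 := mul_le_mul (h.1 y hy) (h'.2 y hy y' hy') (by positivity) h1
    have a2 := mul_le_mul (h.2 y hy y' hy') (h'.1 y' hy') (norm_nonneg _) (by positivity)
    rw [e]
    nlinarith

theorem bs_const (c : V) (h : ‖c‖ ≤ A) : BS ρ T A (fun _ => c) :=
  ⟨fun _ _ => h, fun y _ y' _ => by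
    simpa using mul_nonneg ((norm_nonneg _).trans h) (Real.sqrt_nonneg (dist y y'))⟩

/-- extension by zero -/
theorem BS.ext {y0 : En n} (hρ : 0 < ρ) (h : BS ρ (ball y0 (3 * ρ ^ 2)) A g)
    (h0 : ∀ y, y ∉ closedBall y0 (2 * ρ ^ 2) → g y = 0) : BS ρ univ A g := by
  have hA : 0 ≤ A := (norm_nonneg _).trans (h.1 y0 (mem_ball_self (by positivity)))
  have sub : closedBall y0 (2 * ρ ^ 2) ⊆ ball y0 (3 * ρ ^ 2) :=
    closedBall_subset_ball (by nlinarith)
  have key : ∀ y y', y ∉ ball y0 (3 * ρ ^ 2) → ρ * ‖g y - g y'‖ ≤ A * √(dist y y') := by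
    intro y y' hy
    rw [h0 y fun hh => hy (sub hh), zero_sub, norm_neg]
    by_cases hy' : y' ∈ closedBall y0 (2 * ρ ^ 2)
    · have h1 : ρ ≤ √(dist y y') := Real.le_sqrt_of_sq_le (by
        rw [mem_ball, not_lt] at hy
        rw [mem_closedBall] at hy'
        linarith [dist_triangle y y' y0])
      rw [mul_comm]
      exact mul_le_mul (h.1 y' (sub hy')) h1 hρ.le hA
    · rw [h0 y' hy', norm_zero, mul_zero]; positivity
  refine ⟨fun y _ => ?_, fun y _ y' _ => ?_⟩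
  · by_cases hy : y ∈ closedBall y0 (2 * ρ ^ 2)
    · exact h.1 y (sub hy)
    · rw [h0 y hy, norm_zero]; exact hA
  · by_cases hy : y ∈ ball y0 (3 * ρ ^ 2)
    · by_cases hy' : y' ∈ ball y0 (3 * ρ ^ 2)
      · exact h.2 y hy y' hy'
      · rw [norm_sub_rev, dist_comm]; exact key y' y hy'
    · exact key y y' hy

/-- Lipschitz functions on the ball of radius `3 ρ ^ 2` -/
theorem bs_of_d1 {y0 : En n} (hρ : 0 < ρ) {M0 M1 : ℝ} (hM1 : 0 ≤ M1)
    (hd : ∀ z ∈ ball y0 (3 * ρ ^ 2), DifferentiableAt ℝ g z)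
    (h0 : ∀ z ∈ ball y0 (3 * ρ ^ 2), ‖g z‖ ≤ M0) (h1 : ∀ z ∈ ball y0 (3 * ρ ^ 2), ‖d1 g z‖ ≤ M1) :
    BS ρ (ball y0 (3 * ρ ^ 2)) (M0 + 3 * n * ρ ^ 2 * M1) g := by
  have hM0 : 0 ≤ M0 := (norm_nonneg _).trans (h0 y0 (mem_ball_self (by positivity)))
  refine ⟨fun y hy => (h0 y hy).trans (le_add_of_nonneg_right (by positivity)),
    fun y hy y' hy' => ?_⟩
  have h2 := lip_of_d1 (convex_ball y0 _) hd h1 hy hy'
  have hq := Real.sqrt_nonneg (dist y y')
  have h3 : √(dist y y') ≤ 3 * ρ := Real.sqrt_le_iff.2 ⟨by positivity, by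
    rw [mem_ball] at hy hy'
    nlinarith [dist_triangle_right y y' y0]⟩
  have h4 : dist y y' ≤ 3 * ρ * √(dist y y') := by
    nlinarith [Real.mul_self_sqrt (dist_nonneg (x := y) (y := y'))]
  calc _ ≤ ρ * (n * M1 * (3 * ρ * √(dist y y'))) := by
        gcongr; exact h2.trans (by gcongr)
    _ ≤ _ := by nlinarith [mul_nonneg hM0 hq]

end bs

theorem cont_ext {I : Set ℝ} {U K : Set (En n)} {g : ℝ → En n → V} (hU : IsOpen U)
    (hK : IsClosed K) (hKU : K ⊆ U) (h : ContinuousOn (fun q : ℝ × En n => g q.1 q.2) (I ×ˢ U))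
    (h0 : ∀ t ∈ I, ∀ y, y ∉ K → g t y = 0) :
    ContinuousOn (fun q : ℝ × En n => g q.1 q.2) (I ×ˢ univ) := by
  rintro ⟨t, y⟩ hq
  by_cases hy : y ∈ U
  · refine (h (t, y) ⟨hq.1, hy⟩).mono_of_mem_nhdsWithin ?_
    rw [nhdsWithin_prod_eq]
    exact prod_mem_prod self_mem_nhdsWithin (mem_nhdsWithin_of_mem_nhds (hU.mem_nhds hy))
  · have hy' : y ∉ K := fun hh => hy (hKU hh)
    refine (continuousWithinAt_const (b := (0 : V))).congr_of_eventuallyEq ?_ (h0 t hq.1 y hy')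
    have : ∀ᶠ q in 𝓝[I ×ˢ univ] (t, y), q ∈ I ×ˢ Kᶜ := by
      rw [nhdsWithin_prod_eq]
      exact prod_mem_prod self_mem_nhdsWithin
        (mem_nhdsWithin_of_mem_nhds (hK.isOpen_compl.mem_nhds hy'))
    filter_upwards [this] with q hq using h0 q.1 hq.1 q.2 hq.2

theorem pd_scale {g : En n → ℝ} (hg : Differentiable ℝ g) (c : ℝ) (y0 : En n) (k : Fin n) :
    pd k (fun y => g (c • (y - y0))) = fun y => c * pd k g (c • (y - y0)) := by
  funext y
  have h1 : HasFDerivAt (fun y : En n => c • (y - y0)) (c • ContinuousLinearMap.id ℝ (En n)) y :=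
    ((hasFDerivAt_id y).sub_const y0).const_smul c
  have h2 := ((hg _).hasFDerivAt.comp y h1).fderiv
  unfold pd
  rw [show (fun y => g (c • (y - y0))) = g ∘ fun y => c • (y - y0) from rfl, h2]
  simp

theorem pd_const_mul {g : En n → ℝ} (hg : Differentiable ℝ g) (c : ℝ) (k : Fin n) :
    pd k (fun y => c * g y) = fun y => c * pd k g y := by
  funext y
  unfold pd
  rw [fderiv_const_mul (hg y)]
  simp

theorem bs_scale {κ : En n → ℝ} {K0 ρ : ℝ} (hρ : 0 < ρ) (h0 : ∀ y, ‖κ y‖ ≤ K0)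
    (h1 : ∀ y y', ‖κ y - κ y'‖ ≤ K0 * √(dist y y')) (y0 : En n) (c : ℝ) (hc : 0 ≤ c) :
    BS ρ univ (c * K0) (fun y => c * κ ((ρ ^ 2)⁻¹ • (y - y0))) := by
  refine ⟨fun y _ => ?_, fun y _ y' _ => ?_⟩
  · rw [norm_mul, Real.norm_of_nonneg hc]
    exact mul_le_mul_of_nonneg_left (h0 _) hc
  · have h2 := h1 ((ρ ^ 2)⁻¹ • (y - y0)) ((ρ ^ 2)⁻¹ • (y' - y0))
    have h3 : √(dist ((ρ ^ 2)⁻¹ • (y - y0)) ((ρ ^ 2)⁻¹ • (y' - y0))) = ρ⁻¹ * √(dist y y') := by
      rw [dist_smul₀, dist_sub_right, Real.norm_of_nonneg (by positivity),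
        Real.sqrt_mul (by positivity), Real.sqrt_inv, Real.sqrt_sq hρ.le]
    rw [h3] at h2
    rw [← mul_sub, norm_mul, Real.norm_of_nonneg hc]
    calc _ ≤ ρ * (c * (K0 * (ρ⁻¹ * √(dist y y')))) := by gcongr
      _ = _ := by field_simp

/-- cut-off functions at every scale -/
theorem exists_cut (n : ℕ) : ∃ K0 : ℝ, 1 ≤ K0 ∧ ∀ (y0 : En n) (ρ : ℝ), 0 < ρ →
    ∃ χ : En n → ℝ, ContDiff ℝ ∞ χ ∧ (∀ y ∈ ball y0 (ρ ^ 2), χ y = 1) ∧
      (∀ y, y ∉ closedBall y0 (2 * ρ ^ 2) → χ y = 0) ∧ BS ρ univ K0 χ ∧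
      (∀ k, BS ρ univ (K0 / ρ ^ 2) (pd k χ)) ∧ ∀ k l, BS ρ univ (K0 / ρ ^ 4) (pd k (pd l χ)) := by
  let b : ContDiffBump (0 : En n) := ⟨1, 2, one_pos, one_lt_two⟩
  have hb : ContDiff ℝ ∞ b := b.contDiff
  have hc : HasCompactSupport b := b.hasCompactSupport
  obtain ⟨K, hK, hK1, hK2, -⟩ := hol_of_cs hb hc
  choose K1 hK10 hK11 hK12 _ using fun k : Fin n => hol_of_cs (contDiff_pd_top hb k) (hcs_pd hc k)
  choose K2 hK20 hK21 hK22 _ using fun p : Fin n × Fin n =>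
    hol_of_cs (contDiff_pd_top (contDiff_pd_top hb p.2) p.1) (hcs_pd (hcs_pd hc p.2) p.1)
  have s1 : 0 ≤ ∑ k, K1 k := Finset.sum_nonneg fun k _ => (hK10 k).le
  have s2 : 0 ≤ ∑ p, K2 p := Finset.sum_nonneg fun p _ => (hK20 p).le
  have l1 : ∀ k, K1 k ≤ ∑ k, K1 k := fun k =>
    Finset.single_le_sum (fun j _ => (hK10 j).le) (Finset.mem_univ k)
  have l2 : ∀ p, K2 p ≤ ∑ p, K2 p := fun p =>
    Finset.single_le_sum (fun j _ => (hK20 j).le) (Finset.mem_univ p)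
  refine ⟨1 + K + ∑ k, K1 k + ∑ p, K2 p, by linarith, fun y0 ρ hρ => ?_⟩
  have hρ2 : 0 < ρ ^ 2 := by positivity
  have nrm : ∀ y : En n, dist ((ρ ^ 2)⁻¹ • (y - y0)) 0 = dist y y0 / ρ ^ 2 := fun y => by
    rw [dist_zero_right, norm_smul, Real.norm_of_nonneg (by positivity), dist_eq_norm,
      div_eq_inv_mul]
  have db : Differentiable ℝ b := hb.differentiable (by simp)
  have db1 : ∀ l, Differentiable ℝ (pd l b) := fun l =>
    (contDiff_pd_top hb l).differentiable (by simp)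
  have aff : ContDiff ℝ ∞ (fun y : En n => (ρ ^ 2)⁻¹ • (y - y0)) := by fun_prop
  refine ⟨fun y => b ((ρ ^ 2)⁻¹ • (y - y0)), hb.comp aff, fun y hy => ?_, fun y hy => ?_, ?_,
    fun k => ?_, fun k l => ?_⟩
  · refine b.one_of_mem_closedBall ?_
    rw [mem_closedBall, nrm, div_le_iff₀ hρ2]
    simpa [b] using (mem_ball.1 hy).le
  · refine b.zero_of_le_dist ?_
    rw [nrm, le_div_iff₀ hρ2]
    simpa [b] using (not_le.1 (mt mem_closedBall.2 hy)).le
  · simpa using (bs_scale hρ hK1 hK2 y0 1 zero_le_one).mono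
      (A' := 1 + K + ∑ k, K1 k + ∑ p, K2 p) (by linarith)
  · rw [pd_scale db]
    refine (bs_scale hρ (hK11 k) (hK12 k) y0 _ (by positivity)).mono ?_
    rw [div_eq_inv_mul]
    gcongr
    linarith [l1 k]
  · rw [pd_scale db, pd_const_mul (g := fun y => pd l b ((ρ ^ 2)⁻¹ • (y - y0)))
      ((db1 l).comp (aff.differentiable (by simp))), pd_scale (db1 l)]
    simp only [← mul_assoc]
    refine (bs_scale hρ (hK21 (k, l)) (hK22 (k, l)) y0 _ (by positivity)).mono ?_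
    rw [div_eq_inv_mul, show (ρ ^ 2)⁻¹ * (ρ ^ 2)⁻¹ = (ρ ^ 4)⁻¹ by field_simp]
    gcongr
    linarith [l2 (k, l)]

set_option maxHeartbeats 1000000 in
/-- the local estimate -/
theorem loc_est [CompleteSpace V] {a0 : Matrix (Fin n) (Fin n) ℝ} (ha : a0.PosDef) :
    ∃ C : ℝ, 1 ≤ C ∧ ∀ (α β ρ δ Af B M H : ℝ) (y0 : En n)
      (a : ℝ → En n → Matrix (Fin n) (Fin n) ℝ) (f w : ℝ → En n → V), α < β → β - α ≤ 1 → 0 < ρ →
      0 ≤ δ → δ ≤ 1 → 0 ≤ H → Yl (Icc α β) (ball y0 (4 * ρ ^ 2)) 2 w →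
      (∀ k l, ContinuousOn (fun q : ℝ × En n => a q.1 q.2 k l) (Icc α β ×ˢ ball y0 (4 * ρ ^ 2))) →
      ContinuousOn (fun q : ℝ × En n => f q.1 q.2) (Icc α β ×ˢ ball y0 (4 * ρ ^ 2)) →
      (∀ y ∈ ball y0 (4 * ρ ^ 2), w α y = 0) →
      X.Ev (Icc α β) (ball y0 (4 * ρ ^ 2)) w (fun t y => Lop (a t y) (w t) y + f t y) →
      (∀ t ∈ Icc α β, ∀ k l, BS ρ (ball y0 (4 * ρ ^ 2)) δ (fun y => a t y k l - a0 k l)) →
      (∀ t ∈ Icc α β, BS ρ (ball y0 (4 * ρ ^ 2)) Af (f t)) →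
      (∀ t ∈ Icc α β, ∀ y ∈ ball y0 (4 * ρ ^ 2), ‖w t y‖ ≤ B) →
      (∀ t ∈ Icc α β, ∀ y ∈ ball y0 (4 * ρ ^ 2), ‖d2 (w t) y‖ ≤ M) →
      (∀ t ∈ Icc α β, ∀ y ∈ ball y0 (4 * ρ ^ 2), ∀ y' ∈ ball y0 (4 * ρ ^ 2),
        ‖d2 (w t) y - d2 (w t) y'‖ ≤ H * √(dist y y')) →
      ∀ t ∈ Icc α β, ∀ y ∈ ball y0 (ρ ^ 2), ∀ y' ∈ ball y0 (ρ ^ 2),
        ρ * ‖d2 (w t) y - d2 (w t) y'‖ ≤
          C * (Af + δ * ρ * H + (M + B / ρ ^ 4)) * √(dist y y') := by
  obtain ⟨Ca, hCa, hA⟩ := apr n V a0 ha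
  obtain ⟨K0, hK0, hcut⟩ := exists_cut n
  set a1 : ℝ := ∑ k, ∑ l, |a0 k l| with ha1
  have a10 : 0 ≤ a1 := by positivity
  have a1l : ∀ k l, ‖a0 k l‖ ≤ a1 := fun k l =>
    (Finset.single_le_sum (f := fun l => |a0 k l|) (fun _ _ => abs_nonneg _)
      (Finset.mem_univ l)).trans (Finset.single_le_sum (f := fun k => ∑ l, |a0 k l|)
      (fun _ _ => by positivity) (Finset.mem_univ k))
  have hn : (0 : ℝ) ≤ n := Nat.cast_nonneg n
  set c1 : ℝ := n * (n * (4 * K0)) with hc1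
  set c2 : ℝ := n * (n * (2 * a1 * (6 * K0 * (6 * n + 2)))) with hc2
  have c10 : 0 ≤ c1 := by positivity
  have c20 : 0 ≤ c2 := by positivity
  refine ⟨Ca * (2 * K0 + c1 + c2), by nlinarith, ?_⟩
  intro α β ρ δ Af B M H y0 a f w hαβ hlen hρ hδ0 hδ1 hH hw hac hfc hinit hev hcl hf hB hM hHo
  obtain ⟨χ, hχ, hχ1, hχ0, b0, b1, b2⟩ := hcut y0 ρ hρ
  have hρ2 : 0 < ρ ^ 2 := by positivity
  set T := ball y0 (4 * ρ ^ 2) with hT
  have hTo : IsOpen T := isOpen_ball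
  have hI : IsCompact (Icc α β) := isCompact_Icc
  have s23 : closedBall y0 (2 * ρ ^ 2) ⊆ T := closedBall_subset_ball (by linarith)
  have s34 : ball y0 (3 * ρ ^ 2) ⊆ T := ball_subset_ball (by linarith)
  have hα : α ∈ Icc α β := ⟨le_rfl, hαβ.le⟩
  have y0T : y0 ∈ T := mem_ball_self (by positivity)
  have B0 : 0 ≤ B := (norm_nonneg _).trans (hB α hα y0 y0T)
  have M0 : 0 ≤ M := (norm_nonneg _).trans (hM α hα y0 y0T)
  have Af0 : 0 ≤ Af := (norm_nonneg _).trans ((hf α hα).1 y0 y0T)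
  set Z : ℝ := M + B / ρ ^ 4 with hZ
  have Z0 : 0 ≤ Z := by positivity
  have hBZ : B + ρ ^ 4 * M = ρ ^ 4 * Z := by rw [hZ]; field_simp; ring
  set W : ℝ → En n → V := fun t y => χ y • w t y with hW
  set F : ℝ → En n → V := fun t y => χ y • f t y +
    (∑ k, ∑ l, χ y • (a t y k l - a0 k l) • pd k (pd l (w t)) y) + -∑ k, ∑ l, a0 k l •
      (pd k χ y • pd l (w t) y + pd l χ y • pd k (w t) y + pd k (pd l χ) y • w t y) with hF
  have hW0 : ∀ t y, y ∉ closedBall y0 (2 * ρ ^ 2) → W t y = 0 := fun t y hy => by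
    simp [hW, hχ0 y hy]
  have hF0 : ∀ t y, y ∉ closedBall y0 (2 * ρ ^ 2) → F t y = 0 := fun t y hy => by
    have h1 := fun k => pd_zero_off isClosed_closedBall hχ0 k
    simp [hF, hχ0 y hy, h1 _ y hy, pd_zero_off isClosed_closedBall (h1 _) _ y hy]
  have hW2 : Yl (Icc α β) univ 2 W := ((yl_static hI hTo hχ.contDiffOn).smul hI hTo hw).ext_zero
    hTo isClosed_closedBall s23 fun t _ => hW0 t
  have hFc : ContinuousOn (fun q : ℝ × En n => F q.1 q.2) (Icc α β ×ˢ univ) := by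
    refine cont_ext hTo isClosed_closedBall s23 ?_ fun t _ => hF0 t
    have c0 : ∀ {g : En n → ℝ}, ContDiff ℝ ∞ g →
        ContinuousOn (fun q : ℝ × En n => g q.2) (Icc α β ×ˢ T) := fun h =>
      (h.continuous.comp continuous_snd).continuousOn
    refine (((c0 hχ).smul hfc).add (continuousOn_finsetSum _ fun k _ =>
      continuousOn_finsetSum _ fun l _ => (c0 hχ).smul (((hac k l).sub continuousOn_const).smul
        ((hw.pd l).pd k).cont))).add (ContinuousOn.neg (continuousOn_finsetSum _ fun k _ =>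
      continuousOn_finsetSum _ fun l _ => ContinuousOn.const_smul ?_ _))
    exact (((c0 (contDiff_pd_top hχ k)).smul (hw.pd l).cont).add
      ((c0 (contDiff_pd_top hχ l)).smul (hw.pd k).cont)).add
      ((c0 (contDiff_pd_top (contDiff_pd_top hχ l) k)).smul hw.cont)
  set A : ℝ := (2 * K0 + c1 + c2) * (Af + δ * ρ * H + Z) with hAd
  have hFb : ∀ t ∈ Icc α β, BS ρ univ A (F t) := by
    intro t ht
    refine BS.ext hρ ?_ (hF0 t)
    have c2' : ∀ z ∈ T, ContDiffAt ℝ 2 (w t) z := fun z hz =>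
      (hw.contDiffOn hTo t ht).contDiffAt (hTo.mem_nhds hz)
    have m1 : ∀ z ∈ ball y0 (3 * ρ ^ 2), ‖d1 (w t) z‖ ≤ 2 * B / ρ ^ 2 + M * ρ ^ 2 := fun z hz =>
      loc_d1 hρ2 (fun x hx => by
        rw [hT, mem_ball]; rw [mem_ball] at hz; rw [mem_closedBall] at hx
        linarith [dist_triangle x z y0]) c2' (hB t ht) (hM t ht)
    have w0 : BS ρ (ball y0 (3 * ρ ^ 2)) ((6 * n + 2) * (ρ ^ 4 * Z)) (w t) := by
      refine (bs_of_d1 hρ (by positivity) (fun z hz => (c2' z (s34 hz)).differentiableAt (by simp))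
        (fun z hz => hB t ht z (s34 hz)) m1).mono ?_
      rw [← hBZ, show 3 * n * ρ ^ 2 * (2 * B / ρ ^ 2 + M * ρ ^ 2) = 6 * n * B + 3 * n * (ρ ^ 4 * M)
        by field_simp; ring]
      nlinarith [mul_nonneg hn (mul_nonneg (pow_pos hρ 4).le M0), mul_nonneg (pow_pos hρ 4).le M0]
    have w1 : ∀ l, BS ρ (ball y0 (3 * ρ ^ 2)) ((6 * n + 2) * (ρ ^ 2 * Z)) (pd l (w t)) := by
      intro l
      refine (bs_of_d1 hρ M0 (fun z hz => diff_pd (c2' z (s34 hz)) l)
        (fun z hz => (pd_le_d1 _ z l).trans (m1 z hz))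
        (fun z hz => (d1_pd_le _ z l).trans (hM t ht z (s34 hz)))).mono ?_
      rw [show ρ ^ 2 * Z = B / ρ ^ 2 + ρ ^ 2 * M by rw [hZ]; field_simp; ring, mul_div_assoc]
      nlinarith [mul_nonneg hn (mul_nonneg hρ2.le M0), mul_nonneg hρ2.le M0,
        mul_nonneg hn (div_nonneg B0 hρ2.le)]
    have w2 : ∀ k l, BS ρ (ball y0 (3 * ρ ^ 2)) (M + ρ * H) (pd k (pd l (w t))) := fun k l =>
      ⟨fun z hz => ((pd_le_d2 _ z k l).trans (hM t ht z (s34 hz))).trans
        (le_add_of_nonneg_right (by positivity)), fun z hz z' hz' => by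
        have := (pd_sub_le_d2 _ _ z z' k l).trans (hHo t ht z (s34 hz) z' (s34 hz'))
        have h2 := mul_le_mul_of_nonneg_left this hρ.le
        nlinarith [mul_nonneg M0 (Real.sqrt_nonneg (dist z z'))]⟩
    have u := subset_univ (ball y0 (3 * ρ ^ 2))
    have t1 := (b0.sub u).smul hρ.le ((hf t ht).sub s34)
    have t2 := bs_sum2 hρ.le fun k l => (b0.sub u).smul hρ.le
      (((hcl t ht k l).sub s34).smul hρ.le (w2 k l))
    have t3 := (bs_sum2 hρ.le fun k l => (bs_const (ρ := ρ) (T := ball y0 (3 * ρ ^ 2)) (a0 k l)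
      (a1l k l)).smul hρ.le (((((b1 k).sub u).smul hρ.le (w1 l)).add hρ.le
        (((b1 l).sub u).smul hρ.le (w1 k))).add hρ.le (((b2 k l).sub u).smul hρ.le w0))).neg
    refine ((t1.add hρ.le t2).add hρ.le t3).mono ?_
    have e2 : (n : ℝ) * (n * (2 * K0 * (2 * δ * (M + ρ * H)))) = c1 * (δ * M + δ * ρ * H) := by
      rw [hc1]; ring
    have e3 : (n : ℝ) * (n * (2 * a1 * (2 * (K0 / ρ ^ 2) * ((6 * n + 2) * (ρ ^ 2 * Z)) +
        2 * (K0 / ρ ^ 2) * ((6 * n + 2) * (ρ ^ 2 * Z)) +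
        2 * (K0 / ρ ^ 4) * ((6 * n + 2) * (ρ ^ 4 * Z))))) = c2 * Z := by
      rw [hc2]; field_simp; ring
    rw [e2, e3, hAd]
    have h1 : δ * M ≤ Z := by
      have : 0 ≤ B / ρ ^ 4 := by positivity
      nlinarith
    have h2 : 0 ≤ δ * ρ * H := by positivity
    nlinarith [mul_le_mul_of_nonneg_left h1 c10, mul_nonneg c10 Af0, mul_nonneg c20 Af0,
      mul_nonneg c20 h2, mul_nonneg (zero_le_one.trans hK0) h2, mul_nonneg (zero_le_one.trans hK0) Z0]
  have A0 : 0 ≤ A := by positivity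
  have hm : MapsTo (fun σ => α + σ) (Icc 0 (β - α)) (Icc α β) := fun σ hσ =>
    ⟨by linarith [hσ.1], by linarith [hσ.2]⟩
  have sh : ∀ {g : ℝ → En n → V}, ContinuousOn (fun q : ℝ × En n => g q.1 q.2) (Icc α β ×ˢ univ) →
      ContinuousOn (fun q : ℝ × En n => g (α + q.1) q.2) (Icc 0 (β - α) ×ˢ univ) := fun h =>
    h.comp (f := fun q : ℝ × En n => (α + q.1, q.2)) (by fun_prop) fun q hq => ⟨hm hq.1, hq.2⟩
  have sol := hA (β - α) ⟨by linarith, hlen⟩ A (A / ρ) (K0 * B) (fun σ => F (α + σ))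
    (fun σ => W (α + σ)) (by positivity) ⟨sh hFc, fun σ hσ y => (hFb _ (hm hσ)).1 y (mem_univ _),
      fun σ hσ y y' => by
        rw [div_mul_eq_mul_div, le_div_iff₀' hρ]
        exact (hFb _ (hm hσ)).2 y (mem_univ _) y' (mem_univ _)⟩
    ⟨fun y => ?_, fun σ hσ => contDiffOn_univ.1 (hW2.contDiffOn isOpen_univ _ (hm hσ)),
      fun σ hσ y => ?_⟩ (sh hW2.cont) fun σ hσ y => ?_
  · intro t ht y hy y' hy'
    have loc : ∀ z ∈ ball y0 (ρ ^ 2), ∀ k l, pd k (pd l (W t)) z = pd k (pd l (w t)) z := by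
      intro z hz k l
      refine pd_congr (pd_congr_ev ?_ l) k
      filter_upwards [isOpen_ball.mem_nhds hz] with x hx
      simp [hW, hχ1 x hx]
    rw [← le_div_iff₀' hρ]
    refine (pi_norm_le_iff_of_nonneg (by positivity)).2 fun k =>
      (pi_norm_le_iff_of_nonneg (by positivity)).2 fun l => ?_
    have := (sol.y2 k l).hol (t - α) ⟨by linarith [ht.1], by linarith [ht.2]⟩ y y'
    simp only [add_sub_cancel, loc y hy, loc y' hy'] at this
    refine this.trans (le_of_eq ?_)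
    rw [hAd]; field_simp
  · by_cases hy : y ∈ closedBall y0 (2 * ρ ^ 2)
    · simp [hW, hinit y (s23 hy)]
    · exact hW0 _ y hy
  · by_cases hy : y ∈ closedBall y0 (2 * ρ ^ 2)
    · have h1 := ((hev _ (hm hσ) y (s23 hy)).const_smul (χ y)).scomp σ
        (h := fun σ => α + σ) ((hasDerivWithinAt_id σ _).const_add α) hm
      refine h1.congr_deriv ?_
      simp only [Lop, hW, pd_pd_smul hTo hχ hw (hm hσ) (s23 hy), hF, one_smul,
        sub_smul, smul_add, smul_sub, Finset.smul_sum, Finset.sum_sub_distrib,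
        Finset.sum_add_distrib, smul_comm (χ y) (a0 _ _)]
      abel
    · have h1 := fun k => pd_zero_off isClosed_closedBall (hW0 (α + σ)) k
      have h2 := fun k l => pd_zero_off isClosed_closedBall (h1 l) k y hy
      simp only [Lop, h2, hF0 _ y hy, hW0 _ y hy, smul_zero, Finset.sum_const_zero, add_zero]
      exact hasDerivWithinAt_const _ _ _
  · by_cases hy : y ∈ closedBall y0 (2 * ρ ^ 2)
    · simp only [hW, norm_smul]
      exact mul_le_mul (b0.1 y (mem_univ _)) (hB _ (hm hσ) y (s23 hy)) (norm_nonneg _)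
        (zero_le_one.trans hK0)
    · simp only [hW0 _ y hy, norm_zero]; positivity

end Crest.Agent.T223.Lx
end
end

-- ▼ part T223/LxIS_83

/-!
# Row 223 (helper83): the weighted interior Schauder estimate
-/

set_option autoImplicit false
set_option linter.unusedSectionVars false

open Set Metric Filter Topology
open scoped ContDiff

noncomputable section

namespace Crest.Agent.T223.Lx

open Crest.Agent.N207 Crest.Agent.N207.P

theorem LinD.c2 {n : ℕ} {V : Type*} [NormedAddCommGroup V] [NormedSpace ℝ V]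
    {a0 : Matrix (Fin n) (Fin n) ℝ} {δ K α β : ℝ} {S : Set (En n)}
    {a : ℝ → En n → Matrix (Fin n) (Fin n) ℝ} {f w : ℝ → En n → V} {A c B : ℝ}
    (h : LinD a0 δ K α β S a f w A c B) {t : ℝ} (ht : t ∈ Icc α β) : ContDiffOn ℝ 2 (w t) S :=
  h.w2.contDiffOn h.opn t ht

set_option maxHeartbeats 1000000 in
theorem isStep (n : ℕ) (V : Type) [NormedAddCommGroup V] [NormedSpace ℝ V] [CompleteSpace V] :
    ISStep n V := by
  intro a0 ha
  obtain ⟨C1, hC1, hloc⟩ := loc_est (V := V) ha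
  obtain ⟨CI, hCI, hint⟩ := intStmt n V
  have C10 : 0 < C1 := by linarith
  set δ : ℝ := 1 / (128 * C1) with hδ
  have δ0 : 0 < δ := by positivity
  have δ1 : 2 * δ ≤ 1 := by
    rw [hδ, mul_one_div, div_le_one (by positivity)]; linarith
  refine ⟨δ, δ0, fun K => ?_⟩
  set l : ℝ := min (1 / 4) (δ / (|K| + 1)) with hl
  have l0 : 0 < l := by positivity
  have l1 : l ≤ 1 / 4 := min_le_left _ _
  have l2 : l * (|K| + 1) ≤ δ := (le_div_iff₀ (by positivity)).1 (min_le_right _ _)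
  set η : ℝ := l / (64 * C1) with hη
  have η0 : 0 < η := by positivity
  have η1 : η ≤ 1 := by rw [hη, div_le_one (by positivity)]; linarith
  set D : ℝ := CI / η ^ 4 with hD
  have D0 : 0 ≤ D := by positivity
  set C : ℝ := C1 * (8 / l + 8 + 8 * D / l + 1 / l ^ 5) with hC
  have p1 : 0 ≤ 8 / l := by positivity
  have p2 : 0 ≤ 8 * D / l := by positivity
  have p3 : 0 ≤ 1 / l ^ 5 := by positivity
  refine ⟨C, by nlinarith, fun α β S a f w A c B N h N0 hN t ht => ?_⟩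
  have A0 := h.A0
  have c0 := h.c0
  have B0 := h.B0
  set Q : ℝ := η * N + D * B with hQ
  have Q0 : 0 ≤ Q := by positivity
  have hQ2 : ∀ t ∈ Icc α β, WS S Q (d2 (w t)) := fun t ht =>
    (hint S (w t) B N η h.opn (h.c2 ht) B0 N0 η0 η1 (h.wB t ht) (hN t ht)).1.mono
      (le_of_eq (by rw [hQ, hD]; ring))
  have eQ : C1 * (8 * Q / l) = N / 8 + C1 * (8 * D / l) * B := by
    rw [hQ, hη]; field_simp; ring
  have hCb : C1 * (8 / l) * A + C1 * 8 * c + C1 * (8 * D / l + 1 / l ^ 5) * B ≤ C * (A + c + B) := by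
    have h1 : C1 * (8 / l) ≤ C := by rw [hC]; gcongr; linarith
    have h2 : C1 * 8 ≤ C := by rw [hC]; gcongr; linarith
    have h3 : C1 * (8 * D / l + 1 / l ^ 5) ≤ C := by rw [hC]; gcongr; linarith
    nlinarith [mul_le_mul_of_nonneg_right h1 A0, mul_le_mul_of_nonneg_right h2 c0,
      mul_le_mul_of_nonneg_right h3 B0]
  intro s y y' hy hy'
  have hs := hy.1
  have hq : 0 < √s := Real.sqrt_pos.2 hs
  have hqq : √s ^ 2 = s := Real.sq_sqrt hs.le
  have q1 : √s ≤ 1 := Real.sqrt_le_one.2 hy.2.1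
  have hd0 := Real.sqrt_nonneg (dist y y')
  set ρ : ℝ := l * √s with hρ
  have ρ0 : 0 < ρ := by positivity
  have ρl : ρ ≤ l := mul_le_of_le_one_right l0.le q1
  have ρ2 : ρ ^ 2 = l ^ 2 * s := by rw [hρ, mul_pow, hqq]
  rcases lt_or_ge (dist y y') (ρ ^ 2) with hlt | hge
  · have sub : ball y (4 * ρ ^ 2) ⊆ ball y (s / 2) := ball_subset_ball (by
      rw [ρ2]; nlinarith [mul_le_mul l1 l1 l0.le (by norm_num)])
    have subS : ball y (4 * ρ ^ 2) ⊆ S := fun z hz => (hy.half (sub hz)).mem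
    have pm := prod_mono (Subset.refl (Icc α β)) subS
    have key := hloc α β ρ (2 * δ) (8 * A / (s ^ 2 * √s) + ρ * (8 * c / s ^ 3)) B
      (8 * Q / (s ^ 2 * √s)) (8 * N / s ^ 3) y a f w h.lt h.len ρ0 (by positivity) δ1
      (by positivity) (h.w2.mono Subset.rfl subS) (fun k l => (h.ac k l).mono pm) (h.fc.mono pm)
      (fun z hz => h.init z (subS hz)) (fun t ht z hz => h.ev t ht z (subS hz))
      (fun t ht k j => ⟨fun z hz => (h.cl t ht z (subS hz) k j).trans (by linarith),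
        fun z hz z' hz' => ?_⟩)
      (fun t ht => ⟨fun z hz => ((h.fA t ht).half hy (sub hz)).trans
        (le_add_of_nonneg_right (by positivity)), fun z hz z' hz' => ?_⟩)
      (fun t ht z hz => h.wB t ht z (subS hz)) (fun t ht z hz => (hQ2 t ht).half hy (sub hz))
      (fun t ht z hz z' hz' => (hN t ht).half hy (sub hz) (sub hz')) t ht y
      (mem_ball_self (by positivity)) y' (mem_ball'.2 hlt)
    · set q := √s
      have e : s ^ 3 * (C1 * (8 * A / (s ^ 2 * q) + ρ * (8 * c / s ^ 3) +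
          2 * δ * ρ * (8 * N / s ^ 3) + (8 * Q / (s ^ 2 * q) + B / ρ ^ 4))) =
          ρ * (C1 * (8 / l) * A + C1 * 8 * c + N / 8 + C1 * (8 * Q / l) +
            C1 * (1 / l ^ 5) * B * q) := by
        rw [hρ, hδ, ← hqq]; field_simp; ring
      have h1 := mul_le_mul_of_nonneg_left key (pow_pos hs 3).le
      rw [← mul_assoc (s ^ 3) (C1 * _), e, mul_left_comm, mul_assoc ρ] at h1
      refine (le_of_mul_le_mul_left h1 ρ0).trans (mul_le_mul_of_nonneg_right ?_ hd0)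
      have : C1 * (1 / l ^ 5) * B * q ≤ C1 * (1 / l ^ 5) * B :=
        mul_le_of_le_one_right (by positivity) q1
      rw [eQ]
      linarith
    · have h1 := h.ah t ht z (subS hz) z' (subS hz') k j
      have h2 : ρ * K ≤ 2 * δ := by
        have k1 := mul_le_mul_of_nonneg_left (le_abs_self K) ρ0.le
        have k2 := mul_le_mul_of_nonneg_right ρl (abs_nonneg K)
        rw [mul_add] at l2
        linarith
      rw [sub_sub_sub_cancel_right, Real.norm_eq_abs]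
      calc _ ≤ ρ * (K * √(dist z z')) := by gcongr
        _ ≤ _ := by rw [← mul_assoc]; gcongr
    · have h1 := mul_le_mul_of_nonneg_left ((h.fH t ht).half hy (sub hz) (sub hz')) ρ0.le
      have h2 : 0 ≤ 8 * A / (s ^ 2 * √s) * √(dist z z') := by positivity
      rw [add_mul, mul_assoc ρ]
      linarith
  · have h2 : ρ ≤ √(dist y y') := Real.le_sqrt_of_sq_le hge
    have h5 : s ^ 2 * √s * ‖d2 (w t) y - d2 (w t) y'‖ ≤ 2 * Q := by
      have := mul_le_mul_of_nonneg_left (norm_sub_le (d2 (w t) y) (d2 (w t) y'))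
        (show 0 ≤ s ^ 2 * √s by positivity)
      linarith [hQ2 t ht s y hy, hQ2 t ht s y' hy']
    have h6 : 2 * Q / l ≤ N / 4 + C * (A + c + B) := by
      have h7 : 2 * Q / l ≤ C1 * (8 * Q / l) := by
        have : 0 ≤ Q / l := by positivity
        rw [mul_div_assoc, mul_div_assoc]; nlinarith
      have : 0 ≤ C1 * (8 / l) * A + C1 * 8 * c + C1 * (1 / l ^ 5) * B := by positivity
      rw [eQ] at h7
      linarith
    calc s ^ 3 * ‖d2 (w t) y - d2 (w t) y'‖ = √s * (s ^ 2 * √s * ‖d2 (w t) y - d2 (w t) y'‖) := by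
          rw [show s ^ 3 = √s * (s ^ 2 * √s) by nlinarith]; ring
      _ ≤ √s * (2 * Q) := by gcongr
      _ = 2 * Q / l * ρ := by rw [hρ]; field_simp
      _ ≤ _ := by gcongr

theorem isStmt (n : ℕ) (V : Type) [NormedAddCommGroup V] [NormedSpace ℝ V] [CompleteSpace V] :
    ISStmt n V := by
  intro a0 ha
  obtain ⟨δ, δ0, hδ⟩ := isStep n V a0 ha
  obtain ⟨CI, hCI, hint⟩ := intStmt n V
  refine ⟨δ, δ0, fun K => ?_⟩
  obtain ⟨C, hC, hstep⟩ := hδ K
  refine ⟨2 * C + CI, by linarith, fun α β S a f w A c B h hfin t ht => ?_⟩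
  have A0 := h.A0
  have c0 := h.c0
  have B0 := h.B0
  have D0 : 0 ≤ C * (A + c + B) := by positivity
  have h1 := absorb_wh D0 hfin (fun N N0 hN t ht =>
    (hstep α β S a f w A c B N h N0 hN t ht).mono (by linarith)) t ht
  have h2 := hint S (w t) B _ 1 h.opn (h.c2 ht) B0 (by positivity) one_pos le_rfl (h.wB t ht) h1
  have h3 : 1 * (2 * (C * (A + c + B))) + CI * B / 1 ^ 4 ≤ (2 * C + CI) * (A + c + B) := by
    nlinarith [mul_nonneg (zero_le_one.trans hCI) (add_nonneg A0 c0)]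
  exact ⟨h1.mono (by nlinarith [mul_nonneg (zero_le_one.trans hCI) (add_nonneg (add_nonneg A0 c0) B0)]),
    h2.1.mono h3, h2.2.1.mono h3⟩

end Crest.Agent.T223.Lx
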