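import Crest.Agent.N207.P.All
import Crest.Agent.N222.F.Bump
import Crest.Agent.T223.DbDbl_88

-- ▼ part T223/DbOp_88
section

/-!
# Row 223 (helper88): linear parabolic equations on a closed manifold, operators given by pieces

`Pc N I` : a chart, a cut-off and a coefficient matrix; `op P t u = ∑ η • Lop a (u ∘ c⁻¹)`.
`solve` : existence on `[a,b]`; `Sol.le` : the comparison principle.
-/

set_option autoImplicit false
set_option linter.unusedSectionVars false

open Set Filter Function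
open scoped ContDiff Topology Manifold Matrix

noncomputable section

namespace Crest.Agent.T223.Db

open Crest.Agent.N207.P Crest.Agent.N222

variable {m : ℕ} {ι : Type} [Fintype ι] {Y : Type} [TopologicalSpace Y]

theorem lop_comp (a : Matrix (Fin m) (Fin m) ℝ) {θ : En m → En m} {w : En m → ℝ} {z : En m}
    (hθ : ContDiffAt ℝ 2 θ z) (hw : ContDiffAt ℝ 2 w (θ z)) :
    Lop a (fun y => w (θ y)) z =
      Lop (Matrix.of (fun i k => pd k (cp θ i) z) * a * (Matrix.of fun i k => pd k (cp θ i) z)ᵀ) w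
        (θ z) + ∑ i, (∑ k, ∑ l, a k l * pd k (pd l (cp θ i)) z) * pd i w (θ z) := by
  have e : (fun y => w (θ y)) = z0 (fun _ => 1) θ w := by funext y; simp [z0]
  have h2 : ∀ k : Fin m, (pd k fun _ : En m => (1 : ℝ)) = fun _ => 0 := fun k =>
    funext fun z => pd_const' _ z k
  simp only [e, Lop, pd_pd_z0 contDiffAt_const hθ hw, z2, z3, h2, pd_const', Matrix.mul_apply,
    Matrix.transpose_apply, Matrix.of_apply, smul_eq_mul, one_mul, zero_mul, zero_add, mul_add,
    Finset.sum_add_distrib, Finset.mul_sum, Finset.sum_mul]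
  rw [add_comm]
  congr 1
  · calc ∑ k, ∑ l, ∑ j, ∑ i, a k l * (pd l (cp θ j) z * pd k (cp θ i) z * pd i (pd j w) (θ z))
        = ∑ k, ∑ j, ∑ i, ∑ l, a k l * (pd l (cp θ j) z * pd k (cp θ i) z * pd i (pd j w) (θ z)) :=
          Finset.sum_congr rfl fun k _ => by
            rw [Finset.sum_comm]
            exact Finset.sum_congr rfl fun j _ => Finset.sum_comm
      _ = ∑ j, ∑ i, ∑ l, ∑ k, a k l * (pd l (cp θ j) z * pd k (cp θ i) z * pd i (pd j w) (θ z)) := by
          rw [Finset.sum_comm]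
          refine Finset.sum_congr rfl fun j _ => ?_
          rw [Finset.sum_comm]
          exact Finset.sum_congr rfl fun i _ => Finset.sum_comm
      _ = _ := by
          rw [Finset.sum_comm]
          exact Finset.sum_congr rfl fun i _ => Finset.sum_congr rfl fun j _ =>
            Finset.sum_congr rfl fun l _ => Finset.sum_congr rfl fun k _ => by ring
  · calc ∑ k, ∑ l, ∑ i, a k l * (pd k (pd l (cp θ i)) z * pd i w (θ z))
        = ∑ k, ∑ i, ∑ l, a k l * (pd k (pd l (cp θ i)) z * pd i w (θ z)) :=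
          Finset.sum_congr rfl fun k _ => Finset.sum_comm
      _ = _ := by
          rw [Finset.sum_comm]
          exact Finset.sum_congr rfl fun i _ => Finset.sum_congr rfl fun k _ =>
            Finset.sum_congr rfl fun l _ => by ring

theorem lop_smul (c : ℝ) (a : Matrix (Fin m) (Fin m) ℝ) (w : En m → ℝ) (z : En m) :
    Lop (c • a) w z = c * Lop a w z := by
  simp only [Lop, Matrix.smul_apply, smul_eq_mul, Finset.mul_sum, mul_assoc]

theorem lop_sum {κ : Type} [Fintype κ] (a : κ → Matrix (Fin m) (Fin m) ℝ) (w : En m → ℝ)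
    (z : En m) : Lop (∑ α, a α) w z = ∑ α, Lop (a α) w z := by
  simp only [Lop, Matrix.sum_apply, smul_eq_mul, Finset.sum_mul]
  rw [Finset.sum_comm]
  refine (Finset.sum_congr rfl fun k _ => Finset.sum_comm).trans ?_
  rw [Finset.sum_comm]
  exact Finset.sum_congr rfl fun k _ => Finset.sum_comm

theorem lop_sub' (a : Matrix (Fin m) (Fin m) ℝ) {u v : En m → ℝ} {z : En m}
    (hu : ContDiffAt ℝ 2 u z) (hv : ContDiffAt ℝ 2 v z) :
    Lop a (fun y => u y - v y) z = Lop a u z - Lop a v z := by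
  have e : (fun y => u y - v y) = fun y => u y + (-1 : ℝ) • v y := by funext y; simp; ring
  rw [e]
  simp only [Lop, ← Finset.sum_sub_distrib]
  refine Finset.sum_congr rfl fun k _ => Finset.sum_congr rfl fun l _ => ?_
  rw [lop_add hu (hv.const_smul (-1 : ℝ)), pd_pd_smul_c (-1 : ℝ) hv]
  simp only [smul_eq_mul]
  ring

/-- jointly smooth on `I × Y` -/
def SmY (N : Imm m ι Y) (I : Set ℝ) (u : ℝ → Y → ℝ) : Prop :=
  ∀ x, ContDiffOn ℝ ∞ (fun q : ℝ × En m => u q.1 ((N.ch x).symm q.2)) (I ×ˢ (N.ch x).target)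

/-- a piece of an operator -/
structure Pc (N : Imm m ι Y) (I : Set ℝ) where
  c : OpenPartialHomeomorph Y (En m)
  hc : IsChart N.x c
  η : Y → ℝ
  sm : N.Sm η
  nn : ∀ p, 0 ≤ η p
  supp : tsupport η ⊆ c.source
  a : ℝ × En m → Matrix (Fin m) (Fin m) ℝ
  sa : ∀ k l, ∀ t ∈ I, ∀ p ∈ tsupport η,
    ContDiffWithinAt ℝ ∞ (fun q => a q k l) (I ×ˢ univ) (t, c p)
  pos : ∀ t ∈ I, ∀ p ∈ tsupport η, (a (t, c p)).PosDef

variable {N : Imm m ι Y} {I : Set ℝ}

namespace Pc

variable (P : Pc N I)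

/-- the operator of the piece -/
def op (t : ℝ) (u : Y → ℝ) (p : Y) : ℝ := P.η p * Lop (P.a (t, P.c p)) (u ∘ P.c.symm) (P.c p)

/-- the Jacobian of the change of charts -/
def jm (x : Y) (z : En m) : Matrix (Fin m) (Fin m) ℝ :=
  Matrix.of fun i k => pd k (cp (N.ch x ∘ P.c.symm) i) z

/-- principal part in the chart at `x` -/
def ca (x : Y) (q : ℝ × En m) : Matrix (Fin m) (Fin m) ℝ :=
  P.η ((N.ch x).symm q.2) • (P.jm x (P.c ((N.ch x).symm q.2)) *
    P.a (q.1, P.c ((N.ch x).symm q.2)) * (P.jm x (P.c ((N.ch x).symm q.2)))ᵀ)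

/-- first order part in the chart at `x` -/
def cb (x : Y) (q : ℝ × En m) (i : Fin m) : ℝ :=
  P.η ((N.ch x).symm q.2) * ∑ k, ∑ l, P.a (q.1, P.c ((N.ch x).symm q.2)) k l *
    pd k (pd l (cp (N.ch x ∘ P.c.symm) i)) (P.c ((N.ch x).symm q.2))

theorem mem_src {p : Y} (h : P.η p ≠ 0) : p ∈ P.c.source := P.supp (subset_tsupport _ h)

theorem sm_cut (x : Y) {F : ℝ × En m → ℝ}
    (hF : ∀ t ∈ I, ∀ y ∈ (N.ch x).target, (N.ch x).symm y ∈ tsupport P.η →
      ContDiffWithinAt ℝ ∞ F (I ×ˢ (N.ch x).target) (t, y)) :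
    ContDiffOn ℝ ∞ (fun q : ℝ × En m => P.η ((N.ch x).symm q.2) * F q)
      (I ×ˢ (N.ch x).target) := by
  rintro ⟨t, y⟩ hq
  by_cases h : (N.ch x).symm y ∈ tsupport P.η
  · refine ContDiffWithinAt.mul ?_ (hF t hq.1 y hq.2 h)
    exact ((P.sm x).comp contDiffOn_snd fun _ hq => hq.2) _ hq
  · have h1 : ContinuousAt (fun q : ℝ × En m => (N.ch x).symm q.2) (t, y) :=
      ((N.ch x).continuousAt_symm hq.2).comp (f := Prod.snd) continuousAt_snd
    have h2 := h1.eventually (notMem_tsupport_iff_eventuallyEq.1 h)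
    refine (contDiffAt_const (c := (0 : ℝ))).contDiffWithinAt.congr_of_eventuallyEq
      (mem_nhdsWithin_of_mem_nhds ?_) ?_
    · filter_upwards [h2] with q hq
      simp only [Pi.zero_apply] at hq
      simp [hq]
    · have := h2.self_of_nhds
      simp only [Pi.zero_apply] at this
      simp [this]

theorem sm_τ {x : Y} {y : En m} (hy : y ∈ (N.ch x).target) (h : (N.ch x).symm y ∈ P.c.source) :
    ContDiffAt ℝ ∞ (fun z => P.c ((N.ch x).symm z)) y := by
  have h1 := P.hc.trans_smooth (N.isChart x) h ((N.ch x).map_target hy)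
  rwa [(N.ch x).right_inv hy] at h1

theorem sm_θ {x p : Y} (hp : p ∈ (N.ch x).source) (h : p ∈ P.c.source) :
    ContDiffAt ℝ ∞ (N.ch x ∘ P.c.symm) (P.c p) := (N.isChart x).trans_smooth P.hc hp h

theorem sm_a {x : Y} {t : ℝ} (ht : t ∈ I) {y : En m} (hy : y ∈ (N.ch x).target)
    (h : (N.ch x).symm y ∈ tsupport P.η) (k l : Fin m) :
    ContDiffWithinAt ℝ ∞ (fun q : ℝ × En m => P.a (q.1, P.c ((N.ch x).symm q.2)) k l)
      (I ×ˢ (N.ch x).target) (t, y) := by
  have h1 : ContDiffAt ℝ ∞ (fun q : ℝ × En m => (q.1, P.c ((N.ch x).symm q.2))) (t, y) :=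
    contDiffAt_fst.prodMk (ContDiffAt.comp (g := fun z => P.c ((N.ch x).symm z)) (f := Prod.snd)
      (t, y) (P.sm_τ hy (P.supp h)) contDiffAt_snd)
  exact ContDiffWithinAt.comp (g := fun q => P.a q k l) (t := I ×ˢ univ)
    (f := fun q : ℝ × En m => (q.1, P.c ((N.ch x).symm q.2))) (t, y) (P.sa k l t ht _ h)
    h1.contDiffWithinAt fun q hq => ⟨hq.1, mem_univ _⟩

theorem sm_g {x : Y} {t : ℝ} {y : En m} (hy : y ∈ (N.ch x).target)
    (h : (N.ch x).symm y ∈ tsupport P.η) {g : En m → ℝ}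
    (hg : ContDiffAt ℝ ∞ g (P.c ((N.ch x).symm y))) :
    ContDiffWithinAt ℝ ∞ (fun q : ℝ × En m => g (P.c ((N.ch x).symm q.2)))
      (I ×ˢ (N.ch x).target) (t, y) :=
  (hg.comp (t, y) ((P.sm_τ hy (P.supp h)).comp (t, y) contDiffAt_snd)).contDiffWithinAt

theorem sm_ca (x : Y) (i j : Fin m) :
    ContDiffOn ℝ ∞ (fun q => P.ca x q i j) (I ×ˢ (N.ch x).target) := by
  simp only [ca, Matrix.smul_apply, smul_eq_mul, Matrix.mul_apply, Matrix.transpose_apply, jm,
    Matrix.of_apply]
  refine P.sm_cut x fun t ht y hy h => ?_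
  have hθ := P.sm_θ ((N.ch x).map_target hy) (P.supp h)
  have hj : ∀ i k, ContDiffAt ℝ ∞ (pd k (cp (N.ch x ∘ P.c.symm) i)) (P.c ((N.ch x).symm y)) :=
    fun i k => contDiffAt_pd (contDiffAt_cp hθ i) (by simp) k
  exact ContDiffWithinAt.sum fun l _ => (ContDiffWithinAt.sum fun k _ =>
    (P.sm_g hy h (hj i k)).mul (P.sm_a ht hy h k l)).mul (P.sm_g hy h (hj j l))

theorem sm_cb (x : Y) (i : Fin m) :
    ContDiffOn ℝ ∞ (fun q => P.cb x q i) (I ×ˢ (N.ch x).target) := by
  simp only [cb]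
  refine P.sm_cut x fun t ht y hy h => ?_
  have hθ := P.sm_θ ((N.ch x).map_target hy) (P.supp h)
  exact ContDiffWithinAt.sum fun k _ => ContDiffWithinAt.sum fun l _ => (P.sm_a ht hy h k l).mul
    (P.sm_g hy h (contDiffAt_pd (contDiffAt_pd (m := ∞) (contDiffAt_cp hθ i) (by simp) l)
      (by simp) k))

theorem ca_pos {x : Y} {t : ℝ} (ht : t ∈ I) {y : En m} (hy : y ∈ (N.ch x).target)
    (h : 0 < P.η ((N.ch x).symm y)) : (P.ca x (t, y)).PosDef := by
  refine Matrix.PosDef.smul ?_ h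
  set p := (N.ch x).symm y
  have hp : p ∈ P.c.source := P.mem_src h.ne'
  have hx : p ∈ (N.ch x).source := (N.ch x).map_target hy
  have h1 := P.pos t ht p (subset_tsupport _ h.ne')
  have hd := (P.sm_θ hx hp).differentiableAt (by simp)
  have hs := ((N.isChart x).trans_bijective P.hc hx hp).2
  have h2 : Injective (P.jm x (P.c p)).vecMul := by
    refine (injective_iff_map_eq_zero (Matrix.vecMulLinear (P.jm x (P.c p)))).2 fun v hv => ?_
    obtain ⟨w, hw⟩ := hs (WithLp.toLp 2 v)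
    have h3 : ∀ k, ∑ i, v i * fderiv ℝ (N.ch x ∘ P.c.symm) (P.c p) (EuclideanSpace.single k 1) i
        = 0 := fun k => by
      have := congrFun hv k
      simpa [Matrix.vecMul, dotProduct, jm, pd_cp hd] using this
    have h4 : ∑ i, v i * v i = 0 := by
      have h5 : ∀ i, v i = ∑ k, w k *
          fderiv ℝ (N.ch x ∘ P.c.symm) (P.c p) (EuclideanSpace.single k 1) i := fun i => by
        have := congrArg (fun u : En m => u i) hw
        simp only at this
        rw [← this, clm_eq_sum]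
        simp
      calc ∑ i, v i * v i = ∑ i, ∑ k, w k * (v i *
            fderiv ℝ (N.ch x ∘ P.c.symm) (P.c p) (EuclideanSpace.single k 1) i) := by
            refine Finset.sum_congr rfl fun i _ => ?_
            conv_lhs => rw [h5 i]
            rw [← h5 i, h5 i, Finset.mul_sum, ← h5 i]
            exact Finset.sum_congr rfl fun k _ => by ring
        _ = 0 := by
            rw [Finset.sum_comm]
            simp only [← Finset.mul_sum, h3, mul_zero, Finset.sum_const_zero]
    funext i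
    have := (Finset.sum_eq_zero_iff_of_nonneg fun i _ => mul_self_nonneg (v i)).1 h4 i
      (Finset.mem_univ i)
    exact mul_self_eq_zero.1 this
  simpa using h1.mul_mul_conjTranspose_same h2

theorem ca_nn {x : Y} {t : ℝ} (ht : t ∈ I) {y : En m} (hy : y ∈ (N.ch x).target) :
    (P.ca x (t, y)).PosSemidef := by
  rcases (P.nn ((N.ch x).symm y)).eq_or_lt with h | h
  · simp only [ca, ← h, zero_smul]; exact Matrix.PosSemidef.zero
  · exact (P.ca_pos ht hy h).posSemidef

theorem op_rep {x : Y} (t : ℝ) {y : En m} (hy : y ∈ (N.ch x).target) {u : Y → ℝ}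
    (hu : ContDiffAt ℝ 2 (u ∘ (N.ch x).symm) y) :
    P.op t u ((N.ch x).symm y) = Lop (P.ca x (t, y)) (u ∘ (N.ch x).symm) y +
      ∑ i, P.cb x (t, y) i * pd i (u ∘ (N.ch x).symm) y := by
  by_cases h : P.η ((N.ch x).symm y) = 0
  · simp [op, ca, cb, h, Lop]
  set p := (N.ch x).symm y with hp0
  have hp : p ∈ P.c.source := P.mem_src h
  have hx : p ∈ (N.ch x).source := (N.ch x).map_target hy
  have hθ := (P.sm_θ hx hp).of_le two_le_inf
  have hy' : (N.ch x ∘ P.c.symm) (P.c p) = y := by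
    rw [comp_apply, P.c.left_inv hp, hp0, (N.ch x).right_inv hy]
  have h1 : u ∘ P.c.symm =ᶠ[𝓝 (P.c p)] fun z => (u ∘ (N.ch x).symm) ((N.ch x ∘ P.c.symm) z) :=
    chart_eventuallyEq u hx hp
  rw [op, (Jet2.of_ev h1).lop, lop_comp _ hθ (hy' ▸ hu), hy', ca, lop_smul, mul_add, Finset.mul_sum]
  simp only [cb, ← hp0, mul_assoc]
  rfl

theorem c2 {u : Y → ℝ} (hu : N.Sm u) {p : Y} (h : P.η p ≠ 0) :
    ContDiffAt ℝ 2 (u ∘ P.c.symm) (P.c p) :=
  ((hu.chart P.hc).contDiffAt (P.c.open_target.mem_nhds (P.c.map_source (P.mem_src h)))).of_le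
    two_le_inf

theorem op_sub (t : ℝ) {u v : Y → ℝ} (hu : N.Sm u) (hv : N.Sm v) (p : Y) :
    P.op t (fun q => u q - v q) p = P.op t u p - P.op t v p := by
  by_cases h : P.η p = 0
  · simp [op, h]
  · rw [op, op, op, ← mul_sub, ← lop_sub' _ (P.c2 hu h) (P.c2 hv h)]; rfl

theorem op_nonpos {t : ℝ} (ht : t ∈ I) {u : Y → ℝ} (hu : N.Sm u) {p : Y} (hm : ∀ q, u q ≤ u p) :
    P.op t u p ≤ 0 := by
  by_cases h : P.η p = 0
  · simp [op, h]
  · refine mul_nonpos_of_nonneg_of_nonpos (P.nn p) (lop_nonpos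
      (P.pos t ht p (subset_tsupport _ h)).posSemidef (P.c2 hu h) (Eventually.of_forall fun z => ?_))
    simp only [comp_apply, P.c.left_inv (P.mem_src h)]
    exact hm _

end Pc

variable {κ : Type} [Fintype κ]

/-- the operator -/
def op (P : κ → Pc N I) (t : ℝ) (u : Y → ℝ) (p : Y) : ℝ := ∑ α, (P α).op t u p

/-- solutions on `[a,b] × Y` with zero initial value -/
structure Sol {a b : ℝ} (P : κ → Pc N (Icc a b)) (H w : ℝ → Y → ℝ) : Prop where
  sm : SmY N (Icc a b) w
  init : ∀ p, w a p = 0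
  eqn : ∀ t ∈ Icc a b, ∀ p, HasDerivWithinAt (fun s => w s p) (op P t (w t) p + H t p) (Icc a b) t

theorem SmY.slice {u : ℝ → Y → ℝ} (h : SmY N I u) {t : ℝ} (ht : t ∈ I) : N.Sm (u t) := fun x =>
  (h x).comp (f := fun y : En m => (t, y)) (by fun_prop) fun _ hy => ⟨ht, hy⟩

theorem SmY.cont {u : ℝ → Y → ℝ} (h : SmY N I u) :
    ContinuousOn (fun q : ℝ × Y => u q.1 q.2) (I ×ˢ univ) := by
  rintro ⟨t, p⟩ hq
  have h1 : ContinuousAt (fun q : ℝ × Y => (q.1, N.ch p q.2)) (t, p) :=
    continuousAt_fst.prodMk (ContinuousAt.comp (g := N.ch p) (f := Prod.snd)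
      ((N.ch p).continuousAt (N.mem p)) continuousAt_snd)
  have h0 : ∀ᶠ q : ℝ × Y in 𝓝 (t, p), q.2 ∈ (N.ch p).source :=
    continuousAt_snd.eventually ((N.ch p).open_source.mem_nhds (N.mem p))
  have h2 := ((h p).continuousOn (t, N.ch p p) ⟨hq.1, (N.ch p).map_source (N.mem p)⟩).comp
    (f := fun q : ℝ × Y => (q.1, N.ch p q.2)) (x := (t, p)) (s := I ×ˢ (N.ch p).source)
    h1.continuousWithinAt fun q hq => ⟨hq.1, (N.ch p).map_source hq.2⟩
  have h3 : ContinuousWithinAt (fun q : ℝ × Y => u q.1 q.2) (I ×ˢ (N.ch p).source) (t, p) :=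
    h2.congr (fun q hq => by simp [(N.ch p).left_inv hq.2]) (by simp [(N.ch p).left_inv (N.mem p)])
  refine h3.mono_of_mem_nhdsWithin ?_
  filter_upwards [mem_nhdsWithin_of_mem_nhds h0, self_mem_nhdsWithin] with q h4 h5
  exact ⟨h5.1, h4⟩

theorem sol_zero {a b : ℝ} (P : κ → Pc N (Icc a b)) : Sol P (fun _ _ => 0) fun _ _ => 0 := by
  refine ⟨fun _ => contDiffOn_const, fun _ => rfl, fun t _ p => ?_⟩
  have h : ∀ α, (P α).op t (fun _ => 0) p = 0 := fun α => by
    have := (P α).op_sub t (Imm.sm_const (M := N) (0 : ℝ)) (Imm.sm_const (M := N) (0 : ℝ)) p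
    simpa using this
  simpa [op, h] using hasDerivWithinAt_const t (Icc a b) (0 : ℝ)

/-- **comparison principle** -/
theorem Sol.le [CompactSpace Y] {a b : ℝ} {P : κ → Pc N (Icc a b)} {H w H' w' : ℝ → Y → ℝ}
    (h : Sol P H w) (h' : Sol P H' w') {C t : ℝ} (ht : t ∈ Icc a b)
    (hC : ∀ s ∈ Icc a t, ∀ p, H s p - H' s p ≤ C) (p : Y) : w t p - w' t p ≤ (t - a) * C := by
  have hI : Icc a t ⊆ Icc a b := Icc_subset_Icc le_rfl ht.2
  have key : ∀ ε : ℝ, 0 < ε → w t p - w' t p ≤ (t - a) * (C + ε) := by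
    intro ε hε
    have hc : ContinuousOn (fun q : ℝ × Y => w q.1 q.2 - w' q.1 q.2 - (q.1 - a) * (C + ε))
        (Icc a t ×ˢ univ) :=
      ((h.sm.cont.sub h'.sm.cont).mono (prod_mono hI le_rfl)).sub (by fun_prop)
    obtain ⟨⟨s, x⟩, hq, hm⟩ := (isCompact_Icc.prod isCompact_univ).exists_isMaxOn
      ⟨(t, p), ⟨ht.1, le_rfl⟩, mem_univ _⟩ hc
    have hm' : ∀ r ∈ Icc a t, ∀ y, w r y - w' r y - (r - a) * (C + ε) ≤
        w s x - w' s x - (s - a) * (C + ε) := fun r hr y => hm (a := (r, y)) ⟨hr, mem_univ _⟩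
    rcases hq.1.1.eq_or_lt with h1 | h1
    · have := hm' t ⟨ht.1, le_rfl⟩ p
      simp only at h1
      rw [← h1, h.init, h'.init] at this
      linarith
    · exfalso
      have hs := hI hq.1
      have hd : HasDerivWithinAt (fun r => w r x - w' r x - (r - a) * (C + ε))
          (op P s (w s) x + H s x - (op P s (w' s) x + H' s x) - 1 * (C + ε)) (Icc a s) s :=
        (((h.eqn s hs x).sub (h'.eqn s hs x)).mono (Icc_subset_Icc le_rfl hs.2)).sub
          (((hasDerivWithinAt_id s _).sub_const a).mul_const _)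
      have h2 : IsLocalMaxOn (fun r => w r x - w' r x - (r - a) * (C + ε)) (Icc a s) s :=
        IsMaxOn.localize fun r hr => hm' r ⟨hr.1, hr.2.trans hq.1.2⟩ x
      have h3 := h2.hasFDerivWithinAt_nonpos hd.hasFDerivWithinAt
        (sub_mem_posTangentConeAt_of_segment_subset (y := a) (by
          rw [segment_symm, segment_eq_Icc h1.le]))
      have h4 : op P s (w s) x - op P s (w' s) x ≤ 0 := by
        simp only [op, ← Finset.sum_sub_distrib]
        refine Finset.sum_nonpos fun α _ => ?_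
        rw [← (P α).op_sub s (h.sm.slice hs) (h'.sm.slice hs)]
        exact (P α).op_nonpos hs ((h.sm.slice hs).sub (h'.sm.slice hs)) fun y => by
          linarith [hm' s hq.1 y]
      have h5 := hC s hq.1 x
      simp only [ContinuousLinearMap.toSpanSingleton_apply, smul_eq_mul] at h3
      simp only at h1
      nlinarith
  refine le_of_forall_pos_le_add fun ε hε => ?_
  have h1 := key (ε / (t - a + 1)) (div_pos hε (by linarith [ht.1]))
  have h2 : (t - a) * (ε / (t - a + 1)) ≤ ε := by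
    rw [← mul_div_assoc, div_le_iff₀ (by linarith [ht.1])]; nlinarith
  nlinarith

/-- **existence** -/
theorem solve [T2Space Y] [CompactSpace Y] {a b : ℝ} (hab : a < b) (P : κ → Pc N (Icc a b))
    (hP : ∀ p, ∃ α, 0 < (P α).η p) {H : ℝ → Y → ℝ} (hH : SmY N (Icc a b) H) :
    ∃ w, Sol P H w := by
  classical
  let := N.chartedSpace
  have : IsManifold 𝓘(ℝ, En m) ∞ Y := N.isManifold
  let Q : QLOp m (Icc a b) univ (op P) :=
    { a := fun x q => ∑ α, (P α).ca x (q.1, q.2.1)
      b := fun x q => ∑ α, ∑ i, (P α).cb x (q.1, q.2.1.1) i * q.2.2 i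
      sa := fun x k l => by
        simp only [Matrix.sum_apply]
        exact ContDiffOn.sum fun α _ => ((P α).sm_ca x k l).comp
          (f := fun q : ℝ × En m × ℝ => (q.1, q.2.1)) (by fun_prop) fun q hq => ⟨hq.1, hq.2.1⟩
      sb := fun x => ContDiffOn.sum fun α _ => ContDiffOn.sum fun i _ =>
        (((P α).sm_cb x i).comp (f := fun q : ℝ × (En m × ℝ) × (Fin m → ℝ) => (q.1, q.2.1.1))
          (by fun_prop) fun q hq => ⟨hq.1, hq.2.1.1⟩).mul (by fun_prop)
      pos := fun x t ht q hq => by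
        obtain ⟨α, hα⟩ := hP ((N.ch x).symm q.1)
        rw [← Finset.add_sum_erase _ _ (Finset.mem_univ α)]
        exact ((P α).ca_pos ht hq.1 hα).add_posSemidef
          (Matrix.posSemidef_sum _ fun β _ => (P β).ca_nn ht hq.1)
      rep := fun x t _ y hy u W hW hyW hu _ => by
        have h1 : ContDiffAt ℝ 2 (u ∘ (N.ch x).symm) y := by
          have h2 : ContMDiffAt 𝓘(ℝ, En m) 𝓘(ℝ, En m) ∞ (chartAt (En m) x).symm y :=
            (contMDiffOn_chart_symm (x := x)).contMDiffAt ((N.ch x).open_target.mem_nhds hy)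
          exact (((hu.contMDiffAt (hW.mem_nhds hyW)).comp y h2).contDiffAt).of_le two_le_inf
        rw [lop_sum, ← Finset.sum_add_distrib]
        exact Finset.sum_congr rfl fun α _ => (P α).op_rep t hy h1 }
  have hL : Q.Lin := ⟨fun _ _ _ _ => rfl, fun x t y c v v' p p' => by
    simp only [Q, Pi.add_apply, Pi.smul_apply, smul_eq_mul, mul_add, Finset.sum_add_distrib,
      Finset.mul_sum, mul_left_comm]⟩
  obtain ⟨w, h0, hw⟩ := linS m Y ℝ a b (op P) Q (fun _ => 0) H hab hL contMDiff_const hH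
  exact ⟨w, hw.sm, fun p => congrFun h0 p, hw.eqn⟩

end Crest.Agent.T223.Db
end
end

-- ▼ part T223/DbAlg_88

/-!
# Row 223 (helper88): the complex Laplacian in real coordinates, chart independence
-/

set_option autoImplicit false
set_option linter.unusedSectionVars false

open Set Filter Function Complex
open scoped ContDiff Topology Matrix ComplexConjugate ComplexOrder

noncomputable section

namespace Crest.Agent.T223.Db

open Crest.Agent.R275.Geo Crest.Agent.R275.Core144 Crest.Agent.R275.EDR890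
open Crest.Agent.R273.Hess_333 Crest.Agent.R273.HessB_333 Crest.Agent.R273.Kah_333
open Crest.Agent.N207.P

variable {n : ℕ}

/-- `∂_a` in real coordinates -/
def zm (n : ℕ) : Matrix (Fin n) (Fin (2 * n)) ℂ := Matrix.of fun a k =>
  (1 / 2 : ℂ) * ((eR n (EuclideanSpace.single a 1) k : ℝ) -
    I * (eR n (EuclideanSpace.single a I) k : ℝ))

/-- the real coefficient matrix of `tr (G⁻¹ ∂∂̄ ·)` -/
def rm (G : Matrix (Fin n) (Fin n) ℂ) : Matrix (Fin (2 * n)) (Fin (2 * n)) ℝ :=
  Matrix.of fun k l => (((zm n)ᴴ * G⁻¹ * zm n) l k).re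

theorem fderiv2_eR {u : En (2 * n) → ℝ} {z : Cn n} (hu : ContDiffAt ℝ ∞ u (eR n z)) (v w : Cn n) :
    fderiv ℝ (fderiv ℝ fun y => u (eR n y)) z v w =
      ∑ k, ∑ l, eR n v k * eR n w l * pd k (pd l u) (eR n z) := by
  have h1 : fderiv ℝ (fun y => u (eR n y)) =
      fun y => (fderiv ℝ u (eR n y)).comp (eR n : Cn n →L[ℝ] En (2 * n)) :=
    funext fun y => (eR n).comp_right_fderiv
  have h2 : HasFDerivAt (fderiv ℝ u) (fderiv ℝ (fderiv ℝ u) (eR n z)) (eR n z) :=
    ((hu.fderiv_right (m := ∞) (by simp)).differentiableAt (by simp)).hasFDerivAt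
  have h3 := ((h2.comp z (eR n).hasFDerivAt).clm_comp
    (hasFDerivAt_const (eR n : Cn n →L[ℝ] En (2 * n)) z)).fderiv
  simp only [comp_apply] at h3
  rw [h1, h3]
  simp only [pd_pd_eq (hu.of_le two_le_inf), ContinuousLinearMap.add_apply,
    ContinuousLinearMap.comp_apply, ContinuousLinearMap.flip_apply,
    ContinuousLinearMap.compL_apply, ContinuousLinearMap.zero_apply,
    ContinuousLinearMap.comp_zero, zero_add, ContinuousLinearEquiv.coe_coe]
  rw [clm_eq_sum (fderiv ℝ (fderiv ℝ u) (eR n z)) (eR n v)]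
  simp only [ContinuousLinearMap.sum_apply, ContinuousLinearMap.smul_apply, smul_eq_mul]
  refine Finset.sum_congr rfl fun k _ => ?_
  rw [clm_eq_sum, Finset.mul_sum]
  simp only [smul_eq_mul, mul_assoc]

theorem hess_eR {u : En (2 * n) → ℝ} {z : Cn n} (hu : ContDiffAt ℝ ∞ u (eR n z)) :
    hess (fun y => u (eR n y)) z =
      zm n * (Matrix.of fun k l => ((pd k (pd l u) (eR n z) : ℝ) : ℂ)) * (zm n)ᴴ := by
  have h1 : ContDiffAt ℝ ∞ (fun y => u (eR n y)) z := hu.comp z (eR n).contDiff.contDiffAt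
  ext a b
  rw [hess_apply, wd, fderiv_wd (contDiffAt_cu h1)]
  simp only [wdL, ContinuousLinearMap.comp_apply, wdLc_apply, fderiv2_cu h1, fderiv2_eR hu,
    Matrix.mul_apply, Matrix.conjTranspose_apply, zm, Matrix.of_apply, cI_true, cI_false,
    smul_eq_mul, ofReal_sum, ofReal_mul, Finset.sum_mul, Finset.mul_sum, mul_add,
    ← Finset.sum_add_distrib]
  rw [Finset.sum_comm]
  refine Finset.sum_congr rfl fun l _ => Finset.sum_congr rfl fun k _ => ?_
  simp only [star_mul', star_sub, star_div₀, star_one, star_ofNat, star_def, conj_ofReal, conj_I]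
  ring

theorem lap_eR (G : Matrix (Fin n) (Fin n) ℂ) {u : En (2 * n) → ℝ} {z : Cn n}
    (hu : ContDiffAt ℝ ∞ u (eR n z)) : lap G (fun y => u (eR n y)) z = Lop (rm G) u (eR n z) := by
  rw [lap, hess_eR hu, ← Matrix.mul_assoc, Matrix.trace_mul_comm, ← Matrix.mul_assoc,
    ← Matrix.mul_assoc]
  simp only [Matrix.trace, Matrix.diag_apply, Matrix.mul_apply (M := (zm n)ᴴ * G⁻¹ * zm n), re_sum,
    Matrix.of_apply, re_mul_ofReal, Lop, rm, smul_eq_mul]
  exact Finset.sum_comm

theorem rm_pos {G : Matrix (Fin n) (Fin n) ℂ} (hG : G.PosDef) : (rm G).PosDef := by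
  have hB : ((zm n)ᴴ * G⁻¹ * zm n).IsHermitian :=
    Matrix.isHermitian_conjTranspose_mul_mul _ hG.inv.1
  refine Matrix.PosDef.of_dotProduct_mulVec_pos ?_ fun x hx => ?_
  · ext k l
    simp only [rm, Matrix.conjTranspose_apply, Matrix.of_apply, star_trivial]
    rw [← hB.apply l k]
    simp
  · have h1 : zm n *ᵥ (fun k => (x k : ℂ)) ≠ 0 := by
      intro h
      have h2 : ∀ a, (∑ k, eR n (EuclideanSpace.single a 1) k * x k) = 0 ∧
          (∑ k, eR n (EuclideanSpace.single a I) k * x k) = 0 := fun a => by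
        have h3 := congrFun h a
        simp only [Matrix.mulVec, dotProduct, zm, Matrix.of_apply, Pi.zero_apply] at h3
        have h4 : ((∑ k, eR n (EuclideanSpace.single a 1) k * x k : ℝ) : ℂ) -
            I * ((∑ k, eR n (EuclideanSpace.single a I) k * x k : ℝ) : ℂ) = 0 := by
          rw [← mul_zero (2 : ℂ), ← h3]
          simp only [ofReal_sum, ofReal_mul, Finset.mul_sum, ← Finset.sum_sub_distrib]
          exact Finset.sum_congr rfl fun k _ => by ring
        have h5 := congrArg re h4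
        have h6 := congrArg im h4
        simp only [sub_re, ofReal_re, mul_re, I_re, zero_mul, I_im, ofReal_im, mul_zero, sub_self,
          sub_zero, zero_re, sub_im, mul_im, one_mul, zero_add, zero_sub, zero_im,
          neg_eq_zero] at h5 h6
        exact ⟨h5, h6⟩
      have h7 : ∀ v : Cn n, ∑ k, eR n v k * x k = 0 := fun v => by
        conv_lhs => rw [vec_eq_sum v]
        simp only [map_sum, map_add, map_smul, WithLp.ofLp_sum, WithLp.ofLp_add, WithLp.ofLp_smul,
          Finset.sum_apply, Pi.add_apply, Pi.smul_apply, smul_eq_mul, Finset.sum_mul]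
        rw [Finset.sum_comm]
        refine Finset.sum_eq_zero fun a _ => ?_
        simp only [add_mul, mul_assoc, Finset.sum_add_distrib, ← Finset.mul_sum, (h2 a).1,
          (h2 a).2, mul_zero, add_zero]
      have h8 := h7 ((eR n).symm (WithLp.toLp 2 x))
      rw [ContinuousLinearEquiv.apply_symm_apply] at h8
      refine hx (funext fun k => mul_self_eq_zero.1 ?_)
      exact (Finset.sum_eq_zero_iff_of_nonneg fun i _ => mul_self_nonneg (x i)).1 h8 k
        (Finset.mem_univ k)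
    have h2 := hG.inv.re_dotProduct_pos h1
    rw [Matrix.star_mulVec, Matrix.dotProduct_mulVec, Matrix.vecMul_vecMul,
      ← Matrix.dotProduct_mulVec, Matrix.mulVec_mulVec] at h2
    refine h2.trans_eq ?_
    simp only [dotProduct, Matrix.mulVec, rm, Matrix.of_apply, Pi.star_apply, star_trivial,
      star_def, conj_ofReal, Finset.mul_sum, RCLike.re_to_complex, re_sum, re_ofReal_mul,
      re_mul_ofReal]
    rw [Finset.sum_comm]
    exact Finset.sum_congr rfl fun k _ => Finset.sum_congr rfl fun l _ => by ring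

section smooth

variable {X : Type*} [NormedAddCommGroup X] [NormedSpace ℝ X] {s : Set X} {x : X}
  {G : X → Matrix (Fin n) (Fin n) ℂ}

theorem cd_det (h : ∀ a b, ContDiffWithinAt ℝ ∞ (fun q => G q a b) s x) :
    ContDiffWithinAt ℝ ∞ (fun q => (G q).det) s x := by
  simp only [Matrix.det_apply']
  exact ContDiffWithinAt.sum fun σ _ => contDiffWithinAt_const.mul
    (contDiffWithinAt_prod fun i _ => h _ _)

theorem cd_inv (h : ∀ a b, ContDiffWithinAt ℝ ∞ (fun q => G q a b) s x) (h0 : (G x).det ≠ 0)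
    (a b : Fin n) : ContDiffWithinAt ℝ ∞ (fun q => (G q)⁻¹ a b) s x := by
  simp only [Matrix.inv_def, Ring.inverse_eq_inv', Matrix.smul_apply, smul_eq_mul,
    Matrix.adjugate_apply]
  refine ((cd_det h).inv h0).mul (cd_det fun c d => ?_)
  by_cases hc : c = b
  · subst hc; simp only [Matrix.updateRow_self]; exact contDiffWithinAt_const
  · simp only [Matrix.updateRow_ne hc]; exact h c d

theorem cd_rm (h : ∀ a b, ContDiffWithinAt ℝ ∞ (fun q => G q a b) s x) (h0 : (G x).det ≠ 0)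
    (k l : Fin (2 * n)) : ContDiffWithinAt ℝ ∞ (fun q => rm (G q) k l) s x := by
  simp only [rm, Matrix.of_apply, Matrix.mul_apply]
  refine reCLM.contDiff.comp_contDiffWithinAt ?_
  exact ContDiffWithinAt.sum fun b _ => (ContDiffWithinAt.sum fun a _ =>
    contDiffWithinAt_const.mul (cd_inv h h0 a b)).mul contDiffWithinAt_const

end smooth

variable {M : Type} [TopologicalSpace M] {A : Atl n M}

theorem trace_tr {J G H : Matrix (Fin n) (Fin n) ℂ} (hJ : J.det ≠ 0) :
    Matrix.trace ((Jᵀ * G * J.map conj)⁻¹ * (Jᵀ * H * J.map conj)) = Matrix.trace (G⁻¹ * H) := by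
  have h1 : IsUnit Jᵀ.det := by rw [Matrix.det_transpose]; exact hJ.isUnit
  have h2 : IsUnit (J.map conj).det := by
    rw [← RingHom.mapMatrix_apply, ← RingHom.map_det]
    exact ((map_ne_zero _).2 hJ).isUnit
  rw [Matrix.mul_inv_rev, Matrix.mul_inv_rev]
  simp only [Matrix.mul_assoc]
  rw [Matrix.nonsing_inv_mul_cancel_left _ _ h1, Matrix.trace_mul_comm]
  simp only [Matrix.mul_assoc]
  rw [Matrix.mul_nonsing_inv _ h2, Matrix.mul_one]

/-- the Laplacian does not depend on the chart -/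
theorem lap_tr {G G' : Matrix (Fin n) (Fin n) ℂ} {i j : A.ι} {x : M} (hi : x ∈ (A.e i).source)
    (hj : x ∈ (A.e j).source) (hG : G = (Jm A i j x)ᵀ * G' * (Jm A i j x).map conj)
    (h0 : G.det ≠ 0) {u : M → ℝ}
    (hu : ContDiffAt ℝ ∞ (fun z => u ((A.e i).symm z)) (A.e i x))
    (hu' : ContDiffAt ℝ ∞ (fun z => u ((A.e j).symm z)) (A.e j x)) :
    lap G (fun z => u ((A.e i).symm z)) (A.e i x) =
      lap G' (fun z => u ((A.e j).symm z)) (A.e j x) := by
  have h1 := hess_tr (f := fun _ => (1 : ℂ)) ⟨hi, hj⟩ hu hu'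
    (Eventually.of_forall fun w => differentiableAt_const _) one_ne_zero (by
      filter_upwards [(isOpen_ov i j).mem_nhds (mem_ov ⟨hi, hj⟩)] with w hw
      rw [(A.e j).left_inv hw.2]
      simp)
  have h2 : (Jm A i j x).det ≠ 0 := fun h => h0 (by
    rw [hG, Matrix.det_mul, Matrix.det_mul, Matrix.det_transpose, h, zero_mul, zero_mul])
  rw [lap, lap, h1, hG, trace_tr h2]

end Crest.Agent.T223.Db
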