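import Crest.Agent.T223.LxDef_83

/-!
# Row 223 (helper83): weighted interpolation, absorption, finiteness of the weighted norms
-/

set_option autoImplicit false
set_option linter.unusedSectionVars false

open Set Metric Filter Topology
open scoped ContDiff

noncomputable section

namespace Crest.Agent.T223.Lx

open Crest.Agent.N207 Crest.Agent.N207.P

variable {n : ℕ} {V : Type*} [NormedAddCommGroup V] [NormedSpace ℝ V]

/-- the coordinate vectors -/
abbrev ee (k : Fin n) : En n := EuclideanSpace.single k 1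

theorem norm_ee (k : Fin n) : ‖(ee k : En n)‖ = 1 := by simp [ee]

theorem dist_add_ee (y : En n) (a : ℝ) (k : Fin n) : dist (y + a • ee k) y = |a| := by
  rw [dist_eq_norm, add_sub_cancel_left, norm_smul, norm_ee, mul_one, Real.norm_eq_abs]

theorem hasDerivAt_line {g : En n → V} {y : En n} {a : ℝ} (k : Fin n)
    (hd : DifferentiableAt ℝ g (y + a • ee k)) :
    HasDerivAt (fun b : ℝ => g (y + b • ee k)) (pd k g (y + a • ee k)) a := by
  have h1 : HasDerivAt (fun b : ℝ => y + b • (ee k : En n)) (ee k) a := by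
    simpa using ((hasDerivAt_id a).smul_const (ee k : En n)).const_add y
  exact hd.hasFDerivAt.comp_hasDerivAt a h1

theorem mvt_line {φ φ' : ℝ → V} {c : V} {h M : ℝ} (hh : 0 ≤ h)
    (hd : ∀ a ∈ Icc 0 h, HasDerivAt φ (φ' a) a) (hM : ∀ a ∈ Icc 0 h, ‖φ' a - c‖ ≤ M) :
    ‖φ h - φ 0 - h • c‖ ≤ M * h := by
  have := norm_image_sub_le_of_norm_deriv_le_segment' (f := fun a => φ a - a • c)
    (f' := fun a => φ' a - c) (a := 0) (b := h) (C := M)
    (fun a ha => by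
      simpa using ((hd a ha).fun_sub ((hasDerivAt_id a).smul_const c)).hasDerivWithinAt)
    (fun a ha => hM a (Ico_subset_Icc_self ha)) h ⟨hh, le_rfl⟩
  simp only [zero_smul, sub_zero] at this
  convert this using 2
  abel

theorem norm_d1_le {w : En n → V} {y : En n} {M : ℝ} (hM : 0 ≤ M) (h : ∀ k, ‖pd k w y‖ ≤ M) :
    ‖d1 w y‖ ≤ M := (pi_norm_le_iff_of_nonneg hM).2 h

theorem norm_d2_le {w : En n → V} {y : En n} {M : ℝ} (hM : 0 ≤ M)
    (h : ∀ k l, ‖pd k (pd l w) y‖ ≤ M) : ‖d2 w y‖ ≤ M :=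
  (pi_norm_le_iff_of_nonneg hM).2 fun k => (pi_norm_le_iff_of_nonneg hM).2 (h k)

theorem pd_le_d1 (w : En n → V) (y : En n) (k : Fin n) : ‖pd k w y‖ ≤ ‖d1 w y‖ :=
  norm_le_pi_norm (d1 w y) k

theorem app2_le (H : Fin n → Fin n → V) (k l : Fin n) : ‖H k l‖ ≤ ‖H‖ :=
  (norm_le_pi_norm (H k) l).trans (norm_le_pi_norm H k)

theorem pd_le_d2 (w : En n → V) (y : En n) (k l : Fin n) : ‖pd k (pd l w) y‖ ≤ ‖d2 w y‖ :=
  app2_le (d2 w y) k l

theorem pd_sub_le_d2 (w w' : En n → V) (y y' : En n) (k l : Fin n) :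
    ‖pd k (pd l w) y - pd k (pd l w') y'‖ ≤ ‖d2 w y - d2 w' y'‖ :=
  app2_le (d2 w y - d2 w' y') k l

theorem diff_pd {w : En n → V} {z : En n} (h : ContDiffAt ℝ 2 w z) (l : Fin n) :
    DifferentiableAt ℝ (pd l w) z :=
  (contDiffAt_pd (m := 1) h (by norm_num) l).differentiableAt (by simp)

/-- second derivatives from second differences -/
theorem loc_d2 {w : En n → V} {T : Set (En n)} {y : En n} {B H ϖ : ℝ} (hϖ : 0 < ϖ) (hH0 : 0 ≤ H)
    (hT : closedBall y (2 * ϖ ^ 2) ⊆ T) (hw : ∀ z ∈ T, ContDiffAt ℝ 2 w z)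
    (hB : ∀ z ∈ T, ‖w z‖ ≤ B) (hH : ∀ z ∈ T, ‖d2 w z - d2 w y‖ ≤ H * √(dist z y)) :
    ‖d2 w y‖ ≤ 4 * B / ϖ ^ 4 + 2 * H * ϖ := by
  have hB0 : 0 ≤ B := (norm_nonneg _).trans (hB y (hT (mem_closedBall_self (by positivity))))
  refine norm_d2_le (by positivity) fun k l => ?_
  set h := ϖ ^ 2 with hh
  have h0 : 0 < h := by positivity
  have mem : ∀ a ∈ Icc 0 h, ∀ b ∈ Icc 0 h, dist (y + a • ee l + b • ee k) y ≤ 2 * h := by
    intro a ha b hb
    have h1 := dist_triangle (y + a • ee l + b • ee k) (y + a • ee l) y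
    rw [dist_add_ee, dist_add_ee, abs_of_nonneg ha.1, abs_of_nonneg hb.1] at h1
    linarith [ha.2, hb.2]
  have memT : ∀ a ∈ Icc 0 h, ∀ b ∈ Icc 0 h, y + a • ee l + b • ee k ∈ T :=
    fun a ha b hb => hT (mem a ha b hb)
  have z0 : (0 : ℝ) ∈ Icc 0 h := ⟨le_rfl, h0.le⟩
  have zh : h ∈ Icc 0 h := ⟨h0.le, le_rfl⟩
  set D := pd k (pd l w) y with hD
  have in1 : ∀ a ∈ Icc 0 h, ‖pd l w (y + a • ee l + h • ee k) - pd l w (y + a • ee l) - h • D‖ ≤
      2 * H * ϖ * h := by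
    intro a ha
    have := mvt_line (φ := fun b : ℝ => pd l w (y + a • ee l + b • ee k)) (c := D) (M := 2 * H * ϖ)
      h0.le (fun b hb => hasDerivAt_line k (diff_pd (hw _ (memT a ha b hb)) l)) fun b hb => by
        refine (pd_sub_le_d2 w w _ y k l).trans ((hH _ (memT a ha b hb)).trans ?_)
        have : √(dist (y + a • ee l + b • ee k) y) ≤ 2 * ϖ :=
          Real.sqrt_le_iff.2 ⟨by positivity, by nlinarith [mem a ha b hb]⟩
        nlinarith
    simpa using this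
  have e : ∀ a : ℝ, y + a • (ee l : En n) + h • ee k = y + h • ee k + a • ee l := fun a => by abel
  have out := mvt_line (φ := fun a : ℝ => w (y + h • ee k + a • ee l) - w (y + a • ee l))
    (φ' := fun a => pd l w (y + h • ee k + a • ee l) - pd l w (y + a • ee l)) (c := h • D)
    (M := 2 * H * ϖ * h) h0.le (fun a ha => (hasDerivAt_line l ((hw _ (by
      rw [← e]; exact memT a ha h zh)).differentiableAt (by simp))).sub (hasDerivAt_line l
        ((hw _ (by simpa using memT a ha 0 z0)).differentiableAt (by simp))))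
    fun a ha => by rw [← e]; exact in1 a ha
  have b1 := hB _ (memT h zh h zh)
  have b2 := hB _ (memT h zh 0 z0)
  have b3 := hB _ (memT 0 z0 h zh)
  have b4 := hB _ (memT 0 z0 0 z0)
  simp only [zero_smul, add_zero] at b2 b3 b4 out
  rw [e] at b1
  have h5 : ‖h • h • D‖ ≤ 4 * B + 2 * H * ϖ * h * h := by
    have := norm_sub_le (w (y + h • ee k + h • ee l) - w (y + h • ee l) - (w (y + h • ee k) - w y))
      (w (y + h • ee k + h • ee l) - w (y + h • ee l) - (w (y + h • ee k) - w y) - h • h • D)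
    rw [sub_sub_cancel] at this
    have h6 := norm_sub_le (w (y + h • ee k + h • ee l) - w (y + h • ee l)) (w (y + h • ee k) - w y)
    have h7 := norm_sub_le (w (y + h • ee k + h • ee l)) (w (y + h • ee l))
    have h8 := norm_sub_le (w (y + h • ee k)) (w y)
    linarith
  rw [norm_smul, norm_smul, Real.norm_eq_abs, abs_of_pos h0] at h5
  have h9 : ϖ ^ 4 = h * h := by rw [hh]; ring
  rw [h9, div_add' _ _ _ (by positivity), le_div_iff₀ (by positivity)]
  nlinarith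

/-- first derivatives from first differences -/
theorem loc_d1 {w : En n → V} {T : Set (En n)} {y : En n} {B M h : ℝ} (h0 : 0 < h)
    (hT : closedBall y h ⊆ T) (hw : ∀ z ∈ T, ContDiffAt ℝ 2 w z)
    (hB : ∀ z ∈ T, ‖w z‖ ≤ B) (hM : ∀ z ∈ T, ‖d2 w z‖ ≤ M) : ‖d1 w y‖ ≤ 2 * B / h + M * h := by
  have hy : y ∈ T := hT (mem_closedBall_self h0.le)
  have hB0 : 0 ≤ B := (norm_nonneg _).trans (hB y hy)
  have hM0 : 0 ≤ M := (norm_nonneg _).trans (hM y hy)
  refine norm_d1_le (by positivity) fun k => ?_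
  have memT : ∀ a ∈ Icc 0 h, y + a • ee k ∈ T := fun a ha => hT (by
    rw [mem_closedBall, dist_add_ee, abs_of_nonneg ha.1]; exact ha.2)
  have in1 : ∀ a ∈ Icc 0 h, ‖pd k w (y + a • ee k) - pd k w y‖ ≤ M * h := by
    intro a ha
    have sub : ∀ b ∈ Icc 0 a, b ∈ Icc 0 h := fun b hb => ⟨hb.1, hb.2.trans ha.2⟩
    have := mvt_line (φ := fun b : ℝ => pd k w (y + b • ee k)) (c := 0) (M := M) ha.1
      (fun b hb => hasDerivAt_line k (diff_pd (hw _ (memT b (sub b hb))) k)) fun b hb => by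
        rw [sub_zero]; exact (pd_le_d2 w _ k k).trans (hM _ (memT b (sub b hb)))
    simp only [zero_smul, add_zero, smul_zero, sub_zero] at this
    exact this.trans (mul_le_mul_of_nonneg_left ha.2 hM0)
  have out := mvt_line (φ := fun a : ℝ => w (y + a • ee k)) (c := pd k w y) (M := M * h) h0.le
    (fun a ha => hasDerivAt_line k ((hw _ (memT a ha)).differentiableAt (by simp))) in1
  simp only [zero_smul, add_zero] at out
  have b1 := hB _ (memT h ⟨h0.le, le_rfl⟩)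
  have h5 : ‖h • pd k w y‖ ≤ 2 * B + M * h * h := by
    have := norm_sub_le (w (y + h • ee k) - w y) (w (y + h • ee k) - w y - h • pd k w y)
    rw [sub_sub_cancel] at this
    have h7 := norm_sub_le (w (y + h • ee k)) (w y)
    linarith [hB y hy]
  rw [norm_smul, Real.norm_eq_abs, abs_of_pos h0] at h5
  rw [div_add' _ _ _ h0.ne', le_div_iff₀ h0]
  nlinarith

/-- Lipschitz bound on a convex set -/
theorem lip_of_d1 {g : En n → V} {T : Set (En n)} (hT : Convex ℝ T) {M : ℝ}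
    (hd : ∀ z ∈ T, DifferentiableAt ℝ g z) (hM : ∀ z ∈ T, ‖d1 g z‖ ≤ M) {y y' : En n} (hy : y ∈ T)
    (hy' : y' ∈ T) : ‖g y - g y'‖ ≤ n * M * dist y y' := by
  rw [dist_eq_norm]
  refine hT.norm_image_sub_le_of_norm_fderiv_le (𝕜 := ℝ) hd (fun z hz => ?_) hy' hy
  refine (norm_clm_le_sum _).trans ?_
  calc _ ≤ ∑ _k : Fin n, M := Finset.sum_le_sum fun k _ => (pd_le_d1 g z k).trans (hM z hz)
    _ = n * M := by simp

theorem d1_pd_le (w : En n → V) (z : En n) (l : Fin n) : ‖d1 (pd l w) z‖ ≤ ‖d2 w z‖ :=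
  norm_d1_le (norm_nonneg _) fun k => pd_le_d2 w z k l

/-! ### depth -/

theorem Dp.mem {S : Set (En n)} {s : ℝ} {y : En n} (h : Dp S s y) : y ∈ S :=
  h.2.2 (mem_ball_self h.1)

theorem Dp.half {S : Set (En n)} {s : ℝ} {y z : En n} (h : Dp S s y) (hz : z ∈ ball y (s / 2)) :
    Dp S (s / 2) z :=
  ⟨half_pos h.1, by linarith [h.1, h.2.1], fun x hx => h.2.2 (by
    rw [mem_ball] at *; linarith [dist_triangle x z y])⟩

theorem Dp.mono {S : Set (En n)} {s s' : ℝ} {y : En n} (h : Dp S s y) (h0 : 0 < s') (h1 : s' ≤ s) :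
    Dp S s' y := ⟨h0, h1.trans h.2.1, (ball_subset_ball h1).trans h.2.2⟩


theorem exists_dp {S : Set (En n)} (hS : IsOpen S) {y : En n} (hy : y ∈ S) : ∃ s, Dp S s y := by
  obtain ⟨r, hr, h⟩ := Metric.isOpen_iff.1 hS y hy
  exact ⟨min r 1, by positivity, min_le_right _ _, (ball_subset_ball (min_le_left _ _)).trans h⟩

theorem wt_le_one {s : ℝ} (h0 : 0 < s) (h1 : s ≤ 1) : s ^ 2 * √s ≤ 1 :=
  mul_le_one₀ (pow_le_one₀ h0.le h1) (Real.sqrt_nonneg _) (Real.sqrt_le_one.2 h1)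

theorem WS.mono {S : Set (En n)} {A A' : ℝ} {g : En n → V} (h : WS S A g) (hA : A ≤ A') :
    WS S A' g := fun s y hy => (h s y hy).trans hA

theorem WH.mono {S : Set (En n)} {c c' : ℝ} {g : En n → V} (h : WH S c g) (hc : c ≤ c') :
    WH S c' g := fun s y y' hy hy' =>
  (h s y y' hy hy').trans (mul_le_mul_of_nonneg_right hc (Real.sqrt_nonneg _))

theorem ws_of_le {S : Set (En n)} {A : ℝ} {g : En n → V} (h : ∀ y ∈ S, ‖g y‖ ≤ A) : WS S A g :=
  fun _ y hy => (mul_le_of_le_one_left (norm_nonneg _) (wt_le_one hy.1 hy.2.1)).trans (h y hy.mem)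

theorem wh_of_le {S : Set (En n)} {c : ℝ} {g : En n → V}
    (h : ∀ y ∈ S, ∀ y' ∈ S, ‖g y - g y'‖ ≤ c * √(dist y y')) : WH S c g :=
  fun _ y y' hy hy' => (mul_le_of_le_one_left (norm_nonneg _) (pow_le_one₀ hy.1.le hy.2.1)).trans
    (h y hy.mem y' hy'.mem)

theorem WS.add {S : Set (En n)} {A A' : ℝ} {g g' : En n → V} (h : WS S A g) (h' : WS S A' g') :
    WS S (A + A') (fun y => g y + g' y) := fun s y hy => by
  have := mul_le_mul_of_nonneg_left (norm_add_le (g y) (g' y)) (show 0 ≤ s ^ 2 * √s by positivity)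
  linarith [h s y hy, h' s y hy]

theorem WH.add {S : Set (En n)} {c c' : ℝ} {g g' : En n → V} (h : WH S c g) (h' : WH S c' g') :
    WH S (c + c') (fun y => g y + g' y) := fun s y y' hy hy' => by
  have e : g y + g' y - (g y' + g' y') = (g y - g y') + (g' y - g' y') := by abel
  have := mul_le_mul_of_nonneg_left (norm_add_le (g y - g y') (g' y - g' y'))
    (pow_pos hy.1 3).le
  rw [e]
  linarith [h s y y' hy hy', h' s y y' hy hy']

/-- on the half ball the weighted sup bound is a sup bound -/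
theorem WS.half {S : Set (En n)} {A s : ℝ} {g : En n → V} (h : WS S A g) {y z : En n}
    (hy : Dp S s y) (hz : z ∈ ball y (s / 2)) : ‖g z‖ ≤ 8 * A / (s ^ 2 * √s) := by
  have h1 := h _ _ (hy.half hz)
  have hs := hy.1
  have hq : 0 < √s := Real.sqrt_pos.2 hs
  have h2 : √s / 2 ≤ √(s / 2) := Real.le_sqrt_of_sq_le (by
    rw [div_pow, Real.sq_sqrt hs.le]; linarith)
  rw [le_div_iff₀ (by positivity)]
  have h3 : (s / 2) ^ 2 * (√s / 2) * ‖g z‖ ≤ (s / 2) ^ 2 * √(s / 2) * ‖g z‖ := by gcongr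
  nlinarith

theorem WH.half {S : Set (En n)} {c s : ℝ} {g : En n → V} (h : WH S c g) {y z z' : En n}
    (hy : Dp S s y) (hz : z ∈ ball y (s / 2)) (hz' : z' ∈ ball y (s / 2)) :
    ‖g z - g z'‖ ≤ 8 * c / s ^ 3 * √(dist z z') := by
  have h1 := h _ _ _ (hy.half hz) (hy.half hz')
  have hs := hy.1
  rw [div_mul_eq_mul_div, le_div_iff₀ (by positivity)]
  nlinarith

/-- the Hoelder bound from sup bounds of the function and of the gradient -/
theorem wh_of_ws {S : Set (En n)} {g : En n → V} {Q0 Q1 : ℝ} (h0 : 0 ≤ Q0) (h1 : 0 ≤ Q1)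
    (hd : ∀ z ∈ S, DifferentiableAt ℝ g z) (H0 : WS S Q0 g) (H1 : WS S Q1 (d1 g)) :
    WH S (4 * Q0 + 8 * n * Q1) g := by
  intro s y y' hy hy'
  have hs := hy.1
  have hq : 0 < √s := Real.sqrt_pos.2 hs
  have hqq : √s * √s = s := Real.mul_self_sqrt hs.le
  have hd0 := Real.sqrt_nonneg (dist y y')
  rcases lt_or_ge (dist y y') (s / 2) with hlt | hge
  · have := lip_of_d1 (convex_ball y (s / 2)) (fun z hz => hd z (hy.half hz).mem)
      (fun z hz => H1.half hy hz) (mem_ball_self (half_pos hs)) (mem_ball'.2 hlt)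
    have h2 : dist y y' ≤ √(dist y y') := Real.le_sqrt_of_sq_le (by
      nlinarith [dist_nonneg (x := y) (y := y'), hy.2.1])
    have h3 : s ^ 3 * (n * (8 * Q1 / (s ^ 2 * √s))) = 8 * n * Q1 * √s := by
      field_simp; rw [Real.sq_sqrt hs.le]; ring
    have h4 : √s ≤ 1 := Real.sqrt_le_one.2 hy.2.1
    calc s ^ 3 * ‖g y - g y'‖ ≤ s ^ 3 * (n * (8 * Q1 / (s ^ 2 * √s)) * √(dist y y')) := by
          gcongr; exact this.trans (by gcongr)
      _ = 8 * n * Q1 * √s * √(dist y y') := by rw [← mul_assoc, h3]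
      _ ≤ 8 * n * Q1 * 1 * √(dist y y') := by gcongr
      _ ≤ _ := by nlinarith [mul_nonneg h0 hd0]
  · have h2 : √s / 2 ≤ √(dist y y') := Real.le_sqrt_of_sq_le (by
      rw [div_pow, Real.sq_sqrt hs.le]; linarith)
    have h3 := H0 s y hy
    have h4 := H0 s y' hy'
    have h5 : s ^ 2 * √s * ‖g y - g y'‖ ≤ 2 * Q0 := by
      have := mul_le_mul_of_nonneg_left (norm_sub_le (g y) (g y'))
        (show 0 ≤ s ^ 2 * √s by positivity)
      linarith
    calc s ^ 3 * ‖g y - g y'‖ = √s * (s ^ 2 * √s * ‖g y - g y'‖) := by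
          rw [show s ^ 3 = √s * (s ^ 2 * √s) by nlinarith]; ring
      _ ≤ (2 * √(dist y y')) * (2 * Q0) := by gcongr; linarith
      _ ≤ _ := by nlinarith [mul_nonneg (mul_nonneg (Nat.cast_nonneg (α := ℝ) n) h1) hd0]

theorem ws_d1 {S : Set (En n)} (hS : IsOpen S) {w : En n → V} (hw : ContDiffOn ℝ 2 w S) {B Q : ℝ}
    (hB0 : 0 ≤ B) (hQ : 0 ≤ Q) (hB : ∀ y ∈ S, ‖w y‖ ≤ B) (H : WS S Q (d2 w)) :
    WS S (Q + 16 * B) (d1 w) := by
  intro s y hy
  have hs := hy.1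
  have hq : 0 < √s := Real.sqrt_pos.2 hs
  have h4 : √s ≤ 1 := Real.sqrt_le_one.2 hy.2.1
  have := loc_d1 (T := ball y (s / 2)) (h := s / 8) (by positivity)
    (closedBall_subset_ball (by linarith))
    (fun z hz => hw.contDiffAt (hS.mem_nhds (hy.half hz).mem))
    (fun z hz => hB z (hy.half hz).mem) (fun z hz => H.half hy hz)
  calc _ ≤ s ^ 2 * √s * (2 * B / (s / 8) + 8 * Q / (s ^ 2 * √s) * (s / 8)) := by gcongr
    _ = Q * s + 16 * B * (s * √s) := by field_simp; ring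
    _ ≤ Q * 1 + 16 * B * (1 * 1) := by gcongr <;> exact hy.2.1
    _ = _ := by ring

theorem ws_d2 {S : Set (En n)} (hS : IsOpen S) {w : En n → V} (hw : ContDiffOn ℝ 2 w S)
    {B N η : ℝ} (hB0 : 0 ≤ B) (hN : 0 ≤ N) (h0 : 0 < η) (h1 : η ≤ 1) (hB : ∀ y ∈ S, ‖w y‖ ≤ B)
    (H : WH S N (d2 w)) : WS S (η * N + 4 * 16 ^ 4 * B / η ^ 4) (d2 w) := by
  intro s y hy
  have hs := hy.1
  have hq : 0 < √s := Real.sqrt_pos.2 hs
  have hqq : √s ^ 2 = s := Real.sq_sqrt hs.le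
  have h4 : √s ≤ 1 := Real.sqrt_le_one.2 hy.2.1
  have := loc_d2 (T := ball y (s / 2)) (ϖ := η * √s / 16) (H := 8 * N / s ^ 3) (by positivity)
    (by positivity) (closedBall_subset_ball (by
      rw [div_pow, mul_pow, hqq]; nlinarith [mul_le_one₀ h1 h0.le h1]))
    (fun z hz => hw.contDiffAt (hS.mem_nhds (hy.half hz).mem))
    (fun z hz => hB z (hy.half hz).mem)
    (fun z hz => H.half hy hz (mem_ball_self (half_pos hs)))
  set q := √s
  calc _ ≤ s ^ 2 * q * (4 * B / (η * q / 16) ^ 4 + 2 * (8 * N / s ^ 3) * (η * q / 16)) := by gcongr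
    _ = η * N + 4 * 16 ^ 4 * B / η ^ 4 * q := by rw [← hqq]; field_simp; ring
    _ ≤ η * N + 4 * 16 ^ 4 * B / η ^ 4 * 1 := by gcongr
    _ = _ := by ring

theorem wh_d1 {S : Set (En n)} (hS : IsOpen S) {w : En n → V} (hw : ContDiffOn ℝ 2 w S)
    {Q1 Q2 : ℝ} (h1 : 0 ≤ Q1) (h2 : 0 ≤ Q2) (H1 : WS S Q1 (d1 w)) (H2 : WS S Q2 (d2 w)) :
    WH S (4 * Q1 + 8 * n * Q2) (d1 w) := by
  intro s y y' hy hy'
  have hs := hy.1
  rw [← le_div_iff₀' (by positivity)]
  refine (pi_norm_le_iff_of_nonneg (by positivity)).2 fun l => ?_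
  rw [le_div_iff₀' (by positivity)]
  refine wh_of_ws (g := pd l w) h1 h2 (fun z hz => diff_pd (hw.contDiffAt (hS.mem_nhds hz)) l)
    (fun s z hz => le_trans ?_ (H1 s z hz)) (fun s z hz => le_trans ?_ (H2 s z hz)) s y y' hy hy'
  · gcongr; exact pd_le_d1 w z l
  · gcongr; exact d1_pd_le w z l

theorem intStmt (n : ℕ) (V : Type) [NormedAddCommGroup V] [NormedSpace ℝ V] : IntStmt n V := by
  set κ : ℝ := 8 * n + 4 with hκ
  have hn : (0 : ℝ) ≤ n := Nat.cast_nonneg n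
  have hκ1 : 1 ≤ κ := by linarith
  refine ⟨4 * 16 ^ 4 * κ ^ 5 + 20 * κ, ?_, fun S w B N η hS hw hB0 hN h0 h1 hB H => ?_⟩
  · nlinarith [one_le_pow₀ (n := 5) hκ1]
  have hκ0 : 0 < κ := by linarith
  have H2 := ws_d2 hS hw hB0 hN (η := η / κ) (by positivity)
    ((div_le_one hκ0).2 (h1.trans hκ1)) hB H
  set Q := η / κ * N + 4 * 16 ^ 4 * B / (η / κ) ^ 4 with hQ
  have hQ0 : 0 ≤ Q := by positivity
  have H1 := ws_d1 hS hw hB0 hQ0 hB H2
  have H3 := wh_d1 hS hw (by positivity) hQ0 H1 H2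
  have H4 := wh_of_ws hB0 (by positivity : 0 ≤ Q + 16 * B)
    (fun z hz => (hw.contDiffAt (hS.mem_nhds hz)).differentiableAt (by simp)) (ws_of_le hB) H1
  have key : κ * Q + 20 * κ * B ≤ η * N + (4 * 16 ^ 4 * κ ^ 5 + 20 * κ) * B / η ^ 4 := by
    have e : κ * Q = η * N + 4 * 16 ^ 4 * κ ^ 5 * B / η ^ 4 := by rw [hQ]; field_simp
    have h5 : 20 * κ * B ≤ 20 * κ * B / η ^ 4 :=
      le_div_self (by positivity) (by positivity) (pow_le_one₀ h0.le h1)
    rw [e, add_mul, add_div]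
    linarith
  have k1 := mul_nonneg hn hQ0
  have k2 := mul_nonneg hn hB0
  refine ⟨H2.mono (le_trans ?_ key), H1.mono (le_trans ?_ key), H3.mono (le_trans ?_ key),
    H4.mono (le_trans ?_ key)⟩ <;> rw [hκ] <;> nlinarith

/-- absorption -/
theorem absorb {P : ℝ → Prop} {D : ℝ} (hD : 0 ≤ D) (hm : ∀ N N', N ≤ N' → P N → P N')
    (hcl : ∀ N, (∀ ε, 0 < ε → P (N + ε)) → P N) (h0 : ∃ N, P N)
    (hs : ∀ N, 0 ≤ N → P N → P (N / 2 + D)) : P (2 * D) := by
  obtain ⟨N0, hN0⟩ := h0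
  have h1 : ∀ k : ℕ, P (2 * D + |N0| * (1 / 2) ^ k) := by
    intro k
    induction k with
    | zero => exact hm _ _ (by simpa using (le_abs_self N0).trans (by linarith)) hN0
    | succ k ih => exact hm _ _ (le_of_eq (by ring)) (hs _ (by positivity) ih)
  refine hcl _ fun ε hε => ?_
  obtain ⟨k, hk⟩ := exists_pow_lt_of_lt_one (div_pos hε (by positivity : 0 < |N0| + 1))
    (by norm_num : (1 / 2 : ℝ) < 1)
  refine hm _ _ ?_ (h1 k)
  rw [lt_div_iff₀ (by positivity)] at hk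
  have : (0 : ℝ) < (1 / 2) ^ k := by positivity
  nlinarith

theorem wh_closed {S : Set (En n)} {N : ℝ} {g : En n → V} (h : ∀ ε, 0 < ε → WH S (N + ε) g) :
    WH S N g := by
  intro s y y' hy hy'
  refine le_of_forall_pos_le_add fun ε hε => ?_
  have hd := Real.sqrt_nonneg (dist y y')
  have := h (ε / (√(dist y y') + 1)) (by positivity) s y y' hy hy'
  have h2 : ε / (√(dist y y') + 1) * √(dist y y') ≤ ε := by
    rw [div_mul_eq_mul_div, div_le_iff₀ (by positivity)]; nlinarith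
  nlinarith

/-- absorption for time dependent weighted Hoelder bounds -/
theorem absorb_wh {ι : Type*} {S : Set (En n)} {g : ι → En n → V} {I : Set ι} {D : ℝ} (hD : 0 ≤ D)
    (h0 : ∃ N, ∀ t ∈ I, WH S N (g t))
    (hs : ∀ N, 0 ≤ N → (∀ t ∈ I, WH S N (g t)) → ∀ t ∈ I, WH S (N / 2 + D) (g t)) :
    ∀ t ∈ I, WH S (2 * D) (g t) :=
  absorb (P := fun N => ∀ t ∈ I, WH S N (g t)) hD (fun _ _ h H t ht => (H t ht).mono h)
    (fun _ H t ht => wh_closed fun ε hε => H ε hε t ht) h0 hs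

/-- a `Yl 0` function is uniformly Hoelder on compact sets -/
theorem hol_compact {I : Set ℝ} {U K : Set (En n)} {g : ℝ → En n → V} (hI : IsCompact I)
    (h : Yl I U 0 g) (hK : IsCompact K) (hKU : K ⊆ U) :
    ∃ L : ℝ, 0 ≤ L ∧ ∀ t ∈ I, ∀ y ∈ K, ∀ y' ∈ K, ‖g t y - g t y'‖ ≤ L * √(dist y y') := by
  obtain ⟨A, hA⟩ := (hI.prod hK).exists_bound_of_continuousOn (h.1.mono (prod_mono Subset.rfl hKU))
  have key : ∃ L : ℝ, 0 ≤ L ∧ ∀ p ∈ K ×ˢ K, p.1 ∈ K → p.2 ∈ K → ∀ t ∈ I,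
      ‖g t p.1 - g t p.2‖ ≤ L * √(dist p.1 p.2) := by
    refine (hK.prod hK).induction_on (p := fun S => ∃ L : ℝ, 0 ≤ L ∧ ∀ p ∈ S, p.1 ∈ K → p.2 ∈ K →
      ∀ t ∈ I, ‖g t p.1 - g t p.2‖ ≤ L * √(dist p.1 p.2)) ⟨0, le_rfl, by simp⟩ ?_ ?_ ?_
    · rintro s t hst ⟨L, hL, h⟩
      exact ⟨L, hL, fun p hp => h p (hst hp)⟩
    · rintro s t ⟨L, hL, h1⟩ ⟨L', hL', h2⟩
      refine ⟨max L L', le_max_of_le_left hL, fun p hp k1 k2 u hu => ?_⟩
      rcases hp with hp | hp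
      · exact (h1 p hp k1 k2 u hu).trans (by gcongr; exact le_max_left _ _)
      · exact (h2 p hp k1 k2 u hu).trans (by gcongr; exact le_max_right _ _)
    · rintro ⟨y, y'⟩ hyy
      by_cases e : y = y'
      · subst e
        obtain ⟨L, hL, h1⟩ := h.hol (hKU hyy.1)
        obtain ⟨r, h2, hr⟩ := (h1.and self_mem_nhdsWithin).exists
        exact ⟨ball y r ×ˢ ball y r, mem_nhdsWithin_of_mem_nhds
          (prod_mem_nhds (ball_mem_nhds _ hr) (ball_mem_nhds _ hr)), L, hL,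
          fun p hp _ _ t ht => h2 t ht _ hp.1 _ hp.2⟩
      · have hρ : 0 < dist y y' / 2 := half_pos (dist_pos.2 e)
        have h2 : 0 < √(dist y y' / 2) := Real.sqrt_pos.2 hρ
        refine ⟨{p | dist y y' / 2 < dist p.1 p.2}, mem_nhdsWithin_of_mem_nhds
          ((isOpen_lt continuous_const (by fun_prop)).mem_nhds ?_),
          2 * |A| / √(dist y y' / 2), by positivity, fun p hp k1 k2 t ht => ?_⟩
        · show dist y y' / 2 < dist y y'
          linarith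
        · have h1 : ‖g t p.1 - g t p.2‖ ≤ 2 * |A| := (norm_sub_le _ _).trans (by
            linarith [hA (t, p.1) ⟨ht, k1⟩, hA (t, p.2) ⟨ht, k2⟩, le_abs_self A])
          have h3 : √(dist y y' / 2) ≤ √(dist p.1 p.2) := Real.sqrt_le_sqrt (le_of_lt hp)
          calc _ ≤ 2 * |A| / √(dist y y' / 2) * √(dist y y' / 2) := by
                rw [div_mul_cancel₀ _ h2.ne']; exact h1
            _ ≤ _ := by gcongr
  obtain ⟨L, hL, hk⟩ := key
  exact ⟨L, hL, fun t ht y hy y' hy' => hk (y, y') ⟨hy, hy'⟩ hy hy' t ht⟩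

theorem yl_d2 {I : Set ℝ} {U : Set (En n)} (hU : IsOpen U) {m : ℕ} {w : ℝ → En n → V}
    (h : Yl I U (m + 2) w) : Yl I U m (fun t => d2 (w t)) :=
  Yl.pi hU (f := fun k t y l => pd k (pd l (w t)) y) fun k =>
    Yl.pi hU (f := fun l t y => pd k (pd l (w t)) y) fun l => (h.pd l).pd k

/-- finiteness of the weighted norm of the Hessian -/
theorem wh_finite {I : Set ℝ} {U K S : Set (En n)} {w : ℝ → En n → V} (hI : IsCompact I)
    (hU : IsOpen U) (h : Yl I U 2 w) (hK : IsCompact K) (hKU : K ⊆ U) (hS : S ⊆ K) :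
    ∃ N, ∀ t ∈ I, WH S N (d2 (w t)) := by
  obtain ⟨L, -, hL⟩ := hol_compact hI (yl_d2 hU h) hK hKU
  exact ⟨L, fun t ht => wh_of_le fun y hy y' hy' => hL t ht y (hS hy) y' (hS hy')⟩

end Crest.Agent.T223.Lx
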