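import Crest.Agent.T223.LxUB_60
import Crest.Agent.T223.LxInt_83

-- ▼ part T223/LxHB1_25
section

/-!
# Row 223 (helper25): higher order bounds, the linear case (`LinHB`, `LinHBi`)
-/

set_option autoImplicit false
set_option linter.unusedSectionVars false

open Set Metric
open scoped ContDiff

noncomputable section

namespace Crest.Agent.T223.Lx

open Crest.Agent.N207 Crest.Agent.N207.P

variable {n : ℕ} {V : Type} [NormedAddCommGroup V] [NormedSpace ℝ V]

/-- lower order weighted bounds -/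
def Low (S : Set (En n)) (X : ℝ) (w : En n → V) : Prop :=
  WS S X (d2 w) ∧ WS S X (d1 w) ∧ WH S X (d1 w) ∧ WH S X w

/-- the semilinear base estimate for families -/
def Semi (V : Type) [NormedAddCommGroup V] [NormedSpace ℝ V] (a0 : Matrix (Fin n) (Fin n) ℝ)
    (δ : ℝ) : Prop :=
  ∀ (ι : Type) (R R' r : ℝ) (α β : ι → ℝ) (a : ι → ℝ → En n → Matrix (Fin n) (Fin n) ℝ)
    (f w : ι → ℝ → En n → V), r < R' → R' < R → (∀ i, α i < β i) → (∀ i, β i - α i ≤ 1) →
    (∀ i, Yl (Icc (α i) (β i)) (ball 0 R) 2 (w i)) →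
    (∀ i k l, Yl (Icc (α i) (β i)) (ball 0 R) 0 (fun t y => a i t y k l)) →
    (∀ i, Yl (Icc (α i) (β i)) (ball 0 R) 0 (f i)) →
    (∀ i, ∀ y ∈ ball (0 : En n) R, w i (α i) y = 0) →
    (∀ i, X.Ev (Icc (α i) (β i)) (ball 0 R) (w i) (fun t y => Lop (a i t y) (w i t) y + f i t y)) →
    (∀ i, ∀ t ∈ Icc (α i) (β i), ∀ y ∈ ball (0 : En n) R, ∀ k l, |a i t y k l - a0 k l| ≤ δ) →
    (∀ k l, UBt (fun i => Icc (α i) (β i)) R 0 (fun i t y => a i t y k l)) →
    (∃ B : ℝ, ∀ i, ∀ t ∈ Icc (α i) (β i), ∀ y ∈ ball (0 : En n) R, ‖w i t y‖ ≤ B) →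
    (∃ L : ℝ, 0 ≤ L ∧ ∀ i, ∀ t ∈ Icc (α i) (β i), ∀ X, 0 ≤ X → Low (ball 0 R') X (w i t) →
      WS (ball 0 R') (L * (1 + X)) (f i t) ∧ WH (ball 0 R') (L * (1 + X)) (f i t)) →
    UBt (fun i => Icc (α i) (β i)) r 2 w

theorem semi (h : ISStep n V) (hI : IntStmt n V) {a0 : Matrix (Fin n) (Fin n) ℝ}
    (ha0 : a0.PosDef) : ∃ δ : ℝ, 0 < δ ∧ Semi V a0 δ := by
  obtain ⟨δ, hδ, hS⟩ := h a0 ha0
  refine ⟨δ, hδ, ?_⟩
  intro ι R R' r α β a f w hr hR lt len wy ay fy init ev cl ab ⟨B0, hB0⟩ ⟨L, hL0, hL⟩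
  choose K hK0 hK using fun k l => (ab k l).hol
  have hKs : ∀ k l, K k l ≤ ∑ k, ∑ l, K k l := fun k l =>
    (Finset.single_le_sum (fun l _ => hK0 k l) (Finset.mem_univ l)).trans
      (Finset.single_le_sum (f := fun k => ∑ l, K k l)
        (fun k _ => Finset.sum_nonneg fun l _ => hK0 k l) (Finset.mem_univ k))
  obtain ⟨C, hC1, hC⟩ := hS (∑ k, ∑ l, K k l)
  obtain ⟨CI, hCI1, hCI⟩ := hI
  set B := max B0 0 with hB
  have hBn : 0 ≤ B := le_max_right _ _
  have hwB : ∀ i, ∀ t ∈ Icc (α i) (β i), ∀ y ∈ ball (0 : En n) R, ‖w i t y‖ ≤ B :=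
    fun i t ht y hy => (hB0 i t ht y hy).trans (le_max_left _ _)
  have hsub : ball (0 : En n) R' ⊆ ball 0 R := ball_subset_ball hR.le
  set η := 1 / (8 * C * L + 1) with hη
  have hCL : 0 ≤ C * L := by positivity
  have hη0 : 0 < η := by positivity
  have hη1 : η ≤ 1 := by rw [hη, div_le_one (by positivity)]; linarith
  have hη2 : 2 * C * L * η ≤ 1 / 4 := by
    rw [hη, mul_one_div, div_le_iff₀ (by positivity)]; linarith
  set E := CI * B / η ^ 4 with hE
  have hE0 : 0 ≤ E := by positivity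
  set D := C * (2 * (L * (1 + E)) + B) with hD
  have hD0 : 0 ≤ D := by positivity
  have low : ∀ i, ∀ t ∈ Icc (α i) (β i), ∀ N, 0 ≤ N → WH (ball 0 R') N (d2 (w i t)) →
      Low (ball 0 R') (η * N + E) (w i t) := fun i t ht N hN hw =>
    hCI _ _ B N η isOpen_ball (((wy i).contDiffOn isOpen_ball t ht).mono hsub) hBn hN hη0 hη1
      (fun y hy => hwB i t ht y (hsub hy)) hw
  have main : ∀ i, ∀ t ∈ Icc (α i) (β i), WH (ball 0 R') (2 * D) (d2 (w i t)) := by
    intro i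
    refine absorb_wh hD0 (wh_finite isCompact_Icc isOpen_ball (wy i) (isCompact_closedBall 0 R')
      (closedBall_subset_ball hR) ball_subset_closedBall) fun N hN hw t ht => ?_
    have hX : 0 ≤ η * N + E := by positivity
    have hf := fun t ht => hL i t ht _ hX (low i t ht N hN (hw t ht))
    have hd : LinD a0 δ (∑ k, ∑ l, K k l) (α i) (β i) (ball 0 R') (a i) (f i) (w i)
        (L * (1 + (η * N + E))) (L * (1 + (η * N + E))) B :=
      { lt := lt i
        len := len i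
        opn := isOpen_ball
        w2 := (wy i).mono subset_rfl hsub
        ac := fun k l => (ay i k l).cont.mono (prod_mono subset_rfl hsub)
        fc := (fy i).cont.mono (prod_mono subset_rfl hsub)
        init := fun y hy => init i y (hsub hy)
        ev := fun t ht y hy => ev i t ht y (hsub hy)
        cl := fun t ht y hy => cl i t ht y (hsub hy)
        ah := fun t ht y hy y' hy' k l =>
          (hK k l ⟨(i, t), ht⟩ y (hsub hy) y' (hsub hy')).trans
            (mul_le_mul_of_nonneg_right (hKs k l) (Real.sqrt_nonneg _))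
        A0 := by positivity
        c0 := by positivity
        B0 := hBn
        wB := fun t ht y hy => hwB i t ht y (hsub hy)
        fA := fun t ht => (hf t ht).1
        fH := fun t ht => (hf t ht).2 }
    refine (hC _ _ _ _ _ _ _ _ _ N hd hN hw t ht).mono ?_
    have h1 : 2 * C * L * η * N ≤ 1 / 4 * N := mul_le_mul_of_nonneg_right hη2 hN
    rw [hD]
    nlinarith
  have low2 := fun i t ht => low i t ht (2 * D) (by positivity) (main i t ht)
  have hrR : ball (0 : En n) r ⊆ ball 0 R := ball_subset_ball (hr.trans hR).le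
  refine ub_of_d2 ⟨B, fun p y hy => hwB _ _ p.2 y (hrR hy)⟩
    ⟨_, fun p y hy => (low2 _ _ p.2).2.1.bdd hr hy⟩ (fun p y hy => (wy _).diff p.2 (hrR hy))
    (fun l p y hy => ((wy _).pd l).diff p.2 (hrR hy))
    (ub_of_wh hr (fun p => (low2 _ _ p.2).1) fun p => main _ _ p.2)

section fam

variable {ι : Type} {a0 : Matrix (Fin n) (Fin n) ℝ} {δ R : ℝ} {m : ℕ} {α β : ι → ℝ}
  {a : ι → ℝ → En n → Matrix (Fin n) (Fin n) ℝ} {f u : ι → ℝ → En n → V}

theorem LinF.pred (h : LinF a0 δ R (m + 1) α β a f u) : LinF a0 δ R m α β a f u where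
  lt := h.lt
  len := h.len
  uy := fun i => (h.uy i).pred isCompact_Icc isOpen_ball
  ay := fun i k l => (h.ay i k l).pred isCompact_Icc isOpen_ball
  fy := fun i => (h.fy i).pred isCompact_Icc isOpen_ball
  ev := h.ev
  cl := h.cl
  ab := fun k l => UB.pred (h.ab k l)
  fb := UB.pred h.fb

/-- change of the index type -/
theorem UBt.sub {W : Type*} [NormedAddCommGroup W] [NormedSpace ℝ W] {κ : Type} {I : ι → Set ℝ}
    {J : κ → Set ℝ} {r : ℝ} {v : ι → ℝ → En n → W} {v' : κ → ℝ → En n → W} (h : UBt I r m v)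
    (hs : ∀ j, ∀ t ∈ J j, ∃ i, t ∈ I i ∧ v' j t = v i t) : UBt J r m v' := by
  choose σ h1 h2 using hs
  exact (UB.reindex (fun p : {p : κ × ℝ // p.2 ∈ J p.1} =>
    (⟨(σ p.1.1 p.1.2 p.2, p.1.2), h1 _ _ p.2⟩ : {p : ι × ℝ // p.2 ∈ I p.1})) h).congr
    fun p y _ => by rw [h2 _ _ p.2]

/-- restriction to later times -/
theorem LinF.late (h : LinF a0 δ R m α β a f u) {θ : ℝ} (hθ : 0 ≤ θ) :
    LinF (ι := {i // α i + θ < β i}) a0 δ R m (fun i => α i.1 + θ) (fun i => β i.1)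
      (fun i => a i.1) (fun i => f i.1) (fun i => u i.1) := by
  have hs : ∀ i, Icc (α i + θ) (β i) ⊆ Icc (α i) (β i) := fun i =>
    Icc_subset_Icc_left (by linarith)
  exact
    { lt := fun i => i.2
      len := fun i => by linarith [h.len i.1]
      uy := fun i => (h.uy i.1).mono (hs _) subset_rfl
      ay := fun i k l => (h.ay i.1 k l).mono (hs _) subset_rfl
      fy := fun i => (h.fy i.1).mono (hs _) subset_rfl
      ev := fun i t ht y hy => (h.ev i.1 t (hs _ ht) y hy).mono (hs _)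
      cl := fun i t ht => h.cl i.1 t (hs _ ht)
      ab := fun k l => (h.ab k l).sub fun i t ht => ⟨i.1, hs _ ht, rfl⟩
      fb := h.fb.sub fun i t ht => ⟨i.1, hs _ ht, rfl⟩ }

variable [CompleteSpace V]

/-- the differentiated equation -/
theorem LinF.pd (h : LinF a0 δ R (m + 1) α β a f u) {R1 : ℝ} (hR : R1 ≤ R)
    (hu : ∀ k l, UBt (fun i => Icc (α i) (β i)) R1 m (fun i t => pd k (pd l (u i t)))) (j : Fin n) :
    LinF a0 δ R1 m α β a (fun i t y => ∑ k, ∑ l, pd j (fun z => a i t z k l) y •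
      pd k (pd l (u i t)) y + pd j (f i t) y) (fun i t => pd j (u i t)) := by
  have hs : ball (0 : En n) R1 ⊆ ball 0 R := ball_subset_ball hR
  have hU : IsOpen (ball (0 : En n) R) := isOpen_ball
  refine
    { lt := h.lt
      len := h.len
      uy := fun i => ((h.uy i).pd j).mono subset_rfl hs
      ay := fun i k l => ((h.ay i k l).pred isCompact_Icc hU).mono subset_rfl hs
      fy := fun i => Yl.mono subset_rfl hs (((Yl.sum hU _ fun k _ => Yl.sum hU _ fun l _ =>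
        ((h.ay i k l).pd j).smul isCompact_Icc hU
          ((((h.uy i).pd l).pd k).pred isCompact_Icc hU))).add hU ((h.fy i).pd j))
      ev := fun i => ?_
      cl := fun i t ht y hy => h.cl i t ht y (hs hy)
      ab := fun k l => UB.mono hR (UB.pred (h.ab k l))
      fb := (UB.sum _ fun k _ => UB.sum _ fun l _ =>
        (UB.mono hR (UB.pd (h.ab k l) j)).smul (hu k l)).add (UB.mono hR (UB.pd h.fb j)) }
  have hI : IsCompact (Icc (α i) (β i)) := isCompact_Icc
  have h3' : Yl (Icc (α i) (β i)) (ball 0 R) 3 (u i) := (h.uy i).of_le hI hU (by omega)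
  have t1 : ∀ k l, Yl (Icc (α i) (β i)) (ball 0 R) 1
      (fun t y => a i t y k l • P.pd k (P.pd l (u i t)) y) := fun k l =>
    ((h.ay i k l).of_le hI hU (by omega)).smul hI hU ((h3'.pd l).pd k)
  have t2 : ∀ k, Yl (Icc (α i) (β i)) (ball 0 R) 1
      (fun t y => ∑ l, a i t y k l • P.pd k (P.pd l (u i t)) y) := fun k =>
    Yl.sum hU _ fun l _ => t1 k l
  have t3 : Yl (Icc (α i) (β i)) (ball 0 R) 1 (fun t y => Lop (a i t y) (u i t) y) :=
    Yl.sum hU _ fun k _ => t2 k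
  have := ev_pd hU (h.ev i) h3'.2.1 (t3.add hU ((h.fy i).of_le hI hU (by omega))) j
  intro t ht y hy'
  have hy := hs hy'
  refine (this t ht y hy).congr_deriv ?_
  beta_reduce
  rw [pd_add' (t3.diff ht hy) ((h.fy i).diff ht hy), ← add_assoc]
  congr 1
  simp only [Lop]
  rw [pd_sum' _ fun k _ => (t2 k).diff ht hy, ← Finset.sum_add_distrib]
  refine Finset.sum_congr rfl fun k _ => ?_
  rw [pd_sum' _ fun l _ => (t1 k l).diff ht hy, ← Finset.sum_add_distrib]
  refine Finset.sum_congr rfl fun l _ => ?_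
  rw [pd_smul' ((h.ay i k l).diff ht hy) (((h3'.pd l).pd k).diff ht hy),
    pd3_comm hU h3' ht hy (h3'.pred hI hU)]

end fam

variable [CompleteSpace V] {a0 : Matrix (Fin n) (Fin n) ℝ} {δ : ℝ}

/-- zero initial data -/
theorem Semi.core0 (hS : Semi V a0 δ) : ∀ (m : ℕ) {ι : Type} {R r : ℝ} {α β : ι → ℝ}
    {a : ι → ℝ → En n → Matrix (Fin n) (Fin n) ℝ} {f u : ι → ℝ → En n → V}, r < R →
    LinF a0 δ R m α β a f u → (∀ i, ∀ y ∈ ball (0 : En n) R, u i (α i) y = 0) →
    (∃ K : ℝ, ∀ i, ∀ t ∈ Icc (α i) (β i), ∀ y ∈ ball (0 : En n) R, ‖u i t y‖ ≤ K) →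
    UBt (fun i => Icc (α i) (β i)) r (m + 2) u := by
  intro m
  induction m with
  | zero =>
    intro ι R r α β a f u hr h h0 hK
    refine hS ι R ((r + R) / 2) r α β a f u (by linarith) (by linarith) h.lt h.len h.uy h.ay h.fy
      h0 h.ev h.cl h.ab hK ?_
    obtain ⟨L, hL0, hL⟩ := wh_of_ub (UB.mono (r' := (r + R) / 2) (by linarith) h.fb)
    refine ⟨L, hL0, fun i t ht X hX _ => ?_⟩
    have : L ≤ L * (1 + X) := by nlinarith
    exact ⟨(hL ⟨(i, t), ht⟩).1.mono this, (hL ⟨(i, t), ht⟩).2.mono this⟩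
  | succ m ih =>
    intro ι R r α β a f u hr h h0 hK
    have h1 := ih (r := (r + R) / 2) (by linarith) h.pred h0 hK
    have hs : ball (0 : En n) ((r + R) / 2) ⊆ ball 0 R := ball_subset_ball (by linarith)
    have hs' : ball (0 : En n) r ⊆ ball 0 R := ball_subset_ball hr.le
    obtain ⟨K, hK'⟩ := hK
    refine ub_succ (fun p y hy => hK' _ _ p.2 y (hs' hy))
      (fun p y hy => (h.uy _).diff p.2 (hs' hy)) fun j => ?_
    refine ih (by linarith) (h.pd (R1 := (r + R) / 2) (by linarith)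
      (fun k l => UB.pd (UB.pd h1 l) k) j) (fun i y hy => ?_) ?_
    · rw [pd_congr (ev_of_ball (f := fun _ => 0) (h0 i) (hs hy)), pd_const']
    · obtain ⟨K1, hK1⟩ := (UB.pd h1 j).bdd
      exact ⟨K1, fun i t ht => hK1 ⟨(i, t), ht⟩⟩

theorem lop_sub {I : Set ℝ} {U : Set (En n)} (hU : IsOpen U) {p q : ℝ → En n → V}
    (hp : Yl I U 2 p) (hq : Yl I U 2 q) {t : ℝ} (ht : t ∈ I) {y : En n} (hy : y ∈ U)
    (A : Matrix (Fin n) (Fin n) ℝ) :
    Lop A (fun z => p t z - q t z) y = Lop A (p t) y - Lop A (q t) y := by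
  simp only [Lop, pd_pd_sub hU hp hq ht hy, smul_sub, Finset.sum_sub_distrib]

theorem Semi.linHB (hS : Semi V a0 δ) {m : ℕ} {ι : Type} {R r : ℝ} {α β : ι → ℝ}
    {a : ι → ℝ → En n → Matrix (Fin n) (Fin n) ℝ} {f u : ι → ℝ → En n → V} (hr : r < R)
    (h : LinF a0 δ R m α β a f u) (h0 : UB R (m + 2) (fun i => u i (α i)))
    (hK : ∃ K : ℝ, ∀ i, ∀ t ∈ Icc (α i) (β i), ∀ y ∈ ball (0 : En n) R, ‖u i t y‖ ≤ K) :
    UBt (fun i => Icc (α i) (β i)) r (m + 2) u := by
  have hU : IsOpen (ball (0 : En n) R) := isOpen_ball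
  have y0 : ∀ i, Yl (Icc (α i) (β i)) (ball 0 R) (m + 2) (fun _ => u i (α i)) := fun i =>
    (h.uy i).comp_time (σ := fun _ => α i) continuousOn_const
      fun _ _ => left_mem_Icc.2 (h.lt i).le
  have h0' : UBt (fun i => Icc (α i) (β i)) R (m + 2) (fun i _ => u i (α i)) :=
    UB.reindex (fun p : {p : ι × ℝ // p.2 ∈ Icc (α p.1) (β p.1)} => p.1.1) h0
  have hw : LinF a0 δ R m α β a (fun i t y => Lop (a i t y) (u i (α i)) y + f i t y)
      (fun i t y => u i t y - u i (α i) y) :=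
    { lt := h.lt
      len := h.len
      uy := fun i => (h.uy i).sub hU (y0 i)
      ay := h.ay
      fy := fun i => (Yl.sum hU _ fun k _ => Yl.sum hU _ fun l _ =>
        (h.ay i k l).smul isCompact_Icc hU (((y0 i).pd l).pd k)).add hU (h.fy i)
      ev := fun i t ht y hy => by
        refine ((h.ev i t ht y hy).sub_const _).congr_deriv ?_
        beta_reduce
        rw [lop_sub hU ((h.uy i).of_le isCompact_Icc hU (by omega))
          ((y0 i).of_le isCompact_Icc hU (by omega)) ht hy]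
        abel
      cl := h.cl
      ab := h.ab
      fb := (UB.lop h.ab h0').add h.fb }
  obtain ⟨K, hK⟩ := hK
  have h1 := hS.core0 m hr hw (fun i y _ => sub_self _) ⟨K + K, fun i t ht y hy =>
    (norm_sub_le _ _).trans (add_le_add (hK i t ht y hy)
      (hK i _ (left_mem_Icc.2 (h.lt i).le) y hy))⟩
  exact (UB.add h1 (UB.mono hr.le h0')).congr fun p y _ => by simp

theorem linHB (h : ISStep n V) (hI : IntStmt n V) : LinHB n V := by
  intro a0 ha0
  obtain ⟨δ, hδ, hS⟩ := semi h hI ha0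
  exact ⟨δ, hδ, fun ι R r m α β a f u _ hr hF h0 hK => hS.linHB hr hF h0 hK⟩

end Crest.Agent.T223.Lx
end
end

-- ▼ part T223/LxHB2_25
section

/-!
# Row 223 (helper25): higher order bounds, interior in time (`LinHBi`)
-/

set_option autoImplicit false
set_option linter.unusedSectionVars false

open Set Metric Filter Topology
open scoped ContDiff

noncomputable section

namespace Crest.Agent.T223.Lx

open Crest.Agent.N207 Crest.Agent.N207.P

variable {n : ℕ} {V : Type} [NormedAddCommGroup V] [NormedSpace ℝ V]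

theorem pd_pd_aff {u : En n → V} {y : En n} (hu : ContDiffAt ℝ 2 u y) (c : ℝ) (v : V)
    (k l : Fin n) : pd k (pd l fun z => c • (u z - v)) y = c • pd k (pd l u) y := by
  rw [pd_pd_smul_c c (hu.sub contDiffAt_const)]
  congr 1
  refine pd_congr ?_ k
  filter_upwards [hu.eventually (by simp)] with z hz
  rw [pd_sub' (hz.differentiableAt (by simp)) (differentiableAt_const _), pd_const', sub_zero]

theorem lop_aff {u : En n → V} {y : En n} (hu : ContDiffAt ℝ 2 u y) (c : ℝ) (v : V)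
    (A : Matrix (Fin n) (Fin n) ℝ) : Lop A (fun z => c • (u z - v)) y = c • Lop A u y := by
  simp only [Lop, pd_pd_aff hu, Finset.smul_sum, smul_comm c]

theorem norm_lop_le {A : Matrix (Fin n) (Fin n) ℝ} {K : ℝ} (hA : ∀ k l, |A k l| ≤ K)
    (w : En n → V) (y : En n) : ‖Lop A w y‖ ≤ n * (n * (K * ‖d2 w y‖)) := by
  refine (norm_sum_le _ _).trans ((Finset.sum_le_card_nsmul _ _ (n * (K * ‖d2 w y‖))
    fun k _ => (norm_sum_le _ _).trans ((Finset.sum_le_card_nsmul _ _ (K * ‖d2 w y‖)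
      fun l _ => ?_).trans (by simp))).trans (by simp))
  rw [norm_smul, Real.norm_eq_abs]
  exact mul_le_mul (hA k l) (pd_le_d2 w y k l) (norm_nonneg _) ((abs_nonneg _).trans (hA k l))

theorem exists_bd2 {ι : Type} {r : ℝ} {m : ℕ} {a : ι → En n → Matrix (Fin n) (Fin n) ℝ}
    (h : ∀ k l, UB r m fun i y => a i y k l) :
    ∃ K, 0 ≤ K ∧ ∀ i, ∀ y ∈ ball (0 : En n) r, ∀ k l, |a i y k l| ≤ K := by
  obtain ⟨K, hK0, hK⟩ := (UB.pi fun k => UB.pi fun l => h k l).bdd'
  exact ⟨K, hK0, fun i y hy k l => (app2_le (fun k l => a i y k l) k l).trans (hK i y hy)⟩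

theorem abs_sub_le_one {α β t : ℝ} (h : β - α ≤ 1) (ht : t ∈ Icc α β) : |t - α| ≤ 1 := by
  rw [abs_of_nonneg (by linarith [ht.1])]; linarith [ht.2]

/-- removing the factor `t - α` -/
theorem UBt.unscale {W : Type*} [NormedAddCommGroup W] [NormedSpace ℝ W] {ι : Type} {r θ : ℝ}
    {m : ℕ} {α β : ι → ℝ} {w u : ι → ℝ → En n → W} (hθ : 0 < θ)
    (h : UBt (fun i => Icc (α i) (β i)) r m w)
    (e : ∀ i, ∀ t ∈ Icc (α i) (β i), ∀ y ∈ ball (0 : En n) r, w i t y = (t - α i) • u i t y) :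
    UBt (fun i => Icc (α i + θ) (β i)) r m u := by
  have hs : ∀ i, Icc (α i + θ) (β i) ⊆ Icc (α i) (β i) := fun i =>
    Icc_subset_Icc_left (by linarith)
  have h1 : UBt (fun i => Icc (α i + θ) (β i)) r m w := h.sub fun i t ht => ⟨i, hs _ ht, rfl⟩
  refine (UB.const_smul (c := fun p => (p.1.2 - α p.1.1)⁻¹) ⟨θ⁻¹, fun p => ?_⟩ h1).congr
    fun p y hy => ?_
  · have := p.2.1
    rw [abs_of_pos (inv_pos.2 (by linarith))]
    exact inv_anti₀ hθ (by linarith)
  · have := p.2.1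
    rw [e _ _ (hs _ p.2) y hy, inv_smul_smul₀ (by linarith : p.1.2 - α p.1.1 ≠ 0)]

variable [CompleteSpace V] {a0 : Matrix (Fin n) (Fin n) ℝ} {δ : ℝ}

theorem Semi.linHBi0 (hS : Semi V a0 δ) {ι : Type} {R r θ : ℝ} {α β : ι → ℝ}
    {a : ι → ℝ → En n → Matrix (Fin n) (Fin n) ℝ} {f u : ι → ℝ → En n → V} (hr0 : 0 < r)
    (hr : r < R) (hθ : 0 < θ) (h : LinF a0 δ R 0 α β a f u)
    (hK : ∃ K : ℝ, ∀ i, ∀ t ∈ Icc (α i) (β i), ∀ y ∈ ball (0 : En n) R, ‖d1 (u i t) y‖ ≤ K)
    (j : Fin n) : UBt (fun i => Icc (α i + θ) (β i)) r 1 (fun i t => pd j (u i t)) := by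
  have hU : IsOpen (ball (0 : En n) R) := isOpen_ball
  have hR0 : 0 < R := hr0.trans hr
  have z0 : (0 : En n) ∈ ball (0 : En n) R := mem_ball_self hR0
  obtain ⟨K0, hK0⟩ := hK
  set K := max K0 0 with hKd
  have hKn : 0 ≤ K := le_max_right _ _
  have lip : ∀ i, ∀ t ∈ Icc (α i) (β i), ∀ y ∈ ball (0 : En n) R, ∀ y' ∈ ball (0 : En n) R,
      ‖u i t y - u i t y'‖ ≤ n * K * dist y y' := fun i t ht y hy y' hy' =>
    lip_of_d1 (convex_ball 0 R) (fun z hz => (h.uy i).diff ht hz)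
      (fun z hz => (hK0 i t ht z hz).trans (le_max_left _ _)) hy hy'
  have bd : ∀ i, ∀ t ∈ Icc (α i) (β i), ∀ y ∈ ball (0 : En n) R,
      ‖u i t y - u i t 0‖ ≤ n * K * R := fun i t ht y hy =>
    (lip i t ht y hy 0 z0).trans (mul_le_mul_of_nonneg_left (mem_ball.1 hy).le (by positivity))
  have c2 : ∀ i, ∀ t ∈ Icc (α i) (β i), ∀ y ∈ ball (0 : En n) R, ContDiffAt ℝ 2 (u i t) y :=
    fun i t ht y hy => ((h.uy i).contDiffOn hU t ht).contDiffAt (hU.mem_nhds hy)
  have yt : ∀ i m, Yl (Icc (α i) (β i)) (ball (0 : En n) R) m (fun t _ => t - α i) :=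
    fun i m => yl_time (by fun_prop)
  have yu : ∀ i, Yl (Icc (α i) (β i)) (ball (0 : En n) R) 2 (fun t y => u i t y - u i t 0) :=
    fun i => (h.uy i).sub hU (yl_time (X.cont_slice (h.uy i).cont z0))
  obtain ⟨Ka, hKa0, hKa⟩ := exists_bd2 h.ab
  obtain ⟨Kf, hKf⟩ := UB.bdd h.fb
  have g1 : UBt (fun i => Icc (α i) (β i)) R 0
      (fun i t y => (u i t y - u i t 0) + (t - α i) • (f i t y - f i t 0)) := by
    refine UB.add (ub_zero_of_lip (c := n * K) (fun p y hy => bd _ _ p.2 y hy) (by positivity)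
      fun p y hy y' hy' => ?_) (UB.const_smul ⟨1, fun p => abs_sub_le_one (h.len _) p.2⟩
        (UB.sub h.fb (ub_const ⟨Kf, fun p => hKf p 0 z0⟩)))
    rw [sub_sub_sub_cancel_right]
    exact lip _ _ p.2 y hy y' hy'
  have key := hS ι R ((r + R) / 2) r α β a
    (fun i t y => ((u i t y - u i t 0) + (t - α i) • (f i t y - f i t 0)) +
      -((t - α i) • Lop (a i t 0) (u i t) 0))
    (fun i t y => (t - α i) • (u i t y - u i t 0)) (by linarith) (by linarith) h.lt h.len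
    (fun i => (yt i 2).smul isCompact_Icc hU (yu i)) h.ay (fun i => ?_) (fun i y _ => by simp)
    (fun i t ht y hy => ?_) h.cl h.ab ⟨n * K * R, fun i t ht y hy => ?_⟩ ?_
  · refine UBt.unscale (w := fun i t => pd j fun y => (t - α i) • (u i t y - u i t 0)) hθ
      (UB.pd key j) fun i t ht y hy => ?_
    have hd := (h.uy i).diff ht (ball_subset_ball hr.le hy)
    rw [pd_smul_c _ (hd.sub_const _), pd_sub' hd (differentiableAt_const _), pd_const', sub_zero]
  · refine (((yu i).of_le isCompact_Icc hU (by omega)).add hU ((yt i 0).smul isCompact_Icc hU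
      ((h.fy i).sub hU (yl_time (X.cont_slice (h.fy i).cont z0))))).add hU (yl_time ?_)
    refine ((by fun_prop : ContinuousOn (fun t => t - α i) _).smul
      (continuousOn_finsetSum _ fun k _ => continuousOn_finsetSum _ fun l _ => ?_)).neg
    exact (X.cont_slice (w := fun t y => a i t y k l) (h.ay i k l).cont z0).smul
      (X.cont_slice (w := fun t => pd k (pd l (u i t))) (((h.uy i).pd l).pd k).cont z0)
  · have h1 := ((hasDerivWithinAt_id t _).sub_const (α i)).smul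
      ((h.ev i t ht y hy).sub (h.ev i t ht 0 z0))
    refine h1.congr_deriv ?_
    beta_reduce
    rw [lop_aff (c2 i t ht y hy)]
    simp only [id, Pi.sub_apply]
    module
  · rw [norm_smul, Real.norm_eq_abs]
    have := mul_le_mul (abs_sub_le_one (h.len i) ht) (bd i t ht y hy) (norm_nonneg _) zero_le_one
    rwa [one_mul] at this
  · obtain ⟨L, hL0, hL⟩ := wh_of_ub (UB.mono (r' := (r + R) / 2) (by linarith) g1)
    have hrr : r < (r + R) / 2 := by linarith
    set σ := min ((r + R) / 2 - r) 1 ^ 2 * √(min ((r + R) / 2 - r) 1) with hσ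
    have hσ0 : 0 < σ := by
      have : 0 < min ((r + R) / 2 - r) 1 := lt_min (by linarith) one_pos
      positivity
    refine ⟨L + n * (n * (Ka / σ)), by positivity, fun i t ht X hX hw => ?_⟩
    have h1 := hw.1.bdd hrr (mem_ball_self hr0)
    have h2 : ‖-((t - α i) • Lop (a i t 0) (u i t) 0)‖ ≤ n * (n * (Ka * (X / σ))) := by
      rw [norm_neg, ← lop_aff (c2 i t ht 0 z0) _ (u i t 0)]
      refine (norm_lop_le (hKa ⟨(i, t), ht⟩ 0 z0) _ _).trans ?_
      gcongr
    have h3 : 0 ≤ n * (n * (Ka / σ)) := by positivity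
    have h4 : n * (n * (Ka * (X / σ))) = n * (n * (Ka / σ)) * X := by ring
    refine ⟨((hL ⟨(i, t), ht⟩).1.add (ws_of_le fun _ _ => h2)).mono (by nlinarith),
      ((hL ⟨(i, t), ht⟩).2.add (wh_of_le (c := 0) fun _ _ _ _ => by simp)).mono (by nlinarith)⟩

theorem UBt.late {W : Type*} [NormedAddCommGroup W] [NormedSpace ℝ W] {ι : Type} {r θ : ℝ}
    {m : ℕ} {α β : ι → ℝ} {u : ι → ℝ → En n → W} (hθ : 0 < θ)
    (h : UBt (ι := {i // α i + θ / 2 < β i}) (fun i => Icc (α i.1 + θ / 2 + θ / 2) (β i.1)) r m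
      (fun i => u i.1)) : UBt (fun i => Icc (α i + θ) (β i)) r m u :=
  h.sub fun i t ht => ⟨⟨i, by linarith [ht.1, ht.2]⟩, ⟨by linarith [ht.1], ht.2⟩, rfl⟩

theorem Semi.linHBi (hS : Semi V a0 δ) : ∀ (m : ℕ) {ι : Type} {R r θ : ℝ} {α β : ι → ℝ}
    {a : ι → ℝ → En n → Matrix (Fin n) (Fin n) ℝ} {f u : ι → ℝ → En n → V}, 0 < r →
    r < R → 0 < θ → LinF a0 δ R m α β a f u →
    (∃ K : ℝ, ∀ i, ∀ t ∈ Icc (α i) (β i), ∀ y ∈ ball (0 : En n) R, ‖d1 (u i t) y‖ ≤ K) →
    ∀ j, UBt (fun i => Icc (α i + θ) (β i)) r (m + 1) (fun i t => pd j (u i t)) := by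
  intro m
  induction m with
  | zero => exact fun hr0 hr hθ h hK j => hS.linHBi0 hr0 hr hθ h hK j
  | succ m ih =>
    intro ι R r θ α β a f u hr0 hr hθ h hK j
    have h1 := ih (r := (r + R) / 2) (θ := θ / 2) (by linarith) (by linarith) (by linarith)
      h.pred hK
    have h2 : ∀ l, UBt (ι := {i // α i + θ / 2 < β i}) (fun i => Icc (α i.1 + θ / 2) (β i.1))
        ((r + R) / 2) (m + 1) (fun i t => pd l (u i.1 t)) := fun l =>
      (h1 l).sub fun i t ht => ⟨i.1, ht, rfl⟩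
    have h3 := (h.late (θ := θ / 2) (by linarith)).pd (R1 := (r + R) / 2) (by linarith)
      (fun k l => UB.pd (h2 l) k) j
    have hs : ∀ i, Icc (α i + θ) (β i) ⊆ Icc (α i) (β i) := fun i =>
      Icc_subset_Icc_left (by linarith)
    have hs' : ball (0 : En n) r ⊆ ball 0 R := ball_subset_ball hr.le
    obtain ⟨K1, hK1⟩ := (UB.d1 (h2 j)).bdd
    have h4 := ih (r := r) (θ := θ / 2) hr0 (by linarith) (by linarith) h3
      ⟨K1, fun i t ht => hK1 ⟨(i, t), ht⟩⟩
    obtain ⟨K, hK'⟩ := hK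
    exact ub_succ (fun p y hy => (pd_le_d1 _ _ _).trans (hK' _ _ (hs _ p.2) y (hs' hy)))
      (fun p y hy => ((h.uy _).pd j).diff (hs _ p.2) (hs' hy))
      fun k => UBt.late (u := fun i t => pd k (pd j (u i t))) hθ (h4 k)

theorem linHBi (h : ISStep n V) (hI : IntStmt n V) : LinHBi n V := by
  intro a0 ha0
  obtain ⟨δ, hδ, hS⟩ := semi h hI ha0
  exact ⟨δ, hδ, fun ι R r θ m α β a f u hr0 hr hθ hF hK =>
    UB.pi fun j => hS.linHBi m hr0 hr hθ hF hK j⟩

end Crest.Agent.T223.Lx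
end
end

-- ▼ part T223/LxHB3_25

/-!
# Row 223 (helper25): higher order bounds, nonlinear equations (`QlHB`, `QlHB2`, `FnHB`)
-/

set_option autoImplicit false
set_option linter.unusedSectionVars false

open Set Metric Filter Topology
open scoped ContDiff

noncomputable section

namespace Crest.Agent.T223.Lx

open Crest.Agent.N207 Crest.Agent.N207.P

variable {n : ℕ} {V : Type} [NormedAddCommGroup V] [NormedSpace ℝ V]

theorem yl_comp {W : Type} [NormedAddCommGroup W] [NormedSpace ℝ W] {α β : ℝ} (hab : α < β)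
    {U : Set (En n)} (hU : IsOpen U) {O : Set W} (hO : IsOpen O) {F : W → V}
    (hF : ContDiffOn ℝ ∞ F O) {m : ℕ} {w : ℝ → En n → W} (h : Yl (Icc α β) U m w)
    (hw : ∀ t ∈ Icc α β, ∀ y ∈ U, w t y ∈ O) : Yl (Icc α β) U m (fun t y => F (w t y)) :=
  Yl.comp (Φ := fun q => F q.2) isCompact_Icc (uniqueDiffOn_Icc hab) hU hO
    (hF.comp contDiffOn_snd fun _ hq => hq.2) h hw

theorem lip_compact {W : Type} [NormedAddCommGroup W] [NormedSpace ℝ W] {O K : Set W}
    (hO : IsOpen O) (hK : IsCompact K) (hKO : K ⊆ O) {F : W → V} (hF : ContDiffOn ℝ ∞ F O) :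
    ∃ L : ℝ, 0 ≤ L ∧ ∀ x ∈ K, ∀ y ∈ K, ‖F x - F y‖ ≤ L * ‖x - y‖ := by
  obtain ⟨L, hL⟩ := LocallyLipschitzOn.exists_lipschitzOnWith_of_compact (f := F) hK fun x hx => by
    obtain ⟨L, t, ht, hL⟩ :=
      ((hF.contDiffAt (hO.mem_nhds (hKO hx))).of_le (by simp)).exists_lipschitzOnWith
    exact ⟨L, t, mem_nhdsWithin_of_mem_nhds ht, hL⟩
  exact ⟨L, L.2, fun x hx y hy => hL.norm_sub_le hx hy⟩

section ql

variable {ι : Type} {O K0 : Set V} {A : V → Matrix (Fin n) (Fin n) ℝ} {B : V × (Fin n → V) → V}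
  {R : ℝ} {α β : ι → ℝ} {u : ι → ℝ → En n → V}

theorem QlF.ub0 (h : QlF O K0 A B R α β u) : UBt (fun i => Icc (α i) (β i)) R 0 u := by
  obtain ⟨K, hK⟩ := h.grad
  obtain ⟨C, hC⟩ := h.cpt.isBounded.exists_norm_le
  exact ub_zero_of_pd (fun p y hy => hC _ (h.mem _ _ p.2 y hy))
    (fun p y hy => (h.uy _ 1).diff p.2 hy)
    fun k => ⟨K, fun p y hy => (pd_le_d1 _ _ _).trans (hK _ _ p.2 y hy)⟩

theorem QlF.ya (h : QlF O K0 A B R α β u) (i : ι) (m : ℕ) (k l : Fin n) :
    Yl (Icc (α i) (β i)) (ball 0 R) m (fun t y => A (u i t y) k l) :=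
  yl_comp (h.lt i) isOpen_ball h.opn (h.sa k l) (h.uy i m)
    fun t ht y hy => h.sub (h.mem i t ht y hy)

theorem QlF.yb (h : QlF O K0 A B R α β u) (i : ι) (m : ℕ) :
    Yl (Icc (α i) (β i)) (ball 0 R) m (fun t y => B (u i t y, d1 (u i t) y)) :=
  yl_comp (h.lt i) isOpen_ball (h.opn.prod isOpen_univ) h.sb
    ((h.uy i m).prod isOpen_ball (Yl.pi isOpen_ball fun k => (h.uy i (m + 1)).pd k))
    fun t ht y hy => ⟨h.sub (h.mem i t ht y hy), mem_univ _⟩

variable [FiniteDimensional ℝ V] [CompleteSpace V] {a0 : Matrix (Fin n) (Fin n) ℝ} {δ : ℝ}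

theorem Semi.ql0 (hS : Semi V a0 δ) {r θ : ℝ} (hr : r < R) (hθ : 0 < θ)
    (h : QlF O K0 A B R α β u) (cl : ∀ q ∈ K0, ∀ k l, |A q k l - a0 k l| ≤ δ) :
    UBt (fun i => Icc (α i + θ) (β i)) r 2 u := by
  have hU : IsOpen (ball (0 : En n) R) := isOpen_ball
  have : ProperSpace (Fin n → V) := FiniteDimensional.proper_real _
  obtain ⟨K, hK⟩ := h.grad
  have hK1 : IsCompact (K0 ×ˢ closedBall (0 : Fin n → V) K) := h.cpt.prod (isCompact_closedBall _ _)
  have hK2 : K0 ×ˢ closedBall (0 : Fin n → V) K ⊆ O ×ˢ univ := prod_mono h.sub (subset_univ _)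
  have hm : ∀ i, ∀ t ∈ Icc (α i) (β i), ∀ y ∈ ball (0 : En n) R,
      (u i t y, d1 (u i t) y) ∈ K0 ×ˢ closedBall (0 : Fin n → V) K := fun i t ht y hy =>
    ⟨h.mem i t ht y hy, mem_closedBall_zero_iff.2 (hK i t ht y hy)⟩
  obtain ⟨LB, hLB0, hLB⟩ := lip_compact (h.opn.prod isOpen_univ) hK1 hK2 h.sb
  obtain ⟨KB, hKB⟩ := hK1.exists_bound_of_continuousOn (h.sb.continuousOn.mono hK2)
  obtain ⟨Ku, hKu⟩ := UB.bdd h.ub0
  have yt : ∀ i m, Yl (Icc (α i) (β i)) (ball (0 : En n) R) m (fun t _ => t - α i) :=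
    fun i m => yl_time (by fun_prop)
  have c2 : ∀ i, ∀ t ∈ Icc (α i) (β i), ∀ y ∈ ball (0 : En n) R, ContDiffAt ℝ 2 (u i t) y :=
    fun i t ht y hy => ((h.uy i 2).contDiffOn hU t ht).contDiffAt (hU.mem_nhds hy)
  have key := hS ι R ((r + R) / 2) r α β (fun i t y => A (u i t y))
    (fun i t y => u i t y + (t - α i) • B (u i t y, d1 (u i t) y))
    (fun i t y => (t - α i) • u i t y) (by linarith) (by linarith) h.lt h.len
    (fun i => (yt i 2).smul isCompact_Icc hU (h.uy i 2)) (fun i => h.ya i 0)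
    (fun i => (h.uy i 0).add hU ((yt i 0).smul isCompact_Icc hU (h.yb i 0))) (fun i y _ => by simp)
    (fun i t ht y hy => ?_) (fun i t ht y hy => cl _ (h.mem i t ht y hy))
    (fun k l => UB.comp h.opn h.cpt h.sub (fun p y hy => h.mem _ _ p.2 y hy) (h.sa k l) h.ub0)
    ⟨Ku, fun i t ht y hy => ?_⟩ ?_
  · exact UBt.unscale hθ key fun _ _ _ _ _ => rfl
  · have h1 := ((hasDerivWithinAt_id t _).sub_const (α i)).smul (h.ev i t ht y hy)
    refine h1.congr_deriv ?_
    beta_reduce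
    have h2 := lop_aff (c2 i t ht y hy) (t - α i) 0 (A (u i t y))
    simp only [sub_zero] at h2
    rw [h2]
    simp only [id]
    module
  · rw [norm_smul, Real.norm_eq_abs]
    have := mul_le_mul (abs_sub_le_one (h.len i) ht) (hKu ⟨(i, t), ht⟩ y hy) (norm_nonneg _)
      zero_le_one
    rwa [one_mul] at this
  · obtain ⟨L, hL0, hL⟩ := wh_of_ub (UB.mono (r' := (r + R) / 2) (by linarith) h.ub0)
    have hs : ball (0 : En n) ((r + R) / 2) ⊆ ball 0 R := ball_subset_ball (by linarith)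
    have hKB0 : 0 ≤ |KB| := abs_nonneg _
    refine ⟨L + |KB| + 2 * LB, by positivity, fun i t ht X hX hw => ⟨?_, ?_⟩⟩
    · refine ((hL ⟨(i, t), ht⟩).1.add (ws_of_le (A := |KB|) fun y hy => ?_)).mono (by nlinarith)
      rw [norm_smul, Real.norm_eq_abs]
      have := mul_le_mul (abs_sub_le_one (h.len i) ht)
        ((hKB _ (hm i t ht y (hs hy))).trans (le_abs_self _)) (norm_nonneg _) zero_le_one
      rwa [one_mul] at this
    · refine ((hL ⟨(i, t), ht⟩).2.add (c' := 2 * LB * X) fun s y y' hy hy' => ?_).mono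
        (by nlinarith)
      have m1 := hs hy.mem
      have m2 := hs hy'.mem
      have h1 := hLB _ (hm i t ht y m1) _ (hm i t ht y' m2)
      have h2 := hw.2.2.1 s y y' hy hy'
      have h3 := hw.2.2.2 s y y' hy hy'
      have e : ∀ z ∈ ball (0 : En n) R, d1 (fun y => (t - α i) • u i t y) z
          = (t - α i) • d1 (u i t) z := fun z hz =>
        funext fun k => pd_smul_c _ ((h.uy i 1).diff ht hz) k
      rw [e y m1, e y' m2, ← smul_sub, norm_smul] at h2
      rw [← smul_sub, norm_smul] at h3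
      rw [← smul_sub, norm_smul]
      have h4 : ‖(u i t y, d1 (u i t) y) - (u i t y', d1 (u i t) y')‖ ≤
          ‖u i t y - u i t y'‖ + ‖d1 (u i t) y - d1 (u i t) y'‖ := by
        rw [Prod.mk_sub_mk, Prod.norm_def]
        exact max_le (le_add_of_nonneg_right (norm_nonneg _))
          (le_add_of_nonneg_left (norm_nonneg _))
      have h5 : 0 ≤ s ^ 3 * ‖t - α i‖ := mul_nonneg (pow_nonneg hy.1.le 3) (norm_nonneg _)
      have h6 := mul_le_mul_of_nonneg_left (h1.trans (mul_le_mul_of_nonneg_left h4 hLB0)) h5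
      have h7 := mul_le_mul_of_nonneg_left (add_le_add h2 h3) hLB0
      nlinarith

theorem Semi.ql (hS : Semi V a0 δ) (h : QlF O K0 A B R α β u)
    (cl : ∀ q ∈ K0, ∀ k l, |A q k l - a0 k l| ≤ δ) : ∀ (m : ℕ) {r θ : ℝ}, 0 < r → r < R → 0 < θ →
    UBt (fun i => Icc (α i + θ) (β i)) r (m + 2) u := by
  have : ProperSpace (Fin n → V) := FiniteDimensional.proper_real _
  intro m
  induction m with
  | zero => exact fun _ hr hθ => hS.ql0 hr hθ h cl
  | succ m ih =>
    intro r θ hr0 hr hθ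
    have h1 := ih (r := (r + R) / 2) (θ := θ / 2) (by linarith) (by linarith) (by linarith)
    have h2 : UBt (ι := {i // α i + θ / 2 < β i}) (fun i => Icc (α i.1 + θ / 2) (β i.1))
        ((r + R) / 2) (m + 2) (fun i => u i.1) := h1.sub fun i t ht => ⟨i.1, ht, rfl⟩
    have hs : ∀ i, Icc (α i + θ / 2) (β i) ⊆ Icc (α i) (β i) := fun i =>
      Icc_subset_Icc_left (by linarith)
    have hs2 : ∀ i, Icc (α i + θ) (β i) ⊆ Icc (α i) (β i) := fun i =>
      Icc_subset_Icc_left (by linarith)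
    have hb : ball (0 : En n) ((r + R) / 2) ⊆ ball 0 R := ball_subset_ball (by linarith)
    have hb' : ball (0 : En n) r ⊆ ball 0 R := ball_subset_ball hr.le
    obtain ⟨K, hK⟩ := h.grad
    have hF : LinF (ι := {i // α i + θ / 2 < β i}) a0 δ ((r + R) / 2) (m + 1)
        (fun i => α i.1 + θ / 2) (fun i => β i.1) (fun i t y => A (u i.1 t y))
        (fun i t y => B (u i.1 t y, d1 (u i.1 t) y)) (fun i => u i.1) :=
      { lt := fun i => i.2
        len := fun i => by linarith [h.len i.1]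
        uy := fun i => (h.uy i.1 _).mono (hs _) hb
        ay := fun i k l => (h.ya i.1 _ k l).mono (hs _) hb
        fy := fun i => (h.yb i.1 _).mono (hs _) hb
        ev := fun i t ht y hy => (h.ev i.1 t (hs _ ht) y (hb hy)).mono (hs _)
        cl := fun i t ht y hy => cl _ (h.mem i.1 t (hs _ ht) y (hb hy))
        ab := fun k l => UB.comp h.opn h.cpt h.sub
          (fun p y hy => h.mem _ _ (hs _ p.2) y (hb hy)) (h.sa k l) (UB.pred h2)
        fb := UB.comp (h.opn.prod isOpen_univ)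
          (h.cpt.prod (isCompact_closedBall (0 : Fin n → V) K)) (prod_mono h.sub (subset_univ _))
          (fun p y hy => ⟨h.mem _ _ (hs _ p.2) y (hb hy),
            mem_closedBall_zero_iff.2 (hK _ _ (hs _ p.2) y (hb hy))⟩) h.sb
          ((UB.pred h2).prod (UB.d1 h2)) }
    have h4 := hS.linHBi (m + 1) (r := r) (θ := θ / 2) hr0 (by linarith) (by linarith) hF
      ⟨K, fun i t ht y hy => hK _ _ (hs _ ht) y (hb hy)⟩
    obtain ⟨Ku, hKu⟩ := UB.bdd h.ub0
    exact ub_succ (fun p y hy => hKu ⟨p.1, hs2 _ p.2⟩ y (hb' hy))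
      (fun p y hy => (h.uy _ 1).diff (hs2 _ p.2) (hb' hy))
      fun k => UBt.late (u := fun i t => pd k (u i t)) hθ (h4 k)

end ql

theorem qlHB [FiniteDimensional ℝ V] (h : ISStep n V) (hI : IntStmt n V) : QlHB n V := by
  have : CompleteSpace V := FiniteDimensional.complete ℝ V
  intro a0 ha0
  obtain ⟨δ, hδ, hS⟩ := semi h hI ha0
  exact ⟨δ, hδ, fun ι O K0 A B R r θ m α β u hr0 hr hθ hF cl =>
    UB.of_le (by omega) (hS.ql hF cl m hr0 hr hθ)⟩






end Crest.Agent.T223.Lx
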