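import Crest.Agent.T223.CnF_87
import Crest.Agent.R273.HessB_333
import Crest.Agent.R273.C0a_390
import Crest.Agent.T223.EvA_41
import Crest.Agent.T223.Fr_38

-- ▼ part T223/CnG_87
section

/-!
# Row 223 (helper87), CONE module, part G: the ring of germs

`Gm p` : germs at `p = (t₀, z₀)` of complex functions on `ℝ × Cn n` that are smooth at `p` within
the past half space `Pa p = {t ≤ t₀}`;  `gdr p : DR n (Gm p)`.
`Rep φ f` : the germ `φ` is represented by `f : ℝ → Cn n → ℂ` (`SmP p f` : smooth at `p` in the past).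
-/

set_option autoImplicit false
set_option linter.unusedSectionVars false

open Set Filter Topology
open scoped ContDiff ComplexConjugate ComplexOrder Matrix

namespace Crest.Agent.T223.Cn

open Crest.Agent.R275.Geo Crest.Agent.R275.EDR890 Crest.Agent.R273.Hess_333
open Crest.Agent.R273.HessB_333 Crest.Agent.R273.Defs_333

noncomputable section

variable {n : ℕ}

/-- the past half space -/
def Pa (p : ℝ × Cn n) : Set (ℝ × Cn n) := {q | q.1 ≤ p.1}

/-- the past neighbourhood filter -/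
abbrev past (p : ℝ × Cn n) : Filter (ℝ × Cn n) := 𝓝[{q | q.1 ≤ p.1}] p

/-- smooth at `p` within the past half space -/
def SmP {W : Type*} [NormedAddCommGroup W] [NormedSpace ℝ W] (p : ℝ × Cn n)
    (f : ℝ → Cn n → W) : Prop :=
  ContDiffWithinAt ℝ ∞ (fun q : ℝ × Cn n => f q.1 q.2) {q | q.1 ≤ p.1} p

variable {p : ℝ × Cn n}

theorem Pa_eq (p : ℝ × Cn n) : Pa p = Iic p.1 ×ˢ univ := by
  ext q; simp [Pa]

theorem mem_Pa (p : ℝ × Cn n) : p ∈ Pa p := le_refl p.1

theorem ud_Pa (p : ℝ × Cn n) : UniqueDiffOn ℝ (Pa p) := by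
  rw [Pa_eq]; exact (uniqueDiffOn_Iic _).prod uniqueDiffOn_univ

theorem cl_Pa (p : ℝ × Cn n) : Pa p ⊆ closure (interior (Pa p)) := by
  rw [Pa_eq, interior_prod_eq, closure_prod_eq, interior_Iic, closure_Iio, interior_univ,
    closure_univ]

theorem SmP.of_contDiffAt {W : Type*} [NormedAddCommGroup W] [NormedSpace ℝ W]
    {f : ℝ → Cn n → W} (h : ContDiffAt ℝ ∞ (fun q : ℝ × Cn n => f q.1 q.2) p) : SmP p f :=
  h.contDiffWithinAt


theorem ev_cd {W : Type*} [NormedAddCommGroup W] [NormedSpace ℝ W] {f : ℝ × Cn n → W}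
    (h : ContDiffWithinAt ℝ ∞ f (Pa p) p) (k : ℕ) :
    ∀ᶠ q in past p, ContDiffWithinAt ℝ k f (Pa p) q := by
  have h1 : ContDiffWithinAt ℝ k f (Pa p) p := h.of_le (by exact_mod_cast le_top)
  have := h1.eventually (by simp)
  rwa [insert_eq_of_mem (mem_Pa p)] at this

theorem ev_diff {W : Type*} [NormedAddCommGroup W] [NormedSpace ℝ W] {f : ℝ × Cn n → W}
    (h : ContDiffWithinAt ℝ ∞ f (Pa p) p) : ∀ᶠ q in past p, DifferentiableWithinAt ℝ f (Pa p) q :=
  (ev_cd h 1).mono fun _ hq => hq.differentiableWithinAt (by simp)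

theorem slice_cd {W : Type*} [NormedAddCommGroup W] [NormedSpace ℝ W] {f : ℝ × Cn n → W}
    {q : ℝ × Cn n} {k : WithTop ℕ∞} (h : ContDiffWithinAt ℝ k f (Pa p) q) (hq : q.1 ≤ p.1) :
    ContDiffAt ℝ k (fun z => f (q.1, z)) q.2 := by
  have h2 : ContDiffWithinAt ℝ k (fun z : Cn n => ((q.1, z) : ℝ × Cn n)) univ q.2 :=
    (contDiff_const.prodMk contDiff_id).contDiffAt.contDiffWithinAt
  exact (ContDiffWithinAt.comp q.2 (g := f) (f := fun z : Cn n => ((q.1, z) : ℝ × Cn n)) h h2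
    fun z _ => hq).contDiffAt univ_mem

/-- the time slice through `p` is smooth at `p.2` -/
theorem SmP.slice {W : Type*} [NormedAddCommGroup W] [NormedSpace ℝ W] {f : ℝ → Cn n → W}
    (h : SmP p f) : ContDiffAt ℝ ∞ (f p.1) p.2 := slice_cd (p := p) h le_rfl


theorem tendsto_slice (p : ℝ × Cn n) :
    Tendsto (fun z : Cn n => ((p.1, z) : ℝ × Cn n)) (𝓝 p.2) (past p) :=
  tendsto_nhdsWithin_iff.2 ⟨(Continuous.prodMk_right p.1).tendsto p.2,
    Eventually.of_forall fun _ => le_refl p.1⟩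

theorem tendsto_time (p : ℝ × Cn n) :
    Tendsto (fun s : ℝ => ((s, p.2) : ℝ × Cn n)) (𝓝[≤] p.1) (past p) :=
  tendsto_nhdsWithin_iff.2 ⟨((Continuous.prodMk_left p.2).tendsto p.1).mono_left nhdsWithin_le_nhds,
    self_mem_nhdsWithin⟩


/-- functions smooth at `p` -/
def SmA (p : ℝ × Cn n) : Subalgebra ℂ (ℝ × Cn n → ℂ) where
  carrier := {f | ContDiffWithinAt ℝ ∞ f (Pa p) p}
  mul_mem' {f g} hf hg := by
    rw [mem_ofPred_eq] at hf hg ⊢
    exact hf.mul hg
  add_mem' {f g} hf hg := by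
    rw [mem_ofPred_eq] at hf hg ⊢
    exact hf.add hg
  algebraMap_mem' c := show ContDiffWithinAt ℝ ∞ (fun _ => c) (Pa p) p from contDiffWithinAt_const

/-- functions vanishing near `p` -/
def ZI (p : ℝ × Cn n) : Ideal (SmA p) where
  carrier := {f | ∀ᶠ q in past p, f.1 q = 0}
  add_mem' {f g} hf hg := by
    rw [mem_ofPred_eq] at hf hg ⊢
    filter_upwards [hf, hg] with q h1 h2
    change f.1 q + g.1 q = 0
    rw [h1, h2, add_zero]
  zero_mem' := by
    rw [mem_ofPred_eq]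
    exact Eventually.of_forall fun _ => rfl
  smul_mem' c f hf := by
    rw [mem_ofPred_eq] at hf ⊢
    filter_upwards [hf] with q h
    change c.1 q * f.1 q = 0
    rw [h, mul_zero]

theorem mem_ZI {f : SmA p} : f ∈ ZI p ↔ ∀ᶠ q in past p, f.1 q = 0 := Iff.rfl

/-- germs -/
def Gm (p : ℝ × Cn n) : Type := SmA p ⧸ ZI p

instance (p : ℝ × Cn n) : CommRing (Gm p) := inferInstanceAs (CommRing (SmA p ⧸ ZI p))

instance (p : ℝ × Cn n) : Algebra ℂ (Gm p) := inferInstanceAs (Algebra ℂ (SmA p ⧸ ZI p))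

/-- the germ of a function -/
def mk {f : ℝ × Cn n → ℂ} (hf : ContDiffWithinAt ℝ ∞ f (Pa p) p) : Gm p :=
  Ideal.Quotient.mk (ZI p) ⟨f, hf⟩

theorem mk_eq {f g : ℝ × Cn n → ℂ} (hf : ContDiffWithinAt ℝ ∞ f (Pa p) p)
    (hg : ContDiffWithinAt ℝ ∞ g (Pa p) p) : mk hf = mk hg ↔ f =ᶠ[past p] g := by
  refine Ideal.Quotient.eq.trans (mem_ZI.trans ?_)
  exact eventually_congr (Eventually.of_forall fun q => sub_eq_zero (a := f q))

theorem mk_surj (φ : Gm p) : ∃ f, ∃ hf : ContDiffWithinAt ℝ ∞ f (Pa p) p, φ = mk hf := by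
  obtain ⟨⟨f, hf⟩, rfl⟩ := Ideal.Quotient.mk_surjective (I := ZI p) φ
  exact ⟨f, hf, rfl⟩

theorem mk_add {f g : ℝ × Cn n → ℂ} (hf : ContDiffWithinAt ℝ ∞ f (Pa p) p)
    (hg : ContDiffWithinAt ℝ ∞ g (Pa p) p) : mk hf + mk hg = mk (hf.add hg) := rfl

theorem mk_mul {f g : ℝ × Cn n → ℂ} (hf : ContDiffWithinAt ℝ ∞ f (Pa p) p)
    (hg : ContDiffWithinAt ℝ ∞ g (Pa p) p) : mk hf * mk hg = mk (hf.mul hg) := rfl

theorem mk_smul {f : ℝ × Cn n → ℂ} (hf : ContDiffWithinAt ℝ ∞ f (Pa p) p) (c : ℂ) :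
    c • mk hf = mk (hf.const_smul c) := rfl

theorem cd_dir {f : ℝ × Cn n → ℂ} (hf : ContDiffWithinAt ℝ ∞ f (Pa p) p) (v : ℝ × Cn n) :
    ContDiffWithinAt ℝ ∞ (fun q => fderivWithin ℝ f (Pa p) q v) (Pa p) p :=
  (hf.fderivWithin_right (m := ∞) (ud_Pa p) (by simp) (mem_Pa p)).clm_apply contDiffWithinAt_const

theorem dir_congr {f g : ℝ × Cn n → ℂ} (h : f =ᶠ[past p] g) (v : ℝ × Cn n) :
    (fun q => fderivWithin ℝ f (Pa p) q v) =ᶠ[past p] fun q => fderivWithin ℝ g (Pa p) q v := by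
  filter_upwards [eventually_eventually_nhdsWithin.2 h, h] with q h1 h2
  rw [Filter.EventuallyEq.fderivWithin_eq (s := Pa p) h1 h2]

/-- directional derivative of a germ -/
def D0 (v : ℝ × Cn n) (φ : Gm p) : Gm p := mk (cd_dir (mk_surj φ).choose_spec.choose v)

theorem D0_mk (v : ℝ × Cn n) {f : ℝ × Cn n → ℂ} (hf : ContDiffWithinAt ℝ ∞ f (Pa p) p) :
    D0 v (mk hf) = mk (cd_dir hf v) :=
  (mk_eq _ _).2 (dir_congr ((mk_eq _ _).1 (mk_surj (mk hf)).choose_spec.choose_spec.symm) v)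

/-- directional derivative of a germ -/
def Dv (p : ℝ × Cn n) (v : ℝ × Cn n) : Der (Gm p) :=
  Derivation.mk'
    { toFun := D0 v
      map_add' := fun φ ψ => by
        obtain ⟨f, hf, rfl⟩ := mk_surj φ
        obtain ⟨g, hg, rfl⟩ := mk_surj ψ
        rw [mk_add, D0_mk, D0_mk, D0_mk, mk_add, mk_eq]
        filter_upwards [ev_diff hf, ev_diff hg, self_mem_nhdsWithin] with q h1 h2 h3
        rw [fderivWithin_fun_add (ud_Pa p q h3) h1 h2]
        rfl
      map_smul' := fun c φ => by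
        obtain ⟨f, hf, rfl⟩ := mk_surj φ
        rw [mk_smul, D0_mk, D0_mk, RingHom.id_apply, mk_smul, mk_eq]
        filter_upwards [ev_diff hf, self_mem_nhdsWithin] with q h1 h3
        rw [fderivWithin_fun_const_smul (ud_Pa p q h3) h1]
        rfl }
    fun φ ψ => by
      obtain ⟨f, hf, rfl⟩ := mk_surj φ
      obtain ⟨g, hg, rfl⟩ := mk_surj ψ
      change D0 v (mk hf * mk hg) = mk hf * D0 v (mk hg) + mk hg * D0 v (mk hf)
      rw [mk_mul, D0_mk, D0_mk, D0_mk, mk_mul, mk_mul, mk_add, mk_eq]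
      filter_upwards [ev_diff hf, ev_diff hg, self_mem_nhdsWithin] with q h1 h2 h3
      rw [fderivWithin_fun_mul (ud_Pa p q h3) h1 h2]
      rfl

theorem Dv_mk (v : ℝ × Cn n) {f : ℝ × Cn n → ℂ} (hf : ContDiffWithinAt ℝ ∞ f (Pa p) p) :
    Dv p v (mk hf) = mk (cd_dir hf v) := D0_mk v hf

theorem Dv_comm (v w : ℝ × Cn n) (φ : Gm p) : Dv p v (Dv p w φ) = Dv p w (Dv p v φ) := by
  obtain ⟨f, hf, rfl⟩ := mk_surj φ
  rw [Dv_mk, Dv_mk, Dv_mk, Dv_mk, mk_eq]
  filter_upwards [ev_cd hf 2, self_mem_nhdsWithin] with q h2 hq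
  have hd : DifferentiableWithinAt ℝ (fderivWithin ℝ f (Pa p)) (Pa p) q :=
    (h2.fderivWithin_right (m := 1) (ud_Pa p) (by norm_num) hq).differentiableWithinAt (by simp)
  have e : ∀ v w : ℝ × Cn n, fderivWithin ℝ (fun q => fderivWithin ℝ f (Pa p) q w) (Pa p) q v
      = fderivWithin ℝ (fderivWithin ℝ f (Pa p)) (Pa p) q v w := by
    intro v w
    rw [fderivWithin_clm_apply (ud_Pa p q hq) hd (differentiableWithinAt_const _)]
    simp
  rw [e, e]
  exact h2.isSymmSndFDerivWithinAt (by simp) (ud_Pa p) (cl_Pa p hq) hq v w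

theorem cd_conj {f : ℝ × Cn n → ℂ} (hf : ContDiffWithinAt ℝ ∞ f (Pa p) p) :
    ContDiffWithinAt ℝ ∞ (fun q => conj (f q)) (Pa p) p :=
  Complex.conjCLE.contDiff.contDiffAt.comp_contDiffWithinAt p hf

/-- conjugation -/
def cjG (p : ℝ × Cn n) : Gm p →+* Gm p :=
  Ideal.Quotient.lift (ZI p)
    { toFun := fun f => mk (cd_conj f.2)
      map_one' := (mk_eq _ contDiffWithinAt_const).2 (Eventually.of_forall fun _ => map_one _)
      map_mul' := fun f g => by
        rw [mk_mul, mk_eq]; exact Eventually.of_forall fun _ => map_mul _ _ _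
      map_zero' := (mk_eq _ contDiffWithinAt_const).2 (Eventually.of_forall fun _ => map_zero _)
      map_add' := fun f g => by
        rw [mk_add, mk_eq]; exact Eventually.of_forall fun _ => map_add _ _ _ }
    fun f hf => (mk_eq _ contDiffWithinAt_const).2 ((mem_ZI.1 hf).mono fun q hq => by
      change conj (f.1 q) = 0
      rw [hq, map_zero])

theorem cjG_mk {f : ℝ × Cn n → ℂ} (hf : ContDiffWithinAt ℝ ∞ f (Pa p) p) :
    cjG p (mk hf) = mk (cd_conj hf) := rfl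

theorem cjG_Dv (v : ℝ × Cn n) (φ : Gm p) : cjG p (Dv p v φ) = Dv p v (cjG p φ) := by
  obtain ⟨f, hf, rfl⟩ := mk_surj φ
  rw [Dv_mk, cjG_mk, cjG_mk, Dv_mk, mk_eq]
  filter_upwards [self_mem_nhdsWithin] with q hq
  have := Complex.conjCLE.comp_fderivWithin (f := f) (ud_Pa p q hq)
  change _ = fderivWithin ℝ (Complex.conjCLE ∘ f) (Pa p) q v
  rw [this]
  rfl

theorem cjG_smul (c : ℂ) (φ : Gm p) : cjG p (c • φ) = conj c • cjG p φ := by
  obtain ⟨f, hf, rfl⟩ := mk_surj φ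
  rw [mk_smul, cjG_mk, cjG_mk, mk_smul, mk_eq]
  exact Eventually.of_forall fun _ => map_mul _ _ _

/-- evaluation -/
def evG (p : ℝ × Cn n) : Gm p →ₐ[ℂ] ℂ :=
  Ideal.Quotient.liftₐ (ZI p) ((Pi.evalAlgHom ℂ (fun _ : ℝ × Cn n => ℂ) p).comp (SmA p).val)
    fun _ hf => (mem_ZI.1 hf).self_of_nhdsWithin (mem_Pa p)


/-- Wirtinger derivative of a germ -/
def wG (p : ℝ × Cn n) (s : WI n) : Der (Gm p) :=
  (1 / 2 : ℂ) • (Dv p (0, EuclideanSpace.single s.2 1) +
    cI s.1 • Dv p (0, EuclideanSpace.single s.2 Complex.I))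

theorem wG_apply (s : WI n) (φ : Gm p) : wG p s φ =
    (1 / 2 : ℂ) • (Dv p (0, EuclideanSpace.single s.2 1) φ +
      cI s.1 • Dv p (0, EuclideanSpace.single s.2 Complex.I) φ) := rfl

theorem Dv_wG (v : ℝ × Cn n) (s : WI n) (φ : Gm p) : Dv p v (wG p s φ) = wG p s (Dv p v φ) := by
  simp only [wG_apply, Derivation.map_smul, map_add, Dv_comm v]

theorem wG_comm (r s : WI n) (φ : Gm p) : wG p r (wG p s φ) = wG p s (wG p r φ) := by
  rw [wG_apply r (wG p s φ), Dv_wG, Dv_wG, wG_apply r φ]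
  simp only [Derivation.map_smul, map_add]

/-- `φ` is the germ of `f` -/
def Rep (φ : Gm p) (f : ℝ → Cn n → ℂ) : Prop := ∃ hf : SmP p f, φ = mk hf

theorem SmP.rep {f : ℝ → Cn n → ℂ} (hf : SmP p f) : Rep (mk hf) f := ⟨hf, rfl⟩

theorem exists_rep (φ : Gm p) : ∃ f, Rep φ f := by
  obtain ⟨f, hf, rfl⟩ := mk_surj φ
  exact ⟨fun t z => f (t, z), hf, rfl⟩

theorem fderiv_slice {f : ℝ × Cn n → ℂ} {q : ℝ × Cn n} (h : DifferentiableWithinAt ℝ f (Pa p) q)
    (hq : q.1 ≤ p.1) (v : Cn n) :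
    fderiv ℝ (fun z => f (q.1, z)) q.2 v = fderivWithin ℝ f (Pa p) q (0, v) := by
  have h2 : HasFDerivWithinAt (fun z : Cn n => ((q.1, z) : ℝ × Cn n))
      (ContinuousLinearMap.inr ℝ ℝ (Cn n)) univ q.2 :=
    (hasFDerivAt_prodMk_right q.1 q.2).hasFDerivWithinAt
  have h3 := (HasFDerivWithinAt.comp q.2 (g := f) (f := fun z : Cn n => ((q.1, z) : ℝ × Cn n))
    h.hasFDerivWithinAt h2 fun z _ => hq).hasFDerivAt univ_mem
  exact congrArg (· v) h3.fderiv

theorem hasDeriv_time {W : Type*} [NormedAddCommGroup W] [NormedSpace ℝ W] {f : ℝ × Cn n → W}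
    {q : ℝ × Cn n} (h : DifferentiableWithinAt ℝ f (Pa p) q) :
    HasDerivWithinAt (fun s => f (s, q.2)) (fderivWithin ℝ f (Pa p) q (1, 0)) (Iic p.1) q.1 := by
  have h2 : HasDerivWithinAt (fun s : ℝ => ((s, q.2) : ℝ × Cn n)) (1, 0) (Iic p.1) q.1 :=
    ((hasDerivAt_id q.1).prodMk (hasDerivAt_const q.1 q.2)).hasDerivWithinAt
  exact HasFDerivWithinAt.comp_hasDerivWithinAt q.1 (l := f)
    (f := fun s : ℝ => ((s, q.2) : ℝ × Cn n)) h.hasFDerivWithinAt h2 fun s hs => hs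

namespace Rep

variable {φ ψ : Gm p} {f g : ℝ → Cn n → ℂ}

theorem sm (h : Rep φ f) : SmP p f := h.1

theorem congr (h : Rep φ f) (e : ∀ᶠ q in past p, g q.1 q.2 = f q.1 q.2) : Rep φ g := by
  obtain ⟨hf, rfl⟩ := h
  have hg : SmP p g := ContDiffWithinAt.congr_of_eventuallyEq_of_mem hf e (mem_Pa p)
  exact ⟨hg, (mk_eq _ _).2 (EventuallyEq.symm e)⟩

theorem congr' (h : Rep φ f) (e : ∀ t z, g t z = f t z) : Rep φ g :=
  h.congr (Eventually.of_forall fun _ => e _ _)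

theorem ext (h : Rep φ f) (h' : Rep ψ g) (e : ∀ᶠ q in past p, f q.1 q.2 = g q.1 q.2) : φ = ψ := by
  obtain ⟨hf, rfl⟩ := h
  obtain ⟨hg, rfl⟩ := h'
  exact (mk_eq _ _).2 e

theorem unique (h : Rep φ f) (h' : Rep φ g) : ∀ᶠ q in past p, f q.1 q.2 = g q.1 q.2 := by
  obtain ⟨hf, rfl⟩ := h
  obtain ⟨hg, e⟩ := h'
  exact (mk_eq _ _).1 e

theorem evG (h : Rep φ f) : evG p φ = f p.1 p.2 := by
  obtain ⟨hf, rfl⟩ := h
  rfl

theorem add (h : Rep φ f) (h' : Rep ψ g) : Rep (φ + ψ) fun t z => f t z + g t z := by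
  obtain ⟨hf, rfl⟩ := h
  obtain ⟨hg, rfl⟩ := h'
  exact ⟨ContDiffWithinAt.add hf hg, rfl⟩

theorem mul (h : Rep φ f) (h' : Rep ψ g) : Rep (φ * ψ) fun t z => f t z * g t z := by
  obtain ⟨hf, rfl⟩ := h
  obtain ⟨hg, rfl⟩ := h'
  exact ⟨ContDiffWithinAt.mul hf hg, rfl⟩

theorem neg (h : Rep φ f) : Rep (-φ) fun t z => -f t z := by
  obtain ⟨hf, rfl⟩ := h
  exact ⟨ContDiffWithinAt.neg hf, rfl⟩

theorem sub (h : Rep φ f) (h' : Rep ψ g) : Rep (φ - ψ) fun t z => f t z - g t z := by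
  rw [sub_eq_add_neg]
  exact (h.add h'.neg).congr' fun _ _ => sub_eq_add_neg _ _

theorem smul (h : Rep φ f) (c : ℂ) : Rep (c • φ) fun t z => c * f t z := by
  obtain ⟨hf, rfl⟩ := h
  exact ⟨ContDiffWithinAt.const_smul c hf, rfl⟩

theorem const (c : ℂ) : Rep (algebraMap ℂ (Gm p) c) fun _ _ => c :=
  ⟨contDiffWithinAt_const, rfl⟩

theorem zero : Rep (0 : Gm p) fun _ _ => 0 := ⟨contDiffWithinAt_const, rfl⟩

theorem one : Rep (1 : Gm p) fun _ _ => 1 := ⟨contDiffWithinAt_const, rfl⟩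

theorem sum {ι : Type*} (s : Finset ι) {φ : ι → Gm p} {f : ι → ℝ → Cn n → ℂ}
    (h : ∀ i, Rep (φ i) (f i)) : Rep (∑ i ∈ s, φ i) fun t z => ∑ i ∈ s, f i t z := by
  classical
  induction s using Finset.induction_on with
  | empty => simpa using zero
  | insert a s ha ih =>
    rw [Finset.sum_insert ha]
    exact ((h a).add ih).congr' fun _ _ => Finset.sum_insert ha

theorem prod {ι : Type*} (s : Finset ι) {φ : ι → Gm p} {f : ι → ℝ → Cn n → ℂ}
    (h : ∀ i, Rep (φ i) (f i)) : Rep (∏ i ∈ s, φ i) fun t z => ∏ i ∈ s, f i t z := by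
  classical
  induction s using Finset.induction_on with
  | empty => simpa using one
  | insert a s ha ih =>
    rw [Finset.prod_insert ha]
    exact ((h a).mul ih).congr' fun _ _ => Finset.prod_insert ha

theorem cjG (h : Rep φ f) : Rep (cjG p φ) fun t z => conj (f t z) := by
  obtain ⟨hf, rfl⟩ := h
  exact ⟨cd_conj hf, rfl⟩

theorem dir (h : Rep φ f) (v : Cn n) : Rep (Dv p (0, v) φ) fun t z => fderiv ℝ (f t) z v := by
  obtain ⟨hf, rfl⟩ := h
  have h1 : Rep (Dv p (0, v) (mk hf)) fun t z =>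
      fderivWithin ℝ (fun q : ℝ × Cn n => f q.1 q.2) (Pa p) (t, z) (0, v) :=
    ⟨cd_dir hf _, Dv_mk _ hf⟩
  refine h1.congr ?_
  filter_upwards [ev_diff hf, self_mem_nhdsWithin] with q h1 h2
  exact fderiv_slice h1 h2 v

theorem wG (h : Rep φ f) (s : WI n) : Rep (wG p s φ) fun t z => wd s (f t) z :=
  (((h.dir _).add ((h.dir _).smul (cI s.1))).smul (1 / 2)).congr' fun _ _ => rfl

theorem time (h : Rep φ f) :
    Rep (Dv p (1, 0) φ) fun t z => derivWithin (fun s => f s z) (Iic p.1) t := by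
  obtain ⟨hf, rfl⟩ := h
  have h1 : Rep (Dv p (1, 0) (mk hf)) fun t z =>
      fderivWithin ℝ (fun q : ℝ × Cn n => f q.1 q.2) (Pa p) (t, z) (1, 0) :=
    ⟨cd_dir hf _, Dv_mk _ hf⟩
  refine h1.congr ?_
  filter_upwards [ev_diff hf, self_mem_nhdsWithin] with q h1 h2
  exact (hasDeriv_time h1).derivWithin (uniqueDiffOn_Iic _ _ h2)

theorem hasDeriv (h : Rep φ f) :
    HasDerivWithinAt (fun s => f s p.2) (Cn.evG p (Dv p (1, 0) φ)) (Iic p.1) p.1 := by
  rw [h.time.evG]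
  exact (hasDeriv_time (h.sm.differentiableWithinAt (by simp))).differentiableWithinAt.hasDerivWithinAt

end Rep

theorem SmP.hasDeriv {W : Type*} [NormedAddCommGroup W] [NormedSpace ℝ W] {f : ℝ → Cn n → W}
    (h : SmP p f) : ∀ᶠ q in past p, HasDerivWithinAt (fun s => f s q.2)
      (derivWithin (fun s => f s q.2) (Iic p.1) q.1) (Iic p.1) q.1 :=
  (ev_diff h).mono fun _ hq => (hasDeriv_time hq).differentiableWithinAt.hasDerivWithinAt

theorem smP_coord (p : ℝ × Cn n) (k : Fin n) : SmP p fun _ z => z k - p.2 k :=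
  ((((EuclideanSpace.proj k : Cn n →L[ℂ] ℂ).restrictScalars ℝ).contDiff.comp contDiff_snd).sub
    contDiff_const).contDiffAt.contDiffWithinAt

theorem wd_coord (s : WI n) (k : Fin n) (c : ℂ) (z : Cn n) :
    wd s (fun z : Cn n => z k - c) z = if s = (false, k) then 1 else 0 := by
  have h : HasFDerivAt (fun z : Cn n => z k - c) (ze (false, k)) z :=
    (ze (false, k)).hasFDerivAt.sub_const c
  rw [wd, h.fderiv, wdL_ze]

theorem mp2_fun {f : Cn n → ℂ} {z : Cn n} (hf : ContDiffAt ℝ ∞ f z)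
    (hm : IsLocalMin (fun w => (f w).re) z) (e : Fin n → ℂ) :
    0 ≤ (∑ k, ∑ l, e k * conj (e l) * wd (false, k) (wd (true, l) f) z).re := by
  have hu : ContDiffAt ℝ ∞ (fun w => (f w).re) z := Complex.reCLM.contDiff.contDiffAt.comp z hf
  have hv : ContDiffAt ℝ ∞ (fun w => (f w).im) z := Complex.imCLM.contDiff.contDiffAt.comp z hf
  have e1 : ∀ k l, wd (false, k) (wd (true, l) f) z =
      hess (fun w => (f w).re) z k l + Complex.I * hess (fun w => (f w).im) z k l := by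
    intro k l
    have h1 : wd (true, l) f =ᶠ[𝓝 z] fun w => wd (true, l) (cu fun w => (f w).re) w +
        Complex.I • wd (true, l) (cu fun w => (f w).im) w := by
      filter_upwards [eventually_diff hu, eventually_diff hv] with w a1 a2
      rw [← wd_const_smul _ a2, ← wd_add a1 (a2.fun_const_smul _)]
      congr 1
      funext y
      simp only [cu, smul_eq_mul]
      rw [mul_comm, Complex.re_add_im]
    have b1 := (contDiffAt_wd (contDiffAt_cu hu) (true, l)).differentiableAt (by simp)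
    have b2 := (contDiffAt_wd (contDiffAt_cu hv) (true, l)).differentiableAt (by simp)
    rw [wd_congr h1, wd_add b1 (b2.fun_const_smul _), wd_const_smul _ b2]
    rfl
  have e2 : ∑ k, ∑ l, e k * conj (e l) * wd (false, k) (wd (true, l) f) z =
      hq (fun w => (f w).re) z (WithLp.toLp 2 e) +
        Complex.I * hq (fun w => (f w).im) z (WithLp.toLp 2 e) := by
    simp only [hq, e1, Finset.mul_sum, ← Finset.sum_add_distrib]
    exact Finset.sum_congr rfl fun _ _ => Finset.sum_congr rfl fun _ _ => by ring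
  rw [e2, hq_real hu, hq_real hv]
  have h2 : ContDiffAt ℝ 2 (fun w => (f w).re) z := hu.of_le (WithTop.coe_le_coe.2 le_top)
  have h3 : 0 ≤ lev (fun w => (f w).re) z (WithLp.toLp 2 e) := by
    simp only [lev, iteratedFDeriv_two_apply]
    exact add_nonneg (R273.C0a_390.fderiv2_nonneg h2 hm _) (R273.C0a_390.fderiv2_nonneg h2 hm _)
  simp only [Complex.add_re, Complex.ofReal_re, Complex.mul_re, Complex.I_re, zero_mul,
    Complex.I_im, Complex.ofReal_im, mul_zero, sub_zero, add_zero]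
  positivity

theorem deriv_nonpos_of_past {u : ℝ → ℝ} {t u' : ℝ} (h : HasDerivWithinAt u u' (Iic t) t)
    (hm : ∀ᶠ s in 𝓝[≤] t, u t ≤ u s) : u' ≤ 0 := by
  have h1 : IsLocalMinOn u (Iic t) t := hm
  have h2 : (-1 : ℝ) ∈ posTangentConeAt (Iic t) t := by
    have := sub_mem_posTangentConeAt_of_segment_subset (s := Iic t) (x := t) (y := t - 1)
      ((convex_Iic t).segment_subset (le_refl t) (by simp))
    simpa using this
  have := h1.hasFDerivWithinAt_nonneg h.hasFDerivWithinAt h2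
  simpa using this

/-- the differential ring of germs -/
def gdr (p : ℝ × Cn n) : DR n (Gm p) where
  d k := wG p (false, k)
  db k := wG p (true, k)
  D := Dv p (1, 0)
  cj := cjG p
  ev := evG p
  ζ k := mk (smP_coord p k)
  Pos φ := ∃ f, Rep φ f ∧ ∀ᶠ q in past p, 0 ≤ (f q.1 q.2).re
  cj_cj φ := by
    obtain ⟨f, hf⟩ := exists_rep φ
    exact hf.cjG.cjG.ext hf (Eventually.of_forall fun _ => Complex.conj_conj _)
  cj_smul := cjG_smul
  cj_d k φ := by
    simp only [wG_apply, cjG_smul, map_add, cjG_Dv, cI_false, cI_true, map_neg, Complex.conj_I,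
      neg_neg, map_div₀, map_one, Complex.conj_ofNat]
  cj_D := cjG_Dv _
  ev_cj φ := by
    obtain ⟨f, hf⟩ := exists_rep φ
    rw [hf.cjG.evG, hf.evG]
  dd _ _ := wG_comm _ _
  ddb _ _ := wG_comm _ _
  Dd _ := Dv_wG _ _
  d_ζ k l := by
    have h := (smP_coord p l).rep.wG (false, k)
    split_ifs with hkl
    · exact h.ext Rep.one (Eventually.of_forall fun _ => by rw [wd_coord, if_pos (by rw [hkl])])
    · exact h.ext Rep.zero (Eventually.of_forall fun _ => by rw [wd_coord, if_neg (by simpa)])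
  db_ζ k l := ((smP_coord p l).rep.wG (true, k)).ext Rep.zero
    (Eventually.of_forall fun _ => by rw [wd_coord, if_neg (by simp)])
  D_ζ l := (smP_coord p l).rep.time.ext Rep.zero (Eventually.of_forall fun _ => by simp)
  ev_ζ l := by rw [(smP_coord p l).rep.evG, sub_self]
  unit φ h0 := by
    obtain ⟨f, hf⟩ := exists_rep φ
    rw [hf.evG] at h0
    have hi : SmP p fun t z => (f t z)⁻¹ := ContDiffWithinAt.inv hf.sm h0
    refine IsUnit.of_mul_eq_one (mk hi) ((hf.mul hi.rep).ext Rep.one ?_)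
    filter_upwards [hf.sm.continuousWithinAt.eventually_ne h0] with q hq
    exact mul_inv_cancel₀ hq
  pos_add φ ψ := by
    rintro ⟨f, hf, h1⟩ ⟨g, hg, h2⟩
    refine ⟨_, hf.add hg, ?_⟩
    filter_upwards [h1, h2] with q a1 a2
    rw [Complex.add_re]
    exact add_nonneg a1 a2
  mp1 φ := by
    rintro ⟨f, hf, h1⟩ h0
    rw [hf.evG] at h0
    have h2 := Complex.reCLM.hasFDerivAt.comp_hasDerivWithinAt p.1 hf.hasDeriv
    refine deriv_nonpos_of_past h2 ?_
    filter_upwards [(tendsto_time p).eventually h1] with s hs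
    change (f p.1 p.2).re ≤ (f s p.2).re
    rw [h0]; exact hs
  mp2 φ := by
    rintro ⟨f, hf, h1⟩ h0 e
    rw [hf.evG] at h0
    have h2 : ∀ k l, evG p (wG p (false, k) (wG p (true, l) φ)) =
        wd (false, k) (wd (true, l) (f p.1)) p.2 := fun k l => ((hf.wG _).wG _).evG
    simp only [h2]
    refine mp2_fun hf.sm.slice ?_ e
    filter_upwards [(tendsto_slice p).eventually h1] with z hz
    rw [h0]; exact hz

namespace Rep

variable {φ ψ : Gm p} {f g : ℝ → Cn n → ℂ}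

theorem d (h : Rep φ f) (k : Fin n) : Rep ((gdr p).d k φ) fun t z => wd (false, k) (f t) z :=
  h.wG _

theorem db (h : Rep φ f) (k : Fin n) : Rep ((gdr p).db k φ) fun t z => wd (true, k) (f t) z :=
  h.wG _

theorem D (h : Rep φ f) :
    Rep ((gdr p).D φ) fun t z => derivWithin (fun s => f s z) (Iic p.1) t := h.time

theorem cj (h : Rep φ f) : Rep ((gdr p).cj φ) fun t z => conj (f t z) := h.cjG

theorem ev (h : Rep φ f) : (gdr p).ev φ = f p.1 p.2 := h.evG

theorem pos (h : Rep φ f) (e : ∀ᶠ q in past p, 0 ≤ (f q.1 q.2).re) : (gdr p).Pos φ := ⟨f, h, e⟩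

/-- the time derivative is given by an equation -/
theorem D_eq (h : Rep φ f) (h' : Rep ψ g)
    (e : ∀ᶠ q in past p, HasDerivWithinAt (fun s => f s q.2) (g q.1 q.2) (Iic p.1) q.1) :
    (gdr p).D φ = ψ := by
  refine h.D.ext h' ?_
  filter_upwards [e, self_mem_nhdsWithin] with q h1 h2
  exact h1.derivWithin (uniqueDiffOn_Iic _ _ h2)

/-- a germ of a real function is real -/
theorem cj_real {u : ℝ → Cn n → ℝ} (h : Rep φ fun t z => (u t z : ℂ)) : (gdr p).cj φ = φ :=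
  h.cj.ext h (Eventually.of_forall fun _ => Complex.conj_ofReal _)

/-- chain rule for directional derivatives -/
theorem chain_Dv {u : ℝ → Cn n → ℝ} {F F' : ℝ → ℝ} {χ χ' : Gm p}
    (h : Rep φ fun t z => (u t z : ℂ)) (hF : ∀ᶠ x in 𝓝 (u p.1 p.2), HasDerivAt F (F' x) x)
    (h1 : Rep χ fun t z => (F (u t z) : ℂ)) (h2 : Rep χ' fun t z => (F' (u t z) : ℂ))
    (v : ℝ × Cn n) : Dv p v χ = χ' * Dv p v φ := by
  obtain ⟨hf, rfl⟩ := h
  obtain ⟨a1, rfl⟩ := h1
  obtain ⟨a2, rfl⟩ := h2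
  refine (Dv_mk v a1).trans (Eq.trans ?_ (congrArg _ (Dv_mk v hf)).symm)
  refine (mk_eq _ (ContDiffWithinAt.mul a2 (cd_dir hf v))).2 ?_
  have hu : ContDiffWithinAt ℝ ∞ (fun q : ℝ × Cn n => u q.1 q.2) (Pa p) p :=
    Complex.reCLM.contDiff.contDiffAt.comp_contDiffWithinAt p hf
  filter_upwards [ev_diff hu, hu.continuousWithinAt.eventually hF, self_mem_nhdsWithin]
    with q b1 b2 b3
  have c1 := Complex.ofRealCLM.hasFDerivAt.comp_hasFDerivWithinAt q b1.hasFDerivWithinAt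
  have c2 := Complex.ofRealCLM.hasFDerivAt.comp_hasFDerivWithinAt q
    (b2.comp_hasFDerivWithinAt q b1.hasFDerivWithinAt)
  have d1 := c1.fderivWithin (ud_Pa p q b3)
  have d2 := c2.fderivWithin (ud_Pa p q b3)
  change fderivWithin ℝ (Complex.ofRealCLM ∘ F ∘ fun q : ℝ × Cn n => u q.1 q.2) (Pa p) q v =
    _ * fderivWithin ℝ (Complex.ofRealCLM ∘ fun q : ℝ × Cn n => u q.1 q.2) (Pa p) q v
  rw [d1, d2]
  simp

/-- chain rule -/
theorem chain {u : ℝ → Cn n → ℝ} {F F' : ℝ → ℝ} {χ χ' : Gm p}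
    (h : Rep φ fun t z => (u t z : ℂ)) (hF : ∀ᶠ x in 𝓝 (u p.1 p.2), HasDerivAt F (F' x) x)
    (h1 : Rep χ fun t z => (F (u t z) : ℂ)) (h2 : Rep χ' fun t z => (F' (u t z) : ℂ)) :
    (∀ k, (gdr p).d k χ = χ' * (gdr p).d k φ) ∧ (∀ k, (gdr p).db k χ = χ' * (gdr p).db k φ) ∧
      (gdr p).D χ = χ' * (gdr p).D φ := by
  have hw : ∀ s, Cn.wG p s χ = χ' * Cn.wG p s φ := fun s => by
    simp only [wG_apply, chain_Dv h hF h1 h2, mul_smul_comm, mul_add, smul_add]
  exact ⟨fun _ => hw _, fun _ => hw _, chain_Dv h hF h1 h2 _⟩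

end Rep

theorem SmP.ofReal {u : ℝ → Cn n → ℝ} (h : SmP p u) : SmP p fun t z => (u t z : ℂ) :=
  Complex.ofRealCLM.contDiff.contDiffAt.comp_contDiffWithinAt p h

theorem SmP.re {f : ℝ → Cn n → ℂ} (h : SmP p f) : SmP p fun t z => (f t z).re :=
  Complex.reCLM.contDiff.contDiffAt.comp_contDiffWithinAt p h

theorem SmP.comp {u : ℝ → Cn n → ℝ} (h : SmP p u) {F : ℝ → ℝ}
    (hF : ContDiffAt ℝ ∞ F (u p.1 p.2)) : SmP p fun t z => F (u t z) :=
  hF.comp_contDiffWithinAt p h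

theorem smP_time {a : ℝ → ℝ} (h : ContDiffAt ℝ ∞ a p.1) : SmP p fun t _ => a t :=
  (h.comp p contDiffAt_fst).contDiffWithinAt

end

end Crest.Agent.T223.Cn
end

-- ▼ part T223/CnD_41

/-!
# Row 223 (helper41): the dictionary between the ring of germs and the frame `Fr_38`

`RepM Φ f` : the matrix of germs `Φ` is represented by `f`;
`KahP g p`, `KRFp g p` : Kaehler family / Kaehler-Ricci flow near `p` in the past;
`KahP.km : KM (gdr p)`, `KRFp.flow0 : h.km.Flow 0`, `rep_gi`, `rep_ldet`, `rep_ric`, `rep_Th`,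
`rep_lap`, `rep_gsq`, `rep_scal`, `ev_bx` (`= boxp`, `boxp_eq_box`).
-/

set_option autoImplicit false
set_option linter.unusedSectionVars false

open Set Filter Topology
open scoped ContDiff ComplexConjugate ComplexOrder Matrix

namespace Crest.Agent.T223.Cn

open Crest.Agent.R275.Geo Crest.Agent.R275.EDR890 Crest.Agent.R273.Hess_333
open Crest.Agent.R273.HessB_333 Crest.Agent.T223.Br Crest.Agent.T223.Tr Crest.Agent.T223.Ev

noncomputable section

variable {n : ℕ}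

/-! ### Jacobi's formula -/

section jac

variable {S : Type} [CommRing S] [Algebra ℂ S]

theorem D_prod {ι : Type*} [DecidableEq ι] (δ : Der S) (s : Finset ι) (f : ι → S) :
    δ (∏ i ∈ s, f i) = ∑ j ∈ s, δ (f j) * ∏ i ∈ s.erase j, f i := by
  induction s using Finset.induction_on with
  | empty => simp
  | insert a s ha ih =>
    rw [Finset.prod_insert ha, Finset.sum_insert ha, D_mul, ih, Finset.erase_insert ha,
      Finset.mul_sum]
    congr 1
    refine Finset.sum_congr rfl fun j hj => ?_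
    have hne : a ≠ j := fun h => ha (h ▸ hj)
    rw [Finset.erase_insert_of_ne hne,
      Finset.prod_insert fun h => ha (Finset.mem_of_mem_erase h)]
    ring

theorem D_det (δ : Der S) (M : Matrix (Fin n) (Fin n) S) :
    δ M.det = (M.adjugate * dM δ M).trace := by
  have h1 : ∀ j, (M.adjugate * dM δ M) j j = (M.updateCol j fun i => δ (M i j)).det := by
    intro j
    rw [← Matrix.cramer_apply, Matrix.cramer_eq_adjugate_mulVec]
    rfl
  simp only [Matrix.trace, Matrix.diag_apply, h1, Matrix.det_apply', map_sum]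
  rw [Finset.sum_comm]
  refine Finset.sum_congr rfl fun σ _ => ?_
  rw [D_mul, Derivation.map_intCast, zero_mul, zero_add, D_prod, Finset.mul_sum]
  refine Finset.sum_congr rfl fun j _ => ?_
  congr 1
  rw [← Finset.mul_prod_erase _ _ (Finset.mem_univ j), Matrix.updateCol_self]
  congr 1
  exact Finset.prod_congr rfl fun i hi => by
    rw [Matrix.updateCol_ne (Finset.ne_of_mem_erase hi)]

theorem D_det_km {R : DR n S} (K : KM R) (δ : Der S) : δ K.g.det = K.g.det * be K δ := by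
  have h : K.g.adjugate = K.g.det • K.gi := by
    calc K.g.adjugate = K.g.adjugate * (K.g * K.gi) := by rw [K.inv, Matrix.mul_one]
      _ = _ := by rw [← Matrix.mul_assoc, Matrix.adjugate_mul, Matrix.smul_mul, Matrix.one_mul]
  rw [D_det, h, Matrix.smul_mul, Matrix.trace_smul]
  rfl

end jac

variable {p : ℝ × Cn n}

/-! ### matrices of germs -/

/-- `Φ` is the matrix of germs of `f` -/
def RepM (Φ : Matrix (Fin n) (Fin n) (Gm p)) (f : ℝ → Cn n → Mat n) : Prop :=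
  ∀ a b, Rep (Φ a b) fun t z => f t z a b

namespace Rep

variable {φ ψ : Gm p} {f g : ℝ → Cn n → ℂ}

/-- a real germ is represented by the real part -/
theorem re_of_cj (h : Rep φ f) (hc : (gdr p).cj φ = φ) : Rep φ fun t z => ((f t z).re : ℂ) := by
  have h1 := h.cj
  rw [hc] at h1
  refine h.congr ?_
  filter_upwards [h1.unique h] with q hq
  exact Complex.conj_eq_iff_re.1 hq

theorem hs {u : ℝ → Cn n → ℝ} (h : Rep φ fun t z => (u t z : ℂ)) :
    RepM ((gdr p).hs φ) fun t z => hess (u t) z := fun a b => (h.db b).d a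


theorem dz {u : ℝ → Cn n → ℝ} (h : Rep φ fun t z => (u t z : ℂ)) (a : Fin n) :
    Rep ((gdr p).d a φ) fun t z => dz (u t) z a := h.d a

theorem dzb {u : ℝ → Cn n → ℝ} (h : Rep φ fun t z => (u t z : ℂ)) (a : Fin n) :
    Rep ((gdr p).db a φ) fun t z => conj (T223.dz (u t) z a) := by
  have h1 := (h.d a).cj
  rwa [(gdr p).cj_d, h.cj_real] at h1

/-- time derivative of a real germ -/
theorem D_real {u : ℝ → Cn n → ℝ} (h : Rep φ fun t z => (u t z : ℂ)) :
    Rep ((gdr p).D φ) fun t z => ((derivWithin (fun s => u s z) (Iic p.1) t : ℝ) : ℂ) := by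
  have hu : SmP p u := h.sm.re
  refine h.D.congr ?_
  filter_upwards [hu.hasDeriv, self_mem_nhdsWithin] with q h1 h2
  exact (h1.ofReal_comp.derivWithin (uniqueDiffOn_Iic _ _ h2)).symm

end Rep

namespace RepM

variable {Φ Ψ : Matrix (Fin n) (Fin n) (Gm p)} {f g : ℝ → Cn n → Mat n}

theorem ev (h : RepM Φ f) : (gdr p).eM Φ = f p.1 p.2 := by
  ext a b; exact (h a b).ev

theorem congr (h : RepM Φ f) (e : ∀ᶠ q in past p, g q.1 q.2 = f q.1 q.2) : RepM Φ g :=
  fun a b => (h a b).congr (e.mono fun _ hq => by simp only [hq])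

theorem congr' (h : RepM Φ f) (e : ∀ t z, g t z = f t z) : RepM Φ g :=
  h.congr (Eventually.of_forall fun _ => e _ _)

theorem ext (h : RepM Φ f) (h' : RepM Ψ g) (e : ∀ᶠ q in past p, f q.1 q.2 = g q.1 q.2) : Φ = Ψ := by
  ext a b
  exact (h a b).ext (h' a b) (e.mono fun _ hq => by simp only [hq])

theorem unique (h : RepM Φ f) (h' : RepM Φ g) : ∀ᶠ q in past p, f q.1 q.2 = g q.1 q.2 := by
  have : ∀ᶠ q in past p, ∀ a b, f q.1 q.2 a b = g q.1 q.2 a b :=
    eventually_all.2 fun a => eventually_all.2 fun b => (h a b).unique (h' a b)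
  exact this.mono fun q hq => Matrix.ext hq

theorem add (h : RepM Φ f) (h' : RepM Ψ g) : RepM (Φ + Ψ) fun t z => f t z + g t z :=
  fun a b => (h a b).add (h' a b)

theorem neg (h : RepM Φ f) : RepM (-Φ) fun t z => -f t z := fun a b => (h a b).neg

theorem sub (h : RepM Φ f) (h' : RepM Ψ g) : RepM (Φ - Ψ) fun t z => f t z - g t z :=
  fun a b => (h a b).sub (h' a b)

theorem mul (h : RepM Φ f) (h' : RepM Ψ g) : RepM (Φ * Ψ) fun t z => f t z * g t z :=
  fun a b => Rep.sum Finset.univ fun c => (h a c).mul (h' c b)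

theorem smul {φ : Gm p} {u : ℝ → Cn n → ℂ} (hu : Rep φ u) (h : RepM Φ f) :
    RepM (φ • Φ) fun t z => u t z • f t z := fun a b => hu.mul (h a b)


theorem transpose (h : RepM Φ f) : RepM Φᵀ fun t z => (f t z)ᵀ := fun a b => h b a

theorem cM (h : RepM Φ f) : RepM ((gdr p).cM Φ) fun t z => (f t z).map conj :=
  fun a b => (h a b).cj

theorem one : RepM (1 : Matrix (Fin n) (Fin n) (Gm p)) fun _ _ => 1 := by
  intro a b
  by_cases hab : a = b
  · subst hab
    simpa using Rep.one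
  · simpa [Matrix.one_apply_ne hab] using Rep.zero

theorem zero : RepM (0 : Matrix (Fin n) (Fin n) (Gm p)) fun _ _ => 0 := fun _ _ => Rep.zero

theorem d (h : RepM Φ f) (k : Fin n) :
    RepM (dM ((gdr p).d k) Φ) fun t z => wdM (false, k) (f t) z := fun a b => (h a b).d k

theorem db (h : RepM Φ f) (k : Fin n) :
    RepM (dM ((gdr p).db k) Φ) fun t z => wdM (true, k) (f t) z := fun a b => (h a b).db k

theorem D (h : RepM Φ f) : RepM (dM (gdr p).D Φ)
    fun t z => Matrix.of fun a b => derivWithin (fun s => f s z a b) (Iic p.1) t :=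
  fun a b => (h a b).D

theorem D_eq (h : RepM Φ f) (h' : RepM Ψ g) (e : ∀ᶠ q in past p, ∀ a b,
    HasDerivWithinAt (fun s => f s q.2 a b) (g q.1 q.2 a b) (Iic p.1) q.1) : dM (gdr p).D Φ = Ψ := by
  ext a b
  exact (h a b).D_eq (h' a b) (e.mono fun _ hq => hq a b)

theorem trace (h : RepM Φ f) : Rep Φ.trace fun t z => (f t z).trace :=
  Rep.sum Finset.univ fun a => h a a

theorem det (h : RepM Φ f) : Rep Φ.det fun t z => (f t z).det := by
  rw [Matrix.det_apply']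
  refine (Rep.sum Finset.univ fun σ : Equiv.Perm (Fin n) =>
    (Rep.const (p := p) ((Equiv.Perm.sign σ : ℤ) : ℂ)).mul
      (Rep.prod Finset.univ fun i => h (σ i) i)).congr' (fun t z => Matrix.det_apply' _) |>
    fun h => ?_
  simpa only [map_intCast] using h

theorem bf (h : RepM Φ f) {x y : Fin n → Gm p} {u v : Fin n → ℝ → Cn n → ℂ}
    (hx : ∀ a, Rep (x a) (u a)) (hy : ∀ a, Rep (y a) (v a)) :
    Rep ((gdr p).bf Φ x y) fun t z => ∑ a, ∑ b, f t z a b * u a t z * conj (v b t z) := by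
  rw [DR.bf_eq]
  exact (Rep.sum Finset.univ fun a => Rep.sum Finset.univ fun b =>
    ((hx a).mul (hy b).cj).mul (h a b)).congr' fun t z =>
      Finset.sum_congr rfl fun a _ => Finset.sum_congr rfl fun b _ => by ring

/-- a Hermitian field gives a Hermitian matrix of germs -/
theorem herm (h : RepM Φ f) (e : ∀ᶠ q in past p, (f q.1 q.2).IsHermitian) : (gdr p).cM Φ = Φᵀ :=
  h.cM.ext h.transpose (e.mono fun q hq => by
    ext a b
    exact hq.apply b a)

end RepM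

/-- the matrix of germs of a smooth matrix field -/
def mkM {f : ℝ → Cn n → Mat n} (h : ∀ a b, SmP p fun t z => f t z a b) :
    Matrix (Fin n) (Fin n) (Gm p) := Matrix.of fun a b => mk (h a b)

theorem rep_mkM {f : ℝ → Cn n → Mat n} (h : ∀ a b, SmP p fun t z => f t z a b) :
    RepM (mkM h) f := fun a b => (h a b).rep

/-! ### Kaehler families -/

/-- a smooth family of Kaehler metrics near `p`, in the past -/
structure KahP (g : ℝ → Cn n → Mat n) (p : ℝ × Cn n) : Prop where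
  sm : ∀ a b, SmP p fun t z => g t z a b
  pos : ∀ᶠ q in past p, (g q.1 q.2).PosDef
  closed : ∀ᶠ q in past p, ∀ a b c,
    wd (false, c) (fun y => g q.1 y a b) q.2 = wd (false, a) (fun y => g q.1 y c b) q.2

/-- Kaehler-Ricci flow near `p`, in the past -/
structure KRFp (g : ℝ → Cn n → Mat n) (p : ℝ × Cn n) : Prop extends KahP g p where
  flow : ∀ᶠ q in past p, ∀ a b,
    HasDerivWithinAt (fun s => g s q.2 a b) (hess (ldet (g q.1)) q.2 a b) (Iic p.1) q.1

theorem _root_.Crest.Agent.T223.KRFat.krfp {g : ℝ → Cn n → Mat n} {t : ℝ} {z : Cn n}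
    (h : KRFat g t z) : KRFp g (t, z) where
  sm a b := SmP.of_contDiffAt (h.sm a b)
  pos := nhdsWithin_le_nhds h.pos
  closed := nhdsWithin_le_nhds h.closed
  flow := nhdsWithin_le_nhds (h.flow.mono fun _ hq a b => (hq a b).hasDerivWithinAt)


/-- the heat operator with the left time derivative -/
def boxp (g : ℝ → Cn n → Mat n) (φ : ℝ → Cn n → ℝ) (t : ℝ) (z : Cn n) : ℝ :=
  derivWithin (fun s => φ s z) (Iic t) t - lap (g t) (φ t) z

theorem boxp_eq_box {g : ℝ → Cn n → Mat n} {φ : ℝ → Cn n → ℝ} {t : ℝ} {z : Cn n}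
    (h : DifferentiableAt ℝ (fun s => φ s z) t) : boxp g φ t z = box g φ t z := by
  rw [boxp, box, h.derivWithin (uniqueDiffOn_Iic t t self_mem_Iic)]

theorem boxp_eq_box' {g : ℝ → Cn n → Mat n} {φ : ℝ → Cn n → ℝ} {t : ℝ} {z : Cn n}
    (h : DifferentiableAt ℝ (fun q : ℝ × Cn n => φ q.1 q.2) (t, z)) :
    boxp g φ t z = box g φ t z :=
  boxp_eq_box (h.comp t (f := fun s : ℝ => (s, z))
    (differentiableAt_id.prodMk (differentiableAt_const z)))

namespace KahP

variable {g : ℝ → Cn n → Mat n} (h : KahP g p)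

include h

theorem pd : (g p.1 p.2).PosDef := h.pos.self_of_nhdsWithin (mem_Pa p)

/-- the metric over the ring of germs -/
def km : KM (gdr p) where
  g := mkM h.sm
  gi := (mkM h.sm)⁻¹
  inv := (gdr p).mul_inv (by rw [(rep_mkM h.sm).ev]; exact h.pd.det_pos.ne')
  herm := (rep_mkM h.sm).herm (h.pos.mono fun _ hq => hq.1)
  pos v := by
    choose u hu using fun a => exists_rep (v a)
    refine ((rep_mkM h.sm).bf hu hu).pos ?_
    filter_upwards [h.pos] with q hq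
    have := hq.posSemidef.dotProduct_mulVec_nonneg fun a => conj (u a q.1 q.2)
    refine le_of_le_of_eq (Complex.nonneg_iff.1 this).1 ?_
    congr 1
    simp only [dotProduct, Matrix.mulVec, Pi.star_apply, Finset.mul_sum, RCLike.star_def,
      Complex.conj_conj]
    exact Finset.sum_congr rfl fun a _ => Finset.sum_congr rfl fun b _ => by ring
  pd := by rw [(rep_mkM h.sm).ev]; exact h.pd
  closed a b c := ((rep_mkM h.sm a b).d c).ext ((rep_mkM h.sm c b).d a)
    (h.closed.mono fun _ hq => hq a b c)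

theorem rep_g : RepM h.km.g g := rep_mkM h.sm

theorem rep_gi : RepM h.km.gi fun t z => (g t z)⁻¹ := by
  choose f hf using fun a b => exists_rep (h.km.gi a b)
  have h1 : RepM h.km.gi fun t z => Matrix.of fun a b => f a b t z := hf
  refine h1.congr ?_
  have h2 := h.rep_g.mul h1
  rw [h.km.inv] at h2
  filter_upwards [h2.unique RepM.one] with q hq
  exact Matrix.inv_eq_right_inv hq

theorem rep_tr {Φ : Matrix (Fin n) (Fin n) (Gm p)} {f : ℝ → Cn n → Mat n} (hf : RepM Φ f) :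
    Rep (h.km.tr Φ) fun t z => ((g t z)⁻¹ * f t z).trace := (h.rep_gi.mul hf).trace

theorem cj_tr {Φ : Matrix (Fin n) (Fin n) (Gm p)} (hΦ : (gdr p).cM Φ = Φᵀ) :
    (gdr p).cj (h.km.tr Φ) = h.km.tr Φ := by
  have : (gdr p).cj (h.km.gi * Φ).trace = ((gdr p).cM (h.km.gi * Φ)).trace := by
    simp [Matrix.trace, map_sum]
  unfold KM.tr
  rw [this, DR.cM_mul, hΦ, h.km.herm_gi, ← Matrix.transpose_mul, Matrix.trace_transpose,
    Matrix.trace_mul_comm]

theorem rep_trg {Φ : Matrix (Fin n) (Fin n) (Gm p)} {f : ℝ → Cn n → Mat n} (hf : RepM Φ f)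
    (hΦ : (gdr p).cM Φ = Φᵀ) : Rep (h.km.tr Φ) fun t z => (trg (g t z) (f t z) : ℂ) :=
  (h.rep_tr hf).re_of_cj (h.cj_tr hΦ)

theorem rep_ip {Φ Ψ : Matrix (Fin n) (Fin n) (Gm p)} {f f' : ℝ → Cn n → Mat n} (hf : RepM Φ f)
    (hf' : RepM Ψ f') :
    Rep (ip h.km Φ Ψ) fun t z => ((g t z)⁻¹ * f t z * (g t z)⁻¹ * f' t z).trace :=
  (((h.rep_gi.mul hf).mul h.rep_gi).mul hf').trace

theorem rep_Th (c d : Fin n) :
    RepM (Th ((gdr p).d c) ((gdr p).db d) h.km.g h.km.gi) fun t z => Rm (g t) z c d :=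
  ((h.rep_g.db d).d c).neg.add (((h.rep_g.d c).mul h.rep_gi).mul (h.rep_g.db d))

theorem rep_det : Rep h.km.g.det fun t z => ((g t z).det.re : ℂ) := by
  refine h.rep_g.det.congr ?_
  filter_upwards [h.pos] with q hq
  exact Complex.ext rfl (Complex.pos_iff.1 hq.det_pos).2

theorem det_pos : ∀ᶠ q in past p, 0 < (g q.1 q.2).det.re :=
  h.pos.mono fun _ hq => (Complex.pos_iff.1 hq.det_pos).1

theorem smP_ldet : SmP p fun t z => ldet (g t) z :=
  h.rep_det.sm.re.comp (F := Real.log)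
    (Real.contDiffAt_log.2 (h.det_pos.self_of_nhdsWithin (mem_Pa p)).ne')

/-- the germ of `log det g` -/
def ld : Gm p := Cn.mk h.smP_ldet.ofReal

theorem rep_ldet : Rep h.ld fun t z => (ldet (g t) z : ℂ) := h.smP_ldet.ofReal.rep

theorem ld_der : (∀ k, (gdr p).d k h.ld = be h.km ((gdr p).d k)) ∧
    (∀ k, (gdr p).db k h.ld = be h.km ((gdr p).db k)) ∧ (gdr p).D h.ld = be h.km (gdr p).D := by
  have h0 := (h.det_pos.self_of_nhdsWithin (mem_Pa p)).ne'
  have hi : SmP p fun t z => (((g t z).det.re⁻¹ : ℝ) : ℂ) :=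
    (h.rep_det.sm.re.comp (F := fun x => x⁻¹) (contDiffAt_inv ℝ h0)).ofReal
  have hc := Rep.chain (F := Real.log) (F' := fun x => x⁻¹) h.rep_det
    ((eventually_ne_nhds h0).mono fun x hx => Real.hasDerivAt_log hx) h.rep_ldet hi.rep
  have h1 : Cn.mk hi * h.km.g.det = 1 := (hi.rep.mul h.rep_det).ext Rep.one
    (h.det_pos.mono fun q hq => by
      rw [← Complex.ofReal_mul, inv_mul_cancel₀ hq.ne', Complex.ofReal_one])
  refine ⟨fun k => ?_, fun k => ?_, ?_⟩
  · rw [hc.1, D_det_km, ← mul_assoc, h1, one_mul]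
  · rw [hc.2.1, D_det_km, ← mul_assoc, h1, one_mul]
  · rw [hc.2.2, D_det_km, ← mul_assoc, h1, one_mul]

theorem hs_ld : (gdr p).hs h.ld = -h.km.ric := by
  ext k l
  rw [Matrix.neg_apply, ric_eq, neg_neg, ← h.ld_der.2.1]
  rfl

theorem rep_ric : RepM h.km.ric fun t z => ric (g t) z := by
  have := h.rep_ldet.hs.neg
  rwa [h.hs_ld, neg_neg] at this

theorem herm_hs {φ : Gm p} (hφ : (gdr p).cj φ = φ) :
    (gdr p).cM ((gdr p).hs φ) = ((gdr p).hs φ)ᵀ := by
  ext a b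
  simp only [DR.cM_apply, DR.hs, Matrix.of_apply, Matrix.transpose_apply, DR.cj_d, DR.cj_db, hφ,
    DR.ddb]

theorem herm_ric : (gdr p).cM h.km.ric = h.km.ricᵀ := by
  have := h.herm_hs h.rep_ldet.cj_real
  rw [h.hs_ld] at this
  ext a b
  have h1 := congrFun (congrFun this a) b
  simp only [DR.cM_apply, Matrix.neg_apply, map_neg, Matrix.transpose_apply, neg_inj] at h1
  exact h1

theorem rep_scal : Rep (sc h.km) fun t z => (scal (g t) z : ℂ) := h.rep_trg h.rep_ric h.herm_ric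

theorem rep_lap {φ : Gm p} {u : ℝ → Cn n → ℝ} (hu : Rep φ fun t z => (u t z : ℂ)) :
    Rep (h.km.lap φ) fun t z => (lap (g t) (u t) z : ℂ) :=
  h.rep_trg hu.hs (h.herm_hs hu.cj_real)

theorem rep_g2 {φ ψ : Gm p} {u v : ℝ → Cn n → ℝ} (hu : Rep φ fun t z => (u t z : ℂ))
    (hv : Rep ψ fun t z => (v t z : ℂ)) : Rep (g2 h.km φ ψ)
      fun t z => ∑ a, ∑ b, (g t z)⁻¹ b a * dz (u t) z a * conj (dz (v t) z b) := by
  rw [g2_eq]
  exact (Rep.sum Finset.univ fun a => Rep.sum Finset.univ fun b =>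
    (h.rep_gi b a).mul ((hu.dz a).mul (hv.dzb b))).congr' fun t z =>
      Finset.sum_congr rfl fun a _ => Finset.sum_congr rfl fun b _ => mul_assoc _ _ _

theorem rep_gsq {φ : Gm p} {u : ℝ → Cn n → ℝ} (hu : Rep φ fun t z => (u t z : ℂ)) :
    Rep (g2 h.km φ φ) fun t z => (gsq (g t) (u t) z : ℂ) :=
  (h.rep_g2 hu hu).re_of_cj (by rw [cj_g2, hu.cj_real])

theorem rep_nabRic (k : Fin n) :
    RepM (dM ((gdr p).d k) h.km.ric - dM ((gdr p).d k) h.km.g * h.km.gi * h.km.ric)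
      fun t z => nabRic (g t) z k :=
  (h.rep_ric.d k).sub (((h.rep_g.d k).mul h.rep_gi).mul h.rep_ric)

theorem rep_bx {φ : Gm p} {u : ℝ → Cn n → ℝ} (hu : Rep φ fun t z => (u t z : ℂ)) :
    Rep (bx h.km φ) fun t z =>
      ((derivWithin (fun s => u s z) (Iic p.1) t - lap (g t) (u t) z : ℝ) : ℂ) :=
  (hu.D_real.sub (h.rep_lap hu)).congr' fun _ _ => Complex.ofReal_sub _ _

theorem ev_bx {φ : Gm p} {u : ℝ → Cn n → ℝ} (hu : Rep φ fun t z => (u t z : ℂ)) :
    (gdr p).ev (bx h.km φ) = (boxp g u p.1 p.2 : ℝ) := (h.rep_bx hu).ev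








end KahP

namespace KRFp

variable {g : ℝ → Cn n → Mat n} (h : KRFp g p)

include h

theorem flow0 : h.toKahP.km.Flow 0 := by
  unfold KM.Flow
  rw [Complex.ofReal_zero, zero_smul, neg_zero, zero_sub, ← h.toKahP.hs_ld]
  exact h.toKahP.rep_g.D_eq h.toKahP.rep_ldet.hs h.flow

theorem rep_ricT : RepM (dM (gdr p).D h.toKahP.km.ric) fun t z => hess (scal (g t)) z := by
  rw [D_ric h.flow0]
  exact h.toKahP.rep_scal.hs

end KRFp

/-! ### two-sided smoothness -/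

section two

variable {g : ℝ → Cn n → Mat n}

theorem cda_wd {f : ℝ → Cn n → ℂ} (hf : ContDiffAt ℝ ∞ (fun q : ℝ × Cn n => f q.1 q.2) p)
    (s : WI n) : ContDiffAt ℝ ∞ (fun q : ℝ × Cn n => wd s (f q.1) q.2) p := by
  have h1 : ContDiffAt ℝ ∞ (Function.uncurry fun (x : ℝ × Cn n) (y : Cn n) => f x.1 y) (p, p.2) :=
    ContDiffAt.comp (g := fun q : ℝ × Cn n => f q.1 q.2)
      (f := fun w : (ℝ × Cn n) × Cn n => (w.1.1, w.2)) (p, p.2) hf
      (contDiffAt_fst.fst.prodMk contDiffAt_snd)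
  exact (wdLc s).contDiff.contDiffAt.comp p (h1.fderiv (m := ∞) contDiffAt_snd (by simp))

theorem cda_cu {u : ℝ → Cn n → ℝ} (hu : ContDiffAt ℝ ∞ (fun q : ℝ × Cn n => u q.1 q.2) p) :
    ContDiffAt ℝ ∞ (fun q : ℝ × Cn n => cu (u q.1) q.2) p :=
  Complex.ofRealCLM.contDiff.contDiffAt.comp p hu

theorem cda_dz {u : ℝ → Cn n → ℝ} (hu : ContDiffAt ℝ ∞ (fun q : ℝ × Cn n => u q.1 q.2) p)
    (a : Fin n) : ContDiffAt ℝ ∞ (fun q : ℝ × Cn n => dz (u q.1) q.2 a) p :=
  cda_wd (f := fun t => cu (u t)) (cda_cu hu) _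

theorem cda_hess {u : ℝ → Cn n → ℝ} (hu : ContDiffAt ℝ ∞ (fun q : ℝ × Cn n => u q.1 q.2) p)
    (a b : Fin n) : ContDiffAt ℝ ∞ (fun q : ℝ × Cn n => hess (u q.1) q.2 a b) p :=
  cda_wd (f := fun t => wd (true, b) (cu (u t))) (cda_wd (f := fun t => cu (u t)) (cda_cu hu) _) _

theorem cda_det {E : Type*} [NormedAddCommGroup E] [NormedSpace ℝ E] {x : E} {k : WithTop ℕ∞}
    {G : E → Mat n} (h : ∀ a b, ContDiffAt ℝ k (fun q => G q a b) x) :
    ContDiffAt ℝ k (fun q => (G q).det) x := by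
  simp only [Matrix.det_apply']
  exact ContDiffAt.sum fun σ _ => contDiffAt_const.mul (contDiffAt_prod fun i _ => h _ _)

theorem cda_inv {E : Type*} [NormedAddCommGroup E] [NormedSpace ℝ E] {x : E} {k : WithTop ℕ∞}
    {G : E → Mat n} (h : ∀ a b, ContDiffAt ℝ k (fun q => G q a b) x) (h0 : (G x).det ≠ 0)
    (a b : Fin n) : ContDiffAt ℝ k (fun q => (G q)⁻¹ a b) x := by
  simp only [Matrix.inv_def, Ring.inverse_eq_inv', Matrix.smul_apply, smul_eq_mul,
    Matrix.adjugate_apply]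
  refine ((cda_det h).inv h0).mul (cda_det fun i j => ?_)
  simp only [Matrix.updateRow_apply]
  split_ifs
  · exact contDiffAt_const
  · exact h _ _

theorem cda_mul {E : Type*} [NormedAddCommGroup E] [NormedSpace ℝ E] {x : E} {k : WithTop ℕ∞}
    {G H : E → Mat n} (h : ∀ a b, ContDiffAt ℝ k (fun q => G q a b) x)
    (h' : ∀ a b, ContDiffAt ℝ k (fun q => H q a b) x) (a b : Fin n) :
    ContDiffAt ℝ k (fun q => (G q * H q) a b) x := by
  simp only [Matrix.mul_apply]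
  exact ContDiffAt.sum fun c _ => (h a c).mul (h' c b)

theorem cda_trg {E : Type*} [NormedAddCommGroup E] [NormedSpace ℝ E] {x : E} {k : WithTop ℕ∞}
    {G H : E → Mat n} (h : ∀ a b, ContDiffAt ℝ k (fun q => G q a b) x) (h0 : (G x).det ≠ 0)
    (h' : ∀ a b, ContDiffAt ℝ k (fun q => H q a b) x) :
    ContDiffAt ℝ k (fun q => trg (G q) (H q)) x :=
  Complex.reCLM.contDiff.contDiffAt.comp x
    (ContDiffAt.sum fun a _ => cda_mul (cda_inv h h0) h' a a)

theorem cda_ldet (h : ∀ a b, ContDiffAt ℝ ∞ (fun q : ℝ × Cn n => g q.1 q.2 a b) p)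
    (h0 : (g p.1 p.2).PosDef) : ContDiffAt ℝ ∞ (fun q : ℝ × Cn n => ldet (g q.1) q.2) p :=
  (Complex.reCLM.contDiff.contDiffAt.comp p (cda_det h)).log (Complex.pos_iff.1 h0.det_pos).1.ne'

theorem cda_ric (h : ∀ a b, ContDiffAt ℝ ∞ (fun q : ℝ × Cn n => g q.1 q.2 a b) p)
    (h0 : (g p.1 p.2).PosDef) (a b : Fin n) :
    ContDiffAt ℝ ∞ (fun q : ℝ × Cn n => ric (g q.1) q.2 a b) p :=
  (cda_hess (u := fun t => ldet (g t)) (cda_ldet h h0) a b).neg

theorem cda_scal (h : ∀ a b, ContDiffAt ℝ ∞ (fun q : ℝ × Cn n => g q.1 q.2 a b) p)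
    (h0 : (g p.1 p.2).PosDef) : ContDiffAt ℝ ∞ (fun q : ℝ × Cn n => scal (g q.1) q.2) p :=
  cda_trg h h0.det_pos.ne' (cda_ric h h0)


theorem cda_gsq (h : ∀ a b, ContDiffAt ℝ ∞ (fun q : ℝ × Cn n => g q.1 q.2 a b) p)
    (h0 : (g p.1 p.2).PosDef) {u : ℝ → Cn n → ℝ}
    (hu : ContDiffAt ℝ ∞ (fun q : ℝ × Cn n => u q.1 q.2) p) :
    ContDiffAt ℝ ∞ (fun q : ℝ × Cn n => gsq (g q.1) (u q.1) q.2) p :=
  Complex.reCLM.contDiff.contDiffAt.comp p (ContDiffAt.sum fun a _ => ContDiffAt.sum fun b _ =>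
    ((cda_inv h h0.det_pos.ne' b a).mul (cda_dz hu a)).mul
      (Complex.conjCLE.contDiff.contDiffAt.comp p (cda_dz hu b)))


theorem diff_time {W : Type*} [NormedAddCommGroup W] [NormedSpace ℝ W] {f : ℝ → Cn n → W}
    {t : ℝ} {z : Cn n} (h : ContDiffAt ℝ ∞ (fun q : ℝ × Cn n => f q.1 q.2) (t, z)) :
    DifferentiableAt ℝ (fun s => f s z) t :=
  (h.differentiableAt (by simp)).comp t (f := fun s : ℝ => (s, z))
    (differentiableAt_id.prodMk (differentiableAt_const z))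

end two

/-- `∂_t Ric` of the frame is the value of the ring derivative -/
theorem _root_.Crest.Agent.T223.KRFat.ricT_eq {g : ℝ → Cn n → Mat n} {t : ℝ} {z : Cn n}
    (h : KRFat g t z) :
    ricT g t z = (gdr (t, z)).eM (dM (gdr (t, z)).D h.krfp.toKahP.km.ric) := by
  rw [h.krfp.toKahP.rep_ric.D.ev]
  ext a b
  exact ((diff_time (f := fun s y => ric (g s) y a b)
    (cda_ric h.sm h.pos.self_of_nhds a b)).derivWithin (uniqueDiffOn_Iic t t self_mem_Iic)).symm

/-- `∂_t Ric = ∂∂̄ R` -/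
theorem _root_.Crest.Agent.T223.KRFat.ricT_eq_hess {g : ℝ → Cn n → Mat n} {t : ℝ} {z : Cn n}
    (h : KRFat g t z) : ricT g t z = hess (scal (g t)) z := by
  rw [h.ricT_eq, h.krfp.rep_ricT.ev]


end

end Crest.Agent.T223.Cn
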