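import Crest.Agent.T223.OsKitA_61
import Crest.Agent.T223.CnD_41
import Crest.Agent.T223.LoCal_18

/-!
# Row 223, module OSG, kit B (helper61): time dependent calculus up to the end points

* `cdo_*`, `Fam I D g` : joint smoothness on `I ×ˢ D`, `D` open, `I` arbitrary
* `FlowOn.fam`, `FlowOn.smST_Sc/lv/Gr/lap`, `SmST` algebra, continuity
* local readings, `ev_past`, time derivatives, `mono`, `of_eq`, pull-backs of flows
-/

set_option autoImplicit false
set_option linter.unusedSectionVars false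

open Set Filter Topology Metric
open scoped ContDiff ComplexConjugate Matrix ComplexOrder

namespace Crest.Agent.T223.Os

open Crest.Agent.R275.Geo Crest.Agent.R273.Kah_333 Crest.Agent.R273.Hess_333
open Crest.Agent.R273.HessB_333 Crest.Agent.R275.EDR890
open Crest.Agent.R275.Core144 (Jm)
open Crest.Agent.T223.Br Crest.Agent.T223.Tr
open Crest.Agent.T223.Db (dom SmST)

noncomputable section

variable {n : ℕ}

/-! ### matrices on a set -/

section mat

variable {X : Type*} [NormedAddCommGroup X] [NormedSpace ℝ X] {S : Set X} {G H : X → Mat n}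

theorem cdo_mul (hG : ∀ a b, ContDiffOn ℝ ∞ (fun q => G q a b) S)
    (hH : ∀ a b, ContDiffOn ℝ ∞ (fun q => H q a b) S) (a b : Fin n) :
    ContDiffOn ℝ ∞ (fun q => (G q * H q) a b) S := by
  simp only [Matrix.mul_apply]
  exact ContDiffOn.sum fun c _ => (hG a c).mul (hH c b)

theorem cdo_det (hG : ∀ a b, ContDiffOn ℝ ∞ (fun q => G q a b) S) :
    ContDiffOn ℝ ∞ (fun q => (G q).det) S := by
  simp only [Matrix.det_apply']
  exact ContDiffOn.sum fun σ _ => contDiffOn_const.mul (contDiffOn_prod fun i _ => hG _ _)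

theorem cdo_inv (hG : ∀ a b, ContDiffOn ℝ ∞ (fun q => G q a b) S) (h0 : ∀ q ∈ S, (G q).det ≠ 0)
    (a b : Fin n) : ContDiffOn ℝ ∞ (fun q => (G q)⁻¹ a b) S := by
  simp only [Matrix.inv_def, Ring.inverse_eq_inv', Matrix.smul_apply, smul_eq_mul,
    Matrix.adjugate_apply]
  refine ((cdo_det hG).inv h0).mul (cdo_det fun c d => ?_)
  simp only [Matrix.updateRow_apply]
  split_ifs
  · exact contDiffOn_const
  · exact hG c d

theorem cdo_re {f : X → ℂ} (h : ContDiffOn ℝ ∞ f S) : ContDiffOn ℝ ∞ (fun q => (f q).re) S :=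
  Complex.reCLM.contDiff.comp_contDiffOn h


theorem cdo_ofReal {f : X → ℝ} (h : ContDiffOn ℝ ∞ f S) : ContDiffOn ℝ ∞ (fun q => (f q : ℂ)) S :=
  Complex.ofRealCLM.contDiff.comp_contDiffOn h

theorem cdo_trg (hG : ∀ a b, ContDiffOn ℝ ∞ (fun q => G q a b) S) (h0 : ∀ q ∈ S, (G q).det ≠ 0)
    (hH : ∀ a b, ContDiffOn ℝ ∞ (fun q => H q a b) S) :
    ContDiffOn ℝ ∞ (fun q => trg (G q) (H q)) S :=
  cdo_re (ContDiffOn.sum fun a _ => cdo_mul (cdo_inv hG h0) hH a a)

end mat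

section cont

variable {X : Type*} [TopologicalSpace X] {S : Set X} {H : X → Mat n} {v : X → Cn n}




end cont

/-! ### space derivatives on `I ×ˢ D` -/

section cdo

variable {I : Set ℝ} {D : Set (Cn n)}

theorem cdo_fderiv {W : Type*} [NormedAddCommGroup W] [NormedSpace ℝ W] {F : ℝ → Cn n → W}
    (hD : IsOpen D) (h : ContDiffOn ℝ ∞ (fun q : ℝ × Cn n => F q.1 q.2) (I ×ˢ D)) :
    ContDiffOn ℝ ∞ (fun q : ℝ × Cn n => fderiv ℝ (F q.1) q.2) (I ×ˢ D) := by
  intro q hq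
  have h1 : ContDiffWithinAt ℝ ∞ (Function.uncurry fun (x : ℝ × Cn n) (y : Cn n) => F x.1 y)
      ((I ×ˢ D) ×ˢ D) (q, q.2) :=
    ContDiffWithinAt.comp (g := fun q : ℝ × Cn n => F q.1 q.2)
      (f := fun w : (ℝ × Cn n) × Cn n => (w.1.1, w.2)) (q, q.2) (h q hq)
      (contDiff_fst.fst.prodMk contDiff_snd).contDiffWithinAt fun w hw => ⟨hw.1.1, hw.2⟩
  have h2 := h1.fderivWithin (m := ∞) contDiffWithinAt_snd hD.uniqueDiffOn (by simp) hq
    fun w hw => hw.2
  exact h2.congr (fun w hw => (fderivWithin_of_isOpen hD hw.2).symm)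
    (fderivWithin_of_isOpen hD hq.2).symm

theorem cdo_wd {F : ℝ → Cn n → ℂ} (hD : IsOpen D)
    (h : ContDiffOn ℝ ∞ (fun q : ℝ × Cn n => F q.1 q.2) (I ×ˢ D)) (s : WI n) :
    ContDiffOn ℝ ∞ (fun q : ℝ × Cn n => wd s (F q.1) q.2) (I ×ˢ D) := by
  have h1 := (wdLc (W := ℂ) s).contDiff.comp_contDiffOn (cdo_fderiv hD h)
  exact h1


theorem cdo_hess {φ : ℝ → Cn n → ℝ} (hD : IsOpen D)
    (h : ContDiffOn ℝ ∞ (fun q : ℝ × Cn n => φ q.1 q.2) (I ×ˢ D)) (a b : Fin n) :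
    ContDiffOn ℝ ∞ (fun q : ℝ × Cn n => hess (φ q.1) q.2 a b) (I ×ˢ D) :=
  cdo_wd (F := fun t => wd (true, b) (cu (φ t))) hD
    (cdo_wd (F := fun t => cu (φ t)) hD (cdo_ofReal h) _) _


theorem cdo_line {W : Type*} [NormedAddCommGroup W] [NormedSpace ℝ W] {F : ℝ → Cn n → W}
    (h : ContDiffOn ℝ ∞ (fun q : ℝ × Cn n => F q.1 q.2) (I ×ˢ D)) {z : Cn n} (hz : z ∈ D) :
    ContDiffOn ℝ ∞ (fun s => F s z) I :=
  h.comp (contDiff_id.prodMk contDiff_const).contDiffOn fun _ hs => ⟨hs, hz⟩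

/-- a smooth family of positive matrices on `I ×ˢ D` -/
structure Fam (I : Set ℝ) (D : Set (Cn n)) (g : ℝ → Cn n → Mat n) : Prop where
  op : IsOpen D
  sm : ∀ a b, ContDiffOn ℝ ∞ (fun q : ℝ × Cn n => g q.1 q.2 a b) (I ×ˢ D)
  pos : ∀ q ∈ I ×ˢ D, (g q.1 q.2).PosDef

namespace Fam

variable {g : ℝ → Cn n → Mat n} (h : Fam I D g) {φ : ℝ → Cn n → ℝ}

include h

theorem det_ne : ∀ q ∈ I ×ˢ D, (g q.1 q.2).det ≠ 0 := fun q hq => (h.pos q hq).det_pos.ne'

theorem inv (a b : Fin n) : ContDiffOn ℝ ∞ (fun q : ℝ × Cn n => (g q.1 q.2)⁻¹ a b) (I ×ˢ D) :=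
  cdo_inv h.sm h.det_ne a b

theorem ldet : ContDiffOn ℝ ∞ (fun q : ℝ × Cn n => ldet (g q.1) q.2) (I ×ˢ D) :=
  (cdo_re (cdo_det h.sm)).log fun q hq => (det_re_pos (h.pos q hq)).ne'

theorem ric (a b : Fin n) : ContDiffOn ℝ ∞ (fun q : ℝ × Cn n => ric (g q.1) q.2 a b) (I ×ˢ D) :=
  (cdo_hess (φ := fun t => T223.ldet (g t)) h.op h.ldet a b).neg






theorem lap (hφ : ContDiffOn ℝ ∞ (fun q : ℝ × Cn n => φ q.1 q.2) (I ×ˢ D)) :
    ContDiffOn ℝ ∞ (fun q : ℝ × Cn n => lap (g q.1) (φ q.1) q.2) (I ×ˢ D) :=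
  cdo_trg h.sm h.det_ne (cdo_hess h.op hφ)


variable {X : Type*} [TopologicalSpace X] {S : Set X} {q : X → ℝ × Cn n}
  (hq : ContinuousOn q S) (hm : MapsTo q S (I ×ˢ D)) {a v : X → Cn n}

include hq hm






end Fam

end cdo

/-! ### `SmST` -/

variable {M : Type} [TopologicalSpace M] {A : Atl n M} {U W : Set M} {i j : A.ι} {x : M}
  {a b s : ℝ} {I J : Set ℝ} {g : ℝ → MF A} {f f' : ℝ → M → ℝ}

theorem smST_mono (h : SmST A I W f) (hI : J ⊆ I) (hU : U ⊆ W) : SmST A J U f :=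
  fun i => (h i).mono (prod_mono hI (dom_mono i hU))

theorem smST_congr (h : SmST A I U f) (e : ∀ s ∈ I, ∀ x ∈ U, f' s x = f s x) : SmST A I U f' :=
  fun i => (h i).congr fun q hq => e _ hq.1 _ hq.2.2

theorem smST_const (c : ℝ) : SmST A I U fun _ _ => c := fun _ => contDiffOn_const



theorem smST_add (h : SmST A I U f) (h' : SmST A I U f') : SmST A I U fun s x => f s x + f' s x :=
  fun i => (h i).add (h' i)

theorem smST_sub (h : SmST A I U f) (h' : SmST A I U f') : SmST A I U fun s x => f s x - f' s x :=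
  fun i => (h i).sub (h' i)

theorem smST_mul (h : SmST A I U f) (h' : SmST A I U f') : SmST A I U fun s x => f s x * f' s x :=
  fun i => (h i).mul (h' i)



theorem smST_comp {F : ℝ → ℝ} (hF : ContDiff ℝ ∞ F) (h : SmST A I U f) :
    SmST A I U fun s x => F (f s x) := fun i => hF.comp_contDiffOn (h i)

/-- the cylinder is a neighbourhood of its interior points -/
theorem cyl_nhds (hU : IsOpen U) (hs : s ∈ Ioo a b) (hx : x ∈ U) (hi : x ∈ (A.e i).source) :
    Ioo a b ×ˢ dom A i U ∈ 𝓝 (s, A.e i x) :=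
  prod_mem_nhds (Ioo_mem_nhds hs.1 hs.2) (dom_nhds hU hi hx)

theorem cyl_nhds' (hU : IsOpen U) (hs : s ∈ Ioo a b) (hx : x ∈ U) (hi : x ∈ (A.e i).source) :
    Icc a b ×ˢ dom A i U ∈ 𝓝 (s, A.e i x) :=
  mem_of_superset (cyl_nhds hU hs hx hi) (prod_mono Ioo_subset_Icc_self Subset.rfl)

theorem cdo_ev {V : Type*} [NormedAddCommGroup V] [NormedSpace ℝ V] {F : ℝ × Cn n → V}
    (h : ContDiffOn ℝ ∞ F (Icc a b ×ˢ dom A i U)) (hU : IsOpen U) (hs : s ∈ Ioo a b) (hx : x ∈ U)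
    (hi : x ∈ (A.e i).source) : ∀ᶠ q in 𝓝 (s, A.e i x), ContDiffAt ℝ ∞ F q := by
  filter_upwards [eventually_eventually_nhds.2 (cyl_nhds' hU hs hx hi)] with q hq
  exact h.contDiffAt hq




theorem smST_line (h : SmST A I U f) (hx : x ∈ U) : ContDiffOn ℝ ∞ (fun s => f s x) I := by
  have h1 := cdo_line (F := fun s => inC A (ch A x) (f s)) (h _) (mem_dom (ch_mem A x) hx)
  simpa only [inC_apply _ (ch_mem A x)] using h1

theorem smST_diff (h : SmST A (Icc a b) U f) (hs : s ∈ Ioo a b) (hx : x ∈ U) :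
    DifferentiableAt ℝ (fun s => f s x) s :=
  ((smST_line h hx).contDiffAt (Icc_mem_nhds hs.1 hs.2)).differentiableAt (by simp)





theorem box_inC (g : ℝ → MF A) (f : ℝ → M → ℝ) (s : ℝ) (hi : x ∈ (A.e i).source) :
    box (fun s => g s i) (fun s => inC A i (f s)) s (A.e i x) =
      deriv (fun s => f s x) s - lap (g s i) (inC A i (f s)) (A.e i x) := by
  simp only [box, inC_apply _ hi]


/-! ### static readings on the domain of a chart -/

section read

variable {G : MF A} (hG : KahOn G U) (hU : IsOpen U) {z : Cn n} (hz : z ∈ dom A i U)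

include hG hU hz




end read


/-! ### flows -/

namespace FlowOn

variable (h : FlowOn a b U g)

include h

theorem mono {a' b' : ℝ} (ha : a ≤ a') (hb : b' ≤ b) (hW : W ⊆ U) : FlowOn a' b' W g :=
  ⟨fun i k l => (h.sm i k l).mono (prod_mono (Icc_subset_Icc ha hb) (dom_mono i hW)),
    fun s hs => (h.kah s (Icc_subset_Icc ha hb hs)).mono hW,
    fun s hs i x hi hx => h.krf s (Ioo_subset_Ioo ha hb hs) i x hi (hW hx)⟩

theorem fam (hU : IsOpen U) (i : A.ι) : Fam (Icc a b) (dom A i U) fun s => g s i :=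
  ⟨isOpen_dom i hU, h.sm i, fun q hq => (kahAt_dom (h.kah q.1 hq.1) hq.2).posDef⟩


theorem congr {g' : ℝ → MF A} (hU : IsOpen U) (e : ∀ s ∈ Icc a b, EqF (g' s) (g s) U) :
    FlowOn a b U g' := by
  have e' : ∀ i, ∀ q ∈ Icc a b ×ˢ dom A i U, g' q.1 i q.2 = g q.1 i q.2 := fun i q hq => by
    have h1 := e q.1 hq.1 i _ (dom_src hq.2) hq.2.2
    rwa [dom_inv hq.2] at h1
  refine ⟨fun i k l => (h.sm i k l).congr fun q hq => by simp only [e' i q hq],
    fun s hs => (e s hs).kahOn hU (h.kah s hs), fun s hs i x hi hx => ?_⟩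
  exact (h.krf s hs i x hi hx).congr (mem_of_superset (cyl_nhds' hU hs hx hi) (e' i))











section contM

variable (hU : IsOpen U) {X : Type*} [TopologicalSpace X] {S : Set X} {q : X → ℝ × M}
  (hq : ContinuousOn q S) (hm : MapsTo q S (Icc a b ×ˢ ((A.e i).source ∩ U))) {c v : X → Cn n}

include hU hq hm






end contM

section ev

variable (hU : IsOpen U) (hs : s ∈ Ioo a b) (hx : x ∈ U) (hi : x ∈ (A.e i).source)

include hU hs hx hi




theorem box_chg (hj : x ∈ (A.e j).source) (hf : SmOn A U (f s)) :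
    box (fun s => g s i) (fun s => inC A i (f s)) s (A.e i x) =
      box (fun s => g s j) (fun s => inC A j (f s)) s (A.e j x) := by
  rw [box_inC g f s hi, box_inC g f s hj,
    lap_chg (h.kah s (Ioo_subset_Icc_self hs)) hU hx hi hj (hf.contDiffAt hU hj hx)]

end ev






section pull

variable {ψ : Cn n → M} {D : Set (Cn n)} {w : Cn n} (hU : IsOpen U) (hψ : Imm A ψ D)
  (hD : IsOpen D)

include hU hψ hD






end pull

end FlowOn


/-- constructor: the equation in every chart -/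
theorem FlowOn.of_eq (hU : IsOpen U)
    (sm : ∀ i k l, ContDiffOn ℝ ∞ (fun q : ℝ × Cn n => g q.1 i q.2 k l) (Icc a b ×ˢ dom A i U))
    (kah : ∀ s ∈ Icc a b, KahOn (g s) U)
    (eq : ∀ s ∈ Ioo a b, ∀ i, ∀ x ∈ (A.e i).source, x ∈ U → ∀ k l,
      HasDerivAt (fun s => g s i (A.e i x) k l) (-ric (g s i) (A.e i x) k l) s) :
    FlowOn a b U g := by
  refine ⟨sm, kah, fun s hs i x hi hx => ?_⟩
  have h1 : ∀ᶠ q : ℝ × Cn n in 𝓝 (s, A.e i x), KahAt (g q.1 i) q.2 :=
    mem_of_superset (cyl_nhds' hU hs hx hi) fun q hq => kahAt_dom (kah q.1 hq.1) hq.2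
  refine ⟨eventually_all.2 fun k => eventually_all.2 fun l => cdo_ev (sm i k l) hU hs hx hi,
    h1.mono fun _ hq => hq.posDef, h1.mono fun _ hq => hq.closed.self_of_nhds,
    h1.mono fun _ hq => hq.closed'.self_of_nhds, ?_⟩
  filter_upwards [cyl_nhds hU hs hx hi] with q hq k l
  have h2 := eq q.1 hq.1 i _ (dom_src hq.2) hq.2.2 k l
  rw [dom_inv hq.2] at h2
  exact h2.congr_deriv (by simp [ric])


namespace HeatOn

variable (h : HeatOn a b U g f)

include h

theorem mono {a' b' : ℝ} (ha : a ≤ a') (hb : b' ≤ b) (hW : W ⊆ U) : HeatOn a' b' W g f :=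
  ⟨smST_mono h.sm (Icc_subset_Icc ha hb) hW,
    fun s hs i x hi hx => h.eq s (Ioo_subset_Ioo ha hb hs) i x hi (hW hx)⟩

theorem smOn (hs : s ∈ Icc a b) : SmOn A U (f s) := smOn_of_SmST h.sm hs


theorem hasDerivAt (hs : s ∈ Ioo a b) (hx : x ∈ U) (hi : x ∈ (A.e i).source) :
    HasDerivAt (fun s => f s x) (lap (g s i) (inC A i (f s)) (A.e i x)) s := by
  have h1 := h.eq s hs i x hi hx
  rw [box_inC g f s hi, sub_eq_zero] at h1
  exact h1 ▸ (smST_diff h.sm hs hx).hasDerivAt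



end HeatOn

/-- constructor: the equation in one chart at every point -/
theorem HeatOn.of_eq (hg : FlowOn a b U g) (hU : IsOpen U) (sm : SmST A (Icc a b) U f)
    (eq : ∀ s ∈ Ioo a b, ∀ x ∈ U, ∃ i, x ∈ (A.e i).source ∧
      HasDerivAt (fun s => f s x) (lap (g s i) (inC A i (f s)) (A.e i x)) s) :
    HeatOn a b U g f := by
  refine ⟨sm, fun s hs i x hi hx => ?_⟩
  obtain ⟨j, hj, he⟩ := eq s hs x hx
  rw [hg.box_chg hU hs hx hi hj (smOn_of_SmST sm (Ioo_subset_Icc_self hs)), box_inC g f s hj,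
    he.deriv, sub_self]

theorem VOn.mono {K0 : Kah A} (h : VOn K0 a b U g f) {a' b' : ℝ} (ha : a ≤ a') (hb : b' ≤ b)
    (hW : W ⊆ U) : VOn K0 a' b' W g f :=
  ⟨smST_mono h.sm (Icc_subset_Icc ha hb) hW, fun s hs => (h.pot s (Icc_subset_Icc ha hb hs)).mono hW,
    fun s hs x hx => h.dt s (Ioo_subset_Ioo ha hb hs) x (hW hx)⟩

theorem PhiOn.mono (h : PhiOn a b U g f) {b' : ℝ} (hb : b' ≤ b) (hW : W ⊆ U) :
    PhiOn a b' W g f :=
  ⟨smST_mono h.sm (Icc_subset_Icc le_rfl hb) hW, fun x hx => h.zero x (hW hx),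
    fun s hs i x hi hx => h.pot s (Icc_subset_Icc le_rfl hb hs) i x hi (hW hx),
    fun s hs i x hi hx => h.dt s (Ioo_subset_Ioo le_rfl hb hs) i x hi (hW hx)⟩

end

end Crest.Agent.T223.Os
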