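import Crest.Agent.T223.StMAa_88
import Crest.Agent.T223.LxIS_83
import Crest.Agent.T223.LxLim_83
import Crest.Agent.T223.StUC_88
import Crest.Agent.T223.StDefB_88
import Crest.Agent.T223.OsKitB_61
import Crest.Agent.T223.LoCal_18
import Crest.Agent.T223.StDef_88
import Crest.Agent.T223.FrA_38
import Crest.Agent.T223.DbAlg_88
import Crest.Agent.T223.LxHB3_25
import Crest.Agent.T223.LxDef_83

-- ▼ part T223/StChH_88
section

/-!
# Row 223, STEP (helper88): crude bounds for the heat equation in a chart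
-/

set_option autoImplicit false
set_option linter.unusedVariables false

open Set Filter Topology Metric
open scoped ContDiff ComplexConjugate Matrix ComplexOrder

namespace Crest.Agent.T223.St.H88

open Crest.Agent.R275.Geo Crest.Agent.R275.EDR890 Crest.Agent.R273.Hess_333
open Crest.Agent.T223.Tr Crest.Agent.T223.Os
open Crest.Agent.T223.Db (eR zm rm)
open Crest.Agent.N207.P (En d1 pd Lop Yl yl_of_contDiffOn)
open Crest.Agent.T223.Lx

variable {n : ℕ}

theorem wd_sub_const (u : Cn n → ℝ) (c : ℝ) (s : WI n) :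
    wd s (cu fun w => u w - c) = wd s (cu u) := by
  funext z
  have h : (cu fun w => u w - c) = fun w => cu u w - (c : ℂ) := by
    funext w; simp [cu]
  rw [h, wd, fderiv_sub_const, wd]

theorem near_rm {δ : ℝ} (hδ : 0 < δ) :
    ∀ᶠ G in 𝓝 (1 : Mat n), ∀ k l, |rm G k l - rm (1 : Mat n) k l| ≤ δ := by
  refine eventually_all.2 fun k => eventually_all.2 fun l => ?_
  have h := (Db.cd_rm (G := fun q : ZZ n => Matrix.of q) (X := ZZ n) (s := univ) (x := (1 : Mat n))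
    (fun a b => ((contDiff_apply ℝ ℂ b).comp (contDiff_apply ℝ (Fin n → ℂ) a)).contDiffWithinAt)
    (by change (1 : Mat n).det ≠ 0; simp) k l).continuousWithinAt
  exact ((h.continuousAt univ_mem).eventually (closedBall_mem_nhds _ hδ)).mono fun G hG => hG

/-- the hypotheses -/
structure Hy (η C β : ℝ) (g : ℝ → Cn n → Mat n) (u : ℝ → Cn n → ℝ) : Prop where
  pos : 0 < β
  le : β ≤ 1
  sg : ∀ a b, ContDiffOn ℝ ∞ (fun q : ℝ × Cn n => g q.1 q.2 a b) (Icc 0 β ×ˢ ball 0 (RR n))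
  cl : ∀ s ∈ Icc 0 β, ∀ w ∈ ball (0 : Cn n) (RR n), ∀ a b, ‖g s w a b - (1 : Mat n) a b‖ ≤ η
  cb : ∀ s ∈ Icc 0 β, ∀ a b, CB (1 / 4) 5 C (rr fun w => g s w a b)
  su : ContDiffOn ℝ ∞ (fun q : ℝ × Cn n => u q.1 q.2) (Icc 0 β ×ˢ ball 0 (RR n))
  ev : ∀ s ∈ Icc 0 β, ∀ w ∈ ball (0 : Cn n) (RR n),
    HasDerivWithinAt (fun s => u s w) (lap (g s) (u s) w) (Icc 0 β) s
  du : ∀ j, 1 ≤ j → j ≤ 4 → ∀ w ∈ ball (0 : Cn n) (RR n), ‖iteratedFDeriv ℝ j (u 0) w‖ ≤ C
  os : ∀ s ∈ Icc 0 β, ∀ w ∈ ball (0 : Cn n) (RR n), |u s w - u 0 w| ≤ C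

theorem slice {V : Type*} [NormedAddCommGroup V] [NormedSpace ℝ V] {I : Set ℝ} {D : Set (Cn n)}
    {f : ℝ → Cn n → V} (h : ContDiffOn ℝ ∞ (fun q : ℝ × Cn n => f q.1 q.2) (I ×ˢ D)) {s : ℝ}
    (hs : s ∈ I) : ContDiffOn ℝ ∞ (f s) D :=
  h.comp (f := fun w : Cn n => (s, w)) (contDiffOn_const.prodMk contDiffOn_id) fun w hw => ⟨hs, hw⟩

theorem chH (h1 : LinHB (2 * n) ℝ) : ChHStmt n := by
  obtain ⟨δ, hδ, h1⟩ := h1 (rm (1 : Mat n)) (Db.rm_pos Matrix.PosDef.one)
  obtain ⟨η, hη, hE⟩ := exists_near ((near_rm (n := n) hδ).and near_det)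
  refine ⟨η, hη, fun C => ?_⟩
  let ι : Type := {p : ℝ × (ℝ → Cn n → Mat n) × (ℝ → Cn n → ℝ) // Hy η C p.1 p.2.1 p.2.2}
  let κ : Type := {p : ι × ℝ // p.2 ∈ Icc 0 p.1.1.1}
  have h42 : ball (0 : En (2 * n)) (1 / 4) ⊆ ball 0 2 := ball_subset_ball (by norm_num)
  have z0 : ∀ i : ι, (0 : ℝ) ∈ Icc 0 i.1.1 := fun i => ⟨le_rfl, i.2.pos.le⟩
  have yl : ∀ (i : ι) (j : ℕ) {f : ℝ → En (2 * n) → ℝ}, ContDiffOn ℝ ∞
      (fun q : ℝ × En (2 * n) => f q.1 q.2) (Icc 0 i.1.1 ×ˢ ball 0 2) →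
      Yl (Icc 0 i.1.1) (ball 0 (1 / 4)) j f := fun i j f h =>
    yl_of_contDiffOn isCompact_Icc (uniqueDiffOn_Icc i.2.pos) isOpen_ball
      (h.mono (prod_mono Subset.rfl h42))
  have hg : UM (1 / 4) 4 fun p : κ => p.1.1.1.2.1 p.1.2 := fun a b =>
    (ubCb (2 * n) ℂ κ (1 / 4) 4 _ fun p => (cdo_rr (slice (f := fun s w => p.1.1.1.2.1 s w a b)
      (p.1.1.2.sg a b) p.2)).mono h42).2 ⟨C, fun p => p.1.1.2.cb _ p.2 a b⟩
  have hi := UE.inv hg (c := 1 / 2) (by norm_num) fun p y hy =>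
    (hE _ (p.1.1.2.cl _ p.2 _ (symm_mem (h42 hy)))).2
  have h7 := h1 ι (1 / 4) (1 / 8) 0 (fun _ => 0) (fun i => i.1.1)
    (fun i t y => rm (rr (i.1.2.1 t) y)) (fun _ _ _ => 0)
    (fun i t => rr fun w => i.1.2.2 t w - i.1.2.2 0 0) (by norm_num) (by norm_num)
    { lt := fun i => i.2.pos
      len := fun i => by rw [sub_zero]; exact i.2.le
      uy := fun i => yl i _ (cdo_rr2 (F := fun t w => i.1.2.2 t w - i.1.2.2 0 0)
        (i.2.su.sub contDiffOn_const))
      ay := fun i k l => yl i _ fun q hq => Db.cd_rm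
        (G := fun q : ℝ × En (2 * n) => rr (i.1.2.1 q.1) q.2)
        (fun a b => cdo_rr2 (F := fun t w => i.1.2.1 t w a b) (i.2.sg a b) q hq) (fun h => by
          have h2 := (hE _ (i.2.cl _ hq.1 _ (symm_mem hq.2))).2
          rw [rr] at h
          rw [h] at h2
          norm_num at h2) k l
      fy := fun i => yl i _ contDiffOn_const
      ev := fun i t ht y hy => by
        have hw := symm_mem (h42 hy)
        refine ((i.2.ev t ht _ hw).sub_const _).congr_deriv ?_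
        beta_reduce
        rw [add_zero, lop_rm, of_Pm_d2 (((slice i.2.su ht).contDiffAt
          (isOpen_ball.mem_nhds hw)).sub contDiffAt_const), lap]
        congr 1
        ext a b
        rw [hess_apply, hess_apply, wd_sub_const]
      cl := fun i t ht y hy => (hE _ (i.2.cl _ ht _ (symm_mem (h42 hy)))).1
      ab := fun k l => by
        refine UB.of_le (Nat.zero_le 4) ?_
        simp only [rm, Matrix.of_apply, Matrix.mul_apply]
        exact ub_re (UB.sum _ fun b _ => ub_cmul (UB.sum _ fun a _ =>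
          ub_cmul (ub_const' _) (hi a b)) (ub_const' _))
      fb := ub_const' (0 : ℝ) }
    (UB.mono (by norm_num) (uc_sub_zero (F := fun i : ι => i.1.2.2 0) (fun i => slice i.2.su (z0 i))
      fun i j a1 a2 => i.2.du j a1 (by omega)))
    ⟨C + C * RR n, fun i t ht y hy => by
      have hw := symm_mem (h42 hy)
      have a1 := i.2.os t ht _ hw
      have a2 := norm_sub_zero_le (F := i.1.2.2 0) (fun w hw => ((slice i.2.su (z0 i)).contDiffAt
        (isOpen_ball.mem_nhds hw)).differentiableAt (by simp))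
        (fun w hw => by rw [← norm_iteratedFDeriv_one]; exact i.2.du 1 le_rfl (by norm_num) w hw) hw
      exact (abs_sub_le _ _ _).trans (add_le_add a1 a2)⟩
  have h8 : UC (1 / 8) 2 fun (p : κ) w => p.1.1.1.2.2 p.1.2 w - p.1.1.1.2.2 0 0 := h7
  obtain ⟨K, -, hK⟩ := UE.bdd (UC.hess (m := 0) h8)
  obtain ⟨K', hK'⟩ := (UB.clm ((PiLp.continuousLinearEquiv 2 ℝ fun _ : Fin n => ℂ).symm :
    (Fin n → ℂ) →L[ℝ] Cn n) (UB.pi fun a => UC.dz (m := 1) h8 a)).bdd
  refine ⟨max K K', fun β g u b1 b2 b3 b4 b5 b6 b7 b8 b9 s hs => ?_⟩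
  have hz : (0 : En (2 * n)) ∈ ball (0 : En (2 * n)) (1 / 8) := mem_ball_self (by norm_num)
  refine ⟨fun a b => le_max_of_le_left ?_, le_max_of_le_right ?_⟩
  · have h := hK ⟨(⟨(β, g, u), ⟨b1, b2, b3, b4, b5, b6, b7, b8, b9⟩⟩, s), hs⟩ 0 hz a b
    simp only [rr_zero, hess_apply, wd_sub_const] at h
    exact h
  · have h := hK' ⟨(⟨(β, g, u), ⟨b1, b2, b3, b4, b5, b6, b7, b8, b9⟩⟩, s), hs⟩ 0 hz
    simp only [rr_zero, dz, wd_sub_const] at h
    exact h

end Crest.Agent.T223.St.H88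
end

-- ▼ part T223/LxPic_83
section

/-!
# Row 223 (helper83): the Picard iteration in quasi-charts
-/

set_option autoImplicit false
set_option linter.unusedSectionVars false

open Set Metric Filter Topology
open scoped ContDiff

noncomputable section

namespace Crest.Agent.T223.Lx

open Crest.Agent.N207 Crest.Agent.N207.P

variable {n : ℕ} {X Z : Type} [NormedAddCommGroup Z] [NormedSpace ℝ Z]
  {a0 : Matrix (Fin n) (Fin n) ℝ} {δ K ε ρ α β : ℝ} {W : Set X} {ψ : X → En n → X}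
  {P : (Fin n → Fin n → ℝ) →L[ℝ] Z} {Sm Ad : (ℝ → X → ℝ) → Prop}
  {S Nl : (ℝ → X → ℝ) → ℝ → X → ℝ} {a : X → ℝ → En n → Matrix (Fin n) (Fin n) ℝ}
  {ζ : X → En n → ℝ} {Φ : X → ℝ → En n → Z → ℝ}

/-- the bounds carried along the iteration -/
structure Bd (α β : ℝ) (W : Set X) (ψ : X → En n → X) (N σ B : ℝ) (u : ℝ → X → ℝ) : Prop where
  wh : ∀ x ∈ W, ∀ t ∈ Icc α β, WH (ball 0 1) N (d2 fun z => u t (ψ x z))
  s2 : ∀ x ∈ W, ∀ t ∈ Icc α β, WS (ball 0 1) σ (d2 fun z => u t (ψ x z))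
  s1 : ∀ x ∈ W, ∀ t ∈ Icc α β, WS (ball 0 1) σ (d1 fun z => u t (ψ x z))
  sup : ∀ x ∈ W, ∀ t ∈ Icc α β, ∀ y ∈ ball (0 : En n) 1, |u t (ψ x y)| ≤ B

theorem Bd.mono {N σ B N' σ' B' : ℝ} {u : ℝ → X → ℝ} (h : Bd α β W ψ N σ B u) (h1 : N ≤ N')
    (h2 : σ ≤ σ') (h3 : B ≤ B') : Bd α β W ψ N' σ' B' u :=
  ⟨fun x hx t ht => (h.wh x hx t ht).mono h1, fun x hx t ht => (h.s2 x hx t ht).mono h2,
    fun x hx t ht => (h.s1 x hx t ht).mono h2, fun x hx t ht y hy => (h.sup x hx t ht y hy).trans h3⟩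

theorem Bd.ctr {N σ B : ℝ} {u : ℝ → X → ℝ} (h : Bd α β W ψ N σ B u) {x : X} (hx : x ∈ W) {t : ℝ}
    (ht : t ∈ Icc α β) : ‖d2 (fun z => u t (ψ x z)) 0‖ ≤ σ := by
  simpa using h.s2 x hx t ht 1 0 ⟨one_pos, le_rfl, Subset.rfl⟩

theorem d1_zero (y : En n) : d1 (fun _ => (0 : ℝ)) y = 0 := funext fun k => pd_const' _ _ k

theorem d2_zero (y : En n) : d2 (fun _ => (0 : ℝ)) y = 0 := by
  funext k l
  have : pd l (fun _ : En n => (0 : ℝ)) = fun _ => 0 := funext fun z => pd_const' _ z l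
  simp [d2, this, pd_const']

theorem bd_zero : Bd α β W ψ 0 0 0 (0 : ℝ → X → ℝ) :=
  ⟨fun _ _ _ _ => wh_of_le fun _ _ _ _ => by simp [d2_zero],
    fun _ _ _ _ => ws_of_le fun _ _ => by simp [d2_zero],
    fun _ _ _ _ => ws_of_le fun _ _ => by simp [d1_zero], fun _ _ _ _ _ _ => by simp⟩

theorem b12 : ball (0 : En n) 1 ⊆ ball 0 2 := ball_subset_ball one_le_two

namespace PicD

variable (h : PicD a0 δ K ε ρ α β W ψ P Sm Ad S Nl a ζ Φ)
include h

theorem y1 {u : ℝ → X → ℝ} (hu : Sm u) {x : X} (hx : x ∈ W) :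
    Yl (Icc α β) (ball 0 1) 2 (fun t y => u t (ψ x y)) := (h.smY u hu x hx).mono Subset.rfl b12

theorem pb (hK : 1 ≤ K) {N σ B : ℝ} {u : ℝ → X → ℝ} (hu : Sm u) (hb : Bd α β W ψ N σ B u)
    (hσ : K * σ ≤ ρ) {x : X} (hx : x ∈ W) {t : ℝ} (ht : t ∈ Icc α β) {y : En n}
    (hy : y ∈ ball (0 : En n) 1) (hW : ψ x y ∈ W) : ‖P (d2 (fun z => u t (ψ x z)) y)‖ ≤ ρ := by
  have := h.cmp u 0 hu h.sm0 t ht x hx y hy hW
  simp only [Pi.zero_apply, sub_zero] at this
  exact this.trans ((mul_le_mul_of_nonneg_left (hb.ctr hW ht) (by linarith)).trans hσ)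

theorem adm (hK : 1 ≤ K) {N σ B : ℝ} {u : ℝ → X → ℝ} (hu : Sm u) (hb : Bd α β W ψ N σ B u)
    (hσ : K * σ ≤ ρ) : Ad (Nl u) :=
  h.nlA u hu fun _ ht _ hx => (hb.ctr hx ht).trans ((le_div_iff₀' (by linarith)).2 hσ)

/-- the Nemytskii estimate for differences -/
theorem nem (hK : 1 ≤ K) (hε : 0 ≤ ε) {N σ B D s' B' : ℝ} {u u' : ℝ → X → ℝ} (hu : Sm u)
    (hu' : Sm u') (hb : Bd α β W ψ N σ B u) (hb' : Bd α β W ψ N σ B u') (hσ : K * σ ≤ ρ)
    (hN : 0 ≤ N) (hD : 0 ≤ D) (hs' : 0 ≤ s') (hd : Bd α β W ψ D s' B' fun t p => u t p - u' t p)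
    {x : X} (hx : x ∈ W) {t : ℝ} (ht : t ∈ Icc α β) :
    (∀ y ∈ ball (0 : En n) 1, |Nl u t (ψ x y) - Nl u' t (ψ x y)| ≤ K ^ 2 * s') ∧
      WH (ball 0 1) (ε * K * D + (K ^ 3 + K ^ 2 * (1 + 2 * K * N)) * s')
        (fun y => Nl u t (ψ x y) - Nl u' t (ψ x y)) := by
  have K0 : 0 ≤ K := by linarith
  set z : En n → Z := fun y => P (d2 (fun z => u t (ψ x z)) y) with hz
  set e : En n → Z := fun y => P (d2 (fun z => u' t (ψ x z)) y) with he
  set Δ : En n → ℝ := fun y => Φ x t y (z y) - Φ x t y (e y) with hΔ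
  have E : ∀ y ∈ ball (0 : En n) 1, Nl u t (ψ x y) - Nl u' t (ψ x y) = ζ x y * Δ y := fun y hy => by
    rw [h.nlE u hu t ht x hx y hy, h.nlE u' hu' t ht x hx y hy, ← mul_sub]
  have ze : ∀ y ∈ ball (0 : En n) 1,
      z y - e y = P (d2 (fun z => u t (ψ x z) - u' t (ψ x z)) y) := fun y hy => by
    rw [d2_sub isOpen_ball (h.y1 hu hx) (h.y1 hu' hx) ht hy, map_sub]
  have zb := fun y hy hW => h.pb hK hu hb hσ hx ht (y := y) hy hW
  have eb := fun y hy hW => h.pb hK hu' hb' hσ hx ht (y := y) hy hW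
  have ze1 : ∀ y ∈ ball (0 : En n) 1, ψ x y ∈ W → ‖z y - e y‖ ≤ K * s' := fun y hy hW => by
    rw [ze y hy]
    exact (h.cmp u u' hu hu' t ht x hx y hy hW).trans
      (mul_le_mul_of_nonneg_left (hd.ctr hW ht) K0)
  have Δb : ∀ y ∈ ball (0 : En n) 1, ψ x y ∈ W → |Δ y| ≤ K ^ 2 * s' := fun y hy hW =>
    (h.lip x hx t ht y hy _ _ (zb y hy hW) (eb y hy hW)).trans
      ((mul_le_mul_of_nonneg_left (ze1 y hy hW) K0).trans (le_of_eq (by ring)))
  have Pl : ∀ {c s : ℝ} {g : En n → Fin n → Fin n → ℝ} {y y' : En n}, 0 < s →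
      s ^ 3 * ‖g y - g y'‖ ≤ c * √(dist y y') →
      s ^ 3 * ‖P (g y) - P (g y')‖ ≤ K * (c * √(dist y y')) := fun {c s g y y'} hs hg => by
    rw [← map_sub]
    calc _ ≤ s ^ 3 * (K * ‖g y - g y'‖) := by
          gcongr; exact (P.le_opNorm _).trans (by gcongr; exact h.nP)
      _ ≤ _ := by rw [mul_left_comm]; gcongr
  have off : ∀ y ∈ ball (0 : En n) 1, ∀ y' ∈ ball (0 : En n) 1, ψ x y ∉ W →
      |ζ x y * Δ y - ζ x y' * Δ y'| ≤ K ^ 3 * s' * √(dist y y') := by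
    intro y hy y' hy' hW
    by_cases hW' : ψ x y' ∈ W
    · have h1 := h.zL x hx y hy y' hy'
      rw [h.z0 x hx y hy hW] at h1 ⊢
      rw [zero_sub, abs_neg] at h1
      rw [zero_mul, zero_sub, abs_neg, abs_mul]
      exact (mul_le_mul h1 (Δb y' hy' hW') (abs_nonneg _) (by positivity)).trans
        (le_of_eq (by ring))
    · rw [h.z0 x hx y hy hW, h.z0 x hx y' hy' hW']
      simp only [zero_mul, sub_zero, abs_zero]; positivity
  refine ⟨fun y hy => ?_, fun s y y' hy hy' => ?_⟩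
  · rw [E y hy]
    by_cases hW : ψ x y ∈ W
    · rw [abs_mul]
      exact (mul_le_of_le_one_left (abs_nonneg _) (h.z1 x hx y hy)).trans (Δb y hy hW)
    · rw [h.z0 x hx y hy hW, zero_mul, abs_zero]; positivity
  · have hs := hy.1
    have s1 : s ^ 3 ≤ 1 := pow_le_one₀ hs.le hy.2.1
    have hq := Real.sqrt_nonneg (dist y y')
    beta_reduce
    rw [E y hy.mem, E y' hy'.mem, Real.norm_eq_abs]
    have fin : K ^ 3 * s' * √(dist y y') ≤
        (ε * K * D + (K ^ 3 + K ^ 2 * (1 + 2 * K * N)) * s') * √(dist y y') := by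
      gcongr
      have : 0 ≤ ε * K * D + K ^ 2 * (1 + 2 * K * N) * s' := by positivity
      linarith
    by_cases hW : ψ x y ∈ W
    · by_cases hW' : ψ x y' ∈ W
      · have h1 := h.sec x hx t ht y hy.mem y' hy'.mem _ _ _ _ (zb y hy.mem hW) (eb y hy.mem hW)
          (zb y' hy'.mem hW') (eb y' hy'.mem hW')
        have h2 := Pl hs (hd.wh x hx t ht s y y' hy hy')
        rw [← ze y hy.mem, ← ze y' hy'.mem] at h2
        have h3 := Pl hs (hb.wh x hx t ht s y y' hy hy')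
        have h4 := Pl hs (hb'.wh x hx t ht s y y' hy hy')
        have h5 := ze1 y' hy'.mem hW'
        have h6 : s ^ 3 * |Δ y - Δ y'| ≤
            (ε * K * D + K ^ 2 * (1 + 2 * K * N) * s') * √(dist y y') := by
          have h7 : s ^ 3 * (√(dist y y') + ‖z y - z y'‖ + ‖e y - e y'‖) ≤
              (1 + 2 * K * N) * √(dist y y') := by
            have := mul_le_of_le_one_left hq s1
            simp only [hz, he]
            linarith
          calc _ ≤ s ^ 3 * (ε * ‖z y - e y - (z y' - e y')‖ +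
                K * (√(dist y y') + ‖z y - z y'‖ + ‖e y - e y'‖) * ‖z y' - e y'‖) := by
                gcongr
            _ = ε * (s ^ 3 * ‖z y - e y - (z y' - e y')‖) +
                K * (s ^ 3 * (√(dist y y') + ‖z y - z y'‖ + ‖e y - e y'‖)) * ‖z y' - e y'‖ := by
                ring
            _ ≤ ε * (K * (D * √(dist y y'))) + K * ((1 + 2 * K * N) * √(dist y y')) * (K * s') := by
                gcongr
            _ = _ := by ring
        have h8 : |ζ x y * Δ y - ζ x y' * Δ y'| ≤ K ^ 3 * s' * √(dist y y') + |Δ y - Δ y'| := by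
          rw [show ζ x y * Δ y - ζ x y' * Δ y' = (ζ x y - ζ x y') * Δ y + ζ x y' * (Δ y - Δ y') by
            ring]
          refine (abs_add_le _ _).trans (add_le_add ?_ ?_)
          · rw [abs_mul]
            exact (mul_le_mul (h.zL x hx y hy.mem y' hy'.mem) (Δb y hy.mem hW) (abs_nonneg _)
              (by positivity)).trans (le_of_eq (by ring))
          · rw [abs_mul]
            exact mul_le_of_le_one_left (abs_nonneg _) (h.z1 x hx y' hy'.mem)
        have h9 := mul_le_mul_of_nonneg_left h8 (pow_pos hs 3).le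
        have h10 := mul_le_of_le_one_left (show 0 ≤ K ^ 3 * s' * √(dist y y') by positivity) s1
        linarith
      · rw [abs_sub_comm]
        refine ((mul_le_of_le_one_left (abs_nonneg _) s1).trans ?_).trans fin
        rw [dist_comm]
        exact off y' hy'.mem y hy.mem hW'
    · exact ((mul_le_of_le_one_left (abs_nonneg _) s1).trans (off y hy.mem y' hy'.mem hW)).trans fin

theorem nem0 (hK : 1 ≤ K) {x : X} (hx : x ∈ W) {t : ℝ} (ht : t ∈ Icc α β) :
    (∀ y ∈ ball (0 : En n) 1, |Nl 0 t (ψ x y)| ≤ K) ∧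
      WH (ball 0 1) (K ^ 2 + K) (fun y => Nl 0 t (ψ x y)) := by
  have E : ∀ y ∈ ball (0 : En n) 1, Nl 0 t (ψ x y) = ζ x y * Φ x t y 0 := fun y hy => by
    rw [h.nlE 0 h.sm0 t ht x hx y hy]
    simp [d2_zero]
  refine ⟨fun y hy => ?_, wh_of_le fun y hy y' hy' => ?_⟩
  · rw [E y hy, abs_mul]
    exact (mul_le_of_le_one_left (abs_nonneg _) (h.z1 x hx y hy)).trans (h.p0 x hx t ht y hy)
  · rw [E y hy, E y' hy', show ζ x y * Φ x t y 0 - ζ x y' * Φ x t y' 0 =
      (ζ x y - ζ x y') * Φ x t y 0 + ζ x y' * (Φ x t y 0 - Φ x t y' 0) by ring]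
    refine (abs_add_le _ _).trans ?_
    rw [abs_mul, abs_mul]
    have h1 := mul_le_mul (h.zL x hx y hy y' hy') (h.p0 x hx t ht y hy) (abs_nonneg _)
      (by positivity)
    have h2 := (mul_le_of_le_one_left (abs_nonneg _) (h.z1 x hx y' hy')).trans
      (h.p0h x hx t ht y hy y' hy')
    linarith

end PicD

/-- the linear estimate in all charts -/
def Est (a0 : Matrix (Fin n) (Fin n) ℝ) (δ K C : ℝ) : Prop :=
  ∀ (α β : ℝ) (a : ℝ → En n → Matrix (Fin n) (Fin n) ℝ) (f w : ℝ → En n → ℝ) (A c B η : ℝ),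
    LinD a0 δ K α β (ball 0 1) a f w A c B → Yl (Icc α β) (ball 0 2) 2 w → 0 < η → η ≤ 1 →
    ∀ t ∈ Icc α β, WH (ball 0 1) (C * (A + c + B)) (d2 (w t)) ∧
      WS (ball 0 1) (η * (C * (A + c + B)) + C * B / η ^ 4) (d2 (w t)) ∧
      WS (ball 0 1) (η * (C * (A + c + B)) + C * B / η ^ 4) (d1 (w t))

theorem exists_est (ha : a0.PosDef) :
    ∃ δ : ℝ, 0 < δ ∧ ∀ K : ℝ, ∃ C : ℝ, 1 ≤ C ∧ Est a0 δ K C := by
  obtain ⟨δ, δ0, hδ⟩ := isStmt n ℝ a0 ha
  obtain ⟨CI, hCI, hint⟩ := intStmt n ℝ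
  refine ⟨δ, δ0, fun K => ?_⟩
  obtain ⟨C, hC, hIS⟩ := hδ K
  refine ⟨C + CI, by linarith, fun α β a f w A c B η h hw η0 η1 t ht => ?_⟩
  have A0 := h.A0
  have c0 := h.c0
  have B0 := h.B0
  have h1 := (hIS α β _ a f w A c B h (wh_finite isCompact_Icc isOpen_ball hw
    (isCompact_closedBall 0 1) (closedBall_subset_ball one_lt_two) ball_subset_closedBall)
    t ht).1.mono (c' := (C + CI) * (A + c + B)) (by gcongr; linarith)
  have h2 := hint _ (w t) B _ η isOpen_ball (h.c2 ht) B0 (by positivity) η0 η1 (h.wB t ht) h1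
  exact ⟨h1, h2.1.mono (by gcongr; linarith), h2.2.1.mono (by gcongr; linarith)⟩

namespace PicD

variable (h : PicD a0 δ K ε ρ α β W ψ P Sm Ad S Nl a ζ Φ)
include h

theorem est1 {C : ℝ} (hE : Est a0 δ K C) (hlt : α < β) (hlen : β - α ≤ 1) {f : ℝ → X → ℝ}
    (hf : Ad f) {A c η : ℝ} (A0 : 0 ≤ A) (c0 : 0 ≤ c) (η0 : 0 < η) (η1 : η ≤ 1)
    (hA : ∀ x ∈ W, ∀ t ∈ Icc α β, (∀ y ∈ ball (0 : En n) 1, |f t (ψ x y)| ≤ A) ∧
      WH (ball 0 1) c (fun y => f t (ψ x y))) :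
    Bd α β W ψ (C * (A + c + (β - α) * A))
      (η * (C * (A + c + (β - α) * A)) + C * ((β - α) * A) / η ^ 4) ((β - α) * A) (S f) := by
  have mx := h.mx f hf A A0 fun t ht x hx => by
    simpa [h.ctr x hx] using (hA x hx t ht).1 0 (mem_ball_self one_pos)
  have τ0 : 0 ≤ β - α := by linarith
  have key := fun x hx => hE α β (a x) (fun t y => f t (ψ x y)) (fun t y => S f t (ψ x y)) A c
    ((β - α) * A) η ⟨hlt, hlen, isOpen_ball, h.y1 (h.smS f hf) hx, h.ac x hx, h.adC f hf x hx,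
      h.init f hf x hx, h.ev f hf x hx, h.cl x hx, h.ah x hx, A0, c0, by positivity,
      fun t ht => mx t ht x hx, fun t ht => ws_of_le (hA x hx t ht).1, fun t ht => (hA x hx t ht).2⟩
    (h.smY _ (h.smS f hf) x hx) η0 η1
  exact ⟨fun x hx t ht => (key x hx t ht).1, fun x hx t ht => (key x hx t ht).2.1,
    fun x hx t ht => (key x hx t ht).2.2, fun x hx t ht => mx t ht x hx⟩

theorem est2 {C : ℝ} (hE : Est a0 δ K C) (hlt : α < β) (hlen : β - α ≤ 1) {f f' : ℝ → X → ℝ}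
    (hf : Ad f) (hf' : Ad f') {A c η : ℝ} (A0 : 0 ≤ A) (c0 : 0 ≤ c) (η0 : 0 < η) (η1 : η ≤ 1)
    (hA : ∀ x ∈ W, ∀ t ∈ Icc α β, (∀ y ∈ ball (0 : En n) 1, |f t (ψ x y) - f' t (ψ x y)| ≤ A) ∧
      WH (ball 0 1) c (fun y => f t (ψ x y) - f' t (ψ x y))) :
    Bd α β W ψ (C * (A + c + (β - α) * A))
      (η * (C * (A + c + (β - α) * A)) + C * ((β - α) * A) / η ^ 4) ((β - α) * A)
      (fun t p => S f t p - S f' t p) := by
  have mx := h.mx2 f f' hf hf' A A0 fun t ht x hx => by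
    simpa [h.ctr x hx] using (hA x hx t ht).1 0 (mem_ball_self one_pos)
  have τ0 : 0 ≤ β - α := by linarith
  have key := fun x hx => hE α β (a x) (fun t y => f t (ψ x y) - f' t (ψ x y))
    (fun t y => S f t (ψ x y) - S f' t (ψ x y)) A c ((β - α) * A) η
    ⟨hlt, hlen, isOpen_ball, (h.y1 (h.smS f hf) hx).sub isOpen_ball (h.y1 (h.smS f' hf') hx),
      h.ac x hx, (h.adC f hf x hx).sub (h.adC f' hf' x hx),
      fun y hy => by rw [h.init f hf x hx y hy, h.init f' hf' x hx y hy, sub_zero],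
      fun t ht y hy => ((h.ev f hf x hx t ht y hy).sub (h.ev f' hf' x hx t ht y hy)).congr_deriv (by
        simp only [Lop, pd_pd_sub isOpen_ball (h.y1 (h.smS f hf) hx) (h.y1 (h.smS f' hf') hx) ht hy,
          smul_sub, Finset.sum_sub_distrib]
        ring),
      h.cl x hx, h.ah x hx, A0, c0, by positivity,
      fun t ht => mx t ht x hx, fun t ht => ws_of_le (hA x hx t ht).1, fun t ht => (hA x hx t ht).2⟩
    ((h.smY _ (h.smS f hf) x hx).sub isOpen_ball (h.smY _ (h.smS f' hf') x hx)) η0 η1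
  exact ⟨fun x hx t ht => (key x hx t ht).1, fun x hx t ht => (key x hx t ht).2.1,
    fun x hx t ht => (key x hx t ht).2.2, fun x hx t ht => mx t ht x hx⟩

/-- passage to the limit -/
theorem limit (hK : 1 ≤ K) {N σ M c : ℝ} (hσ : K * σ ≤ ρ) (σ0 : 0 ≤ σ) {u : ℕ → ℝ → X → ℝ}
    (hs : ∀ k, u (k + 1) = S (Nl (u k)))
    (hu : ∀ k, Sm (u k) ∧ Bd α β W ψ N σ ((β - α) * N) (u k))
    (hd : ∀ k, Bd α β W ψ (c * (1 / 2) ^ k) (M * (1 / 2) ^ k) (M * (1 / 2) ^ k)
      fun t p => u (k + 1) t p - u k t p) :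
    PicO N ρ α β W ψ P a ζ Φ (fun t p => limUnder atTop fun k => u k t p) := by
  have K0 : 0 ≤ K := by linarith
  have σρ : σ ≤ ρ := (le_mul_of_one_le_left σ0 hK).trans hσ
  have ad : ∀ k, Ad (Nl (u k)) := fun k => h.adm hK (hu k).1 (hu k).2 hσ
  have L := fun x hx => c2_lim (I := Icc α β) (M := M) (g := fun k t y => u k t (ψ x y)) isOpen_ball
    (fun k => h.y1 (hu k).1 hx) (fun k t ht => ws_of_le ((hd k).sup x hx t ht))
    (fun k => (hd k).s1 x hx) (fun k => (hd k).s2 x hx) (fun k => (hu k).2.wh x hx) rfl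
  have sP : ∀ x ∈ W, ∀ t ∈ Icc α β, ∀ y ∈ ball (0 : En n) 1, ψ x y ∈ W →
      ‖P (d2 (fun z => limUnder atTop fun k => u k t (ψ x z)) y)‖ ≤ ρ := fun x hx t ht y hy hW =>
    le_of_tendsto' ((P.continuous.tendsto _).comp ((L x hx).2.2.2.tendsto isOpen_ball ht hy)).norm
      fun k => h.pb hK (hu k).1 (hu k).2 hσ hx ht hy hW
  refine ⟨fun x hx => (L x hx).1, fun x hx y hy => ?_, fun x hx t ht y hy => ?_,
    fun x hx t ht y hy => ?_, fun x hx t ht => wh_lim isOpen_ball (L x hx).2.2.2 ht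
      fun k => (hu k).2.wh x hx t ht, fun x hx t ht => (ws_lim isOpen_ball (L x hx).2.2.2 ht
      fun k => (hu k).2.s2 x hx t ht).mono σρ, fun x hx t ht => (ws_lim isOpen_ball (L x hx).2.2.1
      ht fun k => (hu k).2.s1 x hx t ht).mono σρ, sP⟩
  · refine (tendsto_const_nhds.congr' (f₁ := fun _ => (0 : ℝ)) ?_).limUnder_eq
    filter_upwards [eventually_ge_atTop 1] with k hk
    obtain ⟨j, rfl⟩ := Nat.exists_eq_add_of_le' hk
    rw [hs, h.init _ (ad j) x hx y hy]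
  · obtain ⟨s, hsd⟩ := exists_dp isOpen_ball hy
    set c1 : ℝ := ∑ k, ∑ l, |a0 k l| + |δ| with hc1
    have ab : ∀ t ∈ Icc α β, ∀ k l, |a x t y k l| ≤ c1 := fun t ht k l => by
      have h1 : |a0 k l| ≤ ∑ k, ∑ l, |a0 k l| :=
        (Finset.single_le_sum (f := fun l => |a0 k l|) (fun _ _ => abs_nonneg _)
          (Finset.mem_univ l)).trans (Finset.single_le_sum (f := fun k => ∑ l, |a0 k l|)
          (fun _ _ => by positivity) (Finset.mem_univ k))
      have h2 := abs_sub_abs_le_abs_sub (a x t y k l) (a0 k l)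
      linarith [h.cl x hx t ht y hy k l, le_abs_self δ]
    have c10 : 0 ≤ c1 := by positivity
    have cv := fun k t ht => ((L x hx).2.2.2 k t ht).le hsd
    have M0 : 0 ≤ 2 * M / (s ^ 2 * √s) := by
      simpa using (norm_nonneg _).trans (cv 0 t ht)
    refine deriv_lim (c := (n * (n * c1) + K * K) * (2 * M / (s ^ 2 * √s)))
      (f := fun k t => u (k + 1) t (ψ x y))
      (r := fun k t => Lop (a x t y) (fun z => u (k + 1) t (ψ x z)) y + Nl (u k) t (ψ x y))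
      (r0 := fun t => Lop (a x t y) (fun z => limUnder atTop fun k => u k t (ψ x z)) y +
        ζ x y * Φ x t y (P (d2 (fun z => limUnder atTop fun k => u k t (ψ x z)) y)))
      (fun k t ht => by simp only [hs]; exact h.ev _ (ad k) x hx t ht y hy) (fun k => ?_)
      (fun t ht => (tendsto_add_atTop_iff_nat 1).2 ((L x hx).2.1.tendsto isOpen_ball ht hy))
      (fun k t ht => ?_) ht
    · refine ContinuousOn.add (continuousOn_finsetSum _ fun i _ => continuousOn_finsetSum _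
        fun j _ => ContinuousOn.fun_smul ?_ ?_) ?_
      · exact N207.X.cont_slice (w := fun t y => a x t y i j) (h.ac x hx i j) hy
      · exact N207.X.cont_slice (((h.y1 (hu (k + 1)).1 hx).pd j).pd i).cont hy
      · exact N207.X.cont_slice (w := fun t y => Nl (u k) t (ψ x y)) (h.adC _ (ad k) x hx) hy
    · have e : ∀ j : ℕ, 2 * M * (1 / 2) ^ j / (s ^ 2 * √s) = 2 * M / (s ^ 2 * √s) * (1 / 2) ^ j :=
        fun j => by ring
      have h1 := (lop_sub_le (ab t ht) (fun z => u (k + 1) t (ψ x z))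
        (fun z => limUnder atTop fun k => u k t (ψ x z)) y).trans
        (mul_le_mul_of_nonneg_left (cv (k + 1) t ht) (by positivity))
      have h2 : |Nl (u k) t (ψ x y) -
          ζ x y * Φ x t y (P (d2 (fun z => limUnder atTop fun k => u k t (ψ x z)) y))| ≤
          K * (K * (2 * M * (1 / 2) ^ k / (s ^ 2 * √s))) := by
        rw [h.nlE _ (hu k).1 t ht x hx y hy, ← mul_sub]
        by_cases hW : ψ x y ∈ W
        · rw [abs_mul]
          refine (mul_le_of_le_one_left (abs_nonneg _) (h.z1 x hx y hy)).trans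
            ((h.lip x hx t ht y hy _ _ (h.pb hK (hu k).1 (hu k).2 hσ hx ht hy hW)
              (sP x hx t ht y hy hW)).trans (mul_le_mul_of_nonneg_left ?_ K0))
          rw [← map_sub]
          exact (P.le_opNorm _).trans (mul_le_mul h.nP (cv k t ht) (norm_nonneg _) K0)
        · rw [h.z0 x hx y hy hW, zero_mul, abs_zero, e]; positivity
      rw [add_sub_add_comm]
      refine (norm_add_le _ _).trans ((add_le_add h1 h2).trans ?_)
      rw [e, e, pow_succ (1 / 2 : ℝ)]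
      have : 0 ≤ n * (n * c1) * (2 * M / (s ^ 2 * √s) * (1 / 2) ^ k) := by positivity
      linarith
  · exact le_of_tendsto' ((L x hx).2.1.tendsto isOpen_ball ht hy).abs
      fun k => (hu k).2.sup x hx t ht y hy

end PicD

set_option maxHeartbeats 600000 in
theorem picStmt (n : ℕ) : PicStmt n := by
  intro a0 ha
  obtain ⟨δ, δ0, hδ⟩ := exists_est ha
  refine ⟨δ, δ0, fun K hK => ?_⟩
  obtain ⟨C, hC, hE⟩ := hδ K
  have K0 : 0 < K := by linarith
  have C0 : 0 < C := by linarith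
  obtain ⟨ε, hε⟩ : ∃ ε : ℝ, ε = 1 / (4 * C * K) := ⟨_, rfl⟩
  have ε0 : 0 < ε := by rw [hε]; positivity
  have εC : ∀ D : ℝ, C * (ε * K * D) = D / 4 := fun D => by rw [hε]; field_simp
  obtain ⟨N, hN⟩ : ∃ N : ℝ, N = 2 * (C * (3 * K ^ 2 + 3 * K + 1 + 2 * K ^ 2)) := ⟨_, rfl⟩
  have N0 : 0 < N := by rw [hN]; positivity
  refine ⟨ε, ε0, N, N0, fun ρ ρ0 ρ1 => ?_⟩
  obtain ⟨c1, hc1⟩ : ∃ c1 : ℝ, c1 = K ^ 3 + K ^ 2 * (1 + 2 * K * N) := ⟨_, rfl⟩
  have c10 : 0 < c1 := by rw [hc1]; positivity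
  obtain ⟨c2, hc2⟩ : ∃ c2 : ℝ, c2 = C * (c1 + 2 * K ^ 2) := ⟨_, rfl⟩
  have K2 : 1 ≤ K ^ 2 := one_le_pow₀ hK
  have c21 : 2 * K ^ 2 ≤ c2 := by rw [hc2]; nlinarith
  have c20 : 0 < c2 := by linarith
  obtain ⟨σ, σ0, σ1, σ2, σ3⟩ : ∃ σ : ℝ, 0 < σ ∧ K * σ ≤ ρ ∧ c1 * σ ≤ 1 ∧ σ ≤ 1 :=
    ⟨min (ρ / K) (min (1 / c1) 1), by positivity, (le_div_iff₀' K0).1 (min_le_left _ _),
      (le_div_iff₀' c10).1 ((min_le_right _ _).trans (min_le_left _ _)),
      (min_le_right _ _).trans (min_le_right _ _)⟩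
  obtain ⟨η, η0, η1, η2⟩ : ∃ η : ℝ, 0 < η ∧ η ≤ 1 ∧ η * N ≤ σ / 2 :=
    ⟨min 1 (σ / 2 / N), by positivity, min_le_left _ _, (le_div_iff₀ N0).1 (min_le_right _ _)⟩
  obtain ⟨θ, hθ⟩ : ∃ θ : ℝ, θ = 1 / (8 * c2) := ⟨_, rfl⟩
  have θ0 : 0 < θ := by rw [hθ]; positivity
  have θ1 : θ ≤ 1 := by rw [hθ, div_le_one (by positivity)]; linarith
  refine ⟨min 1 (min (σ / 2 * η ^ 4 / (C * (K ^ 2 + K))) (θ ^ 4 / (4 * (C * K ^ 2)))),
    by positivity, fun X Z _ _ α β W ψ P Sm Ad S Nl a ζ Φ hlt hτ h => ?_⟩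
  have τ0 : 0 ≤ β - α := by linarith
  have τ1 : β - α ≤ 1 := hτ.trans (min_le_left _ _)
  have τ2 : C * ((β - α) * (K ^ 2 + K)) / η ^ 4 ≤ σ / 2 := by
    have := (le_div_iff₀ (by positivity)).1 (hτ.trans ((min_le_right _ _).trans (min_le_left _ _)))
    rw [div_le_iff₀ (by positivity)]
    linarith
  have τ3 : C * ((β - α) * K ^ 2) / θ ^ 4 ≤ 1 / 4 := by
    have := (le_div_iff₀ (by positivity)).1 (hτ.trans ((min_le_right _ _).trans (min_le_right _ _)))
    rw [div_le_iff₀ (by positivity)]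
    linarith
  have z0 : Bd α β W ψ N σ ((β - α) * N) (0 : ℝ → X → ℝ) :=
    bd_zero.mono N0.le σ0.le (by positivity)
  -- the invariant set
  have self : ∀ u, Sm u ∧ Bd α β W ψ N σ ((β - α) * N) u →
      Sm (S (Nl u)) ∧ Bd α β W ψ N σ ((β - α) * N) (S (Nl u)) := by
    rintro u ⟨hu, hb⟩
    have ad := h.adm hK hu hb σ1
    have e1 : C * (K ^ 2 + K + (ε * K * N + 1 + (K ^ 2 + K)) + (β - α) * (K ^ 2 + K)) ≤ N := by
      have h1 : (β - α) * (K ^ 2 + K) ≤ K ^ 2 + K := mul_le_of_le_one_left (by positivity) τ1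
      have h2 := mul_le_mul_of_nonneg_left h1 C0.le
      have h3 := εC N
      have h4 : 0 ≤ C * K ^ 2 := by positivity
      linarith
    refine ⟨h.smS _ ad, (h.est1 hE hlt τ1 ad (A := K ^ 2 + K) (c := ε * K * N + 1 + (K ^ 2 + K))
      (by positivity) (by positivity) η0 η1 fun x hx t ht => ?_).mono e1 ?_ ?_⟩
    · have h1 := h.nem hK ε0.le hu h.sm0 hb z0 σ1 N0.le N0.le σ0.le (by simpa using hb) hx ht
      have h2 := h.nem0 hK hx ht
      refine ⟨fun y hy => ?_, ((h1.2.add h2.2).mono ?_).congr fun y _ => by ring⟩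
      · have h3 := abs_add_le (Nl u t (ψ x y) - Nl 0 t (ψ x y)) (Nl 0 t (ψ x y))
        rw [sub_add_cancel] at h3
        have h4 : K ^ 2 * σ ≤ K ^ 2 := mul_le_of_le_one_right (by positivity) σ3
        linarith [h1.1 y hy, h2.1 y hy]
      · rw [← hc1]; linarith
    · linarith [mul_le_mul_of_nonneg_left e1 η0.le]
    · refine mul_le_mul_of_nonneg_left ?_ τ0
      linarith [mul_le_mul_of_nonneg_right hC (show 0 ≤ K ^ 2 + K by positivity),
        (by positivity : 0 ≤ C * K ^ 2), (by positivity : 0 ≤ C * K)]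
  -- the contraction
  have con : ∀ u u' (M : ℝ), 0 ≤ M → Sm u ∧ Bd α β W ψ N σ ((β - α) * N) u →
      Sm u' ∧ Bd α β W ψ N σ ((β - α) * N) u' →
      Bd α β W ψ (4 * c2 * M) M (N * M) (fun t p => u t p - u' t p) →
      Bd α β W ψ (4 * c2 * (M / 2)) (M / 2) (N * (M / 2))
        (fun t p => S (Nl u) t p - S (Nl u') t p) := by
    rintro u u' M M0 ⟨hu, hb⟩ ⟨hu', hb'⟩ hd
    have h0 : (β - α) * (K ^ 2 * M) ≤ K ^ 2 * M := mul_le_of_le_one_left (by positivity) τ1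
    have e1 : C * (K ^ 2 * M + (ε * K * (4 * c2 * M) + c1 * M) + (β - α) * (K ^ 2 * M)) ≤
        4 * c2 * (M / 2) := by
      have h2 := mul_le_mul_of_nonneg_left h0 C0.le
      have h3 := εC (4 * c2 * M)
      have h4 : c2 * M = C * (c1 + 2 * K ^ 2) * M := by rw [hc2]
      linarith
    refine (h.est2 hE hlt τ1 (h.adm hK hu hb σ1) (h.adm hK hu' hb' σ1) (A := K ^ 2 * M)
      (c := ε * K * (4 * c2 * M) + c1 * M) (by positivity) (by positivity) θ0 θ1
      fun x hx t ht => ?_).mono e1 ?_ ?_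
    · rw [hc1]
      exact h.nem hK ε0.le hu hu' hb hb' σ1 N0.le (by positivity) M0 hd hx ht
    · have h1 := mul_le_mul_of_nonneg_left e1 θ0.le
      have h2 : θ * (4 * c2 * (M / 2)) = M / 4 := by rw [hθ]; field_simp; ring
      have h3 := mul_le_mul_of_nonneg_right τ3 M0
      have h4 : C * ((β - α) * (K ^ 2 * M)) / θ ^ 4 = C * ((β - α) * K ^ 2) / θ ^ 4 * M := by ring
      linarith
    · refine h0.trans ?_
      have : 2 * K ^ 2 ≤ N := by
        linarith [mul_le_mul_of_nonneg_right hC (show 0 ≤ K ^ 2 by positivity),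
          (by positivity : 0 ≤ C * K ^ 2), (by positivity : 0 ≤ C * K)]
      linarith [mul_le_mul_of_nonneg_right this M0]
  let u : ℕ → ℝ → X → ℝ := fun k => (fun w => S (Nl w))^[k] 0
  have hs : ∀ k, u (k + 1) = S (Nl (u k)) := fun k => Function.iterate_succ_apply' _ _ _
  have hu : ∀ k, Sm (u k) ∧ Bd α β W ψ N σ ((β - α) * N) (u k) := fun k => by
    induction k with
    | zero => exact ⟨h.sm0, z0⟩
    | succ k ih => rw [hs]; exact self _ ih
  have hd : ∀ k, Bd α β W ψ (4 * c2 * ((N + 1) * (1 / 2) ^ k)) ((N + 1) * (1 / 2) ^ k)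
      (N * ((N + 1) * (1 / 2) ^ k)) fun t p => u (k + 1) t p - u k t p := fun k => by
    induction k with
    | zero =>
      have h1 : Bd α β W ψ N σ ((β - α) * N) fun t p => u (0 + 1) t p - u 0 t p := by
        simpa [show u 0 = 0 from rfl] using (hu 1).2
      refine h1.mono ?_ ?_ ?_
      · rw [pow_zero]
        linarith [mul_le_mul_of_nonneg_right (show 1 ≤ 4 * c2 by linarith) N0.le]
      · rw [pow_zero]; linarith
      · rw [pow_zero]
        linarith [mul_le_of_le_one_left N0.le τ1, mul_pos N0 N0]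
    | succ k ih =>
      have := con _ _ _ (by positivity) (hu (k + 1)) (hu k) ih
      rw [← hs, ← hs] at this
      exact this.mono (le_of_eq (by ring)) (le_of_eq (by ring)) (le_of_eq (by ring))
  refine ⟨_, h.limit hK (M := (N + 1) * (N + 1)) (c := 4 * c2 * (N + 1)) σ1 σ0.le hs hu
    fun k => (hd k).mono (le_of_eq (by ring)) ?_ ?_⟩
  · have : (0 : ℝ) ≤ N * (N + 1) * (1 / 2) ^ k := by positivity
    linarith
  · have : (0 : ℝ) ≤ (N + 1) * (1 / 2) ^ k := by positivity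
    linarith

end Crest.Agent.T223.Lx
end
end

-- ▼ part T223/StCru_66
section

/-!
# Row 223, STEP (helper66): from `C^5` bounds to curvature bounds, `St.cruStmt`
-/

set_option autoImplicit false
set_option linter.unusedVariables false

open Set Filter Topology Metric
open scoped ContDiff ComplexConjugate Matrix ComplexOrder

namespace Crest.Agent.T223.St

open Crest.Agent.R275.Geo Crest.Agent.R275.EDR890 Crest.Agent.R273.Hess_333
open Crest.Agent.T223.Tr Crest.Agent.T223.Br Crest.Agent.T223.Os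
open Crest.Agent.T223.Db (eR)
open Crest.Agent.N207.P (En d1 pd)
open Crest.Agent.T223.Lx

namespace Cru66

variable {n : ℕ}

theorem nsum {f : Fin n → ℂ} {B : ℝ} (h : ∀ a, ‖f a‖ ≤ B) : ‖∑ a, f a‖ ≤ n * B :=
  (norm_sum_le_of_le _ fun a _ => h a).trans_eq (by simp)

theorem norm_hC {H : Mat n} {B : ℝ} (hB : 0 ≤ B) (h : ∀ a b, ‖H a b‖ ≤ B) (v : Cn n) :
    ‖hC H v‖ ≤ n * (n * (B * ‖v‖ * ‖v‖)) := by
  refine nsum fun a => nsum fun b => ?_
  rw [norm_mul, norm_mul, Complex.norm_conj]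
  have ha := PiLp.norm_apply_le v a
  have hb := PiLp.norm_apply_le v b
  have := h a b
  gcongr

theorem abs_bis {g : Cn n → Mat n} {z : Cn n} {B : ℝ} (hB : 0 ≤ B)
    (h : ∀ c d a b, ‖Rm g z c d a b‖ ≤ B) (v w : Cn n) :
    |bis g z v w| ≤ (n : ℝ) ^ 4 * B * (‖v‖ ^ 2 * ‖w‖ ^ 2) := by
  refine (Complex.abs_re_le_norm _).trans ((nsum (B := n * (n * (n * (B * ‖v‖ * ‖v‖ * ‖w‖ * ‖w‖))))
    fun a => nsum fun b => nsum fun c => nsum fun d => ?_).trans_eq (by ring))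
  simp only [norm_mul, Complex.norm_conj]
  have ha := PiLp.norm_apply_le v a
  have hb := PiLp.norm_apply_le v b
  have hc := PiLp.norm_apply_le w c
  have hd := PiLp.norm_apply_le w d
  have := h c d a b
  gcongr

theorem abs_mid {N : Fin n → Mat n} {B : ℝ} (hB : 0 ≤ B) (h : ∀ k a b, ‖N k a b‖ ≤ B) (c : ℂ)
    (a v : Cn n) : |2 * (conj c * ∑ k, a k * hC (N k) v).re| ≤
      (n : ℝ) ^ 3 * B * ((‖a‖ ^ 2 + ‖c‖ ^ 2) * ‖v‖ ^ 2) := by
  have h1 : ‖∑ k, a k * hC (N k) v‖ ≤ n * (‖a‖ * (n * (n * (B * ‖v‖ * ‖v‖)))) := nsum fun k => by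
    rw [norm_mul]
    exact mul_le_mul (PiLp.norm_apply_le a k) (norm_hC hB (h k) v) (norm_nonneg _) (norm_nonneg _)
  have h2 := Complex.abs_re_le_norm (conj c * ∑ k, a k * hC (N k) v)
  rw [norm_mul, Complex.norm_conj] at h2
  have h3 : 2 * (‖c‖ * ‖a‖) ≤ ‖a‖ ^ 2 + ‖c‖ ^ 2 := by nlinarith [sq_nonneg (‖a‖ - ‖c‖)]
  rw [abs_mul, abs_two]
  calc _ ≤ 2 * (‖c‖ * (n * (‖a‖ * (n * (n * (B * ‖v‖ * ‖v‖)))))) :=
        mul_le_mul_of_nonneg_left (h2.trans (mul_le_mul_of_nonneg_left h1 (norm_nonneg _))) zero_le_two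
    _ = (n : ℝ) ^ 3 * B * (2 * (‖c‖ * ‖a‖) * ‖v‖ ^ 2) := by ring
    _ ≤ _ := by gcongr

theorem nqi_eq (G : Mat n) (ξ : Cn n) : nqi G ξ = nq (G⁻¹)ᵀ ξ := rfl

/-- the pointwise algebra -/
theorem alg {g : Cn n → Mat n} {z : Cn n} {B C : ℝ} (hB : 0 ≤ B) (hC : 0 ≤ C)
    (hlo : ∀ v, ‖v‖ ^ 2 / 2 ≤ nq (g z) v)
    (h1 : ∀ a b, ‖(hess (scal g) z + ric g z * (g z)⁻¹ * ric g z) a b‖ ≤ B)
    (h2 : ∀ a b, ‖ric g z a b‖ ≤ B) (h3 : ∀ k a b, ‖nabRic g z k a b‖ ≤ B)
    (h4 : ∀ c d a b, ‖Rm g z c d a b‖ ≤ B) (h5 : ∀ a b, ‖(g z)⁻¹ a b‖ ≤ B) {K : ℝ}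
    (hK : 4 * ((n : ℝ) ^ 2 * B) + 4 * (n ^ 3 * B) + 4 * (n ^ 4 * B) + 2 * (n ^ 2 * C) +
      n ^ 2 * B * C ^ 2 ≤ K) :
    (∀ τ : ℝ, 1 ≤ τ → ∀ (c : ℂ) (a v : Cn n),
      |lyhS g τ z c a v| ≤ K * (nq (g z) a + 1 * ‖c‖ ^ 2) * nq (g z) v) ∧
    BKge g z K ∧ BKle g z K ∧
    (∀ H : Mat n, (∀ a b, ‖H a b‖ ≤ C) → ∀ v, |nq H v| ≤ K * nq (g z) v) ∧
    ∀ ξ : Cn n, ‖ξ‖ ≤ C → nqi (g z) ξ ≤ K := by
  have p2 : 0 ≤ (n : ℝ) ^ 2 * B := by positivity
  have p3 : 0 ≤ (n : ℝ) ^ 3 * B := by positivity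
  have p4 : 0 ≤ (n : ℝ) ^ 4 * B := by positivity
  have p5 : 0 ≤ (n : ℝ) ^ 2 * C := by positivity
  have p6 : 0 ≤ (n : ℝ) ^ 2 * B * C ^ 2 := by positivity
  have hq : ∀ v, ‖v‖ ^ 2 ≤ 2 * nq (g z) v := fun v => by linarith [hlo v]
  have hq0 : ∀ v, 0 ≤ nq (g z) v := fun v => by linarith [hq v, sq_nonneg ‖v‖]
  have hb : ∀ v w, |bis g z v w| ≤ 4 * ((n : ℝ) ^ 4 * B) * (nq (g z) v * nq (g z) w) := by
    intro v w
    calc _ ≤ _ := abs_bis hB h4 v w
      _ ≤ (n : ℝ) ^ 4 * B * (2 * nq (g z) v * (2 * nq (g z) w)) :=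
        mul_le_mul_of_nonneg_left (mul_le_mul (hq v) (hq w) (sq_nonneg _) (by linarith [hq0 v])) p4
      _ = _ := by ring
  have hb' : ∀ v w, |bis g z v w| ≤ K * nq (g z) v * nq (g z) w := fun v w => by
    rw [mul_assoc]
    exact (hb v w).trans (mul_le_mul_of_nonneg_right (by linarith) (mul_nonneg (hq0 v) (hq0 w)))
  refine ⟨fun τ hτ c a v => ?_, fun v w => (abs_le.1 (hb' v w)).1, fun v w => (abs_le.1 (hb' v w)).2,
    fun H hH v => ?_, fun ξ hξ => ?_⟩
  · have e1 := abs_nq_le (hess (scal g) z + ric g z * (g z)⁻¹ * ric g z +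
      ((τ⁻¹ : ℝ) : ℂ) • ric g z) v (ε := B + B) fun a b => by
        rw [Matrix.add_apply, Matrix.smul_apply, smul_eq_mul]
        refine (norm_add_le _ _).trans (add_le_add (h1 a b) ?_)
        rw [norm_mul, Complex.norm_real, Real.norm_of_nonneg (by positivity)]
        exact (mul_le_of_le_one_left (norm_nonneg _) (inv_le_one_of_one_le₀ hτ)).trans (h2 a b)
    have e2 := abs_mid hB h3 c a v
    have e3 := hb v a
    set S := nq (g z) a + 1 * ‖c‖ ^ 2 with hS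
    have c0 := sq_nonneg ‖c‖
    have s1 : ‖c‖ ^ 2 ≤ S := by linarith [hq0 a]
    have s2 : nq (g z) a ≤ S := by linarith
    have s3 : ‖a‖ ^ 2 + ‖c‖ ^ 2 ≤ 2 * S := by linarith [hq a]
    have s0 : 0 ≤ S := c0.trans s1
    have q0 := hq0 v
    have f1 : |‖c‖ ^ 2 * nq (hess (scal g) z + ric g z * (g z)⁻¹ * ric g z +
        ((τ⁻¹ : ℝ) : ℂ) • ric g z) v| ≤ 4 * ((n : ℝ) ^ 2 * B) * (S * nq (g z) v) := by
      rw [abs_mul, abs_of_nonneg c0]
      calc _ ≤ S * ((n : ℝ) ^ 2 * (B + B) * (2 * nq (g z) v)) :=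
            mul_le_mul s1 (e1.trans (mul_le_mul_of_nonneg_left (hq v) (by positivity)))
              (abs_nonneg _) s0
        _ = _ := by ring
    have f2 := e2.trans (mul_le_mul_of_nonneg_left
      (mul_le_mul s3 (hq v) (sq_nonneg _) (by linarith)) p3)
    have f3 := e3.trans (mul_le_mul_of_nonneg_left (mul_le_mul_of_nonneg_left s2 q0) (by linarith))
    have f4 : (4 * ((n : ℝ) ^ 2 * B) + 4 * (n ^ 3 * B) + 4 * (n ^ 4 * B)) * (S * nq (g z) v) ≤
        K * (S * nq (g z) v) := mul_le_mul_of_nonneg_right (by linarith) (mul_nonneg s0 q0)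
    unfold lyhS
    refine ((abs_add_le _ _).trans (add_le_add ((abs_add_le _ _).trans (add_le_add f1 f2)) f3)).trans ?_
    linarith
  · calc _ ≤ _ := abs_nq_le H v hH
      _ ≤ (n : ℝ) ^ 2 * C * (2 * nq (g z) v) := mul_le_mul_of_nonneg_left (hq v) p5
      _ = 2 * (n ^ 2 * C) * nq (g z) v := by ring
      _ ≤ _ := mul_le_mul_of_nonneg_right (by linarith) (hq0 v)
  · rw [nqi_eq]
    calc _ ≤ _ := le_abs_self _
      _ ≤ _ := abs_nq_le _ ξ (ε := B) fun a b => h5 b a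
      _ ≤ (n : ℝ) ^ 2 * B * C ^ 2 := by gcongr
      _ ≤ _ := by linarith

/-- a bound at the centre for a finite collection of uniform families -/
theorem bdd0 {ι κ : Type*} [Finite κ] {r : ℝ} (hr : 0 < r) {m : ℕ} {G : κ → ι → Cn n → Mat n}
    (h : ∀ k, UM r m (G k)) : ∃ B : ℝ, 0 ≤ B ∧ ∀ i k a b, ‖G k i 0 a b‖ ≤ B := by
  choose K K0 hK using fun k => UE.bdd (h k)
  obtain ⟨B, hB⟩ := (Set.finite_range K).bddAbove
  refine ⟨max B 0, le_max_right _ _, fun i k a b => ?_⟩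
  have := hK k i 0 (mem_ball_self hr) a b
  rw [rr_zero] at this
  exact this.trans ((hB ⟨k, rfl⟩).trans (le_max_left _ _))

end Cru66

open Cru66 in
/-- **CRU** -/
theorem cruStmt (n : ℕ) : CruStmt n := by
  intro C
  let ι := {g : Cn n → Mat n // (∀ w ∈ ball (0 : Cn n) (RR n), KahAt g w) ∧
    (∀ w ∈ ball (0 : Cn n) (RR n), ∀ v, ‖v‖ ^ 2 / 2 ≤ nq (g w) v) ∧
    ∀ a b, CB (1 / 4) 5 C (rr fun w => g w a b)}
  have hs : ball (0 : En (2 * n)) (1 / 4) ⊆ ball 0 2 := ball_subset_ball (by norm_num)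
  have hU : UM (1 / 4) 4 fun i : ι => i.1 := fun a b =>
    (ubCb (2 * n) ℂ ι (1 / 4) 4 (fun i => rr fun w => i.1 w a b) fun i y hy =>
      (cda_rr ((i.2.1 _ (symm_mem (hs hy))).sm a b)).contDiffWithinAt).2 ⟨C, fun i => i.2.2.2 a b⟩
  have hc : (0 : ℝ) < (1 / 2) ^ n := by positivity
  have hd : ∀ i : ι, ∀ y ∈ ball (0 : En (2 * n)) (1 / 4), (1 / 2 : ℝ) ^ n ≤ (rr i.1 y).det.re :=
    fun i y hy => det_ge_of_nq (i.2.1 _ (symm_mem (hs hy))).posDef.isHermitian (by norm_num)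
      fun v => by linarith [i.2.2.1 _ (symm_mem (hs hy)) v]
  have hr : (0 : ℝ) < 1 / 4 := by norm_num
  have uR : UM (1 / 4) 0 fun i : ι => ric i.1 := UM.ric (UE.of_le (by norm_num) hU) hc hd
  have uI : UM (1 / 4) 0 fun (i : ι) w => (i.1 w)⁻¹ := UE.inv (UE.of_le (by norm_num) hU) hc hd
  have uH : UM (1 / 4) 0 fun (i : ι) w => hess (scal i.1) w + ric i.1 w * (i.1 w)⁻¹ * ric i.1 w :=
    UE.add (UC.hess (UM.scal (m := 2) hU hc hd)) (UE.mul (UE.mul uR uI) uR)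
  obtain ⟨B1, p1, h1⟩ := bdd0 (κ := Unit) hr fun _ => uH
  obtain ⟨B2, p2, h2⟩ := bdd0 (κ := Unit) hr fun _ => uR
  obtain ⟨B3, p3, h3⟩ := bdd0 hr fun k => UM.nabRic (m := 1) hU hc hd k
  obtain ⟨B4, p4, h4⟩ := bdd0 (κ := Fin n × Fin n) hr fun k => UM.Rm (m := 2) hU hc hd k.1 k.2
  obtain ⟨B5, p5, h5⟩ := bdd0 (κ := Unit) hr fun _ => uI
  obtain ⟨B, hB⟩ : ∃ B, B = B1 + B2 + B3 + B4 + B5 := ⟨_, rfl⟩
  refine ⟨max 1 (4 * ((n : ℝ) ^ 2 * B) + 4 * (n ^ 3 * B) + 4 * (n ^ 4 * B) + 2 * (n ^ 2 * |C|) +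
    n ^ 2 * B * |C| ^ 2), le_max_left _ _, fun g g1 g2 g3 => ?_⟩
  · have h := alg (g := g) (z := 0) (B := B) (C := |C|) (by linarith)
      (abs_nonneg C) (g2 0 (mem_ball_self (one_pos.trans_le (one_le_RR n))))
      (fun a b => (h1 ⟨g, g1, g2, g3⟩ () a b).trans (by linarith))
      (fun a b => (h2 ⟨g, g1, g2, g3⟩ () a b).trans (by linarith))
      (fun k a b => (h3 ⟨g, g1, g2, g3⟩ k a b).trans (by linarith))
      (fun c d a b => (h4 ⟨g, g1, g2, g3⟩ (c, d) a b).trans (by linarith))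
      (fun a b => (h5 ⟨g, g1, g2, g3⟩ () a b).trans (by linarith)) (le_max_right 1 _)
    exact ⟨h.1, h.2.1, h.2.2.1, fun H hH => h.2.2.2.1 H fun a b => (hH a b).trans (le_abs_self C),
      fun ξ hξ => h.2.2.2.2 ξ (hξ.trans (le_abs_self C))⟩

end Crest.Agent.T223.St
end

-- ▼ part T223/StFlow_33
section

/-!
# Row 223, STEP (helper33): the Monge-Ampere flow gives a Kaehler-Ricci flow (`FlowStmt`)
-/

set_option autoImplicit false

open Set Filter Topology Metric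
open scoped ContDiff ComplexConjugate Matrix ComplexOrder

namespace Crest.Agent.T223.St

open Crest.Agent.R275.Geo Crest.Agent.R275.EDR890 Crest.Agent.R273.Hess_333
open Crest.Agent.R273.HessB_333 Crest.Agent.T223.Tr Crest.Agent.T223.Os
open Crest.Agent.T223.Db (dom SmST)

namespace F33

variable {n : ℕ}

theorem cdOn_fderiv {E W : Type} [NormedAddCommGroup E] [NormedSpace ℝ E]
    [NormedAddCommGroup W] [NormedSpace ℝ W] {a b : ℝ} (hab : a < b) {D : Set E} (hD : IsOpen D)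
    {f : ℝ → E → W} (hf : ContDiffOn ℝ ∞ (fun q : ℝ × E => f q.1 q.2) (Icc a b ×ˢ D)) :
    ContDiffOn ℝ ∞ (fun q : ℝ × E => fderiv ℝ (f q.1) q.2) (Icc a b ×ˢ D) := by
  have h1 := (hf.fderivWithin (m := ∞) ((uniqueDiffOn_Icc hab).prod hD.uniqueDiffOn)
    (by simp)).clm_comp (contDiffOn_const (c := ContinuousLinearMap.inr ℝ ℝ E))
  refine h1.congr fun q hq => ?_
  have h6 : MapsTo (fun w : E => ((q.1, w) : ℝ × E)) D (Icc a b ×ˢ D) := fun w hw => ⟨hq.1, hw⟩
  exact (((hf.differentiableOn (by simp) q hq).hasFDerivWithinAt.comp q.2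
    ((hasFDerivAt_prodMk_right q.1 q.2).hasFDerivWithinAt (s := D)) h6).hasFDerivAt
      (hD.mem_nhds hq.2)).fderiv

theorem cdOn_wd {a b : ℝ} (hab : a < b) {D : Set (Cn n)} (hD : IsOpen D) {f : ℝ → Cn n → ℂ}
    (hf : ContDiffOn ℝ ∞ (fun q : ℝ × Cn n => f q.1 q.2) (Icc a b ×ˢ D)) (s : WI n) :
    ContDiffOn ℝ ∞ (fun q : ℝ × Cn n => wd s (f q.1) q.2) (Icc a b ×ˢ D) := by
  have h3 : ContDiff ℝ ∞ fun L : Cn n →L[ℝ] ℂ => wdL s L := by
    unfold wdL
    fun_prop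
  exact h3.comp_contDiffOn (cdOn_fderiv hab hD hf)

theorem cdOn_hess {a b : ℝ} (hab : a < b) {D : Set (Cn n)} (hD : IsOpen D) {f : ℝ → Cn n → ℝ}
    (hf : ContDiffOn ℝ ∞ (fun q : ℝ × Cn n => f q.1 q.2) (Icc a b ×ˢ D)) (k l : Fin n) :
    ContDiffOn ℝ ∞ (fun q : ℝ × Cn n => hess (f q.1) q.2 k l) (Icc a b ×ˢ D) :=
  cdOn_wd hab hD (f := fun t => wd (true, l) (cu (f t))) (cdOn_wd hab hD (f := fun t => cu (f t))
    (Complex.ofRealCLM.contDiff.comp_contDiffOn hf) _) _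

theorem cdOn_gs {a b : ℝ} (hab : a < b) {D : Set (Cn n)} (hD : IsOpen D) {G : Cn n → Mat n}
    (hG : ∀ w ∈ D, KahAt G w) {f : ℝ → Cn n → ℝ}
    (hf : ContDiffOn ℝ ∞ (fun q : ℝ × Cn n => f q.1 q.2) (Icc a b ×ˢ D)) (k l : Fin n) :
    ContDiffOn ℝ ∞ (fun q : ℝ × Cn n => gs G f q.1 q.2 k l) (Icc a b ×ˢ D) :=
  ContDiffOn.add (fun q hq => ((cd_static q.1 ((hG _ hq.2).sm k l)).sub (ContDiffAt.mul
    (Complex.ofRealCLM.contDiff.contDiffAt.comp q contDiffAt_fst)
    (cd_static q.1 ((hG _ hq.2).smM_ric k l)))).contDiffWithinAt) (cdOn_hess hab hD hf k l)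

theorem cda_slice {I : Set ℝ} {D : Set (Cn n)} (hD : IsOpen D) {f : ℝ → Cn n → ℝ}
    (hf : ContDiffOn ℝ ∞ (fun q : ℝ × Cn n => f q.1 q.2) (I ×ˢ D)) {t : ℝ} (ht : t ∈ I)
    {w : Cn n} (hw : w ∈ D) : ContDiffAt ℝ ∞ (f t) w :=
  (hf.comp (f := fun w : Cn n => ((t, w) : ℝ × Cn n)) (contDiffOn_const.prodMk contDiffOn_id)
    fun _ h => ⟨ht, h⟩).contDiffAt (hD.mem_nhds hw)

theorem hess_zero {u : Cn n → ℝ} {z : Cn n} (h : u =ᶠ[𝓝 z] fun _ => 0) : hess u z = 0 := by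
  have h1 := hess_const_mul (u := fun _ : Cn n => (0 : ℝ)) (z := z) 0 contDiffAt_const
  simp only [mul_zero, Complex.ofReal_zero, zero_smul] at h1
  rw [hess_congr h, h1]

variable {M : Type} [TopologicalSpace M] {A : Atl n M}

theorem opn (i : A.ι) {U : Set M} (hU : IsOpen U) : IsOpen (dom A i U) :=
  (A.e i).isOpen_inter_preimage_symm hU

theorem mem {i : A.ι} {U : Set M} {x : M} (hi : x ∈ (A.e i).source) (hx : x ∈ U) :
    A.e i x ∈ dom A i U := ⟨(A.e i).map_source hi, by rwa [(A.e i).left_inv hi]⟩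

theorem kah_dom {G : MF A} {U : Set M} (h : KahOn G U) {i : A.ι} {z : Cn n}
    (hz : z ∈ dom A i U) : KahAt (G i) z := by
  have h1 := h.kah i _ ((A.e i).map_target hz.1) hz.2
  rwa [(A.e i).right_inv hz.1] at h1

theorem cdOn_comp {I : Set ℝ} {f : ℝ → M → ℝ} {V : Set M} {ψ : Cn n → M} {D : Set (Cn n)}
    (hD : IsOpen D) (hψ : Hol A ψ D) (hm : MapsTo ψ D V) (hf : SmST A I V f) :
    ContDiffOn ℝ ∞ (fun q : ℝ × Cn n => f q.1 (ψ q.2)) (I ×ˢ D) := by
  intro q hq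
  have hi := ch_mem A (ψ q.2)
  generalize ch A (ψ q.2) = i at hi
  have h0 : {r : ℝ × Cn n | ψ r.2 ∈ (A.e i).source} ∈ 𝓝 q :=
    ((hψ _ hq.2).1.comp continuousAt_snd) ((A.e i).open_source.mem_nhds hi)
  refine (contDiffWithinAt_inter h0).1 ?_
  have h1 : ContDiffAt ℝ ∞ (fun r : ℝ × Cn n => ((r.1, rd A i ψ r.2) : ℝ × Cn n)) q :=
    contDiffAt_fst.prodMk (cd_static q.1 (holAt_rd hψ hD hq.2 hi).cd)
  have h2 : MapsTo (fun r : ℝ × Cn n => ((r.1, rd A i ψ r.2) : ℝ × Cn n))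
      ((I ×ˢ D) ∩ {r : ℝ × Cn n | ψ r.2 ∈ (A.e i).source}) (I ×ˢ dom A i V) :=
    fun r hr => ⟨hr.1.1, mem hr.2 (hm hr.1.2)⟩
  refine ((hf i (q.1, rd A i ψ q.2) ⟨hq.1, mem hi (hm hq.2)⟩).comp q h1.contDiffWithinAt
    h2).congr (fun r hr => ?_) ?_
  · exact congrArg (f r.1) ((A.e i).left_inv hr.2).symm
  · exact congrArg (f q.1) ((A.e i).left_inv hi).symm

end F33

open F33 in
theorem flowStmt (n : ℕ) : FlowStmt n := by
  intro M _ A G V β φ hβ hV hG h
  have sl : ∀ t ∈ Icc 0 β, ∀ i, ∀ z ∈ dom A i V, ContDiffAt ℝ ∞ (inC A i (φ t)) z :=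
    fun t ht i z hz => cda_slice (f := fun s => inC A i (φ s)) (opn i hV) (h.sm i) ht hz
  have kah : ∀ t ∈ Icc 0 β, KahOn (gM G φ t) V := fun t ht =>
    ⟨fun i x hi hx => by
      have h1 := (opn i hV).mem_nhds (mem hi hx)
      exact kahAt_pot (hG.kah i x hi hx) (mem_of_superset h1 fun z hz => sl t ht i z hz) t
        (mem_of_superset h1 fun z hz => h.pos t ht i z hz), fun i j x hx hxU => by
      have h1 : ric (G i) (A.e i x) = (R275.Core144.Jm A i j x)ᵀ * ric (G j) (A.e j x) *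
        (R275.Core144.Jm A i j x).map conj := hG.trOn_ric hV i j x hx hxU
      simp only [gM, gs]
      rw [hG.tr i j x hx hxU, h1, hess_inC_tm hx.1 hx.2 (sl t ht j _ (mem hx.2 hxU))]
      simp only [Matrix.mul_add, Matrix.add_mul, Matrix.mul_sub, Matrix.sub_mul, Matrix.mul_smul,
        Matrix.smul_mul]⟩
  have e0 : ∀ i, ∀ z ∈ dom A i V, gM G φ 0 i z = G i z := fun i z hz => by
    simp only [gM, gs]
    rw [hess_zero (u := inC A i (φ 0)) (mem_of_superset ((opn i hV).mem_nhds hz) fun w hw => h.zero _ hw.2)]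
    simp
  have e1 : ∀ i, ∀ z ∈ dom A i V, gM G φ 0 i =ᶠ[𝓝 z] G i := fun i z hz =>
    mem_of_superset ((opn i hV).mem_nhds hz) fun w hw => e0 i w hw
  refine ⟨⟨fun i k l => cdOn_gs hβ (opn i hV) (fun w hw => kah_dom hG hw) (h.sm i) k l, kah,
    fun s hs i x hi hx => ?_⟩, ⟨h.sm, h.zero, fun s hs i x hi hx => ?_, fun s hs i x hi hx => ?_⟩,
    fun i x hi hx => e0 i _ (mem hi hx), fun ψ D hD hψ hm => ?_⟩
  · have h1 : Ioo 0 β ×ˢ dom A i V ∈ 𝓝 ((s, A.e i x) : ℝ × Cn n) :=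
      (isOpen_Ioo.prod (opn i hV)).mem_nhds ⟨hs, mem hi hx⟩
    have h2 := krfAt_pot (φ := fun s => inC A i (φ s)) (t := s) 0 (hG.kah i x hi hx)
      (mem_of_superset h1 fun q hq => (h.sm i).contDiffAt (prod_mem_nhds
        (Icc_mem_nhds hq.1.1 hq.1.2) ((opn i hV).mem_nhds hq.2)))
      (mem_of_superset h1 fun q hq => by
        simp only [sub_zero]; exact h.pos _ (Ioo_subset_Icc_self hq.1) i _ hq.2)
      (mem_of_superset h1 fun q hq => by
        simp only [sub_zero]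
        exact (h.dt _ (Ioo_subset_Icc_self hq.1) i _ hq.2).hasDerivAt (Icc_mem_nhds hq.1.1 hq.1.2))
    simp only [sub_zero] at h2
    exact h2
  · rw [e0 i _ (mem hi hx), ric_congr (e1 i _ (mem hi hx)), sub_zero]
    rfl
  · have h1 := (h.dt s (Ioo_subset_Icc_self hs) i _ (mem hi hx)).hasDerivAt (Icc_mem_nhds hs.1 hs.2)
    simp only [inC_apply hi] at h1
    rwa [(ldet_congr (e1 i _ (mem hi hx))).self_of_nhds]
  · have hk : ∀ w ∈ D, KahAt (pull G ψ) w := fun w hw =>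
      kahAt_pull hG hψ hD hw (hV.mem_nhds (hm hw))
    refine ⟨cdOn_gs hβ hD hk (cdOn_comp hD hψ.1 hm h.sm), fun t ht w hw => ?_⟩
    have hi := ch_mem A (ψ w)
    generalize ch A (ψ w) = i at hi
    have hr := rel_pull hG hψ hD hw (hV.mem_nhds (hm hw)) hi
    have e2 : gs (pull G ψ) (fun s w => φ s (ψ w)) t w = pbk (rd A i ψ) (gM G φ t i) w := by
      simp only [gs, gM]
      rw [hr.eq.self_of_nhds, hr.ric, hess_congr (comp_rd (hψ.1 w hw).1 hi (φ t)),
        hess_pbk (sl t ht i _ (mem hi (hm hw))) hr.hol]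
      simp only [pbk, gs, Matrix.mul_add, Matrix.add_mul, Matrix.mul_sub, Matrix.sub_mul,
        Matrix.mul_smul, Matrix.smul_mul]
    refine ⟨(pull_eq (kah t ht).tr hψ.1 hw (hm hw) hi).trans e2.symm, ?_⟩
    have h1 := h.dt t ht i _ (mem hi (hm hw))
    simp only [inC_apply hi] at h1
    refine h1.congr_deriv ?_
    have h2 := ldet_pbk (g := gM G φ t i) (h.pos t ht i _ (mem hi (hm hw))) hr.det
    have h3 := ldet_pbk hr.kah.posDef hr.det
    unfold ldet at h2 h3 ⊢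
    rw [e2, hr.eq.self_of_nhds, h2, h3]
    simp only [rd]
    ring

end Crest.Agent.T223.St
end

-- ▼ part T223/StTrf_33
section

/-!
# Row 223, STEP (helper33): joint smoothness through immersions and charts (`TrfStmt`)
-/

set_option autoImplicit false

open Set Filter Topology
open scoped ContDiff

namespace Crest.Agent.T223.St

open Crest.Agent.R275.Geo Crest.Agent.T223.Tr

theorem trfStmt (n : ℕ) : TrfStmt n := by
  intro M _ A I f
  refine ⟨fun V ψ D _ hD hψ hm hf => F33.cdOn_comp hD hψ.1 hm hf, fun V h i q hq => ?_⟩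
  obtain ⟨ψ, D, hD, hψ, ⟨w, hw, e⟩, hs⟩ := h _ hq.2.2
  have hi : ψ w ∈ (A.e i).source := e ▸ (A.e i).map_target hq.2.1
  have e1 : rd A i ψ w = q.2 := by rw [rd, e, (A.e i).right_inv hq.2.1]
  have h1 := hψ.1.contDiffAt hD hw hi
  have h2 : HasFDerivAt (rd A i ψ)
      ((eqvOf _ (hψ.2 w hw i hi) : Cn n ≃L[ℂ] Cn n) : Cn n →L[ℂ] Cn n) w := by
    rw [eqvOf_coe]
    exact (h1.differentiableAt (by simp)).hasFDerivAt
  have h3 := h1.to_localInverse h2 (by simp)
  have h4 := h1.localInverse_apply_image h2 (by simp)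
  have h5 : ∀ᶠ y in 𝓝 (rd A i ψ w), rd A i ψ (h1.localInverse h2 (by simp) y) = y :=
    (h1.hasStrictFDerivAt' h2 (by simp)).eventually_right_inverse
  generalize h1.localInverse h2 (by simp) = σ at h3 h4 h5
  rw [e1] at h3 h4 h5
  have h6 : ∀ᶠ y in 𝓝 q.2, σ y ∈ D ∧ ψ (σ y) = (A.e i).symm y := by
    have h7 : Tendsto σ (𝓝 q.2) (𝓝 w) := h4 ▸ h3.continuousAt
    filter_upwards [h5, h7.eventually (hψ.1.eventually hD hw hi)] with y a1 a2
    exact ⟨a2.1, by rw [← (A.e i).left_inv a2.2.1]; exact congrArg _ a1⟩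
  have h8 : {r : ℝ × Cn n | σ r.2 ∈ D ∧ ψ (σ r.2) = (A.e i).symm r.2} ∈ 𝓝 q :=
    (continuousAt_snd (p := q)).eventually h6
  refine (contDiffWithinAt_inter h8).1 ?_
  have h9 : ContDiffAt ℝ ∞ (fun r : ℝ × Cn n => ((r.1, σ r.2) : ℝ × Cn n)) q :=
    contDiffAt_fst.prodMk (cd_static q.1 ((h3.restrict_scalars ℝ).of_le le_top))
  have h10 : MapsTo (fun r : ℝ × Cn n => ((r.1, σ r.2) : ℝ × Cn n))
      ((I ×ˢ Db.dom A i V) ∩ {r : ℝ × Cn n | σ r.2 ∈ D ∧ ψ (σ r.2) = (A.e i).symm r.2})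
      (I ×ˢ D) := fun r hr => ⟨hr.1.1, hr.2.1⟩
  refine ((hs (q.1, σ q.2) ⟨hq.1, h6.self_of_nhds.1⟩).comp q h9.contDiffWithinAt h10).congr
    (fun r hr => ?_) ?_
  · exact congrArg (f r.1) hr.2.2.symm
  · exact congrArg (f q.1) h6.self_of_nhds.2.symm

end Crest.Agent.T223.St
end

-- ▼ part T223/StHeat_25
section

/-!
# Row 223, STEP, leaf HEAT (helper25): the heat equation along a flow

`u = u0 + S f`, `f = ζ (c - ρ0) Δ u0` on `V`, where `S` is the solution operator of `Db.LinSolStmt`.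
-/

set_option autoImplicit false

open Set Filter Topology Metric
open scoped ContDiff ComplexConjugate Matrix ComplexOrder

namespace Crest.Agent.T223.St

open Crest.Agent.R275.Geo Crest.Agent.R273.Hess_333 Crest.Agent.T223.Tr Crest.Agent.T223.Os
open Crest.Agent.T223.Db (dom SmST)

namespace H25

variable {n : ℕ} {M : Type} [TopologicalSpace M] {A : Atl n M}

theorem hfam {a b : ℝ} {V : Set M} {g : ℝ → MF A} (hg : FlowOn a b V g) :
    Db.HFam A (Icc a b) V fun i t z => g t i z :=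
  ⟨hg.sm, fun _ t ht _ hz => (kahAt_dom (hg.kah t ht) hz).posDef,
    fun i j t ht x hx hi hj => (hg.kah t ht).tr i j x ⟨hi, hj⟩ hx⟩

theorem lap_read {V : Set M} {G : MF A} (hG : KahOn G V) (hV : IsOpen V) {f : M → ℝ}
    (hf : SmOn A V f) {i : A.ι} {z : Cn n} (hz : z ∈ dom A i V) :
    lap (G (ch A ((A.e i).symm z))) (inC A (ch A ((A.e i).symm z)) f)
      (A.e (ch A ((A.e i).symm z)) ((A.e i).symm z)) = lap (G i) (inC A i f) z := by
  have h := hG.tr.lap_indep (ch_mem A _) (dom_src hz) hz.2 (hf.contDiffAt hV (dom_src hz) hz.2)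
  rwa [dom_inv hz] at h

theorem smST_lap {a b : ℝ} {V : Set M} {g : ℝ → MF A} (hg : FlowOn a b V g) (hV : IsOpen V)
    {f : M → ℝ} (hf : SmOn A V f) :
    SmST A (Icc a b) V fun s x => lap (g s (ch A x)) (inC A (ch A x) f) (A.e (ch A x) x) :=
  fun i => ((hg.fam hV i).lap (φ := fun _ => inC A i f) (hf.smST _ i)).congr fun q hq =>
    lap_read (hg.kah q.1 hq.1) hV hf hq.2

theorem lap_add' (G : Cn n → Mat n) {u v : Cn n → ℝ} {z : Cn n} (hu : ContDiffAt ℝ ∞ u z)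
    (hv : ContDiffAt ℝ ∞ v z) : lap G (fun w => u w + v w) z = lap G u z + lap G v z := by
  simp only [lap, trg, R273.HessB_333.hess_add hu hv, mul_add, Matrix.trace_add, Complex.add_re]

end H25

open H25

theorem heatStmt {n : ℕ} (h : Db.LinSolStmt n) : HeatStmt n := by
  intro M _ _ _ A g V u0 ρ0 β c C hβ hC hV hg hu0 hρ0 hK hb
  classical
  obtain ⟨W', hW'o, hKW', hW'V, S, hS, hSb, -⟩ :=
    h M A {x | x ∈ V ∧ ρ0 x ≤ c} V hK hV (fun _ hx => hx.1) 0 β hβ _ (hfam hg)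
  set L : ℝ → M → ℝ := fun s x => lap (g s (ch A x)) (inC A (ch A x) u0) (A.e (ch A x) x) with hL
  set f : ℝ → M → ℝ := fun s => V.indicator fun x => Real.smoothTransition (c - ρ0 x) * L s x
    with hf
  have hfV : ∀ s, ∀ x ∈ V, f s x = Real.smoothTransition (c - ρ0 x) * L s x := fun s x hx =>
    indicator_of_mem hx _
  have hA : Db.Adm A (Icc 0 β) {x | x ∈ V ∧ ρ0 x ≤ c} V f := by
    refine ⟨smST_congr (smST_mul (smST_comp Real.smoothTransition.contDiff
      (smST_sub (smST_const c) (hρ0.smST _))) (smST_lap hg hV hu0)) fun s _ x hx => hfV s x hx,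
      fun t _ x hx => ?_⟩
    by_cases hxV : x ∈ V
    · have h1 : c - ρ0 x ≤ 0 := by
        by_contra h2
        exact hx ⟨hxV, by linarith⟩
      rw [hfV t x hxV, Real.smoothTransition.zero_of_nonpos h1, zero_mul]
    · exact indicator_of_notMem hxV _
  have hsol := hS f hA
  set U : Set M := {x | x ∈ V ∧ ρ0 x < c - 1} with hU
  have hUW : U ⊆ W' := fun x hx => hKW' ⟨hx.1, by linarith [hx.2]⟩
  have hUV : U ⊆ V := fun x hx => hx.1
  have hfU : ∀ s, ∀ x ∈ U, f s x = L s x := fun s x hx => by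
    rw [hfV s x hx.1, Real.smoothTransition.one_of_one_le (by linarith [hx.2]), one_mul]
  have key : ∀ s ∈ Icc 0 β, ∀ i, ∀ x ∈ (A.e i).source, x ∈ U →
      HasDerivWithinAt (fun s => u0 x + S f s x)
        (lap (g s i) (inC A i fun y => u0 y + S f s y) (A.e i x)) (Icc 0 β) s := by
    intro s hs i x hi hx
    have h1 := (hsol.eqn i s hs _ (mem_dom hi (hUW hx))).const_add (u0 x)
    simp only [(A.e i).left_inv hi] at h1
    have h2 := lap_add' (g s i) (hu0.contDiffAt hV hi hx.1)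
      ((smOn_of_SmST hsol.sm hs).contDiffAt hW'o hi (hUW hx))
    have h3 : L s x = lap (g s i) (inC A i u0) (A.e i x) :=
      (hg.kah s hs).tr.lap_indep (ch_mem A x) hi hx.1 (hu0.contDiffAt hV hi hx.1)
    rw [hfU s x hx, h3, add_comm] at h1
    exact h2 ▸ h1
  refine ⟨fun s x => u0 x + S f s x, ⟨smST_add ((hu0.mono hUV).smST _)
    (smST_mono hsol.sm Subset.rfl hUW), fun s hs i x hi hx => ?_⟩, fun x hx hρ => ⟨?_, fun s hs =>
      ⟨?_, key s hs _ x (ch_mem A x) ⟨hx, hρ⟩⟩⟩⟩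
  · rw [box_inC g (fun s x => u0 x + S f s x) s hi, ((key s (Ioo_subset_Icc_self hs) i x hi
      hx).hasDerivAt (Icc_mem_nhds hs.1 hs.2)).deriv, sub_self]
  · simp only [hsol.init x (hUW ⟨hx, hρ⟩), add_zero]
  · have h1 := hSb f hA C hC s hs (fun t ht y hy => ?_) x (hUW ⟨hx, hρ⟩)
    · simp only [add_sub_cancel_left]
      exact h1.trans (mul_le_mul_of_nonneg_right (by linarith [hs.2]) hC)
    · rw [hfV t y hy.1, abs_mul, abs_of_nonneg (Real.smoothTransition.nonneg _)]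
      exact (mul_le_of_le_one_left (abs_nonneg _) (Real.smoothTransition.le_one _)).trans
        (hb t ⟨ht.1, ht.2.trans hs.2⟩ y hy.1 hy.2)

end Crest.Agent.T223.St
end

-- ▼ part T223/StReg_54
section

/-!
# Row 223, STEP (helper54): `St.regStmt`, a `C^{2,1/2}` solution of the Monge-Ampere flow is smooth
-/

set_option autoImplicit false
set_option linter.unusedVariables false

open Set Filter Topology Metric
open scoped ContDiff ComplexConjugate Matrix ComplexOrder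

namespace Crest.Agent.T223.St

open Crest.Agent.R275.Geo Crest.Agent.R273.Hess_333 Crest.Agent.T223.Tr
open Crest.Agent.T223.Db (eR zm rm rm_pos)
open Crest.Agent.N207.P (En pd Lop Yl)
open Crest.Agent.T223.Lx (d2 eH FnReg)

noncomputable section

namespace Rg54

variable {n : ℕ}

theorem trg_Pm (G : Mat n) (H : Fin (2 * n) → Fin (2 * n) → ℝ) :
    trg G (Matrix.of (Pm n H)) = ∑ k, ∑ l, rm G k l * H k l := by
  rw [trg, of_Pm, ← Matrix.mul_assoc, Matrix.trace_mul_comm, ← Matrix.mul_assoc,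
    ← Matrix.mul_assoc]
  simp only [Matrix.trace, Matrix.diag_apply, Matrix.mul_apply (M := (zm n)ᴴ * G⁻¹ * zm n),
    Complex.re_sum, Matrix.of_apply, Complex.re_mul_ofReal, rm]
  exact Finset.sum_comm

theorem trg_Pm_eH (G : Mat n) (k l : Fin (2 * n)) :
    trg G (Matrix.of (Pm n (eH k l))) = rm G k l := by
  rw [trg_Pm, Finset.sum_eq_single k, Finset.sum_eq_single l]
  · simp [eH]
  · intro l' _ hl
    simp [eH, hl]
  · simp
  · intro k' _ hk
    simp [eH, hk]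
  · simp

theorem herm_Pm {H : Fin (2 * n) → Fin (2 * n) → ℝ} (h : ∀ k l, H k l = H l k) :
    (Matrix.of (Pm n H)).IsHermitian := by
  rw [of_Pm]
  refine Matrix.isHermitian_mul_mul_conjTranspose _ ?_
  ext k l
  simp [Matrix.conjTranspose_apply, h k l]

/-- second derivatives commute under mere differentiability of the first ones -/
theorem pd_comm {m : ℕ} {f : En m → ℝ} {y : En m} (h1 : ∀ᶠ w in 𝓝 y, DifferentiableAt ℝ f w)
    (h2 : ∀ k, DifferentiableAt ℝ (pd k f) y) (k l : Fin m) :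
    pd k (pd l f) y = pd l (pd k f) y := by
  have e : fderiv ℝ f = fun w => ∑ j,
      ContinuousLinearMap.smulRightL ℝ (En m) ℝ (EuclideanSpace.proj j) (pd j f w) := by
    funext w
    ext v
    simp [N207.P.fderiv_eq_sum_pd]
  have hd : DifferentiableAt ℝ (fderiv ℝ f) y := by
    rw [e]
    exact DifferentiableAt.fun_sum fun j _ =>
      (ContinuousLinearMap.smulRightL ℝ (En m) ℝ (EuclideanSpace.proj j)).differentiableAt.comp y
        (h2 j)
  have key : ∀ i j : Fin m, pd i (pd j f) y = fderiv ℝ (fderiv ℝ f) y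
      (EuclideanSpace.single i 1) (EuclideanSpace.single j 1) := by
    intro i j
    unfold pd
    rw [fderiv_clm_apply hd (differentiableAt_const _)]
    simp
  rw [key, key]
  exact second_derivative_symmetric_of_eventually_of_real (h1.mono fun w hw => hw.hasFDerivAt)
    hd.hasFDerivAt _ _

/-- the matrix of the metric -/
def XM (G : Cn n → Mat n) (q : ℝ × En (2 * n) × (Fin (2 * n) → Fin (2 * n) → ℝ)) : Mat n :=
  rr G q.2.1 - (q.1 : ℂ) • rr (ric G) q.2.1 + Matrix.of (Pm n q.2.2)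

/-- the nonlinearity -/
def FF (G : Cn n → Mat n) (q : ℝ × En (2 * n) × (Fin (2 * n) → Fin (2 * n) → ℝ)) : ℝ :=
  Real.log (XM G q).det.re - Real.log (rr G q.2.1).det.re

theorem cd_FF {G : Cn n → Mat n} {q : ℝ × En (2 * n) × (Fin (2 * n) → Fin (2 * n) → ℝ)}
    (hk : KahAt G ((eR n).symm q.2.1)) (h : 0 < (XM G q).det.re) : ContDiffAt ℝ ∞ (FF G) q := by
  have hy : ContDiffAt ℝ ∞
      (fun q : ℝ × En (2 * n) × (Fin (2 * n) → Fin (2 * n) → ℝ) => (eR n).symm q.2.1) q :=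
    (eR n).symm.contDiff.contDiffAt.comp q contDiffAt_snd.fst
  have hG : ∀ a b, ContDiffAt ℝ ∞
      (fun q : ℝ × En (2 * n) × (Fin (2 * n) → Fin (2 * n) → ℝ) => rr G q.2.1 a b) q :=
    fun a b => by
      have h1 := (hk.sm a b).comp q hy
      exact h1
  have hX : ∀ a b, ContDiffAt ℝ ∞ (fun q => XM G q a b) q := fun a b => by
    have h1 := (hk.smM_ric a b).comp q hy
    have h2 : ContDiffAt ℝ ∞
        (fun q : ℝ × En (2 * n) × (Fin (2 * n) → Fin (2 * n) → ℝ) => Pm n q.2.2 a b) q :=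
      contDiffAt_pi.1 (contDiffAt_pi.1 ((Pm n).contDiff.contDiffAt.comp q contDiffAt_snd.snd) a) b
    exact ((hG a b).sub ((Complex.ofRealCLM.contDiff.contDiffAt.comp q contDiffAt_fst).mul h1)).add
      h2
  exact ((Complex.reCLM.contDiff.contDiffAt.comp q (cdM_det hX)).log h.ne').sub
    ((Complex.reCLM.contDiff.contDiffAt.comp q (cdM_det hG)).log (det_re_pos hk.posDef).ne')

theorem fderiv_FF {G : Cn n → Mat n} {t : ℝ} {y : En (2 * n)} {H : Fin (2 * n) → Fin (2 * n) → ℝ}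
    (hk : KahAt G ((eR n).symm y)) (h : (XM G (t, y, H)).PosDef) (k l : Fin (2 * n)) :
    fderiv ℝ (fun H => FF G (t, y, H)) H (eH k l) = rm (XM G (t, y, H)) k l := by
  have h1 : HasDerivAt (fun s : ℝ => H + s • eH k l) (eH k l) 0 := by
    simpa using ((hasDerivAt_id (0 : ℝ)).smul_const (eH k l)).const_add H
  have h2 : DifferentiableAt ℝ (fun H => FF G (t, y, H)) H :=
    DifferentiableAt.comp (g := FF G) (f := fun H => (t, y, H)) H
      ((cd_FF (q := (t, y, H)) hk (det_re_pos h)).differentiableAt (by simp))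
      ((differentiableAt_const t).prodMk ((differentiableAt_const y).prodMk differentiableAt_id))
  have h3 : HasFDerivAt (fun H => FF G (t, y, H)) (fderiv ℝ (fun H => FF G (t, y, H)) H)
      (H + (0 : ℝ) • eH k l) := by
    rw [zero_smul, add_zero]
    exact h2.hasFDerivAt
  have h4 := h3.comp_hasDerivAt (0 : ℝ) h1
  have h5 := (Lo.hasDerivAt_logdet (A := fun s : ℝ => XM G (t, y, H + s • eH k l))
    (A' := Matrix.of (Pm n (eH k l))) (t := 0) (by simpa using h) fun a b => by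
      have h6 := ((ContinuousLinearMap.proj (R := ℝ) (φ := fun _ : Fin n => ℂ) b).comp
        ((ContinuousLinearMap.proj (R := ℝ) (φ := fun _ : Fin n => Fin n → ℂ) a).comp
          (Pm n))).hasFDerivAt.comp_hasDerivAt (0 : ℝ) h1
      exact h6.const_add ((rr G y - (t : ℂ) • rr (ric G) y) a b)).sub_const
        (Real.log (rr G y).det.re)
  rw [h4.unique h5, trg_Pm_eH, zero_smul, add_zero]

end Rg54

open Rg54

/-- REG -/
theorem regStmt {n : ℕ} (h : FnReg (2 * n)) : RegStmt n := by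
  obtain ⟨η0, hη0, h0⟩ := exists_η0 n
  have hR : 0 < RR n := one_pos.trans_le (one_le_RR n)
  have hdet : ∀ {G : Cn n → Mat n}, FlG (η0 / RR n) G → ∀ y ∈ ball (0 : En (2 * n)) 2,
      1 / 2 ≤ (rr G y).det.re := fun h y hy => (h0 _ fun a b =>
    (h.near (symm_mem hy) a b).trans_eq (div_mul_cancel₀ _ hR.ne')).1
  have hG0 : UM 2 7 fun i : {G : Cn n → Mat n // FlG (η0 / RR n) G} => i.1 := um_flG fun i => i.2
  obtain ⟨K0, hK0, hK⟩ :=
    UE.bdd (UM.ric (m := 5) hG0 (by norm_num : (0 : ℝ) < 1 / 2) fun i => hdet i.2)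
  have hD : 0 < RR n + K0 + 2 := by positivity
  obtain ⟨η, hη, hη2, hη3⟩ : ∃ η : ℝ, 0 < η ∧ η ≤ η0 / RR n ∧ η * (RR n + K0 + 2) ≤ η0 :=
    ⟨min (η0 / RR n) (η0 / (RR n + K0 + 2)), by positivity, min_le_left _ _,
      (le_div_iff₀ hD).1 (min_le_right _ _)⟩
  refine ⟨η, hη, fun β G U v hβ hβη hG hU hU1 hv hv0 hP hE => ?_⟩
  have h12 : ball (0 : En (2 * n)) 1 ⊆ ball 0 2 := ball_subset_ball (by norm_num)
  have hnear : ∀ t ∈ Icc 0 β, ∀ y ∈ ball (0 : En (2 * n)) 1, ∀ H, ‖Pm n H‖ < 2 * η → ∀ a b,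
      ‖XM G (t, y, H) a b - (1 : Mat n) a b‖ ≤ η0 := by
    intro t ht y hy H hH a b
    have a1 := hG.near (symm_mem (h12 hy)) a b
    have a2 : ‖(t : ℂ) * ric G ((eR n).symm y) a b‖ ≤ η * K0 := by
      rw [norm_mul, Complex.norm_real, Real.norm_of_nonneg ht.1]
      exact mul_le_mul (ht.2.trans hβη) (hK ⟨G, hG.mono hη2⟩ y (h12 hy) a b) (norm_nonneg _) hη.le
    have a3 : ‖Pm n H a b‖ ≤ 2 * η :=
      ((norm_le_pi_norm (Pm n H a) b).trans (norm_le_pi_norm (Pm n H) a)).trans hH.le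
    have a4 : XM G (t, y, H) a b - (1 : Mat n) a b = (G ((eR n).symm y) a b - (1 : Mat n) a b) -
        (t : ℂ) * ric G ((eR n).symm y) a b + Pm n H a b := by
      simp only [XM, rr, Matrix.add_apply, Matrix.sub_apply, Matrix.smul_apply, smul_eq_mul,
        Matrix.of_apply]
      ring
    rw [a4]
    have a5 := (norm_add_le _ _).trans (add_le_add ((norm_sub_le _ _).trans (add_le_add a1 a2)) a3)
    linarith
  have hk : ∀ y ∈ ball (0 : En (2 * n)) 1, KahAt G ((eR n).symm y) := fun y hy =>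
    hG.kah _ (symm_mem (h12 hy))
  have hlt : ∀ t ∈ Icc 0 β, ∀ y ∈ U, ‖Pm n (d2 (v t) y)‖ < 2 * η := fun t ht y hy =>
    (hP t ht y hy).trans_lt (by linarith)
  have hpos : ∀ t ∈ Icc 0 β, ∀ y ∈ U, (XM G (t, y, d2 (v t) y)).PosDef := by
    intro t ht y hy
    refine (h0 _ (hnear t ht y (hU1 hy) _ (hlt t ht y hy))).2.2 ?_
    refine (Matrix.IsHermitian.sub (hk y (hU1 hy)).posDef.1 ?_).add (herm_Pm fun k l => ?_)
    · exact (hk y (hU1 hy)).ric_herm.smul (by simp [IsSelfAdjoint])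
    · exact pd_comm (Eventually.mono (hU.mem_nhds hy) fun w hw => hv.diff ht hw)
        (fun k => (hv.pd k).diff ht hy) k l
  refine h 0 β U {p | p.1 ∈ ball (0 : En (2 * n)) 1 ∧ ‖Pm n p.2‖ < 2 * η} (FF G) v hβ hU
    ((isOpen_ball.preimage continuous_fst).inter (isOpen_lt
      ((Pm n).continuous.comp continuous_snd).norm continuous_const))
    (fun q hq => (cd_FF (hk _ hq.2.1) (lt_of_lt_of_le (by norm_num)
      (h0 _ (hnear _ hq.1 _ hq.2.1 _ hq.2.2)).1)).contDiffWithinAt)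
    (fun t ht y hy => ⟨hU1 hy, hlt t ht y hy⟩) (fun t ht y hy => ?_) hv
    (contDiffOn_const.congr hv0) fun t ht y hy => ?_
  · have e : (Matrix.of fun k l => fderiv ℝ (fun H => FF G (t, y, H)) (d2 (v t) y) (eH k l)) =
        rm (XM G (t, y, d2 (v t) y)) := by
      ext k l
      exact fderiv_FF (hk y (hU1 hy)) (hpos t ht y hy) k l
    rw [e]
    exact rm_pos (hpos t ht y hy)
  · refine (hE t ht y hy).congr_deriv ?_
    simp only [lop_rm, Ph, Ph0, FF]
    rw [add_sub_cancel]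
    exact Real.log_div (det_re_pos (hpos t ht y hy)).ne' (det_re_pos (hk y (hU1 hy)).posDef).ne'

end

end Crest.Agent.T223.St
end

-- ▼ part T223/StSc_54
section

/-!
# Row 223, STEP (helper54): parabolic rescaling, `St.scaleStmt : ScaleStmt n`

* §1 homogeneity of the chart calculus under `g ↦ c • g`
* §2 rescaled flows `c • g ((s - t) / c)`
* §3 good charts become very flat charts at unit scale
* §4 the theorem
-/

set_option autoImplicit false
set_option linter.unusedVariables false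

open Set Filter Topology Metric
open scoped ContDiff ComplexConjugate Matrix ComplexOrder

namespace Crest.Agent.T223.St.Sc54

open Crest.Agent.R275.Geo Crest.Agent.R275.EDR890 Crest.Agent.R273.Hess_333
open Crest.Agent.R273.HessB_333
open Crest.Agent.T223.Br Crest.Agent.T223.Tr Crest.Agent.T223.Os
open Crest.Agent.T223.Db (dom SmST)

noncomputable section

variable {n : ℕ}

/-! ## §1 homogeneity -/

theorem wd_cmul (s : WI n) (c : ℂ) (f : Cn n → ℂ) (z : Cn n) :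
    wd s (fun w => c * f w) z = c * wd s f z := by
  have h : fderiv ℝ (fun w => c * f w) z = c • fderiv ℝ f z :=
    congrFun (fderiv_const_smul_field (𝕜 := ℝ) (f := f) c) z
  rw [wd, h, wdL_smul, wd, smul_eq_mul]

theorem wd_cadd (s : WI n) (c : ℂ) (f : Cn n → ℂ) (z : Cn n) :
    wd s (fun w => c + f w) z = wd s f z := by
  rw [wd, fderiv_const_add, wd]

theorem hess_cmul (c : ℝ) (u : Cn n → ℝ) (z : Cn n) :
    hess (fun w => c * u w) z = (c : ℂ) • hess u z := by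
  ext a b
  have h1 : cu (fun w => c * u w) = fun w => (c : ℂ) * cu u w := by
    funext w; simp [cu]
  have h2 : wd (true, b) (fun w => (c : ℂ) * cu u w) = fun w => (c : ℂ) * wd (true, b) (cu u) w :=
    funext fun w => wd_cmul _ _ _ _
  rw [hess_apply, h1, h2, wd_cmul, Matrix.smul_apply, hess_apply, smul_eq_mul]

theorem hess_cadd (c : ℝ) (u : Cn n → ℝ) (z : Cn n) :
    hess (fun w => c + u w) z = hess u z := by
  ext a b
  have h1 : cu (fun w => c + u w) = fun w => (c : ℂ) + cu u w := by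
    funext w; simp [cu]
  have h2 : wd (true, b) (fun w => (c : ℂ) + cu u w) = wd (true, b) (cu u) :=
    funext fun w => wd_cadd _ _ _ _
  rw [hess_apply, h1, h2, hess_apply]

/-- the field `c • g` -/
def sg (c : ℝ) (g : Cn n → Mat n) : Cn n → Mat n := fun z => (c : ℂ) • g z

theorem sg_apply (c : ℝ) (g : Cn n → Mat n) (z : Cn n) : sg c g z = (c : ℂ) • g z := rfl

theorem wdM_csmul (s : WI n) (c : ℂ) (g : Cn n → Mat n) :
    wdM s (fun w => c • g w) = fun z => c • wdM s g z := by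
  funext z
  ext a b
  exact wd_cmul s c (fun w => g w a b) z

theorem wdM_sg (s : WI n) (c : ℝ) (g : Cn n → Mat n) : wdM s (sg c g) = sg c (wdM s g) :=
  wdM_csmul s c g

theorem inv_csmul {c : ℂ} (hc : c ≠ 0) (G : Mat n) : (c • G)⁻¹ = c⁻¹ • G⁻¹ := by
  by_cases h : IsUnit G.det
  · refine Matrix.inv_eq_left_inv ?_
    rw [Matrix.smul_mul, Matrix.mul_smul, smul_smul, inv_mul_cancel₀ hc, one_smul,
      Matrix.nonsing_inv_mul _ h]
  · have h' : ¬ IsUnit (c • G).det := by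
      rw [Matrix.det_smul]
      exact fun h2 => h (isUnit_of_mul_isUnit_right h2)
    rw [Matrix.nonsing_inv_apply_not_isUnit _ h, Matrix.nonsing_inv_apply_not_isUnit _ h',
      smul_zero]

theorem inv_rsmul {c : ℝ} (hc : c ≠ 0) (G : Mat n) :
    ((c : ℂ) • G)⁻¹ = ((c⁻¹ : ℝ) : ℂ) • G⁻¹ := by
  rw [inv_csmul (by exact_mod_cast hc), Complex.ofReal_inv]

theorem posDef_smul {c : ℝ} (hc : 0 < c) {G : Mat n} (h : G.PosDef) : ((c : ℂ) • G).PosDef :=
  h.smul (by exact_mod_cast hc)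

theorem ldet_sg {c : ℝ} (hc : 0 < c) {g : Cn n → Mat n} {z : Cn n} (h : (g z).PosDef) :
    ldet (sg c g) z = n * Real.log c + ldet g z := by
  unfold ldet
  rw [sg_apply, Matrix.det_smul, Fintype.card_fin, ← Complex.ofReal_pow, Complex.re_ofReal_mul,
    Real.log_mul (by positivity) (Tr.det_re_pos h).ne', Real.log_pow]

theorem hess_ldet_sg {c : ℝ} (hc : 0 < c) {g : Cn n → Mat n} {z : Cn n}
    (h : ∀ᶠ w in 𝓝 z, (g w).PosDef) : hess (ldet (sg c g)) z = hess (ldet g) z := by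
  have e : ldet (sg c g) =ᶠ[𝓝 z] fun w => n * Real.log c + ldet g w :=
    h.mono fun w hw => ldet_sg hc hw
  rw [hess_congr e, hess_cadd]

theorem ric_sg {c : ℝ} (hc : 0 < c) {g : Cn n → Mat n} {z : Cn n}
    (h : ∀ᶠ w in 𝓝 z, (g w).PosDef) : ric (sg c g) z = ric g z := by
  unfold ric
  rw [hess_ldet_sg hc h]

theorem ric_sgE {c : ℝ} (hc : 0 < c) {g : Cn n → Mat n} {z : Cn n}
    (h : ∀ᶠ w in 𝓝 z, (g w).PosDef) : ric (sg c g) =ᶠ[𝓝 z] ric g :=
  h.eventually_nhds.mono fun _ hw => ric_sg hc hw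

theorem trg_sm {c : ℝ} (hc : c ≠ 0) (k : ℝ) (G H : Mat n) :
    trg ((c : ℂ) • G) ((k : ℂ) • H) = k * c⁻¹ * trg G H := by
  unfold trg
  rw [inv_rsmul hc, Matrix.smul_mul, Matrix.mul_smul, smul_smul, Matrix.trace_smul, smul_eq_mul,
    ← Complex.ofReal_mul, Complex.re_ofReal_mul, mul_comm k]

theorem scal_sg {c : ℝ} (hc : 0 < c) {g : Cn n → Mat n} {z : Cn n}
    (h : ∀ᶠ w in 𝓝 z, (g w).PosDef) : scal (sg c g) z = c⁻¹ * scal g z := by
  unfold scal
  have h1 := trg_sm hc.ne' 1 (g z) (ric g z)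
  rw [Complex.ofReal_one, one_smul, one_mul] at h1
  rw [ric_sg hc h, sg_apply, h1]

theorem hess_scal_sg {c : ℝ} (hc : 0 < c) {g : Cn n → Mat n} {z : Cn n}
    (h : ∀ᶠ w in 𝓝 z, (g w).PosDef) :
    hess (scal (sg c g)) z = ((c⁻¹ : ℝ) : ℂ) • hess (scal g) z := by
  have e : scal (sg c g) =ᶠ[𝓝 z] fun w => c⁻¹ * scal g w :=
    h.eventually_nhds.mono fun w hw => scal_sg hc hw
  rw [hess_congr e, hess_cmul]

theorem nabRic_sg {c : ℝ} (hc : 0 < c) {g : Cn n → Mat n} {z : Cn n}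
    (h : ∀ᶠ w in 𝓝 z, (g w).PosDef) (k : Fin n) : nabRic (sg c g) z k = nabRic g z k := by
  have hc' : (c : ℂ) ≠ 0 := by exact_mod_cast hc.ne'
  unfold nabRic
  rw [wdM_congr (ric_sgE hc h), ric_sg hc h, wdM_sg, sg_apply, sg_apply, inv_csmul hc',
    Matrix.smul_mul, Matrix.mul_smul, smul_smul, mul_inv_cancel₀ hc', one_smul]

theorem Rm_sg {c : ℝ} (hc : c ≠ 0) (g : Cn n → Mat n) (z : Cn n) (a b : Fin n) :
    Rm (sg c g) z a b = (c : ℂ) • Rm g z a b := by
  have hc' : (c : ℂ) ≠ 0 := by exact_mod_cast hc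
  unfold Rm
  have e : (c : ℂ) • wdM (false, a) g z * (c : ℂ)⁻¹ • (g z)⁻¹ = wdM (false, a) g z * (g z)⁻¹ := by
    rw [Matrix.smul_mul, Matrix.mul_smul, smul_smul, mul_inv_cancel₀ hc', one_smul]
  rw [wdM_sg, wdM_sg, wdM_sg, sg_apply, sg_apply, sg_apply, sg_apply, inv_csmul hc', e,
    Matrix.mul_smul, smul_add, smul_neg]

theorem bis_sg {c : ℝ} (hc : c ≠ 0) (g : Cn n → Mat n) (z v w : Cn n) :
    bis (sg c g) z v w = c * bis g z v w := by
  rw [bis_eq, bis_eq, ← Complex.re_ofReal_mul]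
  simp only [Rm_sg hc, hC_smul, Finset.mul_sum, mul_assoc]

theorem nq_sg (c : ℝ) (g : Cn n → Mat n) (z v : Cn n) : nq (sg c g z) v = c * nq (g z) v :=
  Tr.nq_smul _ _ _

theorem lyhS_sg {c : ℝ} (hc : 0 < c) {g : Cn n → Mat n} {z : Cn n}
    (h : ∀ᶠ w in 𝓝 z, (g w).PosDef) (τ : ℝ) (c0 : ℂ) (a v : Cn n) :
    lyhS (sg c g) τ z c0 a v = c * lyhS g (τ / c) z (c0 / c) a v := by
  have hc' : (c : ℂ) ≠ 0 := by exact_mod_cast hc.ne'
  have e1 : hess (scal (sg c g)) z + ric (sg c g) z * (sg c g z)⁻¹ * ric (sg c g) z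
      + ((τ⁻¹ : ℝ) : ℂ) • ric (sg c g) z = ((c⁻¹ : ℝ) : ℂ) • (hess (scal g) z
        + ric g z * (g z)⁻¹ * ric g z + (((τ / c)⁻¹ : ℝ) : ℂ) • ric g z) := by
    rw [hess_scal_sg hc h, ric_sg hc h, sg_apply, inv_rsmul hc.ne', Matrix.mul_smul,
      Matrix.smul_mul, smul_add, smul_add, smul_smul]
    congr 2
    push_cast
    field_simp
  have e2 : conj (c0 / c) = ((c⁻¹ : ℝ) : ℂ) * conj c0 := by
    rw [map_div₀, Complex.conj_ofReal, Complex.ofReal_inv, div_eq_inv_mul]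
  unfold lyhS
  simp only [nabRic_sg hc h]
  rw [e1, Tr.nq_smul, bis_sg hc.ne', e2, mul_assoc ((c⁻¹ : ℝ) : ℂ), Complex.re_ofReal_mul,
    norm_div, Complex.norm_real, Real.norm_of_nonneg hc.le]
  field_simp

theorem dz_cmul (k : ℝ) (u : Cn n → ℝ) (z : Cn n) (a : Fin n) :
    dz (fun w => k * u w) z a = k * dz u z a := by
  have h1 : cu (fun w => k * u w) = fun w => (k : ℂ) * cu u w := by
    funext w; simp [cu]
  show wd (false, a) (cu fun w => k * u w) z = k * wd (false, a) (cu u) z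
  rw [h1, wd_cmul]

theorem gsq_sg {c : ℝ} (hc : c ≠ 0) (k : ℝ) (g : Cn n → Mat n) (u : Cn n → ℝ) (z : Cn n) :
    gsq (sg c g) (fun w => k * u w) z = k ^ 2 * c⁻¹ * gsq g u z := by
  unfold gsq nqi
  rw [sg_apply, inv_rsmul hc, ← Complex.re_ofReal_mul]
  congr 1
  simp only [dz_cmul, Matrix.smul_apply, smul_eq_mul, map_mul, Complex.conj_ofReal,
    Finset.mul_sum]
  refine Finset.sum_congr rfl fun a _ => Finset.sum_congr rfl fun b _ => ?_
  push_cast
  ring

theorem lap_sg {c : ℝ} (hc : c ≠ 0) (k : ℝ) (g : Cn n → Mat n) (u : Cn n → ℝ) (z : Cn n) :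
    lap (sg c g) (fun w => k * u w) z = k * c⁻¹ * lap g u z := by
  unfold lap
  rw [hess_cmul, sg_apply, trg_sm hc]

theorem kahAt_sg {c : ℝ} (hc : 0 < c) {g : Cn n → Mat n} {z : Cn n} (h : KahAt g z) :
    KahAt (sg c g) z := by
  refine ⟨h.smE.mono fun w hw a b => contDiffAt_const.mul (hw a b),
    h.pos.mono fun w hw => posDef_smul hc hw, h.closed.mono fun w hw a b d => ?_,
    h.closed'.mono fun w hw a b d => ?_⟩
  · exact (wd_cmul _ c _ w).trans ((congrArg _ (hw a b d)).trans (wd_cmul _ c _ w).symm)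
  · exact (wd_cmul _ c _ w).trans ((congrArg _ (hw a b d)).trans (wd_cmul _ c _ w).symm)

/-! ## §2 rescaled flows -/

/-- the time change -/
def tc (c t s : ℝ) : ℝ := (s - t) / c

theorem hasDerivAt_tc (c t s : ℝ) : HasDerivAt (tc c t) c⁻¹ s := by
  have h := ((hasDerivAt_id s).sub_const t).div_const c
  rw [one_div] at h
  exact h

theorem contDiff_tc (c t : ℝ) : ContDiff ℝ ∞ (tc c t) := (contDiff_id.sub contDiff_const).div_const c

theorem contDiff_tq {E : Type*} [NormedAddCommGroup E] [NormedSpace ℝ E] (c t : ℝ) :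
    ContDiff ℝ ∞ (fun q : ℝ × E => ((tc c t q.1, q.2) : ℝ × E)) :=
  ((contDiff_tc c t).comp contDiff_fst).prodMk contDiff_snd

theorem tc_self (c t : ℝ) : tc c t t = 0 := by simp [tc]

theorem tc_Icc {c : ℝ} (hc : 0 < c) {t δ s : ℝ} (hs : s ∈ Icc t (t + δ * c)) :
    tc c t s ∈ Icc 0 δ :=
  ⟨div_nonneg (sub_nonneg.2 hs.1) hc.le, (div_le_iff₀ hc).2 (by linarith [hs.2])⟩

theorem tc_Ioo {c : ℝ} (hc : 0 < c) {t δ s : ℝ} (hs : s ∈ Ioo t (t + δ * c)) :
    tc c t s ∈ Ioo 0 δ :=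
  ⟨div_pos (sub_pos.2 hs.1) hc, (div_lt_iff₀ hc).2 (by linarith [hs.2])⟩

theorem deriv_tc (c t k : ℝ) (f : ℝ → ℝ) (s : ℝ) :
    deriv (fun s => k * f (tc c t s)) s = k * c⁻¹ * deriv f (tc c t s) := by
  have h1 : (fun s => f (tc c t s)) = fun s => (fun y => f (c⁻¹ * y)) (s - t) := by
    funext s; simp only [tc, div_eq_inv_mul]
  rw [deriv_const_mul_field, h1, deriv_comp_sub_const (f := fun y => f (c⁻¹ * y)),
    deriv_comp_mul_left, smul_eq_mul, tc, div_eq_inv_mul, mul_assoc]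

theorem krfAt_sg {c : ℝ} (hc : 0 < c) {g : ℝ → Cn n → Mat n} {t s : ℝ} {z : Cn n}
    (h : KRFat g (tc c t s) z) : KRFat (fun s => sg c (g (tc c t s))) s z := by
  have hT : Tendsto (fun q : ℝ × Cn n => ((tc c t q.1, q.2) : ℝ × Cn n)) (𝓝 (s, z))
      (𝓝 (tc c t s, z)) := (contDiff_tq c t).continuous.continuousAt
  have hE := hT.eventually h.eventually
  refine ⟨hE.mono fun q hq a b => ?_, hE.mono fun q hq => (kahAt_sg hc hq.kahAt).posDef,
    hE.mono fun q hq => (kahAt_sg hc hq.kahAt).closed.self_of_nhds,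
    hE.mono fun q hq => (kahAt_sg hc hq.kahAt).closed'.self_of_nhds,
    hE.mono fun q hq a b => ?_⟩
  · have h1 := (hq.sm a b).comp q (contDiff_tq c t).contDiffAt
    exact contDiffAt_const.mul h1
  · have h1 := (hq.flow.self_of_nhds a b).scomp q.1 (hasDerivAt_tc c t q.1)
    have h2 := h1.const_mul (c : ℂ)
    have hc' : (c : ℂ) ≠ 0 := by exact_mod_cast hc.ne'
    rw [Complex.real_smul, Complex.ofReal_inv, ← mul_assoc, mul_inv_cancel₀ hc', one_mul] at h2
    rw [hess_ldet_sg hc hq.kahAt.pos]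
    exact h2

variable {M : Type} [TopologicalSpace M] {A : Atl n M}

/-- the field `c • G` on the manifold -/
def sG (c : ℝ) (G : MF A) : MF A := fun i => sg c (G i)

theorem kahOn_sG {c : ℝ} (hc : 0 < c) {G : MF A} {U : Set M} (h : KahOn G U) :
    KahOn (sG c G) U := by
  refine ⟨fun i x hx hU => kahAt_sg hc (h.kah i x hx hU), fun i j x hx hU => ?_⟩
  show (c : ℂ) • G i _ = _ * ((c : ℂ) • G j _) * _
  rw [h.tr i j x hx hU, Matrix.mul_smul, Matrix.smul_mul]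

theorem smST_tc {c : ℝ} (hc : 0 < c) {t δ : ℝ} {U : Set M} {f : ℝ → M → ℝ} (k : ℝ)
    (h : SmST A (Icc 0 δ) U f) :
    SmST A (Icc t (t + δ * c)) U fun s x => k * f (tc c t s) x := fun i =>
  contDiffOn_const.mul ((h i).comp (contDiff_tq c t).contDiffOn
    fun q hq => ⟨tc_Icc hc hq.1, hq.2⟩)

theorem flowOn_sc {c : ℝ} (hc : 0 < c) {t δ : ℝ} {U : Set M} {g : ℝ → MF A}
    (h : FlowOn 0 δ U g) : FlowOn t (t + δ * c) U fun s => sG c (g (tc c t s)) := by
  refine ⟨fun i k l => ?_, fun s hs => kahOn_sG hc (h.kah _ (tc_Icc hc hs)),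
    fun s hs i x hx hU => krfAt_sg hc (h.krf _ (tc_Ioo hc hs) i x hx hU)⟩
  exact contDiffOn_const.mul ((h.sm i k l).comp (contDiff_tq c t).contDiffOn
    fun q hq => ⟨tc_Icc hc hq.1, hq.2⟩)

theorem heatOn_sc {c : ℝ} (hc : 0 < c) {t δ : ℝ} {U : Set M} {g : ℝ → MF A} {f : ℝ → M → ℝ}
    (k : ℝ) (h : HeatOn 0 δ U g f) :
    HeatOn t (t + δ * c) U (fun s => sG c (g (tc c t s))) fun s x => k * f (tc c t s) x := by
  refine ⟨smST_tc hc k h.sm, fun s hs i x hx hU => ?_⟩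
  have h1 := h.eq _ (tc_Ioo hc hs) i x hx hU
  unfold box at h1 ⊢
  have h2 := deriv_tc c t k (fun s => inC A i (f s) (A.e i x)) s
  have h3 := lap_sg hc.ne' k (g (tc c t s) i) (inC A i (f (tc c t s))) (A.e i x)
  have h4 : deriv (fun s => inC A i (fun x => k * f (tc c t s) x) (A.e i x)) s - lap
      (sG c (g (tc c t s)) i) (inC A i fun x => k * f (tc c t s) x) (A.e i x) =
      k * c⁻¹ * deriv (fun s => inC A i (f s) (A.e i x)) (tc c t s) -
      k * c⁻¹ * lap (g (tc c t s) i) (inC A i (f (tc c t s))) (A.e i x) := by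
    rw [← h2, ← h3]
    rfl
  refine h4.trans ?_
  rw [← mul_sub, h1, mul_zero]

theorem phiOn_sc {c : ℝ} (hc : 0 < c) {t δ : ℝ} (hδ : 0 ≤ δ) {U : Set M} {g : ℝ → MF A}
    {φ : ℝ → M → ℝ} (hg : FlowOn 0 δ U g) (h : PhiOn 0 δ U g φ) :
    PhiOn t (t + δ * c) U (fun s => sG c (g (tc c t s))) fun s x => c * φ (tc c t s) x := by
  have hc' : (c : ℂ) ≠ 0 := by exact_mod_cast hc.ne'
  have h0 : (0 : ℝ) ∈ Icc 0 δ := ⟨le_rfl, hδ⟩
  refine ⟨smST_tc hc c h.sm, fun x hx => by simp only [tc_self, h.zero x hx, mul_zero],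
    fun s hs i x hx hU => ?_, fun s hs i x hx hU => ?_⟩
  · have h1 := h.pot _ (tc_Icc hc hs) i x hx hU
    have h2 := hess_cmul c (inC A i (φ (tc c t s))) (A.e i x)
    have h3 := ric_sg hc ((hg.kah 0 h0).kah i x hx hU).pos
    show (c : ℂ) • g (tc c t s) i _ = (c : ℂ) • g (tc c t t) i _ -
      _ • ric (sg c (g (tc c t t) i)) _ + hess (fun w => c * inC A i (φ (tc c t s)) w) _
    rw [tc_self, h3, h2, h1, smul_add, smul_sub, smul_smul]
    congr 3
    unfold tc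
    push_cast
    field_simp
    ring
  · have hs' := tc_Ioo hc hs
    have h1 := ((h.dt _ hs' i x hx hU).scomp s (hasDerivAt_tc c t s)).const_mul c
    have h2 := ldet_sg hc ((hg.kah _ (Ioo_subset_Icc_self hs')).kah i x hx hU).posDef
    have h3 := ldet_sg hc ((hg.kah 0 h0).kah i x hx hU).posDef
    show HasDerivAt _ (ldet (sg c (g (tc c t s) i)) _ - ldet (sg c (g (tc c t t) i)) _) s
    rw [smul_eq_mul, ← mul_assoc, mul_inv_cancel₀ hc.ne', one_mul] at h1
    rw [tc_self, h2, h3, add_sub_add_left_eq_sub]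
    exact h1

theorem crude_sc {l r K K' t s : ℝ} (hl : 0 < l) (hl1 : l ≤ 1) (hr : 0 < r) (hK : 0 ≤ K)
    (hK' : K' = K / l ^ 4) {g : ℝ → MF A} {u ρ : ℝ → M → ℝ} {x : M}
    (hk : ∀ i, x ∈ (A.e i).source → KahAt (g (tc ((l * r) ^ 2) t s) i) (A.e i x))
    (h : Crude K 1 0 g u ρ (tc ((l * r) ^ 2) t s) x) :
    Crude K' r t (fun s => sG ((l * r) ^ 2) (g (tc ((l * r) ^ 2) t s)))
      (fun s x => 1 * u (tc ((l * r) ^ 2) t s) x)
      (fun s x => l * r * ρ (tc ((l * r) ^ 2) t s) x) s x := by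
  set c := (l * r) ^ 2 with hcd
  have hc : 0 < c := by positivity
  have hl2 : l ^ 2 ≤ 1 := pow_le_one₀ hl.le hl1
  have hl4 : l ^ 4 ≤ l ^ 2 := pow_le_pow_of_le_one hl.le hl1 (by norm_num)
  have hKK : K ≤ K' := by
    rw [hK', le_div_iff₀ (by positivity)]
    exact mul_le_of_le_one_right hK (hl4.trans hl2)
  have hA : K ≤ K' / r ^ 2 * c := by
    have : K' / r ^ 2 * c = K * (l ^ 2 / l ^ 4) := by rw [hK', hcd]; field_simp
    rw [this]
    exact le_mul_of_one_le_right hK ((one_le_div (by positivity)).2 hl4)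
  have hB : K / c = K' / r ^ 2 * (1 / r ^ 2) * c := by rw [hK', hcd]; field_simp
  have hcr : c ≤ r ^ 2 := by rw [hcd, mul_pow]; exact mul_le_of_le_one_left (by positivity) hl2
  have hA' : c⁻¹ * K ≤ K' / r ^ 2 := by
    rw [inv_mul_le_iff₀ hc, mul_comm]; exact hA
  refine ⟨fun τ hτ i hi c0 a v => ?_, fun i hi => ⟨fun v w => ?_, fun v w => ?_⟩,
    fun i hi v => ?_, ?_, ?_, ?_, ?_⟩
  · have hp := hk i hi
    have h1 := h.lyh (τ / c) (by rw [one_pow, one_le_div hc]; exact hcr.trans hτ) i hi (c0 / c) a v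
    have ha := Tr.nq_nonneg hp.posDef.posSemidef a
    have hv := Tr.nq_nonneg hp.posDef.posSemidef v
    show |lyhS (sg c _) τ _ c0 a v| ≤ _ * (nq (sg c _ _) a + _) * nq (sg c _ _) v
    rw [lyhS_sg hc hp.pos, nq_sg, nq_sg, abs_mul, abs_of_pos hc]
    rw [norm_div, Complex.norm_real, Real.norm_of_nonneg hc.le] at h1
    refine (mul_le_mul_of_nonneg_left h1 hc.le).trans ?_
    generalize nq (g (tc c t s) i (A.e i x)) a = X at ha ⊢
    generalize nq (g (tc c t s) i (A.e i x)) v = Y at hv ⊢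
    have e1 : c * (K / 1 ^ 2 * (X + 1 / 1 ^ 2 * (‖c0‖ / c) ^ 2) * Y) =
        (K * (c * X) + K / c * ‖c0‖ ^ 2) * Y := by field_simp
    have e2 : K' / r ^ 2 * (c * X + 1 / r ^ 2 * ‖c0‖ ^ 2) * (c * Y) =
        (K' / r ^ 2 * c * (c * X) + K' / r ^ 2 * (1 / r ^ 2) * c * ‖c0‖ ^ 2) * Y := by ring
    rw [e1, e2, ← hB]
    gcongr
  · have hp := hk i hi
    have h1 := (h.bk i hi).1 v w
    have ha := Tr.nq_nonneg hp.posDef.posSemidef v
    have hv := Tr.nq_nonneg hp.posDef.posSemidef w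
    show -(_ * nq (sg c _ _) v * nq (sg c _ _) w) ≤ bis (sg c _) _ v w
    rw [bis_sg hc.ne', nq_sg, nq_sg]
    rw [one_pow, div_one] at h1
    have h2 := mul_le_mul_of_nonneg_left h1 hc.le
    have h3 := mul_le_mul_of_nonneg_right hA (mul_nonneg hc.le (mul_nonneg ha hv))
    nlinarith
  · have hp := hk i hi
    have h1 := (h.bk i hi).2 v w
    have ha := Tr.nq_nonneg hp.posDef.posSemidef v
    have hv := Tr.nq_nonneg hp.posDef.posSemidef w
    show bis (sg c _) _ v w ≤ _ * nq (sg c _ _) v * nq (sg c _ _) w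
    rw [bis_sg hc.ne', nq_sg, nq_sg]
    rw [one_pow, div_one] at h1
    have h2 := mul_le_mul_of_nonneg_left h1 hc.le
    have h3 := mul_le_mul_of_nonneg_right hA (mul_nonneg hc.le (mul_nonneg ha hv))
    nlinarith
  · have hp := hk i hi
    have h1 := h.hes i hi v
    have ha := Tr.nq_nonneg hp.posDef.posSemidef v
    show |nq (hess (fun w => 1 * inC A i (u (tc c t s)) w) _) v| ≤ _ * nq (sg c _ _) v
    rw [hess_cmul, Complex.ofReal_one, one_smul, nq_sg, ← mul_assoc]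
    rw [one_pow, div_one] at h1
    exact h1.trans (mul_le_mul_of_nonneg_right hA ha)
  · have h1 := h.gu
    rw [one_pow, div_one] at h1
    show gsq (sg c _) (fun w => 1 * inC A _ (u (tc c t s)) w) _ ≤ _
    rw [gsq_sg hc.ne', one_pow, one_mul]
    exact (mul_le_mul_of_nonneg_left h1 (inv_nonneg.2 hc.le)).trans hA'
  · have h1 := h.gρ
    show gsq (sg c _) (fun w => l * r * inC A _ (ρ (tc c t s)) w) _ ≤ _
    rw [gsq_sg hc.ne', ← hcd, mul_inv_cancel₀ hc.ne', one_mul]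
    exact h1.trans hKK
  · have h1 := h.oρ
    rw [mul_one] at h1
    rw [tc_self, ← mul_sub, abs_mul, abs_of_pos (by positivity : 0 < l * r)]
    have h2 : l * r ≤ r := mul_le_of_le_one_left hr.le hl1
    calc l * r * |ρ (tc c t s) x - ρ 0 x| ≤ r * K := by gcongr
      _ ≤ K' * r := by rw [mul_comm]; gcongr
  · rw [tc_self, one_mul, one_mul]
    exact h.ou.trans hKK

/-! ## §3 charts -/

theorem iFD_scale {E F : Type*} [NormedAddCommGroup E] [NormedSpace ℝ E] [NormedAddCommGroup F]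
    [NormedSpace ℝ F] (k l : ℝ) (f : E → F) (j : ℕ) :
    iteratedFDeriv ℝ j (fun y => k • f (l • y)) =
      fun w => (k * l ^ j) • iteratedFDeriv ℝ j f (l • w) := by
  induction j with
  | zero =>
    funext w
    ext m
    simp
  | succ j ih =>
    funext w
    ext m
    have h1 : fderiv ℝ (fun w => (k * l ^ j) • iteratedFDeriv ℝ j f (l • w)) w =
        (k * l ^ j) • l • fderiv ℝ (iteratedFDeriv ℝ j f) (l • w) := by
      rw [← fderiv_comp_smul]
      exact congrFun (fderiv_const_smul_field (𝕜 := ℝ)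
        (f := fun w => iteratedFDeriv ℝ j f (l • w)) (k * l ^ j)) w
    rw [iteratedFDeriv_succ_apply_left, ih, h1, smul_smul, pow_succ, mul_assoc]
    rfl

theorem norm_iFD_scale {E F : Type*} [NormedAddCommGroup E] [NormedSpace ℝ E]
    [NormedAddCommGroup F] [NormedSpace ℝ F] {k l : ℝ} (hk : 0 ≤ k) (hl : 0 ≤ l) (f : E → F)
    (j : ℕ) (w : E) : ‖iteratedFDeriv ℝ j (fun y => k • f (l • y)) w‖ =
      k * l ^ j * ‖iteratedFDeriv ℝ j f (l • w)‖ := by
  rw [iFD_scale, norm_smul, Real.norm_of_nonneg (by positivity)]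

theorem fderiv_rd_scale (l : ℝ) (ψ : Cn n → M) (i : A.ι) (w : Cn n) :
    fderiv ℂ (rd A i fun y => ψ (l • y)) w = (l : ℂ) • fderiv ℂ (rd A i ψ) (l • w) :=
  fderiv_comp_smul (𝕜 := ℂ) (f := rd A i ψ) (x := w) (l : ℂ)

theorem pull_scale (k l : ℝ) (G : MF A) (ψ : Cn n → M) (w : Cn n) :
    pull (sG k G) (fun y => ψ (l • y)) w = ((k * l ^ 2 : ℝ) : ℂ) • pull G ψ (l • w) := by
  have h : ∀ i, jac (rd A i fun y => ψ (l • y)) w = (l : ℂ) • jac (rd A i ψ) (l • w) := by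
    intro i
    ext a b
    simp only [jac, Matrix.of_apply, Matrix.smul_apply, fderiv_rd_scale]
    rfl
  have h2 : ∀ J : Mat n, ((l : ℂ) • J).map conj = (l : ℂ) • J.map conj := by
    intro J
    ext a b
    simp
  unfold pull pbF
  show _ * ((k : ℂ) • G _ _) * _ = _
  rw [h, h2, Matrix.transpose_smul, Matrix.smul_mul, Matrix.smul_mul, Matrix.mul_smul,
    Matrix.mul_smul, Matrix.smul_mul, smul_smul, smul_smul]
  congr 1
  push_cast
  ring

theorem fl_of_good {G : MF A} {u ρ : M → ℝ} {W : Set M} {r Kρ l ε : ℝ} {x : M} {ψ : Cn n → M}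
    (hr : 0 < r) (hl : 0 < l) (hl1 : l ≤ 1) (hlε : l ≤ ε) (hlR : l * RR n ≤ 1)
    (h : Good G u ρ W r Kρ x ψ) :
    Fl (sG ((l * r) ^ 2)⁻¹ G) u (fun y => (l * r)⁻¹ * ρ y) W ε Kρ x fun y => ψ (l • y) := by
  have hm : ∀ w ∈ ball (0 : Cn n) (RR n), l • w ∈ ball (0 : Cn n) 1 := by
    intro w hw
    rw [mem_ball_zero_iff] at *
    rw [norm_smul, Real.norm_of_nonneg hl.le]
    exact (mul_lt_mul_of_pos_left hw hl).trans_le hlR
  have hlc : (l : ℂ) ≠ 0 := by exact_mod_cast hl.ne'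
  have hk : ((l * r) ^ 2)⁻¹ * l ^ 2 = (r ^ 2)⁻¹ := by field_simp
  have hpw : ∀ j, 1 ≤ j → l ^ j ≤ l := fun j hj => pow_le_of_le_one hl.le hl1 (by omega)
  have hK : 0 ≤ Kρ := by
    have h1 := (norm_nonneg _).trans (h.dρ 1 le_rfl (by norm_num) 0 (mem_ball_self one_pos))
    exact nonneg_of_mul_nonneg_left h1 hr
  have hs : Continuous fun y : Cn n => l • y := continuous_const_smul l
  refine ⟨⟨fun z hz => ⟨(h.qc.imm.1 _ (hm z hz)).1.comp hs.continuousAt, fun i hi => ?_⟩,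
    fun z hz i hi => ?_⟩, fun w hw => h.qc.maps (hm w hw), by simpa using h.qc.zero, ?_,
    fun j h1 h8 w hw a b => ?_, fun j h1 h4 w hw => ?_, fun w hw => ?_, fun j h1 h4 w hw => ?_⟩
  · exact ((h.qc.imm.1 _ (hm z hz)).2 i hi).comp z
      (differentiableAt_id.const_smul (l : ℂ))
  · rw [fderiv_rd_scale]
    intro v v' hv
    exact h.qc.imm.2 _ (hm z hz) i hi (smul_right_injective _ hlc hv)
  · rw [pull_scale, smul_zero, h.qc.ctr, hk, smul_smul, ← Complex.ofReal_mul,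
      inv_mul_cancel₀ (by positivity), Complex.ofReal_one, one_smul]
  · have e : (fun y => pull (sG ((l * r) ^ 2)⁻¹ G) (fun y => ψ (l • y)) y a b) =
        fun y => (r ^ 2)⁻¹ • (fun y => pull G ψ y a b) (l • y) := by
      funext y
      rw [pull_scale, hk]
      rfl
    rw [e]
    refine (norm_iFD_scale (k := (r ^ 2)⁻¹) (by positivity) hl.le (fun y => pull G ψ y a b)
      j w).le.trans ?_
    calc (r ^ 2)⁻¹ * l ^ j * _ ≤ (r ^ 2)⁻¹ * l * r ^ 2 := by
          gcongr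
          · exact hpw j h1
          · exact h.dG j h1 h8 _ (hm w hw) a b
      _ = l := by field_simp
      _ ≤ ε := hlε
  · have e : (fun y => u (ψ (l • y))) = fun y => (1 : ℝ) • (fun y => u (ψ y)) (l • y) := by
      funext y; simp
    rw [e]
    refine (norm_iFD_scale zero_le_one hl.le (fun y => u (ψ y)) j w).le.trans ?_
    rw [one_mul]
    exact mul_le_one₀ ((hpw j h1).trans hl1) (norm_nonneg _) (h.du j h1 h4 _ (hm w hw))
  · have h1 := norm_iFD_scale (k := (l * r)⁻¹) (by positivity) hl.le (fun y => ρ (ψ y)) 1 w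
    rw [norm_iteratedFDeriv_one, norm_iteratedFDeriv_one] at h1
    refine h1.le.trans ?_
    calc (l * r)⁻¹ * l ^ 1 * _ ≤ (l * r)⁻¹ * l ^ 1 * (4 * r) := by
          gcongr
          exact h.dρ1 _ (hm w hw)
      _ = 4 := by field_simp
  · refine (norm_iFD_scale (k := (l * r)⁻¹) (by positivity) hl.le (fun y => ρ (ψ y)) j w).le.trans ?_
    calc (l * r)⁻¹ * l ^ j * _ ≤ (l * r)⁻¹ * l * (Kρ * r) := by
          gcongr
          · exact hpw j h1
          · exact h.dρ j h1 h4 _ (hm w hw)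
      _ = Kρ := by field_simp

end

end Crest.Agent.T223.St.Sc54

namespace Crest.Agent.T223.St

open Crest.Agent.R275.Geo Crest.Agent.T223.Os Crest.Agent.T223.St.Sc54

/-! ## §4 the theorem -/

theorem scaleStmt (n : ℕ) : ScaleStmt n := by
  rintro ⟨ε, δ0, C0, hε, hδ, hδ1, hC, H⟩
  have hR := one_le_RR n
  obtain ⟨l, hl, hl1, hlε, hlR⟩ : ∃ l : ℝ, 0 < l ∧ l ≤ 1 ∧ l ≤ ε ∧ l * RR n ≤ 1 := by
    refine ⟨min ε (RR n)⁻¹, lt_min hε (by positivity),
      (min_le_right _ _).trans (inv_le_one_of_one_le₀ hR), min_le_left _ _, ?_⟩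
    calc min ε (RR n)⁻¹ * RR n ≤ (RR n)⁻¹ * RR n := by gcongr; exact min_le_right _ _
      _ = 1 := inv_mul_cancel₀ (by positivity)
  have hl2 : l ^ 2 ≤ 1 := pow_le_one₀ hl.le hl1
  refine ⟨δ0 * l ^ 2, C0 * l, by positivity, mul_le_one₀ hδ1 (by positivity) hl2, by positivity,
    fun Kρ => ?_⟩
  obtain ⟨K, hK, H⟩ := H Kρ
  refine ⟨K / l ^ 4, (one_le_div (by positivity)).2 ((pow_le_one₀ hl.le hl1).trans hK), ?_⟩
  intro M _ _ _ A G u0 ρ0 W r c t hW hG hu hρ hr hc hψ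
  have hlr : 0 < l * r := by positivity
  have hq : 0 < (l * r) ^ 2 := by positivity
  have e1 : ∀ x, (l * r)⁻¹ * ρ0 x ≤ (l * r)⁻¹ * c ↔ ρ0 x ≤ c := fun x =>
    mul_le_mul_iff_right₀ (inv_pos.2 hlr)
  have e2 : ∀ x, (l * r)⁻¹ * ρ0 x < (l * r)⁻¹ * c - C0 ↔ ρ0 x < c - C0 * l * r := by
    intro x
    have : (l * r)⁻¹ * c - C0 = (l * r)⁻¹ * (c - C0 * l * r) := by field_simp
    rw [this]
    exact mul_lt_mul_iff_right₀ (inv_pos.2 hlr)
  obtain ⟨g, u, ρ, φ, h1, h2, h3, h4, h5, h6⟩ := H M A (sG ((l * r) ^ 2)⁻¹ G) u0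
    (fun y => (l * r)⁻¹ * ρ0 y) W ((l * r)⁻¹ * c) hW (kahOn_sG (inv_pos.2 hq) hG) hu
    (fun i => contDiffOn_const.mul (hρ i)) (by simpa only [e1] using hc)
    (fun x hx hx' => by
      obtain ⟨ψ, hψ⟩ := hψ x hx ((e1 x).1 hx')
      exact ⟨_, fl_of_good hr hl hl1 hlε hlR hψ⟩)
  simp only [e2] at h1 h2 h3 h4 h5 h6
  have e3 : t + δ0 * l ^ 2 * r ^ 2 = t + δ0 * (l * r) ^ 2 := by ring
  rw [e3]
  refine ⟨_, _, _, _, flowOn_sc hq h1, heatOn_sc hq 1 h2, heatOn_sc hq (l * r) h3,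
    phiOn_sc hq hδ.le h1 h4, fun i x hx hU => ?_, fun x hx hx' => ⟨?_, ?_, fun s hs => ?_⟩⟩
  · show (((l * r) ^ 2 : ℝ) : ℂ) • g (tc _ t t) i _ = _
    rw [tc_self, h5 i x hx hU]
    show _ • (((((l * r) ^ 2)⁻¹ : ℝ) : ℂ) • G i _) = _
    rw [smul_smul, ← Complex.ofReal_mul, mul_inv_cancel₀ hq.ne', Complex.ofReal_one, one_smul]
  · rw [tc_self, one_mul, (h6 x hx hx').1]
  · rw [tc_self, (h6 x hx hx').2.1, ← mul_assoc, mul_inv_cancel₀ hlr.ne', one_mul]
  · have hs' := tc_Icc hq hs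
    exact crude_sc hl hl1 hr (zero_le_one.trans hK) rfl
      (fun i hi => (h1.kah _ hs').kah i x hi ⟨hx, hx'⟩) ((h6 x hx hx').2.2 _ hs')

end Crest.Agent.T223.St
end

-- ▼ part T223/DbSol_88
section

/-!
# Row 223 (helper88): the linear solver `linSol : LinSolStmt n`
-/

set_option autoImplicit false
set_option linter.unusedSectionVars false

open Set Filter Function
open scoped ContDiff Topology Matrix ComplexConjugate ComplexOrder

noncomputable section

namespace Crest.Agent.T223.Db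

open Crest.Agent.R275.Geo Crest.Agent.R275.Core144 Crest.Agent.N207.P Crest.Agent.N222

section real

variable {m : ℕ} {ι : Type} [Fintype ι] {Y : Type} [TopologicalSpace Y] {N : Imm m ι Y} {I : Set ℝ}

theorem cdw_change {c c' : OpenPartialHomeomorph Y (En m)} (hc : IsChart N.x c)
    (hc' : IsChart N.x c') {u : ℝ → Y → ℝ} {t : ℝ} {z : En m} (hz : z ∈ c'.target)
    (hp : c'.symm z ∈ c.source)
    (h : ContDiffWithinAt ℝ ∞ (fun q : ℝ × En m => u q.1 (c.symm q.2)) (I ×ˢ univ)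
      (t, c (c'.symm z))) (ht : t ∈ I) :
    ContDiffWithinAt ℝ ∞ (fun q : ℝ × En m => u q.1 (c'.symm q.2)) (I ×ˢ univ) (t, z) := by
  have h1 := hc.trans_smooth hc' hp (c'.map_target hz)
  rw [c'.right_inv hz] at h1
  have h2 : ContDiffAt ℝ ∞ (fun q : ℝ × En m => (q.1, c (c'.symm q.2))) (t, z) :=
    contDiffAt_fst.prodMk (ContDiffAt.comp (g := c ∘ c'.symm) (f := Prod.snd) (t, z) h1
      contDiffAt_snd)
  have h3 := ContDiffWithinAt.comp (g := fun q : ℝ × En m => u q.1 (c.symm q.2)) (t := I ×ˢ univ)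
    (s := I ×ˢ univ) (f := fun q : ℝ × En m => (q.1, c (c'.symm q.2))) (t, z) h
    h2.contDiffWithinAt fun q hq => ⟨hq.1, mem_univ _⟩
  have h4 : ∀ᶠ q : ℝ × En m in 𝓝 (t, z), c'.symm q.2 ∈ c.source :=
    (ContinuousAt.comp (g := c'.symm) (f := Prod.snd) (c'.continuousAt_symm hz)
      continuousAt_snd).eventually (c.open_source.mem_nhds hp)
  refine h3.congr_of_eventuallyEq_of_mem (mem_nhdsWithin_of_mem_nhds ?_) ⟨ht, mem_univ _⟩
  filter_upwards [h4] with q hq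
  simp [c.left_inv hq]

theorem cdw_univ {F : Type*} [NormedAddCommGroup F] [NormedSpace ℝ F] {G : Type*}
    [NormedAddCommGroup G] [NormedSpace ℝ G] {f : ℝ × F → G} {U : Set F} (hU : IsOpen U)
    (h : ContDiffOn ℝ ∞ f (I ×ˢ U)) {t : ℝ} (ht : t ∈ I) {z : F} (hz : z ∈ U) :
    ContDiffWithinAt ℝ ∞ f (I ×ˢ univ) (t, z) := by
  refine (h (t, z) ⟨ht, hz⟩).mono_of_mem_nhdsWithin ?_
  filter_upwards [mem_nhdsWithin_of_mem_nhds
    (continuousAt_snd.eventually (hU.mem_nhds hz) : ∀ᶠ q : ℝ × F in 𝓝 (t, z), q.2 ∈ U),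
    self_mem_nhdsWithin] with q h1 h2
  exact ⟨h2.1, h1⟩

theorem SmY.chart {u : ℝ → Y → ℝ} (h : SmY N I u) {c : OpenPartialHomeomorph Y (En m)}
    (hc : IsChart N.x c) {t : ℝ} (ht : t ∈ I) {z : En m} (hz : z ∈ c.target) :
    ContDiffWithinAt ℝ ∞ (fun q : ℝ × En m => u q.1 (c.symm q.2)) (I ×ˢ univ) (t, z) :=
  cdw_change (N.isChart (c.symm z)) hc hz (N.mem _)
    (cdw_univ (N.ch _).open_target (h _) ht ((N.ch _).map_source (N.mem _))) ht

end real

variable {n : ℕ} {M : Type} [TopologicalSpace M] {A : Atl n M}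

theorem isOpen_dom (i : A.ι) {W : Set M} (hW : IsOpen W) : IsOpen (dom A i W) :=
  (A.e i).isOpen_inter_preimage_symm hW

theorem mem_dom {i : A.ι} {W : Set M} {x : M} (hx : x ∈ (A.e i).source) (hW : x ∈ W) :
    A.e i x ∈ dom A i W := ⟨(A.e i).map_source hx, by rwa [(A.e i).left_inv hx]⟩

section dbl

variable {ι : Type} [Fintype ι] {Y : Type} [TopologicalSpace Y] {N : Imm (2 * n) ι Y}
  {e : OpenPartialHomeomorph M Y} {I : Set ℝ} {K W : Set M}

/-- extension by zero -/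
def ext0 (e : OpenPartialHomeomorph M Y) (f : ℝ → M → ℝ) (t : ℝ) : Y → ℝ :=
  e.target.indicator fun y => f t (e.symm y)

theorem ext0_apply (f : ℝ → M → ℝ) (t : ℝ) {x : M} (hx : x ∈ e.source) :
    ext0 e f t (e x) = f t x := by
  rw [ext0, indicator_of_mem (e.map_source hx), e.left_inv hx]

theorem smY_ext0 [T2Space Y] (hK : IsCompact K) (hW : IsOpen W) (hKe : K ⊆ e.source)
    (heW : e.source ⊆ W) (hc : ∀ i, IsChart N.x (e.symm.trans (cR A i))) {f : ℝ → M → ℝ}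
    (hf : Adm A I K W f) : SmY N I (ext0 e f) := by
  rintro x ⟨t, z⟩ ⟨ht, hz⟩
  suffices h : ContDiffWithinAt ℝ ∞ (fun q : ℝ × En (2 * n) => ext0 e f q.1 ((N.ch x).symm q.2))
      (I ×ˢ univ) (t, z) from h.mono (prod_mono le_rfl (subset_univ _))
  by_cases hy : (N.ch x).symm z ∈ e.target
  · set y := (N.ch x).symm z
    obtain ⟨i, hi⟩ := A.cover (e.symm y)
    have hs : y ∈ (e.symm.trans (cR A i)).source := ⟨hy, (cR_source i).symm ▸ hi⟩
    refine cdw_change (hc i) (N.isChart x) hz hs ?_ ht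
    have h1 := cdw_univ (isOpen_dom i hW) (hf.sm i) ht (mem_dom hi (heW (e.map_target hy)))
    have h2 : ContDiffAt ℝ ∞ (fun q : ℝ × En (2 * n) => (q.1, (eR n).symm q.2))
        (t, (e.symm.trans (cR A i)) y) := by fun_prop
    have h3 := ContDiffWithinAt.comp (g := fun q : ℝ × Cn n => f q.1 ((A.e i).symm q.2))
      (t := I ×ˢ univ) (s := I ×ˢ univ) (f := fun q : ℝ × En (2 * n) => (q.1, (eR n).symm q.2))
      (t, (e.symm.trans (cR A i)) y) (by simpa using h1) h2.contDiffWithinAt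
      fun q hq => ⟨hq.1, mem_univ _⟩
    refine h3.congr_of_eventuallyEq_of_mem (mem_nhdsWithin_of_mem_nhds ?_) ⟨ht, mem_univ _⟩
    filter_upwards [continuousAt_snd.eventually ((e.symm.trans (cR A i)).open_target.mem_nhds
      ((e.symm.trans (cR A i)).map_source hs))] with q hq
    exact ext0_apply f q.1 hq.2
  · have h1 : IsClosed (e '' K) :=
      (hK.image_of_continuousOn (e.continuousOn.mono hKe)).isClosed
    have h2 : (N.ch x).symm z ∉ e '' K := by
      rintro ⟨p, hp, h⟩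
      exact hy (h ▸ e.map_source (hKe hp))
    have h3 : ∀ᶠ q : ℝ × En (2 * n) in 𝓝 (t, z), (N.ch x).symm q.2 ∉ e '' K :=
      (ContinuousAt.comp (g := (N.ch x).symm) (f := Prod.snd) ((N.ch x).continuousAt_symm hz)
        continuousAt_snd).eventually (h1.isOpen_compl.mem_nhds h2)
    refine (contDiffWithinAt_const (c := (0 : ℝ))).congr_of_eventuallyEq_of_mem ?_ ⟨ht, mem_univ _⟩
    filter_upwards [mem_nhdsWithin_of_mem_nhds h3, self_mem_nhdsWithin] with q h4 h5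
    by_cases h6 : (N.ch x).symm q.2 ∈ e.target
    · rw [ext0, indicator_of_mem h6]
      exact hf.supp _ h5.1 _ fun h7 => h4 ⟨_, h7, e.right_inv h6⟩
    · exact indicator_of_notMem h6 _

theorem cdw_pull (hc : ∀ i, IsChart N.x (e.symm.trans (cR A i))) {w : ℝ → Y → ℝ}
    (hw : SmY N I w) {i : A.ι} {t : ℝ} (ht : t ∈ I) {z : Cn n} (hz : z ∈ dom A i e.source) :
    ContDiffWithinAt ℝ ∞ (fun q : ℝ × Cn n => w q.1 (e ((A.e i).symm q.2))) (I ×ˢ univ) (t, z) := by
  have h1 : eR n z ∈ (e.symm.trans (cR A i)).target :=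
    ⟨mem_cR_target.2 (by simpa using hz.1), by simpa using hz.2⟩
  have h2 : ContDiffAt ℝ ∞ (fun q : ℝ × Cn n => (q.1, eR n q.2)) (t, z) := by fun_prop
  have h3 := ContDiffWithinAt.comp
    (g := fun q : ℝ × En (2 * n) => w q.1 ((e.symm.trans (cR A i)).symm q.2))
    (t := I ×ˢ univ) (s := I ×ˢ univ) (f := fun q : ℝ × Cn n => (q.1, eR n q.2)) (t, z)
    (hw.chart (hc i) ht h1) h2.contDiffWithinAt fun q hq => ⟨hq.1, mem_univ _⟩
  refine h3.congr (fun q _ => ?_) ?_ <;> simp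

theorem cda_pull (hc : ∀ i, IsChart N.x (e.symm.trans (cR A i))) {w : Y → ℝ}
    (hw : N.Sm w) {i : A.ι} {x : M} (hx : x ∈ (A.e i).source) (hxe : x ∈ e.source) :
    ContDiffAt ℝ ∞ (fun z => w (e ((A.e i).symm z))) (A.e i x) := by
  have h1 : eR n (A.e i x) ∈ (e.symm.trans (cR A i)).target :=
    ⟨mem_cR_target.2 (by simpa using (A.e i).map_source hx), by
      simpa [(A.e i).left_inv hx] using hxe⟩
  have h2 := (((hw.chart (hc i)).contDiffAt
    ((e.symm.trans (cR A i)).open_target.mem_nhds h1)).comp (A.e i x) (eR n).contDiff.contDiffAt)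
  refine h2.congr_of_eventuallyEq (Eventually.of_forall fun z => ?_)
  simp

/-- the piece of the operator in a complex chart -/
def pcM (hW : IsOpen W) (heW : e.source ⊆ W) (hc : ∀ i, IsChart N.x (e.symm.trans (cR A i)))
    {g : A.ι → ℝ → Cn n → Matrix (Fin n) (Fin n) ℂ} (hg : HFam A I W g) (i : A.ι) {η : Y → ℝ}
    (h1 : N.Sm η) (h2 : ∀ p, 0 ≤ η p) (h3 : tsupport η ⊆ (e.symm.trans (cR A i)).source) :
    Pc N I where
  c := e.symm.trans (cR A i)
  hc := hc i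
  η := η
  sm := h1
  nn := h2
  supp := h3
  a q := rm (g i q.1 ((eR n).symm q.2))
  sa k l t ht p hp := by
    have h4 : A.e i (e.symm p) ∈ dom A i W :=
      mem_dom (cR_source i ▸ (h3 hp).2) (heW (e.map_target (h3 hp).1))
    have h5 : ContDiffAt ℝ ∞ (fun q : ℝ × En (2 * n) => (q.1, (eR n).symm q.2))
        (t, (e.symm.trans (cR A i)) p) := by fun_prop
    refine cd_rm (G := fun q : ℝ × En (2 * n) => g i q.1 ((eR n).symm q.2)) (fun a b => ?_) ?_ k l
    · exact ContDiffWithinAt.comp (g := fun q : ℝ × Cn n => g i q.1 q.2 a b)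
        (t := I ×ˢ univ) (s := I ×ˢ univ) (f := fun q : ℝ × En (2 * n) => (q.1, (eR n).symm q.2))
        (t, (e.symm.trans (cR A i)) p)
        (by simpa using cdw_univ (isOpen_dom i hW) (hg.sm i a b) ht h4) h5.contDiffWithinAt
        fun q hq => ⟨hq.1, mem_univ _⟩
    · simpa using (hg.pos i t ht _ h4).det_pos.ne'
  pos t ht p hp := by
    have h4 : A.e i (e.symm p) ∈ dom A i W :=
      mem_dom (cR_source i ▸ (h3 hp).2) (heW (e.map_target (h3 hp).1))
    simpa using rm_pos (hg.pos i t ht _ h4)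

theorem pcM_op (hW : IsOpen W) (heW : e.source ⊆ W) (hc : ∀ i, IsChart N.x (e.symm.trans (cR A i)))
    {g : A.ι → ℝ → Cn n → Matrix (Fin n) (Fin n) ℂ} (hg : HFam A I W g) (j : A.ι) {η : Y → ℝ}
    (h1 : N.Sm η) (h2 : ∀ p, 0 ≤ η p) (h3 : tsupport η ⊆ (e.symm.trans (cR A j)).source)
    {t : ℝ} (ht : t ∈ I) {w : Y → ℝ} (hw : N.Sm w) {i : A.ι} {x : M} (hx : x ∈ (A.e i).source)
    (hxe : x ∈ e.source) :
    (pcM hW heW hc hg j h1 h2 h3).op t w (e x) =
      η (e x) * lap (g i t (A.e i x)) (fun z => w (e ((A.e i).symm z))) (A.e i x) := by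
  by_cases h : η (e x) = 0
  · simp [Pc.op, pcM, h]
  have h4 := h3 (subset_tsupport _ h)
  have hj : x ∈ (A.e j).source := by
    have h5 : e.symm (e x) ∈ (cR A j).source := h4.2
    rwa [e.left_inv hxe, cR_source] at h5
  have h6 : (e.symm.trans (cR A j)) (e x) = eR n (A.e j x) := by simp [e.left_inv hxe]
  have h7 : ContDiffAt ℝ ∞ (w ∘ (e.symm.trans (cR A j)).symm) (eR n (A.e j x)) := by
    rw [← h6]
    exact (hw.chart (hc j)).contDiffAt ((e.symm.trans (cR A j)).open_target.mem_nhds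
      ((e.symm.trans (cR A j)).map_source h4))
  rw [lap_tr (u := fun p => w (e p)) hx hj (hg.tr i j t ht x (heW hxe) hx hj)
    (hg.pos i t ht _ (mem_dom hx (heW hxe))).det_pos.ne' (cda_pull hc hw hx hxe)
    (cda_pull hc hw hj hxe)]
  simp only [Pc.op, pcM, h6, ContinuousLinearEquiv.symm_apply_apply]
  rw [← lap_eR _ h7]
  simp

end dbl

/-- **LINEAR SOLVER** -/
theorem linSol (n : ℕ) : LinSolStmt n := by
  intro M _ _ _ A K W hK hW hKW a b hab g hg
  classical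
  rcases K.eq_empty_or_nonempty with rfl | hne
  · exact ⟨∅, isOpen_empty, Subset.rfl, empty_subset _, fun _ _ _ => 0,
      fun f _ => ⟨fun _ => contDiffOn_const, fun _ _ => rfl, fun _ _ _ _ hz => hz.2.elim⟩,
      fun _ _ _ _ _ _ _ _ hx => hx.elim, fun _ _ _ _ _ _ _ _ _ _ hx => hx.elim⟩
  obtain ⟨ι, _, Y, _, _, _, _, N, e, hKe, heW, hc⟩ := exists_dbl A hK hW hKW hne
  obtain ⟨n1, φ, i1, hφ, hφ1, hφK⟩ := N.exists_partition
    (hK.image_of_continuousOn (e.continuousOn.mono hKe))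
    (fun i => (e.symm.trans (cR A i)).source) (fun i => (e.symm.trans (cR A i)).open_source) (by
      rintro _ ⟨x, hx, rfl⟩
      obtain ⟨i, hi⟩ := A.cover x
      refine mem_iUnion.2 ⟨i, e.map_source (hKe hx), ?_⟩
      show e.symm (e x) ∈ (cR A i).source
      rwa [e.left_inv (hKe hx), cR_source])
  obtain ⟨n2, ψ, i2, hψ, -, hψ1⟩ := N.exists_partition isCompact_univ
    (fun y => (N.ch y).source) (fun y => (N.ch y).open_source)
    fun y _ => mem_iUnion.2 ⟨y, N.mem y⟩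
  have hψ2 : ∀ y, ∑ k, ψ k y = 1 := fun y => hψ1.self_of_nhdsSet y (mem_univ y)
  let P : Fin n1 ⊕ Fin n2 → Pc N (Icc a b) := Sum.elim
    (fun k => pcM hW heW hc hg (i1 k) (hφ k).1.sm (hφ k).2.2 (hφ k).2.1)
    fun k =>
      { c := N.ch (i2 k)
        hc := N.isChart _
        η := fun y => (1 - ∑ j, φ j y) * ψ k y
        sm := ((Imm.sm_const 1).sub (Imm.sm_sum _ fun j _ => (hφ j).1.sm)).mul (hψ k).1.sm
        nn := fun y => mul_nonneg (sub_nonneg.2 (hφ1 y)) ((hψ k).2.2 y)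
        supp := (tsupport_mul_subset_right (g := ψ k)).trans (hψ k).2.1
        a := fun _ => 1
        sa := fun _ _ _ _ _ _ => contDiffWithinAt_const
        pos := fun _ _ _ _ => Matrix.PosDef.one }
  have hP : ∀ y, ∃ α, 0 < (P α).η y := fun y => by
    by_contra h
    push Not at h
    have h1 : ∑ j, φ j y = 0 :=
      Finset.sum_eq_zero fun j _ => le_antisymm (h (Sum.inl j)) ((hφ j).2.2 y)
    have h2 : ∑ k, ψ k y ≤ 0 := Finset.sum_nonpos fun k _ => by
      have h3 : (1 - ∑ j, φ j y) * ψ k y ≤ 0 := h (Sum.inr k)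
      rwa [h1, sub_zero, one_mul] at h3
    linarith [hψ2 y]
  have hex : ∀ f : ℝ → M → ℝ, ∃ w, Adm A (Icc a b) K W f → Sol P (ext0 e f) w := fun f => by
    by_cases hf : Adm A (Icc a b) K W f
    · obtain ⟨w, hw⟩ := solve hab P hP (smY_ext0 hK hW hKe heW hc hf)
      exact ⟨w, fun _ => hw⟩
    · exact ⟨fun _ _ => 0, fun h => (hf h).elim⟩
  choose w hw using hex
  have hle : ∀ f f' : ℝ → M → ℝ, (∀ t ∈ Icc a b, ∀ x, x ∉ K → f t x = 0) →
      (∀ t ∈ Icc a b, ∀ x, x ∉ K → f' t x = 0) → ∀ C : ℝ, 0 ≤ C → ∀ t ∈ Icc a b,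
      (∀ s ∈ Icc a t, ∀ x ∈ K, f s x - f' s x ≤ C) →
      ∀ s ∈ Icc a t, ∀ y, ext0 e f s y - ext0 e f' s y ≤ C := by
    intro f f' hf hf' C hC t ht h s hs y
    have hs' : s ∈ Icc a b := ⟨hs.1, hs.2.trans ht.2⟩
    by_cases hy : y ∈ e.target
    · rw [ext0, ext0, indicator_of_mem hy, indicator_of_mem hy]
      by_cases hx : e.symm y ∈ K
      · exact h s hs _ hx
      · rwa [hf s hs' _ hx, hf' s hs' _ hx, sub_zero]
    · rwa [ext0, ext0, indicator_of_notMem hy, indicator_of_notMem hy, sub_zero]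
  have h00 : ext0 e (fun _ _ => 0) = fun _ _ => 0 := by
    funext t y; simp [ext0]
  refine ⟨e.source ∩ e ⁻¹' interior {y | ∑ k, φ k y = 1}, e.isOpen_inter_preimage isOpen_interior,
    fun x hx => ⟨hKe hx, mem_interior_iff_mem_nhds.2
      (hφK.filter_mono (nhds_le_nhdsSet (mem_image_of_mem e hx)))⟩,
    inter_subset_left.trans heW, fun f t x => w f t (e x), fun f hf => ⟨?_, ?_, ?_⟩,
    fun f hf C hC t ht h x _ => ?_, fun f f' hf hf' C hC t ht h x _ => ?_⟩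
  · rintro i ⟨t, z⟩ ⟨ht, hz⟩
    exact (cdw_pull hc (hw f hf).sm ht ⟨hz.1, hz.2.1⟩).mono (prod_mono le_rfl (subset_univ _))
  · exact fun x _ => (hw f hf).init _
  · intro i t ht z hz
    have h1 := (hw f hf).eqn t ht (e ((A.e i).symm z))
    have h2 : ∑ k, φ k (e ((A.e i).symm z)) = 1 :=
      interior_subset (s := {y | ∑ k, φ k y = 1}) hz.2.2
    rw [ext0_apply f t hz.2.1] at h1
    convert h1 using 2
    rw [op, Fintype.sum_sum_type]
    simp only [P, Sum.elim_inl, Sum.elim_inr, pcM_op hW heW hc hg _ _ _ _ ht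
      ((hw f hf).sm.slice ht) ((A.e i).map_target hz.1) hz.2.1, (A.e i).right_inv hz.1]
    simp only [Pc.op, h2, sub_self, zero_mul, Finset.sum_const_zero, add_zero, ← Finset.sum_mul,
      one_mul]
  · have h0 := sol_zero P
    rw [← h00] at h0
    have h1 := (hw f hf).le h0 ht (hle f _ hf.supp (fun _ _ _ _ => rfl) C hC t ht
      fun s hs x hx => by linarith [le_abs_self (f s x), h s hs x hx]) (e x)
    have h2 := h0.le (hw f hf) ht (hle _ f (fun _ _ _ _ => rfl) hf.supp C hC t ht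
      fun s hs x hx => by linarith [neg_abs_le (f s x), h s hs x hx]) (e x)
    rw [h00] at h1 h2
    rw [abs_le]
    constructor <;> linarith
  · exact (hw f hf).le (hw f' hf') ht (hle f f' hf.supp hf'.supp C hC t ht h) (e x)

end Crest.Agent.T223.Db
end
end

-- ▼ part T223/LxHB4_25
section

/-!
# Row 223 (helper25): higher order bounds, fully nonlinear equations (`FnHB`)
-/

set_option autoImplicit false
set_option linter.unusedSectionVars false

open Set Metric Filter Topology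
open scoped ContDiff

noncomputable section

namespace Crest.Agent.T223.Lx

open Crest.Agent.N207 Crest.Agent.N207.P

variable {n : ℕ}

theorem split_eH {P : Type} [NormedAddCommGroup P] [NormedSpace ℝ P]
    (x : P × (Fin n → Fin n → ℝ)) :
    x = ∑ k, ∑ l, x.2 k l • ((0 : P), eH k l) + (x.1, 0) := by
  refine Prod.ext ?_ ?_
  · simp [Prod.fst_sum]
  · funext k l
    simp [Prod.snd_sum, Finset.sum_apply, eH, Pi.single_apply]

theorem Semi.fn {a0 : Matrix (Fin n) (Fin n) ℝ} {δ : ℝ} (hS : Semi ℝ a0 δ)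
    {P : Type} [NormedAddCommGroup P] [NormedSpace ℝ P] {ι : Type}
    {O K0 : Set (P × (Fin n → Fin n → ℝ))} {F : P × (Fin n → Fin n → ℝ) → ℝ}
    {R : ℝ} {α β : ι → ℝ} {Z : ι → ℝ → En n → P} {v : ι → ℝ → En n → ℝ}
    (hO : IsOpen O) (hK : IsCompact K0) (hKO : K0 ⊆ O) (hF : ContDiffOn ℝ ∞ F O)
    (cl : ∀ q ∈ K0, ∀ k l, |fderiv ℝ F q (0, eH k l) - a0 k l| ≤ δ)
    (lt : ∀ i, α i < β i) (len : ∀ i, β i - α i ≤ 1)
    (vy : ∀ i j, Yl (Icc (α i) (β i)) (ball 0 R) j (v i))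
    (zy : ∀ i j, Yl (Icc (α i) (β i)) (ball 0 R) j (Z i))
    (init : ∀ i, ∀ y ∈ ball (0 : En n) R, v i (α i) y = 0)
    (ev : ∀ i, X.Ev (Icc (α i) (β i)) (ball 0 R) (v i) (fun t y => F (Z i t y, d2 (v i t) y)))
    (mem : ∀ i, ∀ t ∈ Icc (α i) (β i), ∀ y ∈ ball (0 : En n) R, (Z i t y, d2 (v i t) y) ∈ K0)
    (hv : UBt (fun i => Icc (α i) (β i)) R 2 v) : ∀ (m : ℕ) {r : ℝ}, r < R →
    UBt (fun i => Icc (α i) (β i)) R m Z → UBt (fun i => Icc (α i) (β i)) r (m + 2) v := by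
  have hU : IsOpen (ball (0 : En n) R) := isOpen_ball
  have hG : ContDiffOn ℝ ∞ (fderiv ℝ F) O := hF.fderiv_of_isOpen hO (by simp)
  have qy : ∀ i j, Yl (Icc (α i) (β i)) (ball 0 R) j (fun t y => (Z i t y, d2 (v i t) y)) :=
    fun i j => (zy i j).prod hU (yl_d2 hU (vy i (j + 2)))
  have gy : ∀ i j, Yl (Icc (α i) (β i)) (ball 0 R) j
      (fun t y => fderiv ℝ F (Z i t y, d2 (v i t) y)) := fun i j =>
    yl_comp (lt i) hU hO hG (qy i j) fun t ht y hy => hKO (mem i t ht y hy)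
  intro m
  induction m with
  | zero => exact fun hr _ => UB.mono hr.le hv
  | succ m ih =>
    intro r hr hZ
    have h1 := ih (r := (r + R) / 2) (by linarith) (UB.pred hZ)
    have hR1 : (r + R) / 2 ≤ R := by linarith
    have hb : ball (0 : En n) ((r + R) / 2) ⊆ ball 0 R := ball_subset_ball hR1
    have hb' : ball (0 : En n) r ⊆ ball 0 R := ball_subset_ball hr.le
    have gb : UBt (fun i => Icc (α i) (β i)) ((r + R) / 2) m
        (fun i t y => fderiv ℝ F (Z i t y, d2 (v i t) y)) :=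
      UB.comp hO hK hKO (fun p y hy => mem _ _ p.2 y (hb hy)) hG
        ((UB.mono hR1 (UB.pred hZ)).prod (UB.d2 h1))
    obtain ⟨K, hK'⟩ := UB.bdd hv
    refine ub_succ (fun p y hy => hK' p y (hb' hy)) (fun p y hy => (vy _ 1).diff p.2 (hb' hy))
      fun j => ?_
    have hL : LinF a0 δ ((r + R) / 2) m α β
        (fun i t y => Matrix.of fun k l => fderiv ℝ F (Z i t y, d2 (v i t) y) (0, eH k l))
        (fun i t y => fderiv ℝ F (Z i t y, d2 (v i t) y) (pd j (Z i t) y, 0))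
        (fun i t => pd j (v i t)) :=
      { lt := lt
        len := len
        uy := fun i => ((vy i _).pd j).mono subset_rfl hb
        ay := fun i k l => ((gy i m).clm hU
          (ContinuousLinearMap.apply ℝ ℝ ((0 : P), eH k l))).mono subset_rfl hb
        fy := fun i => (Yl.bilin isCompact_Icc hU (ContinuousLinearMap.id ℝ _) (gy i m)
          (((zy i (m + 1)).pd j).clm hU (ContinuousLinearMap.inl ℝ P _))).mono subset_rfl hb
        ev := fun i t ht y hy' => by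
          have hy := hb hy'
          have h2 := ev_pd hU (ev i) (vy i 1).2.1
            (yl_comp (lt i) hU hO hF (qy i 1) fun t ht y hy => hKO (mem i t ht y hy)) j t ht y hy
          refine h2.congr_deriv ?_
          have dq := (qy i 1).diff ht hy
          have h3 : pd j (fun y => F (Z i t y, d2 (v i t) y)) y =
              fderiv ℝ F (Z i t y, d2 (v i t) y) (pd j (fun y => (Z i t y, d2 (v i t) y)) y) := by
            have := (((hF.contDiffAt (hO.mem_nhds (hKO (mem i t ht y hy)))).differentiableAt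
              (by simp)).hasFDerivAt.comp y dq.hasFDerivAt).fderiv
            exact congrArg (fun L => L (EuclideanSpace.single j 1)) this
          have h4 : (pd j (fun y => (Z i t y, d2 (v i t) y)) y).1 = pd j (Z i t) y :=
            (pd_clm (ContinuousLinearMap.fst ℝ P _) dq j).symm
          have h5 : ∀ k l, (pd j (fun y => (Z i t y, d2 (v i t) y)) y).2 k l =
              pd k (pd l (pd j (v i t))) y := fun k l =>
            (pd_clm ((ContinuousLinearMap.proj l).comp ((ContinuousLinearMap.proj k).comp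
              (ContinuousLinearMap.snd ℝ P (Fin n → Fin n → ℝ)))) dq j).symm.trans
              (pd3_comm hU (vy i 3) ht hy (vy i 2) j k l)
          beta_reduce
          rw [h3, split_eH (pd j _ y), map_add, h4]
          simp only [map_sum, map_smul, h5, Lop, Matrix.of_apply, smul_eq_mul, mul_comm]
        cl := fun i t ht y hy => cl _ (mem i t ht y (hb hy))
        ab := fun k l => UB.clm (ContinuousLinearMap.apply ℝ ℝ ((0 : P), eH k l)) gb
        fb := UB.clm_apply gb ((UB.mono hR1 (UB.pd hZ j)).prod (ub_const' 0)) }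
    refine hS.core0 m (by linarith) hL (fun i y hy => ?_) ?_
    · rw [pd_congr (ev_of_ball (f := fun _ => 0) (init i) (hb hy)), pd_const']
    · obtain ⟨K1, hK1⟩ := (UB.pd h1 j).bdd
      exact ⟨K1, fun i t ht => hK1 ⟨(i, t), ht⟩⟩

theorem fnHB (h : ISStep n ℝ) (hI : IntStmt n ℝ) : FnHB n := by
  intro a0 ha0
  obtain ⟨δ, hδ, hS⟩ := semi h hI ha0
  exact ⟨δ, hδ, fun P _ _ ι O K0 F R r m α β Z v _ hr hO hK hKO hF cl lt len vy zy init ev mem
    hZ hv => hS.fn hO hK hKO hF cl lt len vy zy init ev mem hv m hr hZ⟩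

end Crest.Agent.T223.Lx
end
end

-- ▼ part T223/LxRegA_54
section

/-!
# Row 223 (helper54): local Hoelder bounds, the local difference quotient lemma, mean values
-/

set_option autoImplicit false
set_option linter.unusedSectionVars false

open Set Metric Filter Topology MeasureTheory
open scoped ContDiff Interval

noncomputable section

namespace Crest.Agent.T223.Lx.R54

open Crest.Agent.N207 Crest.Agent.N207.P

variable {n : ℕ} {V W X : Type*} [NormedAddCommGroup V] [NormedSpace ℝ V]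
  [NormedAddCommGroup W] [NormedSpace ℝ W] [NormedAddCommGroup X] [NormedSpace ℝ X]
  {I I' : Set ℝ} {S S' U : Set (En n)} {L L' : ℝ} {f g : ℝ → En n → V}

/-- sup and Hoelder bound `L` on `I × S` -/
def Hb (I : Set ℝ) (S : Set (En n)) (L : ℝ) (f : ℝ → En n → V) : Prop :=
  ∀ t ∈ I, (∀ y ∈ S, ‖f t y‖ ≤ L) ∧ ∀ y ∈ S, ∀ y' ∈ S, ‖f t y - f t y'‖ ≤ L * √(dist y y')

theorem Hb.mono (h : Hb I S L f) (hI : I' ⊆ I) (hS : S' ⊆ S) (hL : L ≤ L') : Hb I' S' L' f :=
  fun t ht => ⟨fun y hy => ((h t (hI ht)).1 y (hS hy)).trans hL, fun y hy y' hy' =>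
    ((h t (hI ht)).2 y (hS hy) y' (hS hy')).trans
      (mul_le_mul_of_nonneg_right hL (Real.sqrt_nonneg _))⟩

theorem Hb.congr (h : Hb I S L f) (e : ∀ t ∈ I, ∀ y ∈ S, g t y = f t y) : Hb I S L g :=
  fun t ht => ⟨fun y hy => e t ht y hy ▸ (h t ht).1 y hy, fun y hy y' hy' => by
    rw [e t ht y hy, e t ht y' hy']; exact (h t ht).2 y hy y' hy'⟩

theorem Hb.add (h : Hb I S L f) (h' : Hb I S L' g) : Hb I S (L + L') fun t y => f t y + g t y :=
  fun t ht => ⟨fun y hy => (norm_add_le _ _).trans (add_le_add ((h t ht).1 y hy) ((h' t ht).1 y hy)),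
    fun y hy y' hy' => by
      rw [add_sub_add_comm, add_mul]
      exact (norm_add_le _ _).trans (add_le_add ((h t ht).2 y hy y' hy') ((h' t ht).2 y hy y' hy'))⟩

theorem Hb.tsmul (h : Hb I S L f) {θ : ℝ → ℝ} {c : ℝ} (hc : 0 ≤ c) (hθ : ∀ t ∈ I, |θ t| ≤ c) :
    Hb I S (c * L) fun t y => θ t • f t y :=
  fun t ht => ⟨fun y hy => by
      rw [norm_smul]
      exact mul_le_mul (hθ t ht) ((h t ht).1 y hy) (norm_nonneg _) hc,
    fun y hy y' hy' => by
      rw [← smul_sub, norm_smul, mul_assoc]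
      exact mul_le_mul (hθ t ht) ((h t ht).2 y hy y' hy') (norm_nonneg _) hc⟩

theorem Hb.bilin (B : V →L[ℝ] W →L[ℝ] X) (hB : ‖B‖ ≤ 1) {g : ℝ → En n → W} (h : Hb I S L f)
    (h' : Hb I S L' g) : Hb I S (2 * L * L') fun t y => B (f t y) (g t y) := by
  have hb : ∀ a b, ‖B a b‖ ≤ ‖a‖ * ‖b‖ := fun a b => (B.le_opNorm₂ a b).trans (by
    rw [mul_assoc]; exact mul_le_of_le_one_left (by positivity) hB)
  refine fun t ht => ⟨fun y hy => ?_, fun y hy y' hy' => ?_⟩
  · have a1 := (h t ht).1 y hy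
    have a2 := (h' t ht).1 y hy
    have h0 := (norm_nonneg _).trans a1
    have h1 := mul_le_mul a1 a2 (norm_nonneg _) h0
    have h2 := mul_nonneg h0 ((norm_nonneg _).trans a2)
    linarith [hb (f t y) (g t y)]
  · have e : B (f t y) (g t y) - B (f t y') (g t y') =
        B (f t y) (g t y - g t y') + B (f t y - f t y') (g t y') := by
      simp only [map_sub, sub_apply]; abel
    have h0 := (norm_nonneg _).trans ((h t ht).1 y hy)
    have a1 := mul_le_mul ((h t ht).1 y hy) ((h' t ht).2 y hy y' hy') (norm_nonneg _) h0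
    have a2 := mul_le_mul ((h t ht).2 y hy y' hy') ((h' t ht).1 y' hy') (norm_nonneg _)
      (by positivity)
    rw [e]
    refine (norm_add_le _ _).trans ((add_le_add (hb _ _) (hb _ _)).trans ?_)
    linarith

theorem Hb.shift (h : Hb I S' L f) {v : En n} (hS : ∀ y ∈ S, y + v ∈ S') :
    Hb I S L fun t y => f t (y + v) :=
  fun t ht => ⟨fun y hy => (h t ht).1 _ (hS y hy), fun y hy y' hy' => by
    simpa using (h t ht).2 _ (hS y hy) _ (hS y' hy')⟩

theorem exists_hb (hI : IsCompact I) (hU : IsOpen U) (h : Yl I U 0 f) {y0 : En n} (hy : y0 ∈ U) :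
    ∃ L : ℝ, 0 ≤ L ∧ ∀ᶠ r in 𝓝[>] (0 : ℝ), Hb I (ball y0 r) L f := by
  obtain ⟨K, hK0, hK⟩ := h.hol hy
  obtain ⟨A, hA0, hA⟩ := loc_bdd hI hU h.1 hy
  refine ⟨K + A, by positivity, ?_⟩
  filter_upwards [hK, hA] with r h1 h2 t ht
  exact ⟨fun y hy => (h2 t ht y hy).trans (by linarith), fun y hy y' hy' =>
    (h1 t ht y hy y' hy').trans (mul_le_mul_of_nonneg_right (by linarith) (Real.sqrt_nonneg _))⟩

theorem exists_hb_pd (hI : IsCompact I) (hU : IsOpen U) (h : Yl I U 1 f) {y0 : En n}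
    (hy : y0 ∈ U) :
    ∃ L : ℝ, 0 ≤ L ∧ ∀ᶠ r in 𝓝[>] (0 : ℝ), ∀ k, Hb I (ball y0 r) L fun t => pd k (f t) := by
  choose L h0 hL using fun k => exists_hb hI hU (h.pd k) hy
  refine ⟨∑ k, L k, Finset.sum_nonneg fun k _ => h0 k, eventually_all.2 fun k => ?_⟩
  exact (hL k).mono fun r hr => hr.mono Subset.rfl Subset.rfl
    (Finset.single_le_sum (fun j _ => h0 j) (Finset.mem_univ k))

/-- increments are `O(‖v‖)` -/
theorem hb_dv {v : En n} (hS : ∀ y ∈ S, ∀ z, ‖z‖ ≤ ‖v‖ → y + z ∈ S')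
    (hd : ∀ t ∈ I, ∀ y ∈ S', DifferentiableAt ℝ (f t) y)
    (hL : ∀ k, Hb I S' L fun t => pd k (f t)) : Hb I S (n * L * ‖v‖) (dv v f) := by
  intro t ht
  have hd' : ∀ x ∈ S, ∀ z ∈ closedBall (0 : En n) ‖v‖,
      HasFDerivAt (fun z => f t (x + z)) (fderiv ℝ (f t) (x + z)) z := fun x hx z hz =>
    (hasFDerivAt_comp_add_left x).2 (hd t ht _ (hS x hx z (by simpa using hz))).hasFDerivAt
  have m0 : (0 : En n) ∈ closedBall (0 : En n) ‖v‖ := by simp
  have m1 : v ∈ closedBall (0 : En n) ‖v‖ := by simp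
  refine ⟨fun y hy => ?_, fun y hy y' hy' => ?_⟩
  · have := (convex_closedBall (0 : En n) ‖v‖).norm_image_sub_le_of_norm_hasFDerivWithin_le
      (𝕜 := ℝ) (f := fun z => f t (y + z)) (C := n * L)
      (fun z hz => (hd' y hy z hz).hasFDerivWithinAt)
      (fun z hz => (norm_clm_le_sum _).trans (by
        simpa [pd] using Finset.sum_le_card_nsmul Finset.univ _ L fun k _ =>
          (hL k t ht).1 _ (hS y hy z (by simpa using hz)))) m0 m1
    simpa [dv] using this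
  · have := (convex_closedBall (0 : En n) ‖v‖).norm_image_sub_le_of_norm_hasFDerivWithin_le
      (𝕜 := ℝ) (f := fun z => f t (y + z) - f t (y' + z)) (C := n * (L * √(dist y y')))
      (fun z hz => ((hd' y hy z hz).sub (hd' y' hy' z hz)).hasFDerivWithinAt)
      (fun z hz => (norm_clm_le_sum _).trans (by
        have := Finset.sum_le_card_nsmul Finset.univ _ (L * √(dist y y')) fun k _ =>
          ((hL k t ht).2 _ (hS y hy z (by simpa using hz)) _
            (hS y' hy' z (by simpa using hz))).trans (le_of_eq (by rw [dist_add_right]))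
        simpa [pd] using this)) m0 m1
    simp only [add_zero, sub_zero] at this
    calc ‖dv v f t y - dv v f t y'‖ = ‖f t (y + v) - f t (y' + v) - (f t y - f t y')‖ := by
          simp only [dv]; congr 1; abel
      _ ≤ _ := this
      _ = _ := by ring

theorem hb_static {χ : En n → V} (hχ : ContDiff ℝ ∞ χ) {K : Set (En n)} (hK : IsCompact K)
    (h0 : ∀ y, y ∉ K → χ y = 0) : ∃ L : ℝ, 0 ≤ L ∧ Hb I univ L fun _ => χ := by
  obtain ⟨L, hL, h⟩ := (yl_static (I := Icc (0 : ℝ) 0) (m := 0) isCompact_Icc isOpen_univ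
    hχ.contDiffOn).yb hK fun _ _ => h0
  exact ⟨L, hL, fun _ _ => ⟨fun y _ => h.sup 0 (by simp) y, fun y _ y' _ => h.hol 0 (by simp) y y'⟩⟩

/-- a global Hoelder bound from a local one -/
theorem hol_glob {y0 : En n} {R : ℝ} (hR : 0 < R) (hL : 0 ≤ L) (h : Hb I (ball y0 R) L f) {t : ℝ}
    (ht : t ∈ I) (h0 : ∀ y, y ∉ closedBall y0 (3 * R / 4) → f t y = 0) (y y' : En n) :
    ‖f t y - f t y'‖ ≤ L * (1 + 1 / √(R / 4)) * √(dist y y') := by
  have hq : 0 < √(R / 4) := Real.sqrt_pos.2 (by linarith)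
  have hz : ∀ z, z ∉ ball y0 R → f t z = 0 := fun z hz => h0 z fun h1 =>
    hz (closedBall_subset_ball (by linarith) h1)
  have far : ∀ z z', z ∈ ball y0 R → z' ∉ ball y0 R →
      ‖f t z‖ ≤ L * (1 + 1 / √(R / 4)) * √(dist z z') := fun z z' h1 h2 => by
    by_cases h3 : z ∈ closedBall y0 (3 * R / 4)
    · have h4 : R / 4 ≤ dist z z' := by
        have := dist_triangle z' z y0
        rw [mem_closedBall] at h3
        rw [mem_ball, not_lt] at h2
        rw [dist_comm]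
        linarith
      calc ‖f t z‖ ≤ L * (1 / √(R / 4)) * √(R / 4) := by
            rw [mul_assoc, one_div, inv_mul_cancel₀ hq.ne', mul_one]; exact (h t ht).1 z h1
        _ ≤ _ := by gcongr; linarith
    · rw [h0 z h3, norm_zero]; positivity
  by_cases h1 : y ∈ ball y0 R <;> by_cases h2 : y' ∈ ball y0 R
  · refine ((h t ht).2 y h1 y' h2).trans (mul_le_mul_of_nonneg_right ?_ (Real.sqrt_nonneg _))
    exact le_mul_of_one_le_right hL (le_add_of_nonneg_right (by positivity))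
  · rw [hz y' h2, sub_zero]; exact far y y' h1 h2
  · rw [hz y h1, zero_sub, norm_neg, dist_comm]; exact far y' y h2 h1
  · rw [hz y h1, hz y' h2, sub_zero, norm_zero]; positivity

/-- the local difference quotient lemma -/
theorem dq_loc [CompleteSpace V] (hI : IsCompact I) {y0 : En n} {R ρ K : ℝ} (hR : 0 < R)
    (hρ : 0 < ρ) (hK : 0 ≤ K) (hL : 0 ≤ L) (hg : Yl I (ball y0 R) 0 g) (h : Hb I (ball y0 R) L g)
    (H : ∀ v, ‖v‖ ≤ ρ → Hb I (ball y0 R) (K * ‖v‖) (dv v g)) : Yl I (ball y0 (R / 4)) 1 g := by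
  let χ : ContDiffBump y0 := ⟨R / 4, R / 2, by positivity, by linarith⟩
  have hχ0 : ∀ y, y ∉ closedBall y0 (R / 2) → χ y = 0 := fun y hy =>
    χ.zero_of_le_dist (le_of_lt (by simpa using hy))
  have hχs : ContDiff ℝ ∞ χ := χ.contDiff
  obtain ⟨A, hA0, hA⟩ := hb_static (I := I) hχs (isCompact_closedBall _ _) hχ0
  choose B hB0 hB using fun k => hb_static (I := I) (contDiff_pd_top hχs k)
    (isCompact_closedBall _ _) (pd_zero_off isClosed_closedBall hχ0 k)
  have hB1 : 0 ≤ ∑ k, B k := Finset.sum_nonneg fun k _ => hB0 k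
  have hB' : ∀ k, Hb I univ (∑ k, B k) fun _ => pd k χ := fun k => (hB k).mono Subset.rfl
    Subset.rfl (Finset.single_le_sum (fun j _ => hB0 j) (Finset.mem_univ k))
  set φ : ℝ → En n → V := fun t y => χ y • g t y with hφ
  have hφ0 : ∀ t y, y ∉ closedBall y0 (R / 2) → φ t y = 0 := fun t y hy => by
    simp [hφ, hχ0 y hy]
  have hy : Yl I univ 0 φ := ((yl_static hI isOpen_ball hχs.contDiffOn).smul hI isOpen_ball
    hg).ext_zero isOpen_ball isClosed_closedBall (closedBall_subset_ball (by linarith))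
      fun t _ => hφ0 t
  have hs : ‖ContinuousLinearMap.lsmul ℝ ℝ (E := V)‖ ≤ 1 := ContinuousLinearMap.opNorm_lsmul_le
  set c : ℝ := 1 + 1 / √(R / 4) with hc
  have hc0 : 0 ≤ c := by positivity
  set ρ' := min ρ (R / 4) with hρ'
  have hρ0 : 0 < ρ' := by positivity
  set K1 := (2 * A * K + 2 * (n * ∑ k, B k) * L) * c with hK1
  set K2 := 2 * (2 * A * L * c) / ρ' with hK2
  have hK10 : 0 ≤ K1 := by positivity
  have hK20 : 0 ≤ K2 := by positivity
  refine ((dq (φ := φ) (K := K1 + K2) (by positivity) hy.1 fun v t ht y y' => ?_).mono Subset.rfl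
    (subset_univ _)).congr isOpen_ball fun t _ y hy => ?_
  · have hv := norm_nonneg v
    have hq := Real.sqrt_nonneg (dist y y')
    rcases le_total ‖v‖ ρ' with h1 | h1
    · have h2 := (((hA.shift (S := ball y0 R) (v := v) fun _ _ => mem_univ _).bilin _ hs
        (H v (h1.trans (min_le_left _ _)))).add
        (((hb_dv (f := fun _ => χ) (S := ball y0 R) (v := v) (fun _ _ _ _ => mem_univ _)
          (fun _ _ y _ => hχs.differentiable (by simp) y) hB').bilin _ hs h))).congr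
        (g := dv v φ) fun t _ y _ => by
          simp only [dv, hφ, ContinuousLinearMap.lsmul_apply, smul_sub, sub_smul]; abel
      refine (hol_glob hR (by positivity) h2 ht (fun z hz => ?_) y y').trans ?_
      · have h3 : ‖v‖ ≤ R / 4 := h1.trans (min_le_right _ _)
        rw [mem_closedBall, not_le] at hz
        have h4 := dist_triangle z (z + v) y0
        rw [dist_self_add_right] at h4
        rw [dv, hφ0 t z (by rw [mem_closedBall, not_le]; linarith),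
          hφ0 t (z + v) (by rw [mem_closedBall, not_le]; linarith), sub_zero]
      · refine mul_le_mul_of_nonneg_right ?_ hq
        rw [← hc]
        nlinarith [mul_nonneg hK20 hv]
    · have h2 := hol_glob hR (by positivity) (((hA.mono Subset.rfl (subset_univ _)
        le_rfl).bilin _ hs h).congr (g := φ) fun _ _ _ _ => rfl) ht fun z hz => hφ0 t z fun h3 =>
          hz (closedBall_subset_closedBall (by linarith) h3)
      rw [← hc] at h2
      have h3 := h2 (y + v) (y' + v)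
      rw [dist_add_right] at h3
      have h4 : 2 * (2 * A * L * c) ≤ K2 * ‖v‖ := by
        rw [hK2, div_mul_eq_mul_div, le_div_iff₀ hρ0]
        exact mul_le_mul_of_nonneg_left h1 (by positivity)
      calc _ = ‖φ t (y + v) - φ t (y' + v) - (φ t y - φ t y')‖ := by
            simp only [dv]; congr 1; abel
        _ ≤ 2 * (2 * A * L * c) * √(dist y y') := by
            linarith [norm_sub_le (φ t (y + v) - φ t (y' + v)) (φ t y - φ t y'), h2 y y']
        _ ≤ _ := mul_le_mul_of_nonneg_right (by nlinarith [mul_nonneg hK10 hv]) hq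
  · simp [hφ, χ.one_of_mem_closedBall (ball_subset_closedBall hy)]

theorem pd_shift (k : Fin n) (u : En n → V) (v : En n) :
    pd k (fun y => u (y + v)) = fun y => pd k u (y + v) := by
  funext y
  simp only [pd, fderiv_comp_add_right]

theorem pd_csmul (k : Fin n) (c : ℝ) (u : En n → V) :
    pd k (fun y => c • u y) = fun y => c • pd k u y := by
  funext y
  have := fderiv_const_smul_field (𝕜 := ℝ) (f := u) c
  exact congrArg (fun D : En n → En n →L[ℝ] V => D y (EuclideanSpace.single k 1)) this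

theorem yl_shift {v : En n} (hS : ∀ y ∈ S, y + v ∈ U) :
    ∀ {m : ℕ} {f : ℝ → En n → V}, Yl I U m f → Yl I S m fun t y => f t (y + v) := by
  have hc : ∀ {f : ℝ → En n → V}, ContinuousOn (fun q : ℝ × En n => f q.1 q.2) (I ×ˢ U) →
      ContinuousOn (fun q : ℝ × En n => f q.1 (q.2 + v)) (I ×ˢ S) := fun h =>
    h.comp (f := fun q : ℝ × En n => (q.1, q.2 + v)) (by fun_prop) fun q hq => ⟨hq.1, hS _ hq.2⟩
  intro m
  induction m with
  | zero =>
    intro f h
    refine ⟨hc h.1, fun y0 hy => ?_⟩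
    obtain ⟨r, hr, K, hK⟩ := h.2 _ (hS y0 hy)
    exact ⟨r, hr, K, fun t ht y h1 y' h2 => by
      simpa using hK t ht (y + v) (by simpa using h1) (y' + v) (by simpa using h2)⟩
  | succ m ih =>
    intro f h
    refine ⟨hc h.1, fun t ht y hy => ?_, fun k => ?_⟩
    · exact ((hasFDerivAt_comp_add_right v).2 (h.diff ht (hS y hy)).hasFDerivAt).differentiableAt
    · simp only [pd_shift]
      exact ih (h.pd k)

/-! ### mean values along segments -/

section mv

variable {B : Set W} {D : ℝ × W → X} {t : ℝ} {z z' e e' : W}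

/-- the mean of `D (t, ·)` along the segment from `z` to `z'` -/
def mv (D : ℝ × W → X) (t : ℝ) (z z' : W) : X := ∫ σ in (0 : ℝ)..1, D (t, z + σ • (z' - z))

theorem seg_mem (hB : Convex ℝ B) (hz : z ∈ B) (hz' : z' ∈ B) {σ : ℝ} (hσ : σ ∈ Icc (0 : ℝ) 1) :
    z + σ • (z' - z) ∈ B := hB.add_smul_sub_mem hz hz' hσ

theorem uIoc_sub : Ι (0 : ℝ) 1 ⊆ Icc 0 1 := by
  rw [uIoc_of_le zero_le_one]; exact Ioc_subset_Icc_self

theorem mv_int (hB : Convex ℝ B) (hD : ContinuousOn (fun x => D (t, x)) B) (hz : z ∈ B)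
    (hz' : z' ∈ B) : IntervalIntegrable (fun σ : ℝ => D (t, z + σ • (z' - z))) volume 0 1 :=
  (hD.comp (f := fun σ : ℝ => z + σ • (z' - z)) (by fun_prop)
    fun _ hσ => seg_mem hB hz hz' hσ).intervalIntegrable_of_Icc zero_le_one

theorem mv_cl [CompleteSpace X] (hB : Convex ℝ B) (hD : ContinuousOn (fun x => D (t, x)) B)
    (hz : z ∈ B) (hz' : z' ∈ B) {c : X} {δ : ℝ} (h : ∀ x ∈ B, ‖D (t, x) - c‖ ≤ δ) :
    ‖mv D t z z' - c‖ ≤ δ := by
  have e : c = ∫ _σ in (0 : ℝ)..1, c := by simp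
  rw [mv, e, ← intervalIntegral.integral_sub (mv_int hB hD hz hz') intervalIntegrable_const]
  simpa using intervalIntegral.norm_integral_le_of_norm_le_const (a := 0) (b := 1) (C := δ)
    fun σ hσ => h _ (seg_mem hB hz hz' (uIoc_sub hσ))

theorem mv_lip (hB : Convex ℝ B) (hD : ContinuousOn (fun x => D (t, x)) B) (hz : z ∈ B)
    (hz' : z' ∈ B) (he : e ∈ B) (he' : e' ∈ B) {Λ : ℝ} (hΛ : 0 ≤ Λ)
    (h : ∀ x ∈ B, ∀ x' ∈ B, ‖D (t, x) - D (t, x')‖ ≤ Λ * ‖x - x'‖) :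
    ‖mv D t z z' - mv D t e e'‖ ≤ Λ * (‖z - e‖ + ‖z' - e'‖) := by
  rw [mv, mv, ← intervalIntegral.integral_sub (mv_int hB hD hz hz') (mv_int hB hD he he')]
  have := intervalIntegral.norm_integral_le_of_norm_le_const (a := 0) (b := 1)
    (C := Λ * (‖z - e‖ + ‖z' - e'‖))
    (f := fun σ : ℝ => D (t, z + σ • (z' - z)) - D (t, e + σ • (e' - e))) fun σ hσ => by
      have h1 := uIoc_sub hσ
      refine (h _ (seg_mem hB hz hz' h1) _ (seg_mem hB he he' h1)).trans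
        (mul_le_mul_of_nonneg_left ?_ hΛ)
      have e1 : z + σ • (z' - z) - (e + σ • (e' - e)) = (1 - σ) • (z - e) + σ • (z' - e') := by
        module
      rw [e1]
      refine (norm_add_le _ _).trans (add_le_add ?_ ?_) <;> rw [norm_smul] <;>
        refine mul_le_of_le_one_left (norm_nonneg _) (abs_le.2 ⟨?_, ?_⟩) <;> linarith [h1.1, h1.2]
  simpa using this

theorem mv_eq [CompleteSpace X] {F : ℝ × W → X} {D : ℝ × W → W →L[ℝ] X} (hB : Convex ℝ B)
    (hD : ContinuousOn (fun x => D (t, x)) B) (hz : z ∈ B) (hz' : z' ∈ B)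
    (h : ∀ x ∈ B, HasFDerivAt (fun w => F (t, w)) (D (t, x)) x) :
    F (t, z') - F (t, z) = mv D t z z' (z' - z) := by
  have hi := mv_int hB hD hz hz'
  rw [mv, ContinuousLinearMap.intervalIntegral_apply hi]
  have := intervalIntegral.integral_eq_sub_of_hasDerivAt (a := 0) (b := 1)
    (f := fun σ : ℝ => F (t, z + σ • (z' - z))) (f' := fun σ => D (t, z + σ • (z' - z)) (z' - z))
    (fun σ hσ => by
      rw [uIcc_of_le zero_le_one] at hσ
      have h1 : HasDerivAt (fun σ : ℝ => z + σ • (z' - z)) (z' - z) σ := by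
        simpa using ((hasDerivAt_id σ).smul_const (z' - z)).const_add z
      exact (h _ (seg_mem hB hz hz' hσ)).comp_hasDerivAt σ h1)
    (((hD.comp (f := fun σ : ℝ => z + σ • (z' - z)) (by fun_prop)
      fun _ hσ => seg_mem hB hz hz' hσ).clm_apply continuousOn_const).intervalIntegrable_of_Icc
        zero_le_one)
  simpa using this.symm

theorem mv_cont {J : Set ℝ} (hB : Convex ℝ B) (hD : ContinuousOn D (J ×ˢ B)) {C : ℝ}
    (hC : ∀ t ∈ J, ∀ x ∈ B, ‖D (t, x)‖ ≤ C) {s : Set (ℝ × En n)} {z z' : ℝ × En n → W}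
    (hz : ContinuousOn z s) (hz' : ContinuousOn z' s)
    (hm : ∀ q ∈ s, q.1 ∈ J ∧ z q ∈ B ∧ z' q ∈ B) :
    ContinuousOn (fun q => mv D q.1 (z q) (z' q)) s := by
  intro q0 hq0
  refine intervalIntegral.continuousWithinAt_of_dominated_interval (bound := fun _ => C) ?_ ?_
    intervalIntegrable_const (Eventually.of_forall fun σ hσ => ?_)
  · filter_upwards [self_mem_nhdsWithin] with q hq
    obtain ⟨h1, h2, h3⟩ := hm q hq
    exact (mv_int hB (hD.comp (f := fun x => (q.1, x)) (by fun_prop) fun x hx => ⟨h1, hx⟩) h2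
      h3).aestronglyMeasurable_restrict_uIoc
  · filter_upwards [self_mem_nhdsWithin] with q hq
    obtain ⟨h1, h2, h3⟩ := hm q hq
    exact Eventually.of_forall fun σ hσ => hC _ h1 _ (seg_mem hB h2 h3 (uIoc_sub hσ))
  · exact (hD.comp (f := fun q : ℝ × En n => (q.1, z q + σ • (z' q - z q)))
      (continuousOn_fst.prodMk (hz.add ((hz'.sub hz).const_smul σ))) fun q hq =>
        ⟨(hm q hq).1, seg_mem hB (hm q hq).2.1 (hm q hq).2.2 (uIoc_sub hσ)⟩) q0 hq0

end mv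

end Crest.Agent.T223.Lx.R54
end
end

-- ▼ part T223/LxReg_54

/-!
# Row 223 (helper54): regularity for fully nonlinear parabolic equations
-/

set_option autoImplicit false
set_option linter.unusedSectionVars false

open Set Metric Filter Topology
open scoped ContDiff

noncomputable section

namespace Crest.Agent.T223.Lx

open Crest.Agent.N207 Crest.Agent.N207.P

namespace R54

variable {n : ℕ}

section

variable {V : Type*} [NormedAddCommGroup V] [NormedSpace ℝ V] {I : Set ℝ} {S S' : Set (En n)}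
  {L : ℝ} {g : ℝ → En n → V}

theorem Hb.dv0 (h : Hb I S' L g) {v : En n} (h0 : S ⊆ S') (hS : ∀ y ∈ S, y + v ∈ S') :
    Hb I S (L + 1 * L) (dv v g) :=
  ((h.shift hS).add ((h.mono Subset.rfl h0 le_rfl).tsmul (θ := fun _ => -1) zero_le_one
    (by simp))).congr fun t _ y _ => by simp [dv, sub_eq_add_neg]

theorem Hb.app {W : Type*} [NormedAddCommGroup W] [NormedSpace ℝ W] {L' : ℝ}
    {A : ℝ → En n → V →L[ℝ] W} (h : Hb I S L' A) (h' : Hb I S L g) :
    Hb I S (2 * L' * L) fun t y => A t y (g t y) :=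
  h.bilin (ContinuousLinearMap.id ℝ (V →L[ℝ] W)) ContinuousLinearMap.norm_id_le h'

theorem Hb.ws (h : Hb I S L g) {t : ℝ} (ht : t ∈ I) : WS S L (g t) := fun s y hs => by
  have h1 : √s ≤ 1 := Real.sqrt_le_one.2 hs.2.1
  have h2 : s ^ 2 ≤ 1 := pow_le_one₀ hs.1.le hs.2.1
  exact (mul_le_of_le_one_left (norm_nonneg _) (mul_le_one₀ h2 (Real.sqrt_nonneg _) h1)).trans
    ((h t ht).1 y (hs.2.2 (mem_ball_self hs.1)))

theorem Hb.wh (h : Hb I S L g) {t : ℝ} (ht : t ∈ I) : WH S L (g t) := fun _ y y' hs hs' =>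
  (mul_le_of_le_one_left (norm_nonneg _) (pow_le_one₀ hs.1.le hs.2.1)).trans
    ((h t ht).2 y (hs.2.2 (mem_ball_self hs.1)) y' (hs'.2.2 (mem_ball_self hs.1)))

theorem hb_of_w {y0 : En n} {s : ℝ} (h0 : 0 < s) (h1 : s ≤ 1)
    (h : ∀ t ∈ I, WH (ball y0 (2 * s)) L (g t) ∧ WS (ball y0 (2 * s)) L (g t)) :
    Hb I (ball y0 s) (L / s ^ 3) g := by
  have hd : ∀ y ∈ ball y0 s, Dp (ball y0 (2 * s)) s y := fun y hy =>
    ⟨h0, h1, ball_subset_ball' (by rw [mem_ball] at hy; linarith)⟩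
  refine fun t ht => ⟨fun y hy => ?_, fun y hy y' hy' => ?_⟩
  · rw [le_div_iff₀ (by positivity), mul_comm]
    refine le_trans (mul_le_mul_of_nonneg_right ?_ (norm_nonneg _)) ((h t ht).2 s y (hd y hy))
    rw [pow_succ]
    exact mul_le_mul_of_nonneg_left (Real.le_sqrt_of_sq_le (by nlinarith)) (by positivity)
  · rw [div_mul_eq_mul_div, le_div_iff₀ (by positivity), mul_comm]
    exact (h t ht).1 s y y' (hd y hy) (hd y' hy')

end

/-- points and Hessians -/
abbrev HW (n : ℕ) : Type := En n × (Fin n → Fin n → ℝ)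

theorem clm_eH (L : HW n →L[ℝ] ℝ) (M : Fin n → Fin n → ℝ) :
    L (0, M) = ∑ k, ∑ l, L (0, eH k l) • M k l := by
  have e : ((0 : En n), M) = ∑ k, ∑ l, M k l • ((0 : En n), eH k l) := by
    refine Prod.ext (by simp [Prod.fst_sum]) ?_
    funext k l
    simp [Prod.snd_sum, Finset.sum_apply, eH, Pi.single_apply, ite_apply]
  conv_lhs => rw [e]
  simp only [map_sum, map_smul, smul_eq_mul, mul_comm]

theorem norm_eH (k l : Fin n) : ‖((0 : En n), eH k l)‖ ≤ 1 := by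
  simp [Prod.norm_def, eH, Pi.norm_single]

theorem abs_eH (L : HW n →L[ℝ] ℝ) (k l : Fin n) : |L (0, eH k l)| ≤ ‖L‖ :=
  (L.le_opNorm _).trans (mul_le_of_le_one_right (norm_nonneg _) (norm_eH k l))

variable {α β : ℝ} {U : Set (En n)} {O : Set (HW n)} {F : ℝ × HW n → ℝ} {v : ℝ → En n → ℝ}

theorem yl_jet {I : Set ℝ} (hI : IsCompact I) (hU : IsOpen U) {m : ℕ} (h : Yl I U (m + 2) v) :
    Yl I U m fun t y => ((y, d2 (v t) y) : HW n) :=
  (yl_id hI hU).prod hU (Yl.pi hU fun k => Yl.pi hU fun l => (h.pd l).pd k)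

/-- the freezing radius -/
theorem exists_rad (hab : α < β) (hO : IsOpen O) (hF : ContDiffOn ℝ ∞ F (Icc α β ×ˢ O)) {t0 : ℝ}
    (ht0 : t0 ∈ Icc α β) {z0 : HW n} (hz : z0 ∈ O) {δ : ℝ} (hδ : 0 < δ) :
    ∃ ρ Λ : ℝ, 0 < ρ ∧ 0 ≤ Λ ∧ ball z0 ρ ⊆ O ∧ ∀ t ∈ Icc α β, |t - t0| < ρ →
      (∀ x ∈ ball z0 ρ, ‖D2 F (t, x) - D2 F (t0, z0)‖ ≤ δ) ∧
      ∀ x ∈ ball z0 ρ, ∀ x' ∈ ball z0 ρ, ‖D2 F (t, x) - D2 F (t, x')‖ ≤ Λ * ‖x - x'‖ := by
  have hI' := uniqueDiffOn_Icc hab
  obtain ⟨-, hD⟩ := d2_spec hI' hO hF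
  obtain ⟨hd2, hD2⟩ := d2_spec hI' hO hD
  have h1 : ∀ᶠ q in 𝓝[Icc α β ×ˢ O] (t0, z0), dist (D2 F q) (D2 F (t0, z0)) < δ ∧
      dist (D2 (D2 F) q) (D2 (D2 F) (t0, z0)) < 1 :=
    ((hD.continuousOn _ ⟨ht0, hz⟩).eventually (ball_mem_nhds _ hδ)).and
      ((hD2.continuousOn _ ⟨ht0, hz⟩).eventually (ball_mem_nhds _ one_pos))
  obtain ⟨ρ, hρ, h2⟩ := Metric.mem_nhdsWithin_iff.1 h1
  obtain ⟨ρ', hρ', h3⟩ := Metric.isOpen_iff.1 hO _ hz
  have h4 : ball z0 (min ρ ρ') ⊆ O := (ball_subset_ball (min_le_right _ _)).trans h3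
  refine ⟨min ρ ρ', ‖D2 (D2 F) (t0, z0)‖ + 1, lt_min hρ hρ', by positivity, h4, fun t ht h5 => ?_⟩
  have h6 := fun x (hx : x ∈ ball z0 (min ρ ρ')) => h2 (a := (t, x)) ⟨by
    rw [mem_ball, Prod.dist_eq, max_lt_iff]
    exact ⟨h5.trans_le (min_le_left _ _), ball_subset_ball (min_le_left _ _) hx⟩, ht, h4 hx⟩
  refine ⟨fun x hx => by rw [← dist_eq_norm]; exact (h6 x hx).1.le, fun x hx x' hx' => ?_⟩
  refine (convex_ball z0 (min ρ ρ')).norm_image_sub_le_of_norm_hasFDerivWithin_le (𝕜 := ℝ)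
    (f := fun x => D2 F (t, x)) (f' := fun x => D2 (D2 F) (t, x))
    (fun x hx => (hd2 t ht x (h4 hx)).hasFDerivWithinAt) (fun x hx => ?_) hx' hx
  have := (h6 x hx).2
  rw [dist_eq_norm] at this
  linarith [norm_le_insert' (D2 (D2 F) (t, x)) (D2 (D2 F) (t0, z0))]

/-- the first step: one more derivative -/
theorem yl3 (hS : ISStmt n ℝ) (hab : α < β) (hU : IsOpen U) (hO : IsOpen O)
    (hF : ContDiffOn ℝ ∞ F (Icc α β ×ˢ O)) (hm : ∀ t ∈ Icc α β, ∀ y ∈ U, (y, d2 (v t) y) ∈ O)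
    (hpos : ∀ t ∈ Icc α β, ∀ y ∈ U,
      (Matrix.of fun k l => D2 F (t, y, d2 (v t) y) (0, eH k l)).PosDef)
    (hv : Yl (Icc α β) U 2 v) (h0 : ContDiffOn ℝ ∞ (v α) U)
    (he : X.Ev (Icc α β) U v fun t y => F (t, y, d2 (v t) y)) : Yl (Icc α β) U 3 v := by
  have hI : IsCompact (Icc α β) := isCompact_Icc
  obtain ⟨hd, hD⟩ := d2_spec (uniqueDiffOn_Icc hab) hO hF
  set Z : ℝ → En n → HW n := fun t y => (y, d2 (v t) y) with hZd
  have hZ : Yl (Icc α β) U 0 Z := yl_jet hI hU hv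
  have hua : ∀ {m : ℕ}, Yl (Icc α β) U m fun _ => v α := yl_static hI hU h0
  set p : ℝ → En n → ℝ := fun t y => v t y - v α y with hpd
  have hp : Yl (Icc α β) U 2 p := hv.sub hU hua
  set E : ℝ → En n → HW n := fun _ y => (y, d2 (v α) y) with hEd
  have hE : Yl (Icc α β) U 1 E := yl_jet hI hU hua
  set g : ℝ → En n → Fin n → Fin n → ℝ := fun t => d2 (p t) with hgd
  have hg : Yl (Icc α β) U 0 g := Yl.pi hU fun k => Yl.pi hU fun l => (hp.pd l).pd k
  have hgZ : ∀ t ∈ Icc α β, ∀ y ∈ U, Z t y = (0, g t y) + E t y := fun t ht y hy => by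
    refine Prod.ext (zero_add y).symm ?_
    funext k l
    have := pd_pd_sub hU hv hua ht hy k l
    simp only [hZd, hEd, hgd, hpd, d2, Prod.snd_add, Pi.add_apply, this]
    ring
  refine Yl.of_loc hI fun t0 ht0 y0 hy0 => ?_
  obtain ⟨δ', hδ', hS⟩ := hS _ (hpos t0 ht0 y0 hy0)
  obtain ⟨ρ, Λ, hρ, hΛ, hB, hr⟩ := exists_rad hab hO hF ht0 (hm t0 ht0 y0 hy0) hδ'
  obtain ⟨ρ2, hρ2, hZm⟩ := Metric.mem_nhdsWithin_iff.1
    ((hZ.cont (t0, y0) ⟨ht0, hy0⟩).eventually (ball_mem_nhds (Z t0 y0) hρ))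
  obtain ⟨L1, hL1, e1⟩ := exists_hb hI hU hZ hy0
  obtain ⟨L2, hL2, e2⟩ := exists_hb_pd hI hU (hp.pred hI hU) hy0
  obtain ⟨L3, hL3, e3⟩ := exists_hb_pd hI hU hE hy0
  obtain ⟨L4, hL4, e4⟩ := exists_hb hI hU hg hy0
  obtain ⟨R, ⟨⟨⟨⟨b1, b2⟩, b3⟩, b4⟩, hRU⟩, hR0, hR1⟩ := (((((e1.and e2).and e3).and e4).and
    (ev_ball hU hy0)).and (Ioo_mem_nhdsGT (lt_min (lt_min hρ hρ2) one_pos))).exists
  replace hRU := ball_subset_closedBall.trans hRU
  simp only [lt_min_iff] at hR1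
  obtain ⟨⟨hRρ, hRρ2⟩, hR1⟩ := hR1
  obtain ⟨C, hC1, hC⟩ := hS (Λ * (L1 + L1))
  obtain ⟨r, rfl⟩ : ∃ r, R = 4 * r := ⟨R / 4, by ring⟩
  have hr0 : 0 < r := by linarith
  set s : ℝ := max α (t0 - r) with hs
  set s' : ℝ := min β (t0 + r) with hs'
  have s1 : α ≤ s := le_max_left _ _
  have s2 : t0 - r ≤ s := le_max_right _ _
  have s3 : s' ≤ β := min_le_left _ _
  have s4 : s' ≤ t0 + r := min_le_right _ _
  have s5 : s < s' := by
    rw [hs, hs', max_lt_iff, lt_min_iff, lt_min_iff]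
    exact ⟨⟨hab, by linarith [ht0.1]⟩, by linarith [ht0.2], by linarith⟩
  have hJ : Icc s s' ⊆ Icc α β := Icc_subset_Icc s1 s3
  have hJc : IsCompact (Icc s s') := isCompact_Icc
  have hJt : ∀ t ∈ Icc s s', |t - t0| ≤ r := fun t ht =>
    abs_le.2 ⟨by linarith [ht.1], by linarith [ht.2]⟩
  have hθ : ∀ t ∈ Icc s s', |t - (t0 - r)| ≤ 1 := fun t ht =>
    abs_le.2 ⟨by linarith [ht.1], by linarith [ht.2]⟩
  have hr' := fun t (ht : t ∈ Icc s s') => hr t (hJ ht) ((hJt t ht).trans_lt (by linarith))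
  have hZB : ∀ t ∈ Icc s s', ∀ y ∈ ball y0 (4 * r), Z t y ∈ ball (Z t0 y0) ρ := fun t ht y hy =>
    hZm (a := (t, y)) ⟨by
      rw [mem_ball, Prod.dist_eq, max_lt_iff]
      exact ⟨(hJt t ht).trans_lt (by linarith), hy.trans hRρ2⟩, hJ ht, hRU hy⟩
  have hDc : ContinuousOn (D2 F) (Icc s s' ×ˢ ball (Z t0 y0) ρ) :=
    hD.continuousOn.mono (prod_mono hJ hB)
  have hDs : ∀ t ∈ Icc s s', ContinuousOn (fun x => D2 F (t, x)) (ball (Z t0 y0) ρ) :=
    fun t ht => hDc.comp (f := fun x => (t, x)) (by fun_prop) fun x hx => ⟨ht, hx⟩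
  have hS2 : ball y0 (2 * r) ⊆ ball y0 (4 * r) := ball_subset_ball (by linarith)
  have hSU := hS2.trans hRU
  set L5 : ℝ := ‖D2 F (t0, Z t0 y0)‖ + δ' + Λ * (L1 + L1) with hL5
  have hL50 : 0 ≤ L5 := by positivity
  set Q : ℝ := 2 * L5 * (n * L3) + n * L2 with hQ
  have hQ0 : 0 ≤ Q := by positivity
  have key : ∀ h : En n, ‖h‖ ≤ 2 * r → Hb (Icc s s') (ball y0 r) (C * (3 * Q) * ‖h‖ / r ^ 3)
      fun t y => (t - (t0 - r)) • dv h g t y := by
    intro h hh
    have hh0 := norm_nonneg h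
    have m1 : ∀ y ∈ ball y0 (2 * r), ∀ z, ‖z‖ ≤ ‖h‖ → y + z ∈ ball y0 (4 * r) := fun y hy z hz => by
      have := dist_triangle (y + z) y y0
      rw [dist_self_add_left] at this
      rw [mem_ball] at hy ⊢
      linarith
    have m2 : ∀ y ∈ ball y0 (2 * r), y + h ∈ ball y0 (4 * r) := fun y hy => m1 y hy h le_rfl
    have m3 : ∀ y ∈ ball y0 (2 * r), y + h ∈ U := fun y hy => hRU (m2 y hy)
    set Lh : ℝ → En n → HW n →L[ℝ] ℝ := fun t y => mv (D2 F) t (Z t y) (Z t (y + h)) with hLh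
    have c1 : ContinuousOn (fun q : ℝ × En n => Lh q.1 q.2) (Icc s s' ×ˢ ball y0 (2 * r)) :=
      mv_cont (convex_ball _ _) hDc (C := ‖D2 F (t0, Z t0 y0)‖ + δ')
        (fun t ht x hx => by
          linarith [norm_le_insert' (D2 F (t, x)) (D2 F (t0, Z t0 y0)), (hr' t ht).1 x hx])
        (hZ.mono hJ hSU).cont ((yl_shift m3 hZ).mono hJ Subset.rfl).cont
        fun q hq => ⟨hq.1, hZB _ hq.1 _ (hS2 hq.2), hZB _ hq.1 _ (m2 _ hq.2)⟩
    have c2 : ∀ t ∈ Icc s s', ∀ y ∈ ball y0 (2 * r), ‖Lh t y - D2 F (t0, Z t0 y0)‖ ≤ δ' :=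
      fun t ht y hy => mv_cl (convex_ball _ _) (hDs t ht) (hZB t ht _ (hS2 hy))
        (hZB t ht _ (m2 y hy)) (hr' t ht).1
    have c3 : ∀ t ∈ Icc s s', ∀ y ∈ ball y0 (2 * r), ∀ y' ∈ ball y0 (2 * r),
        ‖Lh t y - Lh t y'‖ ≤ Λ * (L1 + L1) * √(dist y y') := fun t ht y hy y' hy' => by
      refine (mv_lip (convex_ball _ _) (hDs t ht) (hZB t ht _ (hS2 hy)) (hZB t ht _ (m2 y hy))
        (hZB t ht _ (hS2 hy')) (hZB t ht _ (m2 y' hy')) hΛ (hr' t ht).2).trans ?_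
      rw [mul_assoc, add_mul]
      refine mul_le_mul_of_nonneg_left (add_le_add ((b1 t (hJ ht)).2 _ (hS2 hy) _ (hS2 hy')) ?_) hΛ
      simpa using (b1 t (hJ ht)).2 _ (m2 y hy) _ (m2 y' hy')
    have c4 : Hb (Icc s s') (ball y0 (2 * r)) L5 Lh := fun t ht => ⟨fun y hy => by
        have : 0 ≤ Λ * (L1 + L1) := by positivity
        linarith [norm_le_insert' (Lh t y) (D2 F (t0, Z t0 y0)), c2 t ht y hy],
      fun y hy y' hy' => (c3 t ht y hy y' hy').trans (mul_le_mul_of_nonneg_right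
        (le_add_of_nonneg_left (by positivity)) (Real.sqrt_nonneg _))⟩
    have c5 : Hb (Icc s s') (ball y0 (2 * r)) (n * L2 * ‖h‖) (dv h p) :=
      (hb_dv m1 (fun t ht y hy => hp.diff ht (hRU hy)) b2).mono hJ Subset.rfl le_rfl
    have c6 : Hb (Icc s s') (ball y0 (2 * r)) (n * L3 * ‖h‖) (dv h E) :=
      (hb_dv m1 (fun t ht y hy => hE.diff ht (hRU hy)) b3).mono hJ Subset.rfl le_rfl
    have c7 : Hb (Icc s s') (ball y0 (2 * r)) (Q * ‖h‖)
        fun t y => (t - (t0 - r)) • Lh t y (dv h E t y) + dv h p t y :=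
      (((c4.app c6).tsmul zero_le_one hθ).add c5).mono Subset.rfl Subset.rfl
        (le_of_eq (by rw [hQ]; ring))
    have y1 : ∀ {m : ℕ} {V : Type} [NormedAddCommGroup V] [NormedSpace ℝ V] {u : ℝ → En n → V},
        Yl (Icc α β) U m u → Yl (Icc s s') (ball y0 (2 * r)) m (dv h u) := fun hu =>
      ((yl_shift m3 hu).mono hJ Subset.rfl).sub isOpen_ball (hu.mono hJ hSU)
    have y2 : ∀ {m : ℕ}, Yl (Icc s s') (ball y0 (2 * r)) m fun t _ => t - (t0 - r) :=
      yl_time (by fun_prop)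
    have c8 : ∀ t ∈ Icc s s', ∀ y ∈ ball y0 (2 * r),
        d2 (fun y => (t - (t0 - r)) • dv h p t y) y = (t - (t0 - r)) • dv h g t y :=
      fun t ht y hy => by
        funext k l
        have := pd_pd_sub isOpen_ball ((yl_shift m3 hp).mono hJ Subset.rfl) (hp.mono hJ hSU)
          ht hy k l
        simp only [pd_shift] at this
        simp only [d2, pd_csmul, dv, this, hgd, Pi.smul_apply, Pi.sub_apply]
    have c9 := ((b4.dv0 hS2 m2).mono hJ Subset.rfl le_rfl).tsmul zero_le_one hθ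
    have hB' : n * L2 * ‖h‖ ≤ Q * ‖h‖ := mul_le_mul_of_nonneg_right
      (le_add_of_nonneg_left (by positivity)) hh0
    have out := hC s s' (ball y0 (2 * r)) (fun t y => Matrix.of fun k l => Lh t y (0, eH k l))
      (fun t y => (t - (t0 - r)) • Lh t y (dv h E t y) + dv h p t y)
      (fun t y => (t - (t0 - r)) • dv h p t y) (Q * ‖h‖) (Q * ‖h‖) (Q * ‖h‖)
      ⟨s5, by linarith, isOpen_ball, y2.smul hJc isOpen_ball (y1 hp),
        fun k l => c1.clm_apply continuousOn_const,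
        ((y2 (m := 0)).cont.smul (c1.clm_apply (y1 hE).cont)).add (y1 hp).cont,
        fun y _ => ?_, fun t ht y hy => ?_,
        fun t ht y hy k l => (abs_eH (Lh t y - D2 F (t0, Z t0 y0)) k l).trans (c2 t ht y hy),
        fun t ht y hy y' hy' k l => (abs_eH (Lh t y - Lh t y') k l).trans (c3 t ht y hy y' hy'),
        by positivity, by positivity, by positivity,
        fun t ht y hy => (((c5.tsmul zero_le_one hθ) t ht).1 y hy).trans (by linarith),
        fun t ht => c7.ws ht, fun t ht => c7.wh ht⟩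
      ⟨_, fun t ht => (c9.congr (g := fun t => d2 fun y => (t - (t0 - r)) • dv h p t y) c8).wh ht⟩
    · refine ((hb_of_w (g := fun t => d2 fun y => (t - (t0 - r)) • dv h p t y) hr0 (by linarith)
        fun t ht => ⟨(out t ht).1, (out t ht).2.1⟩).mono Subset.rfl Subset.rfl
          (le_of_eq (by ring))).congr fun t ht y hy =>
        (c8 t ht y (ball_subset_ball (by linarith) hy)).symm
    · rcases le_total α (t0 - r) with h1 | h1
      · simp [hs, max_eq_right h1]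
      · simp [hs, max_eq_left h1, dv, hpd]
    · have h1 := (((he t (hJ ht) _ (m3 y hy)).sub_const (v α (y + h))).sub
        ((he t (hJ ht) y (hSU hy)).sub_const (v α y))).mono hJ
      refine (((hasDerivWithinAt_id t _).sub_const (t0 - r)).smul h1).congr_deriv ?_
      have h2 := mv_eq (F := F) (convex_ball _ _) (hDs t ht) (hZB t ht _ (hS2 hy))
        (hZB t ht _ (m2 y hy)) fun x hx => hd t (hJ ht) x (hB hx)
      have h3 : Z t (y + h) - Z t y = (0, dv h g t y) + dv h E t y := by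
        rw [hgZ t (hJ ht) _ (m3 y hy), hgZ t (hJ ht) _ (hSU hy), add_sub_add_comm]
        simp [dv]
      have h4 : Lop (Matrix.of fun k l => Lh t y (0, eH k l))
          (fun y => (t - (t0 - r)) • dv h p t y) y = (t - (t0 - r)) • Lh t y (0, dv h g t y) := by
        rw [← map_smul, Prod.smul_mk, smul_zero, ← c8 t ht y hy, clm_eH]
        rfl
      change (t - (t0 - r)) • (F (t, Z t (y + h)) - F (t, Z t y)) + (1 : ℝ) • dv h p t y = _
      beta_reduce
      rw [h2, h3, h4, map_add, smul_add, one_smul, add_assoc]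
  have hJ' : Icc α β ∩ Icc (t0 - r / 2) (t0 + r) ⊆ Icc s s' := fun t ht =>
    ⟨max_le ht.1.1 (by linarith [ht.2.1]), le_min ht.1.2 ht.2.2⟩
  have hJc' : IsCompact (Icc α β ∩ Icc (t0 - r / 2) (t0 + r)) := hI.inter_right isClosed_Icc
  have hS1 : ball y0 r ⊆ ball y0 (4 * r) := ball_subset_ball (by linarith)
  have h1 := dq_loc hJc' hr0 (ρ := 2 * r) (K := 2 / r * (C * (3 * Q) / r ^ 3)) (by positivity)
    (by positivity) hL4 (hg.mono inter_subset_left (hS1.trans hRU))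
    (b4.mono inter_subset_left hS1 le_rfl) fun h hh =>
      ((((key h hh).mono hJ' Subset.rfl le_rfl).tsmul (θ := fun t => (t - (t0 - r))⁻¹)
        (c := 2 / r) (by positivity) fun t ht => by
          have : r / 2 ≤ t - (t0 - r) := by linarith [ht.2.1]
          rw [abs_of_pos (inv_pos.2 (by linarith)), ← inv_div]
          exact inv_anti₀ (by positivity) this).mono Subset.rfl Subset.rfl
        (le_of_eq (by ring))).congr fun t ht y _ => by
          rw [inv_smul_smul₀ (by linarith [ht.2.1])]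
  have hS0 : ball y0 (r / 4) ⊆ U := (ball_subset_ball (by linarith)).trans hRU
  have h2 := hp.mono (inter_subset_left (t := Icc (t0 - r / 2) (t0 + r))) hS0
  have h3 : Yl (Icc α β ∩ Icc (t0 - r / 2) (t0 + r)) (ball y0 (r / 4)) 3 p :=
    ⟨h2.1, h2.2.1, fun l => ⟨(h2.pd l).1, (h2.pd l).2.1, fun k =>
      (h1.clm isOpen_ball (ContinuousLinearMap.proj k)).clm isOpen_ball
        (ContinuousLinearMap.proj l)⟩⟩
  exact ⟨_, inter_mem_nhdsWithin _ (Icc_mem_nhds (by linarith) (by linarith)), _,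
    ball_mem_nhds _ (by positivity), (h3.add isOpen_ball (hua.mono inter_subset_left hS0)).congr
      isOpen_ball fun t _ y _ => by simp [hpd]⟩

end R54

open R54 in
/-- (FNREG) -/
theorem fnReg {n : ℕ} (hS : ISStmt n ℝ) : FnReg n := by
  intro α β U O F v hab hU hO hF hm hpos hv h0 he
  have hI : IsCompact (Icc α β) := isCompact_Icc
  have hI' := uniqueDiffOn_Icc hab
  obtain ⟨hd, hD⟩ := d2_spec hI' hO hF
  replace hpos : ∀ t ∈ Icc α β, ∀ y ∈ U,
      (Matrix.of fun k l => D2 F (t, y, d2 (v t) y) (0, eH k l)).PosDef := fun t ht y hy => by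
    have h1 := ((hd t ht _ (hm t ht y hy)).comp _ (hasFDerivAt_prodMk_right y (d2 (v t) y))).fderiv
    have h2 := hpos t ht y hy
    rw [show fderiv ℝ (fun H => F (t, y, H)) (d2 (v t) y) = _ from h1] at h2
    exact h2
  have all : ∀ m, Yl (Icc α β) U (m + 3) v := by
    intro m
    induction m with
    | zero => exact yl3 hS hab hU hO hF hm hpos hv h0 he
    | succ m ih =>
      have hZ := yl_jet hI hU (m := m + 1) ih
      have hL := Yl.comp hI hI' hU hO hD hZ hm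
      have h3 : Yl (Icc α β) U 3 v := ih.of_le hI hU (by omega)
      refine ⟨ih.1, ih.2.1, fun i => lreg_all (lreg_of_apr (apr n ℝ)) hab hU hpos m
        (f := fun t y => D2 F (t, y, d2 (v t) y) (EuclideanSpace.single i 1, 0))
        (fun k l => hL.clm hU (ContinuousLinearMap.apply ℝ ℝ _))
        (hL.clm hU (ContinuousLinearMap.apply ℝ ℝ _)) (h3.pd i) (contDiffOn_pd_top hU h0 i)
        fun t ht y hy => ?_⟩
      refine (ev_pd hU he ih.2.1 (Yl.comp hI hI' hU hO hF (yl_jet hI hU (m := 1) h3) hm) i t ht y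
        hy).congr_deriv ?_
      have h4 : HasFDerivAt (d2 (v t))
          (ContinuousLinearMap.pi fun k => ContinuousLinearMap.pi fun l =>
            fderiv ℝ (pd k (pd l (v t))) y) y :=
        hasFDerivAt_pi.2 fun k => hasFDerivAt_pi.2 fun l =>
          (((h3.pd l).pd k).diff ht hy).hasFDerivAt
      have h5 := ((hd t ht _ (hm t ht y hy)).comp y ((hasFDerivAt_id y).prodMk h4)).fderiv
      have h6 : pd i (fun y => F (t, y, d2 (v t) y)) y = D2 F (t, y, d2 (v t) y)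
          ((0, d2 (pd i (v t)) y) + (EuclideanSpace.single i 1, 0)) := by
        refine (congrArg (fun D : En n →L[ℝ] ℝ => D (EuclideanSpace.single i 1)) h5).trans ?_
        refine congrArg (D2 F (t, y, d2 (v t) y)) (Prod.ext (zero_add _).symm ?_)
        funext k l
        exact (pd3_comm hU h3 ht hy hv i k l).trans (add_zero _).symm
      beta_reduce
      rw [h6, map_add, clm_eH]
      rfl
  exact (X.js_of_closure hab hU (Φ := fun t y => F (t, y, d2 (v t) y))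
    (sj_of_yl hI hU fun m => (all m).of_le hI hU (by omega))
    (fun j hj => X.SJ.comp hI' hU hO hF (X.SJ.id.prod hU (X.SJ.pi hI' hU fun k =>
      X.SJ.pi hI' hU fun l => (hj.dv _).dv _)) hm) countable_empty fun t ht y hy =>
      (he t (Ioo_subset_Icc_self ht.1) y hy).hasDerivAt (Icc_mem_nhds ht.1.1 ht.1.2)).1

end Crest.Agent.T223.Lx
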