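import Crest.Agent.T223.Fr_38
import Crest.Agent.T223.DbDef_88

/-!
# Row 223, module OSG (helper21): one step of the barrier induction, exact statements of the leaves

Names of `Fr_38`.  Time slices `g s : MF A`, `u s ρ s v s : M → ℝ`.

* §1 intrinsic scalars `Sc`, `Gr`, `lv` (computed in the chart `ch x`) and tensor inequalities
  (`LyhGe`, `LyhAbs`, `BkAbs`, `HesGe`, `HesAbs`, `MetLe`; in every chart)
* §2 `FlowOn`, `HeatOn`, `PhiOn`, `VOn`, `Good`, `Crude`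
* §3 the constants `Par`, the quantifier `Ev` (order of the constants)
* §4 the invariant `Inv` and one step `Stp`
* §5 the leaves.
-/

set_option autoImplicit false
set_option linter.unusedVariables false

open Set Filter Topology Metric
open scoped ContDiff ComplexConjugate Matrix ComplexOrder

namespace Crest.Agent.T223.Os

open Crest.Agent.R275.Geo Crest.Agent.R273.Kah_333 Crest.Agent.R273.Hess_333
open Crest.Agent.T223.Br Crest.Agent.T223.Tr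
open Crest.Agent.T223.Db (dom SmST)

noncomputable section

variable {n : ℕ} {M : Type} [TopologicalSpace M] {A : Atl n M}

/-! ## §1 intrinsic scalars and tensor inequalities -/

/-- a chart at `x` -/
def ch (A : Atl n M) (x : M) : A.ι := (A.cover x).choose

theorem ch_mem (A : Atl n M) (x : M) : x ∈ (A.e (ch A x)).source := (A.cover x).choose_spec

/-- scalar curvature at `x` -/
def Sc (G : MF A) (x : M) : ℝ := scal (G (ch A x)) (A.e (ch A x) x)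

/-- `|∂ f|²` at `x` -/
def Gr (G : MF A) (f : M → ℝ) (x : M) : ℝ := gsq (G (ch A x)) (inC A (ch A x) f) (A.e (ch A x) x)

/-- `log (det g₀ / det G)` at `x` -/
def lv (K0 : Kah A) (G : MF A) (x : M) : ℝ := lvol K0 G (ch A x) x

/-- the static form of `lyh`: `∂_t Ric` is replaced by `∂∂̄ R` (equal along the flow) -/
def lyhS (g : Cn n → Mat n) (τ : ℝ) (z : Cn n) (c : ℂ) (a v : Cn n) : ℝ :=
  ‖c‖ ^ 2 * nq (hess (scal g) z + ric g z * (g z)⁻¹ * ric g z + ((τ⁻¹ : ℝ) : ℂ) • ric g z) v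
    + 2 * (conj c * ∑ k, a k * hC (nabRic g z k) v).re + bis g z v a

/-- `lyhS ≥ -θ (|a|² + κ |c|²) |v|²` at `x` (`c = 0` : `BKge θ`) -/
def LyhGe (G : MF A) (τ κ θ : ℝ) (x : M) : Prop :=
  ∀ i, x ∈ (A.e i).source → ∀ (c : ℂ) (a v : Cn n),
    -(θ * (nq (G i (A.e i x)) a + κ * ‖c‖ ^ 2) * nq (G i (A.e i x)) v) ≤
      lyhS (G i) τ (A.e i x) c a v

/-- `|lyhS| ≤ θ (|a|² + κ |c|²) |v|²` at `x` -/
def LyhAbs (G : MF A) (τ κ θ : ℝ) (x : M) : Prop :=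
  ∀ i, x ∈ (A.e i).source → ∀ (c : ℂ) (a v : Cn n),
    |lyhS (G i) τ (A.e i x) c a v| ≤
      θ * (nq (G i (A.e i x)) a + κ * ‖c‖ ^ 2) * nq (G i (A.e i x)) v

/-- `|bis| ≤ c` at `x` -/
def BkAbs (G : MF A) (c : ℝ) (x : M) : Prop :=
  ∀ i, x ∈ (A.e i).source → BKge (G i) (A.e i x) c ∧ BKle (G i) (A.e i x) c

/-- `∂∂̄ u - Ric ≥ -c G` at `x` -/
def HesGe (G : MF A) (u : M → ℝ) (c : ℝ) (x : M) : Prop :=
  ∀ i, x ∈ (A.e i).source → ∀ v, -(c * nq (G i (A.e i x)) v) ≤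
    nq (hess (inC A i u) (A.e i x)) v - nq (ric (G i) (A.e i x)) v

/-- `|∂∂̄ u| ≤ c G` at `x` -/
def HesAbs (G : MF A) (u : M → ℝ) (c : ℝ) (x : M) : Prop :=
  ∀ i, x ∈ (A.e i).source → ∀ v,
    |nq (hess (inC A i u) (A.e i x)) v| ≤ c * nq (G i (A.e i x)) v

/-- `G ≤ c g₀` at `x` -/
def MetLe (G : MF A) (c : ℝ) (K0 : Kah A) (x : M) : Prop :=
  ∀ i, x ∈ (A.e i).source → ∀ v, nq (G i (A.e i x)) v ≤ c * nq (K0.g i x) v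

/-- the two fields agree at the points of `U` -/
def EqF (G G' : MF A) (U : Set M) : Prop :=
  ∀ i, ∀ x ∈ (A.e i).source, x ∈ U → G i (A.e i x) = G' i (A.e i x)

/-- smooth on `W` -/
def SmOn (A : Atl n M) (W : Set M) (f : M → ℝ) : Prop :=
  ∀ i, ContDiffOn ℝ ∞ (inC A i f) (dom A i W)

/-! ## §2 flows on `[a,b] × U` -/

/-- Kaehler-Ricci flow on `[a,b] × U`, smooth up to the end points -/
structure FlowOn (a b : ℝ) (U : Set M) (g : ℝ → MF A) : Prop where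
  sm : ∀ i k l, ContDiffOn ℝ ∞ (fun q : ℝ × Cn n => g q.1 i q.2 k l) (Icc a b ×ˢ dom A i U)
  kah : ∀ s ∈ Icc a b, KahOn (g s) U
  krf : ∀ s ∈ Ioo a b, ∀ i, ∀ x ∈ (A.e i).source, x ∈ U → KRFat (fun s => g s i) s (A.e i x)

/-- `f_t = Δ_{g(t)} f` on `[a,b] × U` -/
structure HeatOn (a b : ℝ) (U : Set M) (g : ℝ → MF A) (f : ℝ → M → ℝ) : Prop where
  sm : SmST A (Icc a b) U f
  eq : ∀ s ∈ Ioo a b, ∀ i, ∀ x ∈ (A.e i).source, x ∈ U →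
    box (fun s => g s i) (fun s => inC A i (f s)) s (A.e i x) = 0

/-- the potential of one step: `g s = g a - (s - a) Ric (g a) + ∂∂̄ φ`,
`φ_s = log det g s - log det g a`, `φ a = 0` -/
structure PhiOn (a b : ℝ) (U : Set M) (g : ℝ → MF A) (φ : ℝ → M → ℝ) : Prop where
  sm : SmST A (Icc a b) U φ
  zero : ∀ x ∈ U, φ a x = 0
  pot : ∀ s ∈ Icc a b, ∀ i, ∀ x ∈ (A.e i).source, x ∈ U →
    g s i (A.e i x) = g a i (A.e i x) - ((s - a : ℝ) : ℂ) • ric (g a i) (A.e i x)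
      + hess (inC A i (φ s)) (A.e i x)
  dt : ∀ s ∈ Ioo a b, ∀ i, ∀ x ∈ (A.e i).source, x ∈ U →
    HasDerivAt (fun s => φ s x) (ldet (g s i) (A.e i x) - ldet (g a i) (A.e i x)) s

/-- the potential from time `0`: `g s = g₀ - s Ric₀ + ∂∂̄ v`, `v_s = - lv` -/
structure VOn (K0 : Kah A) (a b : ℝ) (U : Set M) (g : ℝ → MF A) (v : ℝ → M → ℝ) : Prop where
  sm : SmST A (Icc a b) U v
  pot : ∀ s ∈ Icc a b, EqF (g s) (gφ K0 v s) U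
  dt : ∀ s ∈ Ioo a b, ∀ x ∈ U, HasDerivAt (fun s => v s x) (- lv K0 (g s) x) s

/-- a good chart of radius `r` at `x` (input of STEP, output of RENEW and INIT) -/
structure Good (G : MF A) (u ρ : M → ℝ) (W : Set M) (r Kρ : ℝ) (x : M) (ψ : Cn n → M) : Prop where
  qc : QC G W x r (1 / 10) ψ
  dG : ∀ j, 1 ≤ j → j ≤ 8 → ∀ w ∈ ball (0 : Cn n) 1, ∀ a b,
    ‖iteratedFDeriv ℝ j (fun y => pull G ψ y a b) w‖ ≤ r ^ 2
  du : ∀ j, 1 ≤ j → j ≤ 4 → ∀ w ∈ ball (0 : Cn n) 1,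
    ‖iteratedFDeriv ℝ j (fun y => u (ψ y)) w‖ ≤ 1
  dρ1 : ∀ w ∈ ball (0 : Cn n) 1, ‖fderiv ℝ (fun y => ρ (ψ y)) w‖ ≤ 4 * r
  dρ : ∀ j, 1 ≤ j → j ≤ 4 → ∀ w ∈ ball (0 : Cn n) 1,
    ‖iteratedFDeriv ℝ j (fun y => ρ (ψ y)) w‖ ≤ Kρ * r

/-- the crude bounds at `(s, x)` in a step of scale `r` that starts at time `t` -/
structure Crude (K r t : ℝ) (g : ℝ → MF A) (u ρ : ℝ → M → ℝ) (s : ℝ) (x : M) : Prop where
  lyh : ∀ τ, r ^ 2 ≤ τ → LyhAbs (g s) τ (1 / r ^ 2) (K / r ^ 2) x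
  bk : BkAbs (g s) (K / r ^ 2) x
  hes : HesAbs (g s) (u s) (K / r ^ 2) x
  gu : Gr (g s) (u s) x ≤ K / r ^ 2
  gρ : Gr (g s) (ρ s) x ≤ K
  oρ : |ρ s x - ρ t x| ≤ K * r
  ou : |u s x - u t x| ≤ K

/-! ## §3 the constants -/

/-- `Cb` data, `K` crude, `V` speed of the barrier, `K1` error constant, `Λ ≤ L`, `B` (last, huge),
`δ` length of a step in units of `r²`, `tA` time shift -/
structure Par where
  (Cb K V K1 Λ L B δ tA : ℝ)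

namespace Par

variable (P : Par)

structure Ok : Prop where
  Cb1 : 1 ≤ P.Cb
  K_1 : 1 ≤ P.K
  KV : P.K + 1 ≤ P.V
  KK : P.K ≤ P.K1
  Λ1 : 1 ≤ P.Λ
  ΛL : P.Λ ≤ P.L
  B1 : 1 ≤ P.B
  δ0 : 0 < P.δ
  δ1 : P.δ ≤ 1
  tA0 : 0 < P.tA
  tA1 : P.tA ≤ 1

def τ (s : ℝ) : ℝ := s + P.tA
def ρs (s : ℝ) : ℝ := P.B * (1 + s) ^ 2
def ell (x s : ℝ) : ℝ := Real.log (x + P.ρs s) + P.B + Real.log (1 + 1 / P.τ s)
def Ψ (x s : ℝ) : ℝ := (x + P.ρs s) ^ 2 * P.ell x s ^ 2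
/-- the scale: `1 / r² = L Ψ(σ,t) / τ(t)` -/
def r (σ t : ℝ) : ℝ := Real.sqrt (P.τ t / (P.L * P.Ψ σ t))
/-- jump factor of the barrier at a restart -/
def J : ℝ := 16 * Real.exp (2 * P.K)

end Par

/-- "for all admissible constants, chosen in the right order" -/
def Ev (Φ : Par → Prop) : Prop :=
  ∀ Cb : ℝ, ∃ Λ0 : ℝ, ∀ K : ℝ, ∃ V0 : ℝ, ∀ V, V0 ≤ V → ∃ K0 : ℝ, ∀ K1, K0 ≤ K1 → ∀ Λ, Λ0 ≤ Λ →
    ∀ L : ℝ, ∃ B0 : ℝ, ∀ B, B0 ≤ B → ∀ δ tA : ℝ,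
      Par.Ok ⟨Cb, K, V, K1, Λ, L, B, δ, tA⟩ → Φ ⟨Cb, K, V, K1, Λ, L, B, δ, tA⟩

theorem Ev.of_forall {Φ : Par → Prop} (h : ∀ P : Par, P.Ok → Φ P) : Ev Φ :=
  fun _ => ⟨0, fun _ => ⟨0, fun _ _ => ⟨0, fun _ _ _ _ _ => ⟨0, fun _ _ _ _ hP => h _ hP⟩⟩⟩⟩

theorem Ev.mono {Φ Φ' : Par → Prop} (h : Ev Φ) (h' : ∀ P : Par, P.Ok → Φ P → Φ' P) : Ev Φ' := by
  intro Cb
  obtain ⟨Λ0, h⟩ := h Cb
  refine ⟨Λ0, fun K => ?_⟩
  obtain ⟨V0, h⟩ := h K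
  refine ⟨V0, fun V hV => ?_⟩
  obtain ⟨K0, h⟩ := h V hV
  refine ⟨K0, fun K1 hK Λ hΛ L => ?_⟩
  obtain ⟨B0, h⟩ := h K1 hK Λ hΛ L
  exact ⟨B0, fun B hB δ tA hP => h' _ hP (h B hB δ tA hP)⟩

theorem Ev.and {Φ Φ' : Par → Prop} (h : Ev Φ) (h' : Ev Φ') : Ev fun P => Φ P ∧ Φ' P := by
  intro Cb
  obtain ⟨Λ0, h⟩ := h Cb
  obtain ⟨Λ0', h'⟩ := h' Cb
  refine ⟨max Λ0 Λ0', fun K => ?_⟩
  obtain ⟨V0, h⟩ := h K
  obtain ⟨V0', h'⟩ := h' K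
  refine ⟨max V0 V0', fun V hV => ?_⟩
  obtain ⟨K0, h⟩ := h V ((le_max_left _ _).trans hV)
  obtain ⟨K0', h'⟩ := h' V ((le_max_right _ _).trans hV)
  refine ⟨max K0 K0', fun K1 hK Λ hΛ L => ?_⟩
  obtain ⟨B0, h⟩ := h K1 ((le_max_left _ _).trans hK) Λ ((le_max_left _ _).trans hΛ) L
  obtain ⟨B0', h'⟩ := h' K1 ((le_max_right _ _).trans hK) Λ ((le_max_right _ _).trans hΛ) L
  exact ⟨max B0 B0', fun B hB δ tA hP =>
    ⟨h B ((le_max_left _ _).trans hB) δ tA hP, h' B ((le_max_right _ _).trans hB) δ tA hP⟩⟩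

/-- explicit thresholds: `V ≥ fV Cb K`, `K1 ≥ fK Cb K V`, `Λ ≥ fΛ Cb`, `B ≥ fB Cb K V K1 Λ L` -/
theorem Ev.of_thr {Φ : Par → Prop} (fΛ : ℝ → ℝ) (fV : ℝ → ℝ → ℝ) (fK : ℝ → ℝ → ℝ → ℝ)
    (fB : ℝ → ℝ → ℝ → ℝ → ℝ → ℝ → ℝ)
    (h : ∀ P : Par, P.Ok → fΛ P.Cb ≤ P.Λ → fV P.Cb P.K ≤ P.V → fK P.Cb P.K P.V ≤ P.K1 →
      fB P.Cb P.K P.V P.K1 P.Λ P.L ≤ P.B → Φ P) : Ev Φ :=
  fun Cb => ⟨fΛ Cb, fun K => ⟨fV Cb K, fun V hV => ⟨fK Cb K V, fun K1 hK Λ hΛ L =>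
    ⟨fB Cb K V K1 Λ L, fun _ hB _ _ hP => h _ hP hΛ hV hK hB⟩⟩⟩⟩

/-! ## §4 the invariant and one step -/

variable [T2Space M] [ConnectedSpace M] {K0 : Kah A} {p : M}

/-- `√(α² + d₀(y,x)²)` -/
def zt (K0 : Kah A) (y : M) (α : ℝ) (x : M) : ℝ := Real.sqrt (α ^ 2 + dK K0 y x ^ 2)

/-- `S = v + s lv + n s`; `∂∂̄ S = g - g₀ + s Ric`, `S_s = n + s R`, `box S = tr_g g₀` -/
def Sf (K0 : Kah A) (G : MF A) (v : M → ℝ) (s : ℝ) (x : M) : ℝ := v x + s * lv K0 G x + n * s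

/-- the Bernstein quantity -/
def Phi (G : MF A) (u : M → ℝ) (τ : ℝ) (x : M) : ℝ :=
  τ * Sc G x + 16 * n * (τ * Gr G u x + u x ^ 2)

/-- admissible potentials for the start radius `a` -/
def PotC (I : Init K0 p) (a C' : ℝ) (θ : M → ℝ) : Prop :=
  0 ≤ C' ∧ Pot K0 {x | I.ρ0 x < a} θ ∧ ∀ x, I.ρ0 x ≤ a → θ x ≤ C' * (1 + dK K0 p x)

section inv

variable (P : Par) (I : Init K0 p) (a : ℝ) (G : MF A) (u ρ v : M → ℝ) (s q : ℝ) (x : M) (e : ℝ)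

/-- (a) -/
def IA : Prop := LyhGe G (P.τ s) q (P.K * q * e) x
/-- (b) -/
def IB : Prop := HesGe G u ((n + 1) * P.K * q * e) x
/-- (c) -/
def IC : Prop := 0 ≤ ρ x ∧ Gr G ρ x ≤ 1 + P.K * e
/-- (d) -/
def ID : Prop := I.u0 a x + lv K0 G x - u x ≤ P.K1 * e ∧
  u x ≤ P.Cb * (2 + ρ x) + P.K1 * (1 + P.Cb) * e ∧
  ∀ C' θ, PotC I a C' θ → θ x + lv K0 G x ≤ C' * (2 + ρ x) + P.K1 * (1 + C') * e
/-- (e) -/
def IE : Prop := MetLe G (Real.exp (P.K1 * e)) K0 x ∧ -(P.K1 * e) ≤ lv K0 G x ∧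
  v x ≤ P.K1 * (1 + s) * e
/-- (f) -/
def IF : Prop := ∀ α : ℝ, 1 ≤ α →
  (∀ y, dK K0 p y - 1 - ρ x - zt K0 y α x - P.Cb / α * Sf K0 G v s x ≤ P.K1 * (1 + s) * e) ∧
  ρ x - 1 - zt K0 p α x - P.Cb / α * Sf K0 G v s x ≤ P.K1 * (1 + s) * e
/-- (g) -/
def IG : Prop := Phi G u (P.τ s) x ≤ P.Λ * P.Ψ (ρ x) s + P.K1 * P.τ s * q * e

/-- the invariant at the point `x` at time `s`, scale `q`, error `e` -/
structure Inv : Prop where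
  ia : IA P G s q x e
  ib : IB P G u q x e
  ic : IC P G ρ x e
  id : ID P I a G u ρ x e
  ie : IE (K0 := K0) P G v s x e
  if' : IF (K0 := K0) (p := p) P G ρ v s x e
  ig : IG P G u ρ s q x e

end inv

/-- the barrier of the step `(σ, t)` at time `s` where `ρ` has the value `y` -/
def Par.Eb (P : Par) (σ t s y : ℝ) : ℝ :=
  Real.exp (-((σ - P.V * (s - t) / P.r σ t) - y) / P.r σ t)

/-- **one step**: it starts at time `t`, is used up to `t' = t + δ r²` and exists up to `b > t'` -/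
structure Stp (P : Par) (I : Init K0 p) (a : ℝ) where
  t : ℝ
  σ : ℝ
  b : ℝ
  U : Set M
  g : ℝ → MF A
  u : ℝ → M → ℝ
  ρ : ℝ → M → ℝ
  v : ℝ → M → ℝ
  hC : I.C = P.Cb
  t0 : 0 ≤ t
  σ_ge : P.ρs t ≤ σ
  lt : t + P.δ * P.r σ t ^ 2 < b
  op : IsOpen U
  sub : ∀ x ∈ U, I.ρ0 x < a
  cpt : IsCompact {x | x ∈ U ∧ ρ t x ≤ σ + (P.K + 1) * P.r σ t}
  flow : FlowOn t b U g
  hu : HeatOn t b U g u
  hρ : HeatOn t b U g ρ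
  hv : VOn K0 t b U g v
  crude : ∀ s ∈ Icc t b, ∀ x ∈ U, Crude P.K (P.r σ t) t g u ρ s x
  init : ∀ x ∈ U, ρ t x ≤ σ + (P.K + 1) * P.r σ t →
    Inv P I a (g t) (u t) (ρ t) (v t) t (1 / P.r σ t ^ 2) x (min (P.Eb σ t t (ρ t x)) 1 / P.J)

namespace Stp

variable {P : Par} {I : Init K0 p} {a : ℝ} (S : Stp P I a)

def r : ℝ := P.r S.σ S.t
def q : ℝ := 1 / S.r ^ 2
def t' : ℝ := S.t + P.δ * S.r ^ 2
/-- the compact set of the step; `Tch.MD S.t S.t' S.Kc (fun p => S.ρ p.1 p.2) S.sg` is `{E ≤ 1}` -/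
def Kc : Set M := {x | x ∈ S.U ∧ S.ρ S.t x ≤ S.σ + (P.K + 1) * S.r}
def sg (s : ℝ) : ℝ := S.σ - P.V * (s - S.t) / S.r
/-- the barrier -/
def E (s : ℝ) (x : M) : ℝ := Real.exp (-(S.sg s - S.ρ s x) / S.r)

theorem cptK : IsCompact S.Kc := S.cpt

theorem lt' : S.t' < S.b := S.lt

theorem init' {x : M} (hx : x ∈ S.Kc) :
    Inv P I a (S.g S.t) (S.u S.t) (S.ρ S.t) (S.v S.t) S.t S.q x (min (S.E S.t x) 1 / P.J) :=
  S.init x hx.1 hx.2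

/-- on the whole cylinder `[t,t'] × Kc` (where `E ≥ 1` the crude bounds give the claim) -/
def On (X : ℝ → M → Prop) : Prop := ∀ s ∈ Icc S.t S.t', ∀ x ∈ S.Kc, X s x

def OA : Prop := S.On fun s x => IA P (S.g s) s S.q x (S.E s x)
def OB : Prop := S.On fun s x => IB P (S.g s) (S.u s) S.q x (S.E s x)
def OC : Prop := S.On fun s x => IC P (S.g s) (S.ρ s) x (S.E s x)
def OD : Prop := S.On fun s x => ID P I a (S.g s) (S.u s) (S.ρ s) x (S.E s x)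
def OE : Prop := S.On fun s x => IE (K0 := K0) P (S.g s) (S.v s) s x (S.E s x)
def OF : Prop :=
  S.On fun s x => IF (K0 := K0) (p := p) P (S.g s) (S.ρ s) (S.v s) s x (S.E s x)
def OG : Prop := S.On fun s x => IG P (S.g s) (S.u s) (S.ρ s) s S.q x (S.E s x)

/-- the lower bound for `u` at a touching point of (g) -/
def OL : Prop := ∀ s ∈ Icc S.t S.t', ∀ Λ' : ℝ, P.Λ ≤ Λ' →
  (∀ y ∈ S.Kc, P.τ s * Gr (S.g s) (S.u s) y ≤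
    Λ' * P.Ψ (S.ρ s y) s + P.K1 * P.τ s * S.q * S.E s y) →
  ∀ x ∈ S.Kc, S.E s x ≤ 1 / 3 → 64 * n * S.u s x ^ 2 ≤ Λ' * P.Ψ (S.ρ s x) s

/-- consequences deep inside -/
def OP : Prop := p ∈ S.U → S.ρ S.t p ≤ S.σ / 2 → ∀ s ∈ Icc S.t S.t',
  S.ρ s p ≤ P.B * (1 + s) ∧ lv K0 (S.g s) p ≤ P.B * (1 + s) ∧
  (∀ x, P.B * (1 + s) + P.B * dK K0 p x ≤ S.σ / 2 →
    x ∈ S.Kc ∧ S.ρ s x ≤ P.B * (1 + s) + P.B * dK K0 p x) ∧
  ∀ x ∈ S.Kc, S.ρ s x ≤ S.σ / 2 → dK K0 p x ≤ 4 * S.ρ s x + P.ρs s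

end Stp

/-- what is exported at the time `s` on the set `O`, error `η` -/
def Out (P : Par) (I : Init K0 p) (a η : ℝ) (O : Set M) (s : ℝ) (G : MF A) : Prop :=
  ∃ ρ : M → ℝ, LipOn G O P.B ρ ∧ ρ p ≤ P.B * (1 + s) ∧ lv K0 G p ≤ P.B * (1 + s) ∧
    ∀ x ∈ O, LyhGe G (P.τ s) 1 η x ∧ MetLe G (1 + η) K0 x ∧
      0 ≤ ρ x ∧ ρ x ≤ P.B * (1 + s) + P.B * dK K0 p x ∧ dK K0 p x ≤ 4 * ρ x + P.ρs s ∧
      (∀ C' θ, PotC I a C' θ → θ x + lv K0 G x ≤ C' * (2 + ρ x) + (1 + C')) ∧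
      P.τ s * Sc G x ≤ P.Λ * P.Ψ (ρ x) s + P.τ s

end

/-! ## §5 the leaves -/

/-- a statement about every step -/
def Leaf (n : ℕ) (X : ∀ {M : Type} [TopologicalSpace M] [T2Space M] [ConnectedSpace M]
    {A : Atl n M} {K0 : Kah A} {p : M} {P : Par} {I : Init K0 p} {a : ℝ}, Stp P I a → Prop) :
    Prop :=
  Ev fun P => ∀ (M : Type) [TopologicalSpace M] [T2Space M] [ConnectedSpace M] (A : Atl n M)
    (K0 : Kah A) (p : M) (I : Init K0 p) (a : ℝ) (S : Stp P I a), X S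

def LaStmt (n : ℕ) : Prop := Leaf n fun S => S.OA
def LbStmt (n : ℕ) : Prop := Leaf n fun S => S.OA → S.OB
def LcStmt (n : ℕ) : Prop := Leaf n fun S => S.OC
def LdStmt (n : ℕ) : Prop := Leaf n fun S => S.OD
def LeStmt (n : ℕ) : Prop := Leaf n fun S => S.OA → S.OE
def LfStmt (n : ℕ) : Prop := Leaf n fun S => S.OF
def LlStmt (n : ℕ) : Prop := Leaf n fun S => S.OC → S.OD → S.OE → S.OF → S.OL
def LgStmt (n : ℕ) : Prop := Leaf n fun S => S.OA → S.OB → S.OC → S.OL → S.OG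
def LpStmt (n : ℕ) : Prop := Leaf n fun S => S.OC → S.OD → S.OE → S.OF → S.OP

/-- STEP: local existence with crude bounds (83, 88) -/
def StepStmt (n : ℕ) : Prop :=
  ∃ δ0 C0 : ℝ, 0 < δ0 ∧ δ0 ≤ 1 ∧ 0 ≤ C0 ∧ ∀ Kρ : ℝ, ∃ K : ℝ, 1 ≤ K ∧
    ∀ (M : Type) [TopologicalSpace M] [T2Space M] [SecondCountableTopology M] (A : Atl n M)
      (G : MF A) (u0 ρ0 : M → ℝ) (W : Set M) (r c t : ℝ), IsOpen W → KahOn G W → SmOn A W u0 →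
      SmOn A W ρ0 → 0 < r → IsCompact {x | x ∈ W ∧ ρ0 x ≤ c} →
      (∀ x ∈ W, ρ0 x ≤ c → ∃ ψ, Good G u0 ρ0 W r Kρ x ψ) →
      ∃ (g : ℝ → MF A) (u ρ φ : ℝ → M → ℝ),
        FlowOn t (t + δ0 * r ^ 2) {x | x ∈ W ∧ ρ0 x < c - C0 * r} g ∧
        HeatOn t (t + δ0 * r ^ 2) {x | x ∈ W ∧ ρ0 x < c - C0 * r} g u ∧
        HeatOn t (t + δ0 * r ^ 2) {x | x ∈ W ∧ ρ0 x < c - C0 * r} g ρ ∧
        PhiOn t (t + δ0 * r ^ 2) {x | x ∈ W ∧ ρ0 x < c - C0 * r} g φ ∧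
        EqF (g t) G {x | x ∈ W ∧ ρ0 x < c - C0 * r} ∧
        ∀ x ∈ W, ρ0 x < c - C0 * r → u t x = u0 x ∧ ρ t x = ρ0 x ∧
          ∀ s ∈ Icc t (t + δ0 * r ^ 2), Crude K r t g u ρ s x

/-- from the potential of the step to the potential from time `0` -/
def SpotStmt (n : ℕ) : Prop :=
  ∀ (M : Type) [TopologicalSpace M] (A : Atl n M) (K0 : Kah A) (a b : ℝ) (U : Set M)
    (g : ℝ → MF A) (φ : ℝ → M → ℝ) (v0 : M → ℝ), a < b → IsOpen U → FlowOn a b U g →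
    PhiOn a b U g φ → SmOn A U v0 → EqF (g a) (gφ K0 (fun _ => v0) a) U →
    ∃ v : ℝ → M → ℝ, VOn K0 a b U g v ∧ ∀ x ∈ U, v a x = v0 x

/-- RENEW: small curvature on a time window gives good charts at the end of the window
(`QCStmt` at time `t`, interior estimates in the new chart, linear renormalisation) -/
def RenewStmt (n : ℕ) : Prop :=
  ∀ δ : ℝ, 0 < δ → δ ≤ 1 → ∃ ε0 N Kρ : ℝ, 0 < ε0 ∧ 0 ≤ N ∧ 4 ≤ Kρ ∧
    ∀ (M : Type) [TopologicalSpace M] [T2Space M] (A : Atl n M) (U : Set M) (g : ℝ → MF A)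
      (u ρ : ℝ → M → ℝ) (t b r c : ℝ), IsOpen U → 0 < r → t + δ * r ^ 2 < b → FlowOn t b U g →
      HeatOn t b U g u → HeatOn t b U g ρ → IsCompact {x | x ∈ U ∧ ρ t x ≤ c} →
      (∀ s ∈ Icc t (t + δ * r ^ 2), ∀ x ∈ U, ρ t x ≤ c → BkAbs (g s) (ε0 / r ^ 2) x ∧
        Gr (g s) (u s) x ≤ ε0 / r ^ 2 ∧ Gr (g s) (ρ s) x ≤ 2) →
      ∀ r' ∈ Icc r (2 * r), ∀ x ∈ U, ρ t x ≤ c - N * r →
        ∃ ψ, Good (g (t + δ * r ^ 2)) (u (t + δ * r ^ 2)) (ρ (t + δ * r ^ 2))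
          {x | x ∈ U ∧ ρ t x ≤ c} r' Kρ x ψ

/-- INIT, charts: affine charts of a small radius -/
def InitGStmt (n : ℕ) : Prop :=
  ∀ (M : Type) [TopologicalSpace M] [T2Space M] (A : Atl n M) (K0 : Kah A) (u ρ : M → ℝ)
    (W Z : Set M), IsOpen W → IsCompact Z → Z ⊆ W → A.Sm u → A.Sm ρ →
    (∀ i, ∀ z ∈ (A.e i).target, gsq (gc K0 i) (inC A i ρ) z ≤ 1) →
    ∃ r0 : ℝ, 0 < r0 ∧ ∀ r, 0 < r → r ≤ r0 → ∀ x ∈ Z, ∃ ψ, Good (gc K0) u ρ W r 4 x ψ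

/-- INIT, Harnack: for a tiny time shift the matrix inequality holds at time `0` -/
def InitLStmt (n : ℕ) : Prop :=
  ∀ (M : Type) [TopologicalSpace M] [T2Space M] (A : Atl n M) (K0 : Kah A) (Z : Set M),
    BKpos K0 → IsCompact Z → ∃ τ0 : ℝ, 0 < τ0 ∧ ∀ τ, 0 < τ → τ ≤ τ0 → ∀ x ∈ Z,
      LyhGe (gc K0) τ 1 0 x

/-- GLUE across a restart (19) -/
def GlueStmt (n : ℕ) : Prop :=
  ∀ (M : Type) [TopologicalSpace M] (A : Atl n M) (U : Set M) (g1 g2 : ℝ → MF A) (a m c : ℝ),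
    IsOpen U → a < m → m < c → FlowOn a m U g1 → FlowOn m c U g2 → EqF (g1 m) (g2 m) U →
    FlowOn a c U fun s => if s ≤ m then g1 s else g2 s

/-- the sequence `(σ_j, t_j)` -/
noncomputable def Par.seq (P : Par) (m0 σ0 : ℝ) : ℕ → ℝ × ℝ
  | 0 => (σ0, 0)
  | j + 1 => ((P.seq m0 σ0 j).1 - m0 * P.r (P.seq m0 σ0 j).1 (P.seq m0 σ0 j).2,
      (P.seq m0 σ0 j).2 + P.δ * P.r (P.seq m0 σ0 j).1 (P.seq m0 σ0 j).2 ^ 2)

/-- OSGOOD: the life time tends to infinity with the start radius, uniformly in `tA` -/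
def OsgoodStmt : Prop :=
  ∀ Cb K V K1 Λ L B δ m0 T Sg : ℝ, 0 ≤ m0 → ∃ σ1 : ℝ, ∀ σ0, σ1 ≤ σ0 → ∀ tA : ℝ,
    Par.Ok ⟨Cb, K, V, K1, Λ, L, B, δ, tA⟩ →
    ∃ j, T ≤ (Par.seq ⟨Cb, K, V, K1, Λ, L, B, δ, tA⟩ m0 σ0 j).2 ∧ ∀ i, i ≤ j →
      Sg ≤ (Par.seq ⟨Cb, K, V, K1, Λ, L, B, δ, tA⟩ m0 σ0 i).1 ∧
      (Par.seq ⟨Cb, K, V, K1, Λ, L, B, δ, tA⟩ m0 σ0 i).2 ≤ max T 0 + 1

/-- the last leaf: from the exported flows to `Apx` -/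
def ApxStmt (n : ℕ) : Prop :=
  ∀ (M : Type) [TopologicalSpace M] [T2Space M] [ConnectedSpace M] (A : Atl n M) (K0 : Kah A)
    (p : M) (I : Init K0 p) (Cb K V K1 Λ L B δ : ℝ),
    (∀ k : ℕ, ∃ (tA a T : ℝ) (G : ℝ → MF A), Par.Ok ⟨Cb, K, V, K1, Λ, L, B, δ, tA⟩ ∧
      tA ≤ 1 / (k + 1) ∧ (k : ℝ) < T ∧ FlowOn 0 T {x | dK K0 p x < k + 1} G ∧
      ∀ s ∈ Icc 0 T, Out ⟨Cb, K, V, K1, Λ, L, B, δ, tA⟩ I a (1 / (k + 1))
        {x | dK K0 p x < k + 1} s (G s)) →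
    Nonempty (Apx K0 p)

end Crest.Agent.T223.Os
private theorem rz_d1517ae71f : type_of% @_root_.Crest.Agent.T223.Os.Par.seq.eq_def := @_root_.Crest.Agent.T223.Os.Par.seq.eq_def -- L439
private theorem rz_7333c19a1a : type_of% @_root_.Crest.Agent.T223.Os.Par.seq.eq_1 := @_root_.Crest.Agent.T223.Os.Par.seq.eq_1 -- L439
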