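import Crest.Agent.T223.CnD_41
import Crest.Agent.T223.EvLA_41
import Crest.Agent.T223.TrTr_90

/-!
# Row 223, module EVO (helper41): evolution laws in a chart (names of `Fr_38`)

* `HeatP g u p` / `HeatAt g u t z` : `u` solves the heat equation of `g(t)` near the point
* `box_scal`  : `(∂_t - Δ) R = |Ric|²`
* `box_gsq`   : `(∂_t - Δ) |∂u|² ≤ -|∂∂̄u|²`
* `box_sq`    : `(∂_t - Δ) u² = -2 |∂u|²`
* `bkle_of_bkge` : `bis ≥ -l → bis ≤ R + n² l`
* `box_Phi`   : the pointwise Bernstein inequality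
(each with a past version `boxp_*`).
-/

set_option autoImplicit false
set_option linter.unusedSectionVars false

open Set Filter Topology
open scoped ContDiff ComplexConjugate ComplexOrder Matrix

namespace Crest.Agent.T223.Ev

open Crest.Agent.R275.Geo Crest.Agent.R275.EDR890 Crest.Agent.R273.Hess_333
open Crest.Agent.R273.HessB_333 Crest.Agent.T223.Br Crest.Agent.T223.Cn
open Crest.Agent.T223.Tr (nq)

noncomputable section

variable {n : ℕ} {p : ℝ × Cn n} {g : ℝ → Cn n → Mat n} {u : ℝ → Cn n → ℝ} {t : ℝ} {z : Cn n}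

/-- `u` solves the heat equation near `p`, in the past -/
structure HeatP (g : ℝ → Cn n → Mat n) (u : ℝ → Cn n → ℝ) (p : ℝ × Cn n) : Prop where
  sm : SmP p u
  eq : ∀ᶠ q in Cn.past p,
    HasDerivWithinAt (fun s => u s q.2) (lap (g q.1) (u q.1) q.2) (Iic p.1) q.1

/-- `u` solves the heat equation near `(t, z)` -/
structure HeatAt (g : ℝ → Cn n → Mat n) (u : ℝ → Cn n → ℝ) (t : ℝ) (z : Cn n) : Prop where
  sm : ContDiffAt ℝ ∞ (fun q : ℝ × Cn n => u q.1 q.2) (t, z)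
  eq : ∀ᶠ q : ℝ × Cn n in 𝓝 (t, z), box g u q.1 q.2 = 0

theorem HeatAt.heatP (h : HeatAt g u t z) : HeatP g u (t, z) where
  sm := SmP.of_contDiffAt h.sm
  eq := by
    have h1 : ContDiffAt ℝ 1 (fun q : ℝ × Cn n => u q.1 q.2) (t, z) :=
      h.sm.of_le (by exact_mod_cast le_top)
    refine nhdsWithin_le_nhds ?_
    filter_upwards [h.eq, h1.eventually (by simp)] with q h2 h3
    have h4 : DifferentiableAt ℝ (fun s => u s q.2) q.1 :=
      (h3.differentiableAt (by simp)).comp q.1 (f := fun s : ℝ => (s, q.2))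
        (differentiableAt_id.prodMk (differentiableAt_const _))
    rw [← sub_eq_zero.1 h2]
    exact h4.hasDerivAt.hasDerivWithinAt

theorem HeatP.bx_eq (hu : HeatP g u p) (h : KahP g p) : bx h.km (Cn.mk hu.sm.ofReal) = 0 := by
  refine (h.rep_bx hu.sm.ofReal.rep).ext Rep.zero ?_
  filter_upwards [hu.eq, self_mem_nhdsWithin] with q h1 h2
  rw [h1.derivWithin (uniqueDiffOn_Iic _ _ h2), sub_self, Complex.ofReal_zero]

theorem ev_ip_re (h : KahP g p) {Φ : Matrix (Fin n) (Fin n) (Gm p)} {f : ℝ → Cn n → Mat n}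
    (hf : RepM Φ f) : ((gdr p).ev (ip h.km Φ Φ)).re = nrm (g p.1 p.2) (f p.1 p.2) :=
  congrArg Complex.re (h.rep_ip hf hf).ev

theorem boxp_scal (h : KRFp g p) :
    boxp g (fun t z => scal (g t) z) p.1 p.2 = nrm (g p.1 p.2) (ric (g p.1) p.2) := by
  rw [← ev_ip_re h.toKahP h.toKahP.rep_ric, ← bx_sc h.flow0, h.toKahP.ev_bx h.toKahP.rep_scal,
    Complex.ofReal_re]

theorem boxp_gsq (h : KRFp g p) (hu : HeatP g u p) :
    boxp g (fun t z => gsq (g t) (u t) z) p.1 p.2 ≤ -nrm (g p.1 p.2) (hess (u p.1) p.2) := by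
  have h1 := bochner h.flow0 hu.sm.ofReal.rep.cj_real
  rw [hu.bx_eq h.toKahP, h.toKahP.ev_bx (h.toKahP.rep_gsq hu.sm.ofReal.rep), Complex.ofReal_re,
    ev_ip_re h.toKahP hu.sm.ofReal.rep.hs, g2_eq] at h1
  simpa using h1

theorem boxp_sq (h : KahP g p) (hu : HeatP g u p) :
    boxp g (fun t z => u t z ^ 2) p.1 p.2 = -2 * gsq (g p.1) (u p.1) p.2 := by
  have h1 := congrArg (gdr p).ev (bx_mul h.km (Cn.mk hu.sm.ofReal) (Cn.mk hu.sm.ofReal))
  have h2 : Rep (Cn.mk hu.sm.ofReal * Cn.mk hu.sm.ofReal) fun t z => ((u t z ^ 2 : ℝ) : ℂ) :=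
    (hu.sm.ofReal.rep.mul hu.sm.ofReal.rep).congr' fun _ _ => by push_cast; ring
  rw [hu.bx_eq h, h.ev_bx h2, map_sub, map_sub, (h.rep_gsq hu.sm.ofReal.rep).ev] at h1
  simp only [mul_zero, add_zero, map_zero, zero_sub] at h1
  have h3 := congrArg Complex.re h1
  simp only [Complex.ofReal_re, Complex.sub_re, Complex.neg_re] at h3
  linarith







/-! ### curvature bounds -/

section static

variable {g : Cn n → Mat n}

theorem scal_ge (h : KahAt g z) {l : ℝ} (hl : BKge g z l) : -(n ^ 2 * l) ≤ scal g z := by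
  have hp := h.pos.self_of_nhds
  have := trg_lower hp (Tr.ric_herm h.sm hp) (b := n * l) fun v => by
    linarith [Tr.ric_ge_of_BKge h hl v]
  unfold scal
  nlinarith


/-- `bis ≥ -l → bis ≤ R + n² l` -/
theorem bkle_of_bkge (h : KahAt g z) {l : ℝ} (h0 : 0 ≤ l) (hl : BKge g z l) :
    BKle g z (scal g z + n ^ 2 * l) := by
  intro v w
  have hp := h.pos.self_of_nhds
  have hv := nq_nonneg hp.posSemidef v
  have hw := nq_nonneg hp.posSemidef w
  have h1 := Tr.nq_le_trg_of_nq (B := Tr.RmW g z w + ((l * nq (g z) w : ℝ) : ℂ) • g z) hp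
    (fun v => by
      rw [nq_add, nq_smul, ← Tr.bis_eq_nq]
      have := hl v w
      nlinarith) v
  rw [nq_add, nq_smul, ← Tr.bis_eq_nq, trg_add, trg_smul, trg_self hp, Tr.trg_RmW h] at h1
  have h2 := nq_le_trg hp (Tr.ric_herm h.sm hp) (b := n * l) (fun v => by
    linarith [Tr.ric_ge_of_BKge h hl v]) w
  have h3 : (nq (ric g z) w + l * nq (g z) w * n) * nq (g z) v ≤
      (scal g z + n ^ 2 * l) * nq (g z) w * nq (g z) v :=
    mul_le_mul_of_nonneg_right (by unfold scal; nlinarith) hv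
  have h4 : 0 ≤ l * nq (g z) w * nq (g z) v := by positivity
  nlinarith

theorem nrm_ric_le (h : KahAt g z) {l : ℝ} (h0 : 0 ≤ l) (hl : BKge g z l) :
    nrm (g z) (ric g z) ≤ 2 * scal g z ^ 2 + 3 * n ^ 4 * l ^ 2 := by
  have hp := h.pos.self_of_nhds
  have h1 := nrm_le_of_lower hp (Tr.ric_herm h.sm hp) (b := n * l) (by positivity) fun v => by
    linarith [Tr.ric_ge_of_BKge h hl v]
  have h2 : (n : ℝ) ^ 3 ≤ n ^ 4 := by
    rcases Nat.eq_zero_or_pos n with h | h
    · simp [h]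
    · exact pow_le_pow_right₀ (by exact_mod_cast h) (by norm_num)
  have h3 : (n : ℝ) ^ 3 * l ^ 2 ≤ n ^ 4 * l ^ 2 := mul_le_mul_of_nonneg_right h2 (sq_nonneg _)
  unfold scal
  nlinarith [sq_nonneg (trg (g z) (ric g z) - n * (n * l))]

/-- `η = ∂∂̄ u - Ric ≥ -e g` makes `|∂∂̄ u|²` dominate `R²` -/
theorem nrm_hess_ge (h : KahAt g z) {l e : ℝ} (hl : BKge g z l) {u : Cn n → ℝ}
    (hu : ContDiffAt ℝ ∞ u z) (he : ∀ v, nq (ric g z) v - e * nq (g z) v ≤ nq (hess u z) v) :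
    scal g z ^ 2 / 2 - n ^ 2 * e ^ 2 - n ^ 4 * l ^ 2 ≤ n * nrm (g z) (hess u z) := by
  have hp := h.pos.self_of_nhds
  have h1 := sq_le_nrm hp (hess_herm hu)
  have h2 := trg_lower hp ((hess_herm hu).sub (Tr.ric_herm h.sm hp)) (b := e) fun v => by
    rw [nq_sub]; linarith [he v]
  rw [trg_sub] at h2
  have h3 := scal_ge h hl
  change 0 ≤ _ - scal g z + _ at h2
  set R := scal g z
  set L := trg (g z) (hess u z)
  refine le_trans ?_ h1
  by_cases hc : n * e ≤ R
  · have h4 : (R - n * e) ^ 2 ≤ L ^ 2 := pow_le_pow_left₀ (by linarith) (by linarith) 2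
    nlinarith [sq_nonneg (R - 2 * n * e), sq_nonneg ((n : ℝ) ^ 2 * l)]
  · have h4 : R ^ 2 ≤ (n * e) ^ 2 + (n ^ 2 * l) ^ 2 := by
      rcases le_total 0 R with h5 | h5
      · nlinarith [sq_nonneg ((n : ℝ) ^ 2 * l)]
      · nlinarith [sq_nonneg ((n : ℝ) * e)]
    nlinarith [sq_nonneg L, sq_nonneg ((n : ℝ) ^ 2 * l), sq_nonneg ((n : ℝ) * e)]

theorem gsq_nonneg {φ : Cn n → ℝ} (hp : (g z).PosDef) : 0 ≤ gsq g φ z := by
  have := nq_nonneg hp.inv.posSemidef (WithLp.toLp 2 fun a => conj (dz φ z a))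
  refine this.trans_eq ?_
  unfold gsq nqi Tr.nq
  rw [Finset.sum_comm]
  congr 1
  exact Finset.sum_congr rfl fun a _ => Finset.sum_congr rfl fun b _ => by
    simp only [Complex.conj_conj]; ring

end static

/-! ### the Bernstein quantity -/

/-- `Φ = τ R + 6 n τ |∂u|² + (3 n + 1) u²`, `τ = t + a` -/
def Phi (g : ℝ → Cn n → Mat n) (u : ℝ → Cn n → ℝ) (a : ℝ) (t : ℝ) (z : Cn n) : ℝ :=
  (t + a) * scal (g t) z + 6 * n * ((t + a) * gsq (g t) (u t) z) + (3 * n + 1) * u t z ^ 2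



/-! ### two-sided versions -/

theorem box_scal (h : KRFat g t z) :
    box g (fun t z => scal (g t) z) t z = nrm (g t z) (ric (g t) z) := by
  rw [← boxp_eq_box (φ := fun t z => scal (g t) z)
    (diff_time (f := fun t z => scal (g t) z) (cda_scal (g := g) (p := (t, z)) h.sm h.pos.self_of_nhds))]
  exact boxp_scal (p := (t, z)) h.krfp

theorem box_gsq (h : KRFat g t z) (hu : HeatAt g u t z) :
    box g (fun t z => gsq (g t) (u t) z) t z ≤ -nrm (g t z) (hess (u t) z) := by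
  rw [← boxp_eq_box (φ := fun t z => gsq (g t) (u t) z)
    (diff_time (f := fun t z => gsq (g t) (u t) z) (cda_gsq (g := g) (p := (t, z)) h.sm h.pos.self_of_nhds hu.sm))]
  exact boxp_gsq (p := (t, z)) h.krfp hu.heatP

theorem box_gsq_nonpos (h : KRFat g t z) (hu : HeatAt g u t z) :
    box g (fun t z => gsq (g t) (u t) z) t z ≤ 0 :=
  (box_gsq h hu).trans (neg_nonpos.2
    (nrm_nonneg h.pos.self_of_nhds (hess_herm hu.heatP.sm.slice)))

theorem box_sq (h : KRFat g t z) (hu : HeatAt g u t z) :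
    box g (fun t z => u t z ^ 2) t z = -2 * gsq (g t) (u t) z := by
  rw [← boxp_eq_box (φ := fun t z => u t z ^ 2)
    (diff_time (f := fun t z => u t z ^ 2) (hu.sm.pow 2))]
  exact boxp_sq h.krfp.toKahP hu.heatP




end

end Crest.Agent.T223.Ev
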