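import Crest.Agent.T223.OsDef_21

/-!
# Row 223, module OSG (helper21): numerics of the constants and of one step
-/

set_option autoImplicit false
set_option linter.unusedVariables false
set_option linter.unusedSectionVars false

open Set Filter Topology Metric
open scoped ContDiff ComplexConjugate Matrix ComplexOrder

namespace Crest.Agent.T223.Os

open Crest.Agent.R275.Geo Crest.Agent.R273.Kah_333 Crest.Agent.R273.Hess_333
open Crest.Agent.T223.Br Crest.Agent.T223.Tr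
open Crest.Agent.T223.Db (dom SmST)

noncomputable section

namespace Par.Ok

variable {P : Par} (h : P.Ok)
include h

theorem K0 : 0 < P.K := by linarith [h.K_1]
theorem K10 : 0 < P.K1 := by linarith [h.K_1, h.KK]
theorem V0 : 0 < P.V := by linarith [h.K_1, h.KV]
theorem B0 : 0 < P.B := by linarith [h.B1]
theorem L1 : 1 ≤ P.L := h.Λ1.trans h.ΛL
theorem L0 : 0 < P.L := by linarith [h.L1]
theorem Λ0 : 0 < P.Λ := by linarith [h.Λ1]
theorem Cb0 : 0 < P.Cb := by linarith [h.Cb1]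


theorem J16 : 16 ≤ P.J := by
  have : 1 ≤ Real.exp (2 * P.K) := Real.one_le_exp (by linarith [h.K0])
  unfold Par.J; linarith

theorem J0 : 0 < P.J := by linarith [h.J16]

theorem τ_pos {s : ℝ} (hs : 0 ≤ s) : 0 < P.τ s := by unfold Par.τ; linarith [h.tA0]

theorem τ_le {s : ℝ} : P.τ s ≤ 1 + s := by unfold Par.τ; linarith [h.tA1]

theorem le_τ {s : ℝ} : s ≤ P.τ s := by unfold Par.τ; linarith [h.tA0]

theorem τ_mono {s s' : ℝ} (hs : s ≤ s') : P.τ s ≤ P.τ s' := by unfold Par.τ; linarith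

theorem B_le_ρs {s : ℝ} (hs : 0 ≤ s) : P.B ≤ P.ρs s := by
  unfold Par.ρs; nlinarith [h.B0, mul_nonneg h.B0.le hs, mul_nonneg h.B0.le (mul_nonneg hs hs)]

theorem lin_le_ρs {s : ℝ} (hs : 0 ≤ s) : P.B * (1 + s) ≤ P.ρs s := by
  unfold Par.ρs; nlinarith [h.B0, mul_nonneg h.B0.le hs, mul_nonneg h.B0.le (mul_nonneg hs hs)]

theorem one_le_ρs {s : ℝ} (hs : 0 ≤ s) : 1 ≤ P.ρs s := h.B1.trans (h.B_le_ρs hs)

theorem ρs_mono {s s' : ℝ} (hs : 0 ≤ s) (hs' : s ≤ s') : P.ρs s ≤ P.ρs s' := by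
  unfold Par.ρs
  exact mul_le_mul_of_nonneg_left (pow_le_pow_left₀ (by linarith) (by linarith) 2) h.B0.le

theorem log_τ_nonneg {s : ℝ} (hs : 0 ≤ s) : 0 ≤ Real.log (1 + 1 / P.τ s) :=
  Real.log_nonneg (by have := h.τ_pos hs; have : 0 < 1 / P.τ s := by positivity
                      linarith)

theorem log_τ_anti {s s' : ℝ} (hs : 0 ≤ s) (hs' : s ≤ s') :
    Real.log (1 + 1 / P.τ s') ≤ Real.log (1 + 1 / P.τ s) := by
  have h1 := h.τ_pos hs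
  have h2 := h.τ_pos (hs.trans hs')
  refine Real.log_le_log (by positivity) ?_
  have := one_div_le_one_div_of_le h1 (h.τ_mono hs')
  linarith

theorem B_le_ell {x s : ℝ} (hx : 0 ≤ x) (hs : 0 ≤ s) : P.B ≤ P.ell x s := by
  have h1 : 0 ≤ Real.log (x + P.ρs s) := Real.log_nonneg (by linarith [h.one_le_ρs hs])
  have h2 := h.log_τ_nonneg hs
  unfold Par.ell; linarith

theorem ell_pos {x s : ℝ} (hx : 0 ≤ x) (hs : 0 ≤ s) : 0 < P.ell x s :=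
  h.B0.trans_le (h.B_le_ell hx hs)


theorem Ψ_ge {x s : ℝ} (hx : 0 ≤ x) (hs : 0 ≤ s) : P.ρs s ^ 2 * P.B ^ 2 ≤ P.Ψ x s := by
  unfold Par.Ψ
  have h1 := h.one_le_ρs hs
  exact mul_le_mul (pow_le_pow_left₀ (by linarith) (by linarith) 2)
    (pow_le_pow_left₀ h.B0.le (h.B_le_ell hx hs) 2) (by positivity) (by positivity)

theorem B4_le_Ψ {x s : ℝ} (hx : 0 ≤ x) (hs : 0 ≤ s) : P.B ^ 4 * (1 + s) ^ 4 ≤ P.Ψ x s := by
  refine le_trans (le_of_eq ?_) (h.Ψ_ge hx hs)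
  unfold Par.ρs; ring

theorem one_le_Ψ {x s : ℝ} (hx : 0 ≤ x) (hs : 0 ≤ s) : 1 ≤ P.Ψ x s := by
  refine le_trans ?_ (h.B4_le_Ψ hx hs)
  exact one_le_mul_of_one_le_of_one_le (one_le_pow₀ h.B1) (one_le_pow₀ (by linarith))

theorem Ψ_pos {x s : ℝ} (hx : 0 ≤ x) (hs : 0 ≤ s) : 0 < P.Ψ x s := by
  linarith [h.one_le_Ψ hx hs]


theorem r_pos {σ t : ℝ} (hσ : 0 ≤ σ) (ht : 0 ≤ t) : 0 < P.r σ t :=
  Real.sqrt_pos.2 (div_pos (h.τ_pos ht) (mul_pos h.L0 (h.Ψ_pos hσ ht)))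

theorem r_sq {σ t : ℝ} (hσ : 0 ≤ σ) (ht : 0 ≤ t) : P.r σ t ^ 2 = P.τ t / (P.L * P.Ψ σ t) :=
  Real.sq_sqrt (div_pos (h.τ_pos ht) (mul_pos h.L0 (h.Ψ_pos hσ ht))).le

/-- `τ q = L Ψ` -/
theorem τ_q {σ t : ℝ} (hσ : 0 ≤ σ) (ht : 0 ≤ t) : P.τ t * (1 / P.r σ t ^ 2) = P.L * P.Ψ σ t := by
  have h1 := h.τ_pos ht
  have h2 := mul_pos h.L0 (h.Ψ_pos hσ ht)
  rw [h.r_sq hσ ht]; field_simp

theorem B4_le_LΨ {σ t : ℝ} (hσ : 0 ≤ σ) (ht : 0 ≤ t) :
    P.B ^ 4 * (1 + t) ^ 4 ≤ P.L * P.Ψ σ t :=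
  (h.B4_le_Ψ hσ ht).trans (le_mul_of_one_le_left (h.Ψ_pos hσ ht).le h.L1)

/-- `B⁴ r² ≤ τ` -/
theorem B4_r_sq_le {σ t : ℝ} (hσ : 0 ≤ σ) (ht : 0 ≤ t) :
    P.B ^ 4 * (1 + t) ^ 4 * P.r σ t ^ 2 ≤ P.τ t := by
  have h1 := h.τ_pos ht
  have h2 := mul_pos h.L0 (h.Ψ_pos hσ ht)
  rw [h.r_sq hσ ht, ← mul_div_assoc, div_le_iff₀ h2]
  nlinarith [h.B4_le_LΨ hσ ht]

theorem r_sq_le_τ {σ t : ℝ} (hσ : 0 ≤ σ) (ht : 0 ≤ t) : P.r σ t ^ 2 ≤ P.τ t := by
  refine le_trans ?_ (h.B4_r_sq_le hσ ht)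
  exact le_mul_of_one_le_left (by positivity)
    (one_le_mul_of_one_le_of_one_le (one_le_pow₀ h.B1) (one_le_pow₀ (by linarith)))

/-- `B² (1 + t) r ≤ 1` -/
theorem B2_r_le {σ t : ℝ} (hσ : 0 ≤ σ) (ht : 0 ≤ t) : P.B ^ 2 * (1 + t) * P.r σ t ≤ 1 := by
  have h1 := h.B4_r_sq_le hσ ht
  have h2 := h.τ_le (s := t)
  have h3 := h.r_pos hσ ht
  have hB := h.B0
  have h4 : (P.B ^ 2 * (1 + t) * P.r σ t) ^ 2 * (1 + t) ^ 2 ≤ (1 + t) ^ 2 := by
    have : (P.B ^ 2 * (1 + t) * P.r σ t) ^ 2 * (1 + t) ^ 2 =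
        P.B ^ 4 * (1 + t) ^ 4 * P.r σ t ^ 2 := by ring
    rw [this]; nlinarith
  have h5 : (P.B ^ 2 * (1 + t) * P.r σ t) ^ 2 ≤ 1 := by
    by_contra hc
    push Not at hc
    have : 0 < (1 + t) ^ 2 := by positivity
    nlinarith
  exact (sq_le_one_iff₀ (by positivity)).1 h5

theorem B_r_le {σ t : ℝ} (hσ : 0 ≤ σ) (ht : 0 ≤ t) : P.B * P.r σ t ≤ 1 := by
  have h1 := h.B2_r_le hσ ht
  have h3 := h.r_pos hσ ht
  have hB := h.B1
  have : P.B * P.r σ t * 1 ≤ P.B * P.r σ t * (P.B * (1 + t)) :=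
    mul_le_mul_of_nonneg_left (by nlinarith) (by positivity)
  nlinarith

theorem r_le_one {σ t : ℝ} (hσ : 0 ≤ σ) (ht : 0 ≤ t) : P.r σ t ≤ 1 := by
  have h1 := h.B_r_le hσ ht
  have h3 := h.r_pos hσ ht
  nlinarith [h.B1]

/-- `c r ≤ 1` for `c ≤ B` -/
theorem mul_r_le {σ t c : ℝ} (hσ : 0 ≤ σ) (ht : 0 ≤ t) (hc : c ≤ P.B) : c * P.r σ t ≤ 1 :=
  (mul_le_mul_of_nonneg_right hc (h.r_pos hσ ht).le).trans (h.B_r_le hσ ht)

theorem ρs_step {σ t s : ℝ} (hσ : 0 ≤ σ) (ht : 0 ≤ t) (hs : t ≤ s) (hs' : s ≤ t + P.r σ t ^ 2) :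
    P.ρs s ≤ P.ρs t + 3 * P.r σ t := by
  have h1 := h.B2_r_le hσ ht
  have h3 := h.r_pos hσ ht
  have h4 := h.r_le_one hσ ht
  have hB := h.B1
  set r := P.r σ t
  have h5 : r ^ 2 ≤ 1 := by nlinarith
  have h6 : P.ρs s - P.ρs t = P.B * ((s - t) * (2 + s + t)) := by unfold Par.ρs; ring
  have h7 : (s - t) * (2 + s + t) ≤ r ^ 2 * (3 * (1 + t)) :=
    mul_le_mul (by linarith) (by linarith) (by linarith) (by positivity)
  have h8 : P.B * (r ^ 2 * (3 * (1 + t))) ≤ 3 * r := by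
    have : P.B * (1 + t) * r ≤ 1 := by
      have : P.B * (1 + t) * r * 1 ≤ P.B * (1 + t) * r * P.B :=
        mul_le_mul_of_nonneg_left hB (by positivity)
      nlinarith
    nlinarith
  have h9 := mul_le_mul_of_nonneg_left h7 h.B0.le
  linarith

theorem τ_step {σ t s : ℝ} (hσ : 0 ≤ σ) (ht : 0 ≤ t) (hs' : s ≤ t + P.r σ t ^ 2) :
    P.τ s ≤ 2 * P.τ t := by
  have := h.r_sq_le_τ hσ ht
  unfold Par.τ at *; linarith

/-- `Ψ` at most doubles in a step -/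
theorem Ψ_step {σ t s x c : ℝ} (hσ : 0 ≤ σ) (ht : 0 ≤ t) (hs : t ≤ s)
    (hs' : s ≤ t + P.r σ t ^ 2) (hx : 0 ≤ x) (hc0 : 0 ≤ c) (hxc : x ≤ σ + c * P.r σ t)
    (hc : 10 * (c + 3) ≤ P.B) : P.Ψ x s ≤ 2 * P.Ψ σ t := by
  have h1 := h.ρs_step hσ ht hs hs'
  have h2 := h.mul_r_le hσ ht hc
  have h3 := h.one_le_ρs ht
  have h3' := h.one_le_ρs (ht.trans hs)
  have h4 : x + P.ρs s ≤ 11 / 10 * (σ + P.ρs t) := by nlinarith
  have h5 : Real.log (x + P.ρs s) ≤ Real.log (σ + P.ρs t) + 1 / 10 := by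
    have := Real.log_le_log (by linarith) h4
    rw [Real.log_mul (by norm_num) (by linarith)] at this
    have h6 := Real.log_le_sub_one_of_pos (show (0 : ℝ) < 11 / 10 by norm_num)
    linarith
  have h6 := h.log_τ_anti ht hs
  have h7 := h.B_le_ell hσ ht
  have h8 : P.ell x s ≤ 11 / 10 * P.ell σ t := by
    have : P.ell x s ≤ P.ell σ t + 1 / 10 := by unfold Par.ell; linarith
    linarith [h.B1]
  have h9 := h.ell_pos hx (ht.trans hs)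
  calc P.Ψ x s ≤ (11 / 10 * (σ + P.ρs t)) ^ 2 * (11 / 10 * P.ell σ t) ^ 2 :=
        mul_le_mul (pow_le_pow_left₀ (by linarith) h4 2) (pow_le_pow_left₀ h9.le h8 2)
          (by positivity) (by positivity)
    _ = (11 / 10) ^ 4 * P.Ψ σ t := by unfold Par.Ψ; ring
    _ ≤ 2 * P.Ψ σ t := mul_le_mul_of_nonneg_right (by norm_num) (h.Ψ_pos hσ ht).le

/-- the scale increases from step to step -/
theorem r_le_next {σ t s m : ℝ} (hσ : 0 ≤ σ) (ht : 0 ≤ t) (hs : t ≤ s)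
    (hs' : s ≤ t + P.r σ t ^ 2) (hm : 3 ≤ m) (hσ' : 0 ≤ σ - m * P.r σ t) :
    P.r σ t ≤ P.r (σ - m * P.r σ t) s := by
  have h0 := h.r_pos hσ ht
  have h1 := h.ρs_step hσ ht hs hs'
  have hs0 := ht.trans hs
  have h3' := h.one_le_ρs hs0
  have h4 : σ - m * P.r σ t + P.ρs s ≤ σ + P.ρs t := by nlinarith
  have h5 := Real.log_le_log (by linarith) h4
  have h6 := h.log_τ_anti ht hs
  have h8 : P.ell (σ - m * P.r σ t) s ≤ P.ell σ t := by unfold Par.ell; linarith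
  have h9 : P.Ψ (σ - m * P.r σ t) s ≤ P.Ψ σ t :=
    mul_le_mul (pow_le_pow_left₀ (by linarith) h4 2)
      (pow_le_pow_left₀ (h.ell_pos hσ' hs0).le h8 2) (by positivity) (by positivity)
  refine Real.sqrt_le_sqrt ?_
  exact div_le_div₀ (h.τ_pos hs0).le (h.τ_mono hs) (mul_pos h.L0 (h.Ψ_pos hσ' hs0))
    (mul_le_mul_of_nonneg_left h9 h.L0.le)

/-- … by at most the factor `2` -/
theorem next_le_r {σ t s m : ℝ} (hσ : 0 ≤ σ) (ht : 0 ≤ t) (hs : t ≤ s)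
    (hs' : s ≤ t + P.r σ t ^ 2) (hm0 : 0 ≤ m) (hm : 10 * m ≤ P.B) (hB : 10 ≤ P.B)
    (hσ' : 0 ≤ σ - m * P.r σ t) : P.r (σ - m * P.r σ t) s ≤ 2 * P.r σ t := by
  have h0 := h.r_pos hσ ht
  have hs0 := ht.trans hs
  have h1 := h.ρs_mono ht hs
  have h2 := h.mul_r_le hσ ht hm
  have h3 := h.one_le_ρs ht
  have hτ := h.τ_pos ht
  have hτ' := h.τ_pos hs0
  have hτ2 := h.τ_step hσ ht hs'
  have h4 : 9 / 10 * (σ + P.ρs t) ≤ σ - m * P.r σ t + P.ρs s := by nlinarith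
  have h5 : Real.log (σ + P.ρs t) - 1 / 5 ≤ Real.log (σ - m * P.r σ t + P.ρs s) := by
    have := Real.log_le_log (by positivity) h4
    rw [Real.log_mul (by norm_num) (by linarith)] at this
    have h6 := Real.one_sub_inv_le_log_of_pos (show (0 : ℝ) < 9 / 10 by norm_num)
    norm_num at h6
    linarith
  have h6 : Real.log (1 + 1 / P.τ t) - 7 / 10 ≤ Real.log (1 + 1 / P.τ s) := by
    have h7 : 1 + 1 / P.τ t ≤ 2 * (1 + 1 / P.τ s) := by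
      have : 1 / P.τ t ≤ 2 * (1 / P.τ s) := by
        rw [mul_one_div, div_le_div_iff₀ hτ hτ']; linarith
      linarith
    have := Real.log_le_log (by positivity) h7
    rw [Real.log_mul (by norm_num) (by positivity)] at this
    have h8 := Real.log_two_lt_d9
    linarith
  have h7 := h.B_le_ell hσ ht
  have h8 : 9 / 10 * P.ell σ t ≤ P.ell (σ - m * P.r σ t) s := by
    have : P.ell σ t - 9 / 10 ≤ P.ell (σ - m * P.r σ t) s := by unfold Par.ell; linarith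
    linarith
  have h9 : (9 / 10) ^ 4 * P.Ψ σ t ≤ P.Ψ (σ - m * P.r σ t) s := by
    calc (9 / 10) ^ 4 * P.Ψ σ t = (9 / 10 * (σ + P.ρs t)) ^ 2 * (9 / 10 * P.ell σ t) ^ 2 := by
          unfold Par.Ψ; ring
      _ ≤ _ := mul_le_mul (pow_le_pow_left₀ (by positivity) h4 2)
          (pow_le_pow_left₀ (by linarith) h8 2) (by positivity) (by positivity)
  have hΨ := h.Ψ_pos hσ ht
  have hΨ' := h.Ψ_pos hσ' hs0
  have hL := h.L0
  have h10 : P.r (σ - m * P.r σ t) s ^ 2 ≤ (2 * P.r σ t) ^ 2 := by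
    rw [mul_pow, h.r_sq hσ' hs0, h.r_sq hσ ht, ← mul_div_assoc,
      div_le_div_iff₀ (by positivity) (by positivity)]
    have h11 : P.τ s * P.Ψ σ t ≤ 2 ^ 2 * P.τ t * P.Ψ (σ - m * P.r σ t) s := by
      have := mul_le_mul hτ2 (show P.Ψ σ t ≤ 2 * P.Ψ (σ - m * P.r σ t) s by nlinarith) hΨ.le
        (by positivity)
      nlinarith
    nlinarith
  exact (pow_le_pow_iff_left₀ (h.r_pos hσ' hs0).le (by positivity) two_ne_zero).1 h10

end Par.Ok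

variable {n : ℕ} {M : Type} [TopologicalSpace M] {A : Atl n M}

theorem mem_dom {i : A.ι} {U : Set M} {x : M} (hi : x ∈ (A.e i).source) (hx : x ∈ U) :
    A.e i x ∈ dom A i U :=
  ⟨(A.e i).map_source hi, by rw [(A.e i).left_inv hi]; exact hx⟩

theorem isOpen_dom (i : A.ι) {U : Set M} (hU : IsOpen U) : IsOpen (dom A i U) :=
  (A.e i).symm.isOpen_inter_preimage hU

theorem dom_mono (i : A.ι) {U V : Set M} (h : U ⊆ V) : dom A i U ⊆ dom A i V :=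
  fun _ hz => ⟨hz.1, h hz.2⟩

theorem inC_apply {W : Type*} (f : M → W) {i : A.ι} {x : M} (hi : x ∈ (A.e i).source) :
    inC A i f (A.e i x) = f x := by
  unfold inC; rw [(A.e i).left_inv hi]

/-- jointly smooth in the charts implies jointly continuous -/
theorem continuousOn_of_SmST {I : Set ℝ} {U : Set M} {f : ℝ → M → ℝ} (h : SmST A I U f) :
    ContinuousOn (fun q : ℝ × M => f q.1 q.2) (I ×ˢ U) := by
  rintro ⟨s, x⟩ ⟨hs, hx⟩
  have hi := ch_mem A x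
  set i := ch A x
  have h1 : ContinuousWithinAt (fun q : ℝ × M => ((q.1, A.e i q.2) : ℝ × Cn n))
      ((I ×ˢ U) ∩ {q | q.2 ∈ (A.e i).source}) (s, x) := by
    refine ContinuousAt.continuousWithinAt ?_
    exact continuousAt_fst.prodMk (((A.e i).continuousAt hi).comp continuousAt_snd)
  have h2 := ContinuousWithinAt.comp (f := fun q : ℝ × M => ((q.1, A.e i q.2) : ℝ × Cn n))
    (x := (s, x)) ((h i).continuousOn (s, A.e i x) ⟨hs, mem_dom hi hx⟩) h1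
    (fun q hq => ⟨hq.1.1, mem_dom hq.2 hq.1.2⟩)
  have h3 : ContinuousWithinAt (fun q : ℝ × M => f q.1 q.2)
      ((I ×ˢ U) ∩ {q | q.2 ∈ (A.e i).source}) (s, x) := by
    refine h2.congr (fun q hq => ?_) ?_
    · simp only [Function.comp]; rw [(A.e i).left_inv hq.2]
    · simp only [Function.comp]; rw [(A.e i).left_inv hi]
  refine (continuousWithinAt_inter ?_).1 h3
  exact continuousAt_snd.preimage_mem_nhds ((A.e i).open_source.mem_nhds hi)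

theorem smOn_of_SmST {I : Set ℝ} {U : Set M} {f : ℝ → M → ℝ} (h : SmST A I U f) {s : ℝ}
    (hs : s ∈ I) : SmOn A U (f s) := fun i =>
  (h i).comp (contDiff_const.prodMk contDiff_id).contDiffOn fun _ hz => ⟨hs, hz⟩

theorem SmOn.smST {U : Set M} {f : M → ℝ} (h : SmOn A U f) (I : Set ℝ) :
    SmST A I U fun _ => f := fun i =>
  (h i).comp contDiff_snd.contDiffOn fun _ hq => hq.2

theorem SmOn.continuousOn {U : Set M} {f : M → ℝ} (h : SmOn A U f) : ContinuousOn f U :=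
  (continuousOn_of_SmST (h.smST univ)).comp (Continuous.prodMk_right (0 : ℝ)).continuousOn
    fun _ hx => ⟨mem_univ _, hx⟩

theorem SmOn.mono {U V : Set M} {f : M → ℝ} (h : SmOn A U f) (hV : V ⊆ U) : SmOn A V f :=
  fun i => (h i).mono (dom_mono i hV)

theorem smOn_of_sm {f : M → ℝ} (h : A.Sm f) (U : Set M) : SmOn A U f :=
  fun i => (h i).mono fun _ hz => hz.1

theorem SmOn.contDiffAt {U : Set M} {f : M → ℝ} (h : SmOn A U f) (hU : IsOpen U) {i : A.ι} {x : M}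
    (hi : x ∈ (A.e i).source) (hx : x ∈ U) : ContDiffAt ℝ ∞ (inC A i f) (A.e i x) :=
  (h i).contDiffAt ((isOpen_dom i hU).mem_nhds (mem_dom hi hx))

variable [T2Space M] [ConnectedSpace M] {K0 : Kah A} {p : M}

namespace Stp

variable {P : Par} {I : Init K0 p} {a : ℝ} (S : Stp P I a) (h : P.Ok)
include h

theorem B_le_σ : P.B ≤ S.σ := (h.B_le_ρs S.t0).trans S.σ_ge
theorem σ0 : 0 ≤ S.σ := h.B0.le.trans (S.B_le_σ h)
theorem r_pos : 0 < S.r := h.r_pos (S.σ0 h) S.t0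
theorem q_pos : 0 < S.q := by have := S.r_pos h; unfold q; positivity
theorem r_le_one : S.r ≤ 1 := h.r_le_one (S.σ0 h) S.t0
theorem mul_r_le {c : ℝ} (hc : c ≤ P.B) : c * S.r ≤ 1 := h.mul_r_le (S.σ0 h) S.t0 hc
theorem q_r : S.q * S.r ^ 2 = 1 := by have := S.r_pos h; unfold q; field_simp
theorem div_r (c : ℝ) : c / S.r ^ 2 = c * S.q := by unfold q; ring
theorem one_le_q : 1 ≤ S.q := by
  have h1 := S.r_pos h
  have h2 := S.r_le_one h
  unfold q; rw [le_div_iff₀ (by positivity)]; nlinarith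
theorem t_lt : S.t < S.t' := by
  have := S.r_pos h; have := h.δ0; unfold t'; have : 0 < P.δ * S.r ^ 2 := by positivity
  linarith
theorem t'_le : S.t' ≤ S.t + S.r ^ 2 := by
  have := h.δ1; unfold t'; nlinarith [sq_nonneg S.r]
theorem τ_q : P.τ S.t * S.q = P.L * P.Ψ S.σ S.t := h.τ_q (S.σ0 h) S.t0

variable {S}

theorem nonneg {s : ℝ} (hs : s ∈ Icc S.t S.t') : 0 ≤ s := S.t0.trans hs.1
theorem mem_Icc {s : ℝ} (hs : s ∈ Icc S.t S.t') : s ∈ Icc S.t S.b := ⟨hs.1, hs.2.trans S.lt'.le⟩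
theorem mem_Ioo {s : ℝ} (hs : s ∈ Icc S.t S.t') (hs' : S.t < s) : s ∈ Ioo S.t S.b :=
  ⟨hs', hs.2.trans_lt S.lt'⟩
theorem sub_le {s : ℝ} (hs : s ∈ Icc S.t S.t') : s - S.t ≤ S.r ^ 2 := by
  linarith [hs.2, S.t'_le h]
theorem r_sq_le_τ {s : ℝ} (hs : s ∈ Icc S.t S.t') : S.r ^ 2 ≤ P.τ s :=
  (h.r_sq_le_τ (S.σ0 h) S.t0).trans (h.τ_mono hs.1)
theorem one_le_τq {s : ℝ} (hs : s ∈ Icc S.t S.t') : 1 ≤ P.τ s * S.q := by
  have h1 := mul_le_mul_of_nonneg_right (r_sq_le_τ h hs) (S.q_pos h).le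
  have h2 := S.q_r h
  linarith
theorem τ_le_two {s : ℝ} (hs : s ∈ Icc S.t S.t') : P.τ s ≤ 2 * P.τ S.t :=
  h.τ_step (S.σ0 h) S.t0 (hs.2.trans (S.t'_le h))

/-- the crude bounds on the cylinder -/
theorem crudeK {s : ℝ} (hs : s ∈ Icc S.t S.t') {x : M} (hx : x ∈ S.Kc) :
    Crude P.K S.r S.t S.g S.u S.ρ s x := S.crude s (mem_Icc h hs) x hx.1

theorem sg_le {s : ℝ} (hs : s ∈ Icc S.t S.t') : S.sg s ≤ S.σ := by
  have h1 := S.r_pos h
  have h2 : 0 ≤ P.V * (s - S.t) / S.r :=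
    div_nonneg (mul_nonneg h.V0.le (by linarith [hs.1])) h1.le
  unfold sg; linarith

theorem le_sg {s : ℝ} (hs : s ∈ Icc S.t S.t') : S.σ - P.V * S.r ≤ S.sg s := by
  have h1 := S.r_pos h
  have h2 : P.V * (s - S.t) / S.r ≤ P.V * S.r := by
    rw [div_le_iff₀ h1]
    have := mul_le_mul_of_nonneg_left (sub_le h hs) h.V0.le
    nlinarith
  unfold sg; linarith

omit h in
theorem E_pos (s : ℝ) (x : M) : 0 < S.E s x := Real.exp_pos _

theorem E_le_exp_iff {s c : ℝ} {x : M} : S.E s x ≤ Real.exp c ↔ S.ρ s x ≤ S.sg s + c * S.r := by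
  rw [E, Real.exp_le_exp, div_le_iff₀ (S.r_pos h)]
  constructor <;> intro h' <;> linarith

theorem exp_le_E_iff {s c : ℝ} {x : M} : Real.exp c ≤ S.E s x ↔ S.sg s + c * S.r ≤ S.ρ s x := by
  rw [E, Real.exp_le_exp, le_div_iff₀ (S.r_pos h)]
  constructor <;> intro h' <;> linarith

theorem E_le_one_iff {s : ℝ} {x : M} : S.E s x ≤ 1 ↔ S.ρ s x ≤ S.sg s := by
  simpa using E_le_exp_iff (S := S) h (s := s) (c := 0) (x := x)

theorem one_le_E_iff {s : ℝ} {x : M} : 1 ≤ S.E s x ↔ S.sg s ≤ S.ρ s x := by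
  simpa using exp_le_E_iff (S := S) h (s := s) (c := 0) (x := x)

/-- `E ≤ exp (2K + 1 + V)` on the cylinder -/
theorem E_le {s : ℝ} (hs : s ∈ Icc S.t S.t') {x : M} (hx : x ∈ S.Kc) :
    S.E s x ≤ Real.exp (2 * P.K + 1 + P.V) := by
  rw [E_le_exp_iff h]
  have h1 := (abs_le.1 (crudeK h hs hx).oρ).2
  have h2 := hx.2
  have h3 := le_sg h hs
  linarith

/-- `E` is almost increasing along time lines -/
theorem E_le_E {s s' : ℝ} (hs : s ∈ Icc S.t S.t') (hs' : s' ∈ Icc S.t S.t') (hss : s' ≤ s) {x : M}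
    (hx : x ∈ S.Kc) : S.E s' x ≤ Real.exp (2 * P.K) * S.E s x := by
  have h0 := S.r_pos h
  rw [E, E, ← Real.exp_add, Real.exp_le_exp]
  have h1 := (abs_le.1 (crudeK h hs hx).oρ).1
  have h2 := (abs_le.1 (crudeK h hs' hx).oρ).2
  have h3 : S.sg s ≤ S.sg s' := by
    have : P.V * (s' - S.t) / S.r ≤ P.V * (s - S.t) / S.r :=
      div_le_div_of_nonneg_right (mul_le_mul_of_nonneg_left (by linarith) h.V0.le) h0.le
    unfold sg; linarith
  rw [div_le_iff₀ h0, add_mul, div_mul_cancel₀ _ h0.ne']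
  linarith

/-- the initial error is at most `E s x / 16` and at most `1 / 16` -/
theorem e0_le {s : ℝ} (hs : s ∈ Icc S.t S.t') {x : M} (hx : x ∈ S.Kc) :
    min (S.E S.t x) 1 / P.J ≤ S.E s x / 16 := by
  have h1 := E_le_E h hs ⟨le_rfl, (S.t_lt h).le⟩ hs.1 hx
  have h2 := Real.exp_pos (2 * P.K)
  rw [div_le_div_iff₀ h.J0 (by norm_num)]
  have h3 := min_le_left (S.E S.t x) 1
  unfold Par.J
  nlinarith

theorem e0_le' (x : M) : min (S.E S.t x) 1 / P.J ≤ 1 / 16 :=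
  div_le_div₀ zero_le_one (min_le_right _ _) (by norm_num) h.J16

theorem e0_pos (x : M) : 0 < min (S.E S.t x) 1 / P.J :=
  div_pos (lt_min (E_pos _ _) one_pos) h.J0

omit h in
theorem cont_ρ : ContinuousOn (fun q : ℝ × M => S.ρ q.1 q.2) (Icc S.t S.b ×ˢ S.U) :=
  continuousOn_of_SmST S.hρ.sm

omit h in
theorem Kc_sub : S.Kc ⊆ S.U := fun _ hx => hx.1

theorem cyl_sub : Icc S.t S.t' ×ˢ S.Kc ⊆ Icc S.t S.b ×ˢ S.U :=
  fun _ hq => ⟨mem_Icc h hq.1, hq.2.1⟩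

theorem cont_ρK : ContinuousOn (fun q : ℝ × M => S.ρ q.1 q.2) (Icc S.t S.t' ×ˢ S.Kc) :=
  cont_ρ.mono (cyl_sub h)

omit h in
theorem continuous_sg : Continuous S.sg := by unfold sg; fun_prop

theorem cont_E : ContinuousOn (fun q : ℝ × M => S.E q.1 q.2) (Icc S.t S.t' ×ˢ S.Kc) := by
  unfold E
  exact ((((continuous_sg.comp continuous_fst).continuousOn).sub (cont_ρK h)).neg.div_const _).rexp

theorem Kc_mem_nhds {x : M} (hx : x ∈ S.U) (hρ : S.ρ S.t x < S.σ + (P.K + 1) * S.r) :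
    S.Kc ∈ 𝓝 x := by
  have h1 : ContinuousAt (S.ρ S.t) x :=
    (smOn_of_SmST S.hρ.sm ⟨le_rfl, ((S.t_lt h).trans S.lt').le⟩).continuousOn.continuousAt
      (S.op.mem_nhds hx)
  filter_upwards [S.op.mem_nhds hx, h1.eventually (gt_mem_nhds hρ)] with y hy hy'
  exact ⟨hy, hy'.le⟩

/-- points with `ρ s x < σ + r` are interior points of `Kc` -/
theorem Kc_mem_nhds' {s : ℝ} (hs : s ∈ Icc S.t S.t') {x : M} (hx : x ∈ S.U)
    (hρ : S.ρ s x < S.σ + S.r) : S.Kc ∈ 𝓝 x := by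
  refine Kc_mem_nhds h hx ?_
  have h1 := (abs_le.1 (S.crude s (mem_Icc h hs) x hx).oρ).1
  change -(P.K * S.r) ≤ _ at h1
  linarith

/-- the hypothesis `hint` of `Tch.touch_MD` -/
theorem hint {s : ℝ} (hs : s ∈ Icc S.t S.t') {x : M} (hx : x ∈ S.Kc) (hρ : S.ρ s x ≤ S.sg s) :
    S.Kc ∈ 𝓝 x :=
  Kc_mem_nhds' h hs hx.1 (by linarith [sg_le h hs, S.r_pos h])

/-- `Ψ (ρ s x) s ≤ 2 Ψ σ t` on the cylinder -/
theorem Ψ_le {s : ℝ} (hs : s ∈ Icc S.t S.t') {x : M} (hx : x ∈ S.Kc) (h0 : 0 ≤ S.ρ s x)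
    (hB : 10 * (2 * P.K + 4) ≤ P.B) : P.Ψ (S.ρ s x) s ≤ 2 * P.Ψ S.σ S.t := by
  refine h.Ψ_step (c := 2 * P.K + 1) (S.σ0 h) S.t0 hs.1 (hs.2.trans (S.t'_le h)) h0
    (by linarith [h.K0]) ?_ (by linarith)
  have h1 := (abs_le.1 (crudeK h hs hx).oρ).2
  have h2 := hx.2
  change _ ≤ S.σ + (2 * P.K + 1) * S.r
  linarith

/-- `Λ Ψ ≤ 2 (Λ / L) τ q` on the cylinder -/
theorem ΛΨ_le {s : ℝ} (hs : s ∈ Icc S.t S.t') {x : M} (hx : x ∈ S.Kc) (h0 : 0 ≤ S.ρ s x)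
    (hB : 10 * (2 * P.K + 4) ≤ P.B) : P.L * P.Ψ (S.ρ s x) s ≤ 2 * (P.τ s * S.q) := by
  have h1 := mul_le_mul_of_nonneg_left (Ψ_le h hs hx h0 hB) h.L0.le
  have h2 := S.τ_q h
  have h3 := mul_le_mul_of_nonneg_right (h.τ_mono hs.1) (S.q_pos h).le
  nlinarith

end Stp

end

end Crest.Agent.T223.Os
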