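import Crest.Agent.T223.OsBas_21
import Crest.Agent.T223.FrB_38
import Crest.Agent.T223.TrRic_90

/-!
# Row 223, module OSG, kit A (helper61): chart independence (static)

* `Sc_eq`, `Gr_eq`, `lv_eq`, `Sc_pull`, `Gr_pull`, `lv_pull`
* chart level inequalities `LyhGeC`, ... ; `lyhGe_iff` (one chart), `lyhGe_pull` (pull-back), ...
* `BkAbs.sc`, `BkAbs.ric`, `LyhGe.bkge`, monotonicity
-/

set_option autoImplicit false
set_option linter.unusedSectionVars false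

open Set Filter Topology Metric
open scoped ContDiff ComplexConjugate Matrix ComplexOrder

namespace Crest.Agent.T223.Os

open Crest.Agent.R275.Geo Crest.Agent.R273.Kah_333 Crest.Agent.R273.Hess_333
open Crest.Agent.R273.HessB_333
open Crest.Agent.R275.Core144 (Jm J_mul J_self)
open Crest.Agent.T223.Br Crest.Agent.T223.Tr
open Crest.Agent.T223.Db (dom SmST)

noncomputable section

variable {n : ℕ} {M : Type} [TopologicalSpace M] {A : Atl n M} {G : MF A} {U W : Set M}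
  {i j : A.ι} {x : M} {f u : M → ℝ}

/-! ### domains -/

theorem dom_nhds (hU : IsOpen U) (hi : x ∈ (A.e i).source) (hx : x ∈ U) :
    dom A i U ∈ 𝓝 (A.e i x) := (isOpen_dom i hU).mem_nhds (mem_dom hi hx)

theorem dom_src {z : Cn n} (hz : z ∈ dom A i U) : (A.e i).symm z ∈ (A.e i).source :=
  (A.e i).map_target hz.1

theorem dom_inv {z : Cn n} (hz : z ∈ dom A i U) : A.e i ((A.e i).symm z) = z :=
  (A.e i).right_inv hz.1

theorem kahAt_dom (hG : KahOn G U) {z : Cn n} (hz : z ∈ dom A i U) : KahAt (G i) z :=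
  dom_inv hz ▸ hG.kah i _ (dom_src hz) hz.2

theorem SmOn.cda_pull {ψ : Cn n → M} {D : Set (Cn n)} {w : Cn n} (hf : SmOn A U f) (hU : IsOpen U)
    (hψ : Hol A ψ D) (hD : IsOpen D) (hw : w ∈ D) (hx : ψ w ∈ U) :
    ContDiffAt ℝ ∞ (fun y => f (ψ y)) w :=
  (ContDiffAt.comp (g := inC A (ch A (ψ w)) f) w (hf.contDiffAt hU (ch_mem A _) hx)
    (holAt_rd hψ hD hw (ch_mem A _)).cd).congr_of_eventuallyEq
    (comp_rd (hψ w hw).1 (ch_mem A _) f)

/-! ### chart level inequalities -/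

/-- `LyhGe` in one chart -/
def LyhGeC (g : Cn n → Mat n) (τ κ θ : ℝ) (z : Cn n) : Prop :=
  ∀ (c : ℂ) (a v : Cn n), -(θ * (nq (g z) a + κ * ‖c‖ ^ 2) * nq (g z) v) ≤ lyhS g τ z c a v

/-- `LyhAbs` in one chart -/
def LyhAbsC (g : Cn n → Mat n) (τ κ θ : ℝ) (z : Cn n) : Prop :=
  ∀ (c : ℂ) (a v : Cn n), |lyhS g τ z c a v| ≤ θ * (nq (g z) a + κ * ‖c‖ ^ 2) * nq (g z) v

/-- `BkAbs` in one chart -/
def BkAbsC (g : Cn n → Mat n) (c : ℝ) (z : Cn n) : Prop := BKge g z c ∧ BKle g z c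

/-- `HesGe` in one chart -/
def HesGeC (g : Cn n → Mat n) (φ : Cn n → ℝ) (c : ℝ) (z : Cn n) : Prop :=
  ∀ v, -(c * nq (g z) v) ≤ nq (hess φ z) v - nq (ric g z) v

/-- `HesAbs` in one chart -/
def HesAbsC (g : Cn n → Mat n) (φ : Cn n → ℝ) (c : ℝ) (z : Cn n) : Prop :=
  ∀ v, |nq (hess φ z) v| ≤ c * nq (g z) v


section rel

variable {T : Cn n → Cn n} {z : Cn n} {g1 g2 g1' g2' : Cn n → Mat n} {u1 u2 : Cn n → ℝ}

theorem rel_hess (h : Rel T z g1 g2) (hu : ContDiffAt ℝ ∞ u2 (T z))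
    (e : u1 =ᶠ[𝓝 z] fun w => u2 (T w)) (v : Cn n) :
    nq (hess u1 z) v = nq (hess u2 (T z)) (fderiv ℂ T z v) := by
  rw [hess_congr e, hess_pbk hu h.hol, nq_pbk]

theorem rel_ric (h : Rel T z g1 g2) (v : Cn n) :
    nq (ric g1 z) v = nq (ric g2 (T z)) (fderiv ℂ T z v) := by rw [h.ric, nq_pbk]

theorem rel_lyhS (h : Rel T z g1 g2) (τ : ℝ) (c : ℂ) (a v : Cn n) :
    lyhS g1 τ z c a v = lyhS g2 τ (T z) c (fderiv ℂ T z a) (fderiv ℂ T z v) := by
  have h1 := rel_hess h h.kah.cd_scal (h.eventually.mono fun _ hw => hw.scal) v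
  have h2 : nq (ric g1 z * (g1 z)⁻¹ * ric g1 z) v =
      nq (ric g2 (T z) * (g2 (T z))⁻¹ * ric g2 (T z)) (fderiv ℂ T z v) := by
    rw [h.ric, h.mul_inv_mul, nq_pbk]
  simp only [lyhS, Ev.nq_add, Ev.nq_smul, h1, h2, rel_ric h, h.nabRic_sum, h.bis]

theorem rel_forall (h : Rel T z g1 g2) {P : Cn n → Prop} :
    (∀ v, P (fderiv ℂ T z v)) ↔ ∀ v, P v := h.surj.forall.symm

theorem rel_lyhGe (h : Rel T z g1 g2) (τ κ θ : ℝ) :
    LyhGeC g1 τ κ θ z ↔ LyhGeC g2 τ κ θ (T z) := by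
  simp only [LyhGeC, rel_lyhS h, h.nq]
  refine forall_congr' fun c => ?_
  rw [h.surj.forall₂ (p := fun a v => _ ≤ lyhS g2 τ (T z) c a v)]

theorem rel_lyhAbs (h : Rel T z g1 g2) (τ κ θ : ℝ) :
    LyhAbsC g1 τ κ θ z ↔ LyhAbsC g2 τ κ θ (T z) := by
  simp only [LyhAbsC, rel_lyhS h, h.nq]
  refine forall_congr' fun c => ?_
  rw [h.surj.forall₂ (p := fun a v => |lyhS g2 τ (T z) c a v| ≤ _)]

theorem rel_bkAbs (h : Rel T z g1 g2) (c : ℝ) : BkAbsC g1 c z ↔ BkAbsC g2 c (T z) :=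
  and_congr (h.bkge c) (h.bkle c)

theorem rel_hesGe (h : Rel T z g1 g2) (hu : ContDiffAt ℝ ∞ u2 (T z))
    (e : u1 =ᶠ[𝓝 z] fun w => u2 (T w)) (c : ℝ) : HesGeC g1 u1 c z ↔ HesGeC g2 u2 c (T z) := by
  simp only [HesGeC, rel_hess h hu e, rel_ric h, h.nq]
  exact rel_forall h (P := fun v => -(c * nq (g2 (T z)) v) ≤ _ - nq (ric g2 (T z)) v)

theorem rel_hesAbs (h : Rel T z g1 g2) (hu : ContDiffAt ℝ ∞ u2 (T z))
    (e : u1 =ᶠ[𝓝 z] fun w => u2 (T w)) (c : ℝ) : HesAbsC g1 u1 c z ↔ HesAbsC g2 u2 c (T z) := by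
  simp only [HesAbsC, rel_hess h hu e, h.nq]
  exact rel_forall h (P := fun v => |nq (hess u2 (T z)) v| ≤ c * nq (g2 (T z)) v)



end rel

/-- a chart independent property holds in all charts iff it holds in one chart -/
theorem all_iff_one {P : A.ι → Prop} (hi : x ∈ (A.e i).source)
    (h : ∀ j, x ∈ (A.e j).source → (P j ↔ P i)) : (∀ j, x ∈ (A.e j).source → P j) ↔ P i :=
  ⟨fun H => H i hi, fun H j hj => (h j hj).2 H⟩

section one

variable (hG : KahOn G U) (hU : IsOpen U) (hx : x ∈ U) (hi : x ∈ (A.e i).source)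

include hG hU hx hi

theorem Sc_eq : Sc G x = scal (G i) (A.e i x) := by
  rw [Sc, (hG.rel (ch_mem A x) hi (hU.mem_nhds hx)).scal, tm_apply _ (ch_mem A x)]

theorem Gr_eq' (hf : DifferentiableAt ℝ (inC A i f) (A.e i x)) :
    Gr G f x = gsq (G i) (inC A i f) (A.e i x) := by
  rw [Gr, (hG.rel (ch_mem A x) hi (hU.mem_nhds hx)).gsq (by rwa [tm_apply _ (ch_mem A x)])
    (inC_tm (ch_mem A x) hi f), tm_apply _ (ch_mem A x)]



theorem lap_chg (hj : x ∈ (A.e j).source) (hf : ContDiffAt ℝ ∞ (inC A j f) (A.e j x)) :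
    lap (G i) (inC A i f) (A.e i x) = lap (G j) (inC A j f) (A.e j x) := by
  rw [(hG.rel hi hj (hU.mem_nhds hx)).lap (by rwa [tm_apply _ hi]) (inC_tm hi hj f), tm_apply _ hi]

theorem lyhGe_iff (τ κ θ : ℝ) : LyhGe G τ κ θ x ↔ LyhGeC (G i) τ κ θ (A.e i x) :=
  all_iff_one (P := fun j => LyhGeC (G j) τ κ θ (A.e j x)) hi fun j hj => by
    rw [rel_lyhGe (hG.rel hj hi (hU.mem_nhds hx)), tm_apply _ hj]

theorem lyhAbs_iff (τ κ θ : ℝ) : LyhAbs G τ κ θ x ↔ LyhAbsC (G i) τ κ θ (A.e i x) :=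
  all_iff_one (P := fun j => LyhAbsC (G j) τ κ θ (A.e j x)) hi fun j hj => by
    rw [rel_lyhAbs (hG.rel hj hi (hU.mem_nhds hx)), tm_apply _ hj]

theorem bkAbs_iff (c : ℝ) : BkAbs G c x ↔ BkAbsC (G i) c (A.e i x) :=
  all_iff_one (P := fun j => BkAbsC (G j) c (A.e j x)) hi fun j hj => by
    rw [rel_bkAbs (hG.rel hj hi (hU.mem_nhds hx)), tm_apply _ hj]



theorem hesGe_iff' (hu : ContDiffAt ℝ ∞ (inC A i u) (A.e i x)) (c : ℝ) :
    HesGe G u c x ↔ HesGeC (G i) (inC A i u) c (A.e i x) :=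
  all_iff_one (P := fun j => HesGeC (G j) (inC A j u) c (A.e j x)) hi fun j hj => by
    rw [rel_hesGe (hG.rel hj hi (hU.mem_nhds hx)) (by rwa [tm_apply _ hj]) (inC_tm hj hi u),
      tm_apply _ hj]

theorem hesGe_iff (hu : SmOn A U u) (c : ℝ) :
    HesGe G u c x ↔ HesGeC (G i) (inC A i u) c (A.e i x) :=
  hesGe_iff' hG hU hx hi (hu.contDiffAt hU hi hx) c

theorem hesAbs_iff' (hu : ContDiffAt ℝ ∞ (inC A i u) (A.e i x)) (c : ℝ) :
    HesAbs G u c x ↔ HesAbsC (G i) (inC A i u) c (A.e i x) :=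
  all_iff_one (P := fun j => HesAbsC (G j) (inC A j u) c (A.e j x)) hi fun j hj => by
    rw [rel_hesAbs (hG.rel hj hi (hU.mem_nhds hx)) (by rwa [tm_apply _ hj]) (inC_tm hj hi u),
      tm_apply _ hj]

theorem hesAbs_iff (hu : SmOn A U u) (c : ℝ) :
    HesAbs G u c x ↔ HesAbsC (G i) (inC A i u) c (A.e i x) :=
  hesAbs_iff' hG hU hx hi (hu.contDiffAt hU hi hx) c



end one

section pull

variable {ψ : Cn n → M} {D : Set (Cn n)} {w : Cn n} (hG : KahOn G U) (hU : IsOpen U)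
  (hψ : Imm A ψ D) (hD : IsOpen D) (hw : w ∈ D) (hx : ψ w ∈ U)

include hG hU hψ hD hw hx


theorem Gr_pull (hf : SmOn A U f) : Gr G f (ψ w) = gsq (pull G ψ) (fun y => f (ψ y)) w :=
  ((rel_pull hG hψ hD hw (hU.mem_nhds hx) (ch_mem A _)).gsq
    ((hf.contDiffAt hU (ch_mem A _) hx).differentiableAt (by simp)) (comp_rd (hψ.1 w hw).1 (ch_mem A _) f)).symm

theorem lap_pull (hi : ψ w ∈ (A.e i).source) (hf : SmOn A U f) :
    lap (G i) (inC A i f) (A.e i (ψ w)) = lap (pull G ψ) (fun y => f (ψ y)) w :=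
  ((rel_pull hG hψ hD hw (hU.mem_nhds hx) hi).lap (hf.contDiffAt hU hi hx) (comp_rd (hψ.1 w hw).1 hi f)).symm



theorem lyhAbs_pull (τ κ θ : ℝ) : LyhAbs G τ κ θ (ψ w) ↔ LyhAbsC (pull G ψ) τ κ θ w :=
  (lyhAbs_iff hG hU hx (ch_mem A _) τ κ θ).trans
    (rel_lyhAbs (rel_pull hG hψ hD hw (hU.mem_nhds hx) (ch_mem A _)) τ κ θ).symm

theorem bkAbs_pull (c : ℝ) : BkAbs G c (ψ w) ↔ BkAbsC (pull G ψ) c w :=
  (bkAbs_iff hG hU hx (ch_mem A _) c).trans
    (rel_bkAbs (rel_pull hG hψ hD hw (hU.mem_nhds hx) (ch_mem A _)) c).symm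


theorem hesAbs_pull (hu : SmOn A U u) (c : ℝ) :
    HesAbs G u c (ψ w) ↔ HesAbsC (pull G ψ) (fun y => u (ψ y)) c w :=
  (hesAbs_iff hG hU hx (ch_mem A _) hu c).trans
    (rel_hesAbs (rel_pull hG hψ hD hw (hU.mem_nhds hx) (ch_mem A _)) (hu.contDiffAt hU (ch_mem A _) hx)
      (comp_rd (hψ.1 w hw).1 (ch_mem A _) u) c).symm


end pull

/-! ### congruence: fields which agree on an open set -/

theorem EqF.ev {G' : MF A} (h : EqF G G' U) (hU : IsOpen U) (hx : x ∈ U)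
    (hi : x ∈ (A.e i).source) : G i =ᶠ[𝓝 (A.e i x)] G' i := by
  filter_upwards [dom_nhds hU hi hx] with w hw
  have h1 := h i _ (dom_src hw) hw.2
  rwa [dom_inv hw] at h1

theorem EqF.symm {G' : MF A} (h : EqF G G' U) : EqF G' G U := fun i x hi hx => (h i x hi hx).symm

theorem EqF.trans {G' G'' : MF A} (h : EqF G G' U) (h' : EqF G' G'' U) : EqF G G'' U :=
  fun i x hi hx => (h i x hi hx).trans (h' i x hi hx)

theorem EqF.mono {G' : MF A} (h : EqF G G' W) (hW : U ⊆ W) : EqF G G' U :=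
  fun i x hi hx => h i x hi (hW hx)

theorem EqF.kahOn {G' : MF A} (h : EqF G G' U) (hU : IsOpen U) (hG : KahOn G' U) : KahOn G U :=
  ⟨fun i x hi hx => (hG.kah i x hi hx).congr (h.ev hU hx hi), fun i j x hx hxU => by
    rw [h i x hx.1 hxU, h j x hx.2 hxU]; exact hG.tr i j x hx hxU⟩

theorem inC_ev {V : Type*} {φ φ' : M → V} (h : ∀ y ∈ U, φ y = φ' y) (hU : IsOpen U) (hx : x ∈ U)
    (hi : x ∈ (A.e i).source) : inC A i φ =ᶠ[𝓝 (A.e i x)] inC A i φ' := by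
  filter_upwards [dom_nhds hU hi hx] with w hw using h _ hw.2

section congr

variable {g g' : Cn n → Mat n} {z : Cn n}

theorem scal_congr (e : g =ᶠ[𝓝 z] g') : scal g z = scal g' z := by
  rw [scal, scal, ric_congr e, e.self_of_nhds]

theorem gsq_congr' (e : g =ᶠ[𝓝 z] g') {φ φ' : Cn n → ℝ} (e' : φ =ᶠ[𝓝 z] φ') :
    gsq g φ z = gsq g' φ' z := by
  have h : dz φ z = dz φ' z := by
    ext a
    exact R275.EDR890.wd_congr (e'.mono fun w hw => by simp only [cu, hw]) _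
  rw [gsq, gsq, h, e.self_of_nhds]




end congr

section congrM

variable {G' : MF A} (h : EqF G G' U) (hU : IsOpen U) (hx : x ∈ U)

include h hU hx

theorem EqF.Sc : Sc G x = Sc G' x := scal_congr (h.ev hU hx (ch_mem A x))

theorem EqF.Gr {f' : M → ℝ} (hf : ∀ y ∈ U, f y = f' y) : Gr G f x = Gr G' f' x :=
  gsq_congr' (h.ev hU hx (ch_mem A x)) (inC_ev hf hU hx (ch_mem A x))

theorem EqF.lv (K0 : Kah A) : lv K0 G x = lv K0 G' x := by
  simp only [Os.lv, lvol, ldet, h _ x (ch_mem A x) hx]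







end congrM

/-! ### consequences and monotonicity -/

theorem lyhS_zero (g : Cn n → Mat n) (τ : ℝ) (z a v : Cn n) : lyhS g τ z 0 a v = bis g z v a := by
  simp [lyhS]

theorem LyhGeC.bkge {g : Cn n → Mat n} {τ κ θ : ℝ} {z : Cn n} (h : LyhGeC g τ κ θ z) :
    BKge g z θ := fun v w => by
  have h1 := h 0 w v
  rw [lyhS_zero] at h1
  simp only [norm_zero, ne_eq, OfNat.ofNat_ne_zero, not_false_eq_true, zero_pow, mul_zero,
    add_zero] at h1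
  linarith

theorem LyhGe.bkge {τ κ θ : ℝ} (h : LyhGe G τ κ θ x) (hi : x ∈ (A.e i).source) :
    BKge (G i) (A.e i x) θ := LyhGeC.bkge (h i hi)

theorem LyhAbs.ge {τ κ θ : ℝ} (h : LyhAbs G τ κ θ x) : LyhGe G τ κ θ x :=
  fun i hi c a v => neg_le_of_abs_le (h i hi c a v)

theorem BkAbsC.ric {g : Cn n → Mat n} {c : ℝ} {z : Cn n} (h : BkAbsC g c z) (hg : KahAt g z)
    (v : Cn n) : |nq (ric g z) v| ≤ n * c * nq (g z) v :=
  abs_le.2 ⟨ric_ge_of_BKge hg h.1 v, ric_le_of_BKle hg h.2 v⟩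

theorem abs_trg_le {g H : Mat n} (hg : g.PosDef) (hH : H.IsHermitian) {c : ℝ}
    (h : ∀ v, |nq H v| ≤ c * nq g v) : |trg g H| ≤ n * c := by
  have h1 := Ev.trg_lower hg hH (b := c) fun v => by linarith [neg_le_of_abs_le (h v)]
  exact abs_le.2 ⟨by linarith, Ev.trg_upper hg hH fun v => le_of_abs_le (h v)⟩

theorem BkAbsC.scal {g : Cn n → Mat n} {c : ℝ} {z : Cn n} (h : BkAbsC g c z) (hg : KahAt g z) :
    |scal g z| ≤ n ^ 2 * c :=
  (abs_trg_le hg.posDef hg.ric_herm (h.ric hg)).trans_eq (by ring)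


theorem BkAbs.ric {c : ℝ} (h : BkAbs G c x) (hG : KahOn G U) (hx : x ∈ U)
    (hi : x ∈ (A.e i).source) (v : Cn n) :
    |nq (ric (G i) (A.e i x)) v| ≤ n * c * nq (G i (A.e i x)) v :=
  BkAbsC.ric (h i hi) (hG.kah i x hi hx) v



theorem LyhGe.ric {τ κ θ : ℝ} (h : LyhGe G τ κ θ x) (hG : KahOn G U) (hx : x ∈ U)
    (hi : x ∈ (A.e i).source) (v : Cn n) :
    -(n * θ * nq (G i (A.e i x)) v) ≤ nq (ric (G i) (A.e i x)) v :=
  ric_ge_of_BKge (hG.kah i x hi hx) (h.bkge hi) v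

theorem HesAbs.lap {c : ℝ} (h : HesAbs G u c x) (hG : KahOn G U) (hx : x ∈ U)
    (hi : x ∈ (A.e i).source) (hu : ContDiffAt ℝ ∞ (inC A i u) (A.e i x)) :
    |lap (G i) (inC A i u) (A.e i x)| ≤ n * c :=
  abs_trg_le (hG.kah i x hi hx).posDef (hess_herm hu) (h i hi)

theorem nq_nonneg_of (hG : KahOn G U) (hx : x ∈ U) (hi : x ∈ (A.e i).source) (v : Cn n) :
    0 ≤ nq (G i (A.e i x)) v := Tr.nq_nonneg (hG.kah i x hi hx).posDef.posSemidef v

section mono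

variable (hG : KahOn G U) (hx : x ∈ U)

include hG hx

theorem LyhGe.mono {τ κ θ κ' θ' : ℝ} (h : LyhGe G τ κ θ x) (hθ0 : 0 ≤ θ) (hκ0 : 0 ≤ κ)
    (hθ : θ ≤ θ') (hκ : κ ≤ κ') : LyhGe G τ κ' θ' x := fun i hi c a v => by
  refine le_trans (neg_le_neg ?_) (h i hi c a v)
  have h1 := nq_nonneg_of hG hx hi a
  have h2 := nq_nonneg_of hG hx hi v
  gcongr
  exact hθ0.trans hθ

theorem LyhAbs.mono {τ κ θ κ' θ' : ℝ} (h : LyhAbs G τ κ θ x) (hθ0 : 0 ≤ θ) (hκ0 : 0 ≤ κ)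
    (hθ : θ ≤ θ') (hκ : κ ≤ κ') : LyhAbs G τ κ' θ' x := fun i hi c a v => by
  refine le_trans (h i hi c a v) ?_
  have h1 := nq_nonneg_of hG hx hi a
  have h2 := nq_nonneg_of hG hx hi v
  gcongr
  exact hθ0.trans hθ

theorem BkAbs.mono {c c' : ℝ} (h : BkAbs G c x) (hc : c ≤ c') : BkAbs G c' x := fun i hi => by
  have h1 : ∀ v w, c * nq (G i (A.e i x)) v * nq (G i (A.e i x)) w ≤
      c' * nq (G i (A.e i x)) v * nq (G i (A.e i x)) w := fun v w => by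
    have h1 := nq_nonneg_of hG hx hi v
    have h2 := nq_nonneg_of hG hx hi w
    gcongr
  exact ⟨fun v w => (neg_le_neg (h1 v w)).trans ((h i hi).1 v w),
    fun v w => ((h i hi).2 v w).trans (h1 v w)⟩

theorem HesGe.mono {c c' : ℝ} (h : HesGe G u c x) (hc : c ≤ c') : HesGe G u c' x :=
  fun i hi v => (neg_le_neg (mul_le_mul_of_nonneg_right hc (nq_nonneg_of hG hx hi v))).trans
    (h i hi v)

theorem HesAbs.mono {c c' : ℝ} (h : HesAbs G u c x) (hc : c ≤ c') : HesAbs G u c' x :=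
  fun i hi v => (h i hi v).trans (mul_le_mul_of_nonneg_right hc (nq_nonneg_of hG hx hi v))

theorem hesGe_of_abs {c c' : ℝ} (h : HesAbs G u c x) (h' : BkAbs G c' x) :
    HesGe G u (c + n * c') x := fun i hi v => by
  linarith [neg_le_of_abs_le (h i hi v), le_of_abs_le (h'.ric hG hx hi v)]

end mono

theorem MetLe.mono {K0 : Kah A} {c c' : ℝ} (h : MetLe G c K0 x) (hc : c ≤ c') : MetLe G c' K0 x :=
  fun i hi v => (h i hi v).trans
    (mul_le_mul_of_nonneg_right hc (Tr.nq_nonneg (K0.pos i x hi).posSemidef v))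

end

end Crest.Agent.T223.Os
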