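import Crest.Agent.T223.LoE_18
import Crest.Agent.T223.OsTch_24
import Crest.Agent.T223.OsBas_21
import Crest.Agent.T223.EvC_41
import Crest.Agent.T223.FrB_38
import Crest.Agent.T223.TrRic_90
import Crest.Agent.T223.OsKitA_61
import Crest.Agent.T223.Bx_45
import Crest.Agent.T223.LoCal_18

-- ▼ part T223/LoF_18
section

/-!
# T223, module OSG, leaf (f) (helper18): `lfStmt : Os.LfStmt n`

`c + ε ρ - ζ - (C / α) S` is a subsolution of the heat equation in the support sense.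
-/

set_option autoImplicit false
set_option linter.unusedSectionVars false
set_option linter.unusedVariables false

open Set Filter Topology Metric
open scoped ContDiff ComplexConjugate Matrix ComplexOrder

noncomputable section

namespace Crest.Agent.T223.Lo

open Crest.Agent.R275.Geo Crest.Agent.R273.Kah_333 Crest.Agent.R273.Hess_333
open Crest.Agent.T223.Br Crest.Agent.T223.Tr Crest.Agent.T223.Os
open Crest.Agent.T223.Db (dom SmST)
open Crest.Agent.T223.Bx (Rg)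

variable {n : ℕ} {M : Type} [TopologicalSpace M] {A : Atl n M}
variable [T2Space M] [ConnectedSpace M] {K0 : Kah A} {p : M} {P : Par} {I : Init K0 p} {a : ℝ}
variable {S : Stp P I a}

/-- `∂_s S = n + s R` along the time lines -/
theorem hasDerivAt_osSf {s : ℝ} (hs : s ∈ Ioo S.t S.b) {x : M} (hx : x ∈ S.U) :
    HasDerivAt (fun s => Os.Sf K0 (S.g s) (S.v s) s x) (n + s * Sc (S.g s) x) s := by
  have h1 := ((S.hv.dt s hs x hx).add ((hasDerivAt_id s).mul (hasDerivAt_lv K0 S.flow hs hx))).add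
    ((hasDerivAt_id s).const_mul (n : ℝ))
  refine HasDerivAt.congr_deriv h1 ?_
  simp only [id]
  ring

theorem cont_osSf : ContinuousOn (fun q : ℝ × M => Os.Sf K0 (S.g q.1) (S.v q.1) q.1 q.2)
    (Icc S.t S.b ×ˢ S.U) :=
  ((continuousOn_of_SmST S.hv.sm).add
    (continuousOn_fst.mul (continuousOn_of_SmST (smST_lv K0 S.flow)))).add
    (continuousOn_const.mul continuousOn_fst)

/-- `S` read in a chart -/
def SC (S : Stp P I a) (i : A.ι) : ℝ → Cn n → ℝ :=
  Lo.Sf (gc K0 i) (fun s => S.g s i) fun s => inC A i (S.v s)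

section loc

variable {s : ℝ} (hs : s ∈ Ioo S.t S.b) {i : A.ι} {x : M} (hi : x ∈ (A.e i).source) (hx : x ∈ S.U)
include hs hi hx

theorem SC_apply : SC S i s (A.e i x) = Os.Sf K0 (S.g s) (S.v s) s x := by
  unfold SC Lo.Sf Os.Sf
  rw [lv_eq K0 (S.flow.kah s (Ioo_subset_Icc_self hs)) hi hx]
  simp only [Os.inC_apply _ hi]
  rfl

theorem SC_ev : ∀ᶠ q : ℝ × Cn n in 𝓝 (s, A.e i x),
    SC S i q.1 q.2 = Os.Sf K0 (S.g q.1) (S.v q.1) q.1 ((A.e i).symm q.2) := by
  filter_upwards [T24.ev_loc hs hi hx] with q hq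
  rw [← SC_apply hq.1 hq.2.1 hq.2.2.1, hq.2.2.2]

theorem rg_SC : Rg (SC S i) s (A.e i x) :=
  Rg.of_joint (contDiffAt_Sf (T24.krfAt hs hi hx) (kahAt_gc K0 ((A.e i).map_source hi))
    (T24.cd_v hs hi hx))

theorem box_SC : box (fun s => S.g s i) (SC S i) s (A.e i x) =
    trg (S.g s i (A.e i x)) (gc K0 i (A.e i x)) := by
  refine box_Sf (T24.krfAt hs hi hx) (kahAt_gc K0 ((A.e i).map_source hi))
    (T24.rg_v hs hi hx).sp ?_ (S.hv.pot s (Ioo_subset_Icc_self hs) i x hi hx)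
  have h1 := S.hv.dt s hs x hx
  rw [lv_eq K0 (S.flow.kah s (Ioo_subset_Icc_self hs)) hi hx] at h1
  simp only [Os.inC_apply _ hi]
  refine h1.congr_deriv ?_
  unfold lvol
  ring

end loc

/-- the two inequalities of (f) at once -/
theorem of_gen (h : P.Ok) (hK : 2 * (P.K + P.Cb * (n ^ 2 * P.K)) ≤ P.K1) (S : Stp P I a)
    {c ε α : ℝ} (hε : |ε| ≤ 1) (hα : 1 ≤ α) (y : M)
    (hbot : ∀ x ∈ S.Kc, c + ε * S.ρ S.t x - zt K0 y α x -
      P.Cb / α * Os.Sf K0 (S.g S.t) (S.v S.t) S.t x ≤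
        P.K1 * (1 + S.t) * (min (S.E S.t x) 1 / P.J)) :
    ∀ s ∈ Icc S.t S.t', ∀ x ∈ S.Kc, c + ε * S.ρ s x - zt K0 y α x -
      P.Cb / α * Os.Sf K0 (S.g s) (S.v s) s x ≤ P.K1 * (1 + s) * S.E s x := by
  have hK0 := h.K0
  have hK1 := h.K10
  have hC0 := h.Cb0
  have hq := S.q_pos h
  have hqr := S.q_r h
  have hα0 : 0 < α := by linarith
  have hCα : 0 ≤ P.Cb / α := by positivity
  have hCα' : P.Cb / α ≤ P.Cb := div_le_self hC0.le hα
  have hpos : ∀ {s : ℝ}, s ∈ Icc S.t S.t' → 0 < 1 + s := fun hs => by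
    linarith [Stp.nonneg h hs]
  have key := T24.touchE h (S := S) (c0 := P.K1)
    (F := fun s x => (1 + s)⁻¹ * (c + ε * S.ρ s x - zt K0 y α x -
      P.Cb / α * Os.Sf K0 (S.g s) (S.v s) s x)) hK1.le ?_ ?_ ?_ ?_
  · intro s hs x hx
    have h1 := key s hs x hx
    rw [inv_mul_le_iff₀ (hpos hs)] at h1
    linarith
  · refine ContinuousOn.upperSemicontinuousOn ?_
    refine ContinuousOn.mul ((continuousOn_const.add continuousOn_fst).inv₀
      fun q hq => (hpos hq.1).ne') ?_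
    refine ((continuousOn_const.add (continuousOn_const.mul (Stp.cont_ρK h))).sub
      ((continuous_zeta K0 y α).comp continuous_snd).continuousOn).sub
      (continuousOn_const.mul (cont_osSf.mono (Stp.cyl_sub h)))
  · intro x hx
    have ht : S.t ∈ Icc S.t S.t' := ⟨le_rfl, (S.t_lt h).le⟩
    rw [inv_mul_le_iff₀ (hpos ht)]
    have h1 := hbot x hx
    have h2 := Stp.e0_le h ht hx
    have h3 := Stp.E_pos (S := S) S.t x
    have h4 : P.K1 * (1 + S.t) * (min (S.E S.t x) 1 / P.J) ≤ P.K1 * (1 + S.t) * S.E S.t x :=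
      mul_le_mul_of_nonneg_left (by linarith) (mul_pos hK1 (hpos ht)).le
    linarith
  · intro s hs x hx hE
    rw [inv_mul_le_iff₀ (hpos hs)]
    have hs0 := Stp.nonneg h hs
    have h1 := hbot x hx
    have h2 := Stp.e0_le' h (S := S) x
    have h3 : P.K1 * (1 + S.t) * (min (S.E S.t x) 1 / P.J) ≤ P.K1 * (1 + s) * (1 / 16) := by
      have := (Stp.e0_pos h (S := S) x).le
      have := hs.1
      gcongr
    have h4 : ε * (S.ρ s x - S.ρ S.t x) ≤ P.K := by
      have h5 := (Stp.crudeK h hs hx).oρ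
      have h6 := mul_le_mul_of_nonneg_left (S.r_le_one h) hK0.le
      calc _ ≤ |ε * (S.ρ s x - S.ρ S.t x)| := le_abs_self _
        _ = |ε| * |S.ρ s x - S.ρ S.t x| := abs_mul _ _
        _ ≤ 1 * (P.K * S.r) := mul_le_mul hε h5 (abs_nonneg _) zero_le_one
        _ ≤ _ := by linarith
    have h5 := le_add_of_deriv (f := fun s => -Os.Sf K0 (S.g s) (S.v s) s x)
      (f' := fun s => -(n + s * Sc (S.g s) x)) (c := s * (n ^ 2 * (P.K * S.q))) hs.1
      ((cont_osSf.comp (continuous_id.prodMk continuous_const).continuousOn fun s' hs' =>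
        ⟨⟨hs'.1, hs'.2.trans (Stp.mem_Icc h hs).2⟩, hx.1⟩).neg) fun s' hs' => by
        have hs'' : s' ∈ Icc S.t S.t' := ⟨hs'.1.le, hs'.2.le.trans hs.2⟩
        refine ⟨(hasDerivAt_osSf (Stp.mem_Ioo h hs'' hs'.1) hx.1).neg, ?_⟩
        have h6 := scal_ge ((S.flow.kah s' (Stp.mem_Icc h hs'')).kah _ x (ch_mem A x) hx.1)
          ((Stp.crudeK h hs'' hx).bk _ (ch_mem A x)).1
        rw [S.div_r h] at h6
        have h7 := mul_le_mul_of_nonneg_left h6 (Stp.nonneg h hs'')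
        have h8 : s' * (n ^ 2 * (P.K * S.q)) ≤ s * (n ^ 2 * (P.K * S.q)) :=
          mul_le_mul_of_nonneg_right hs'.2.le (by positivity)
        have h9 : (0 : ℝ) ≤ n := Nat.cast_nonneg n
        unfold Sc
        linarith
    have h6 : s * (n ^ 2 * (P.K * S.q)) * (s - S.t) ≤ s * (n ^ 2 * P.K) := by
      have h7 : S.q * (s - S.t) ≤ 1 := by
        rw [← hqr]; exact mul_le_mul_of_nonneg_left (Stp.sub_le h hs) hq.le
      calc _ = s * (n ^ 2 * P.K) * (S.q * (s - S.t)) := by ring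
        _ ≤ s * (n ^ 2 * P.K) * 1 := mul_le_mul_of_nonneg_left h7 (by positivity)
        _ = _ := mul_one _
    have h7 : P.Cb / α * (Os.Sf K0 (S.g S.t) (S.v S.t) S.t x - Os.Sf K0 (S.g s) (S.v s) s x) ≤
        P.Cb * (s * (n ^ 2 * P.K)) :=
      (mul_le_mul_of_nonneg_left (by linarith) hCα).trans
        (mul_le_mul_of_nonneg_right hCα' (by positivity))
    have h8 : (1 + s) * P.K1 ≤ (1 + s) * (P.K1 * S.E s x) :=
      mul_le_mul_of_nonneg_left (le_mul_of_one_le_right hK1.le hE) (hpos hs).le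
    have h9 := mul_le_mul_of_nonneg_left hK (hpos hs).le
    have h10 : 0 ≤ s * P.K := by positivity
    have h11 : 0 ≤ P.Cb * (n ^ 2 * P.K) := by positivity
    have h12 : 0 ≤ (1 + s) * P.K1 := by positivity
    nlinarith
  · intro s hs hts x hx hE hgt η hη
    have hs' := Stp.mem_Ioo h hs hts
    have hi := ch_mem A x
    set i := ch A x
    obtain ⟨b, hb1, hb2, hb3, hb4⟩ := zeta_supp I y hα0 hi
    have hEp := Stp.E_pos (S := S) s x
    have hr1 : Rg (fun s w => c + ε * inC A i (S.ρ s) w) s (A.e i x) :=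
      (Rg.const c).add ((T24.rg_ρ hs' hi hx.1).const_mul ε)
    have hr2 : Rg (fun s w => c + ε * inC A i (S.ρ s) w - b w) s (A.e i x) :=
      hr1.sub (Rg.static hb1)
    have hr3 := (rg_SC hs' hi hx.1).const_mul (P.Cb / α)
    have hr : Rg (fun s w => c + ε * inC A i (S.ρ s) w - b w - P.Cb / α * SC S i s w) s
        (A.e i x) := hr2.sub hr3
    have hd : HasDerivAt (fun s : ℝ => (1 + s)⁻¹) (-1 / (1 + s) ^ 2) s :=
      ((hasDerivAt_id s).const_add 1).inv (hpos hs).ne'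
    have hval : c + ε * inC A i (S.ρ s) (A.e i x) - b (A.e i x) - P.Cb / α * SC S i s (A.e i x) =
        c + ε * S.ρ s x - zt K0 y α x - P.Cb / α * Os.Sf K0 (S.g s) (S.v s) s x := by
      rw [Os.inC_apply _ hi, hb2, SC_apply hs' hi hx.1]
      rfl
    refine ⟨i, hi, fun s w => (1 + s)⁻¹ *
      (c + ε * inC A i (S.ρ s) w - b w - P.Cb / α * SC S i s w),
      (Rg.time hd.differentiableAt).mul hr, ?_, by simp only [hval], ?_⟩
    · refine Filter.Eventually.filter_mono nhdsWithin_le_nhds ?_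
      have h1 : ∀ᶠ q : ℝ × Cn n in 𝓝 (s, A.e i x), 0 < 1 + q.1 :=
        (continuous_const.add continuous_fst).continuousAt.eventually
          (lt_mem_nhds (a := (0 : ℝ)) (hpos hs))
      filter_upwards [h1, SC_ev hs' hi hx.1,
        (continuous_snd.tendsto (s, A.e i x)).eventually hb3] with q h1 h2 h3
      refine mul_le_mul_of_nonneg_left ?_ (inv_nonneg.2 h1.le)
      rw [h2]
      have h4 : zt K0 y α ((A.e i).symm q.2) ≤ b q.2 := h3
      simp only [inC]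
      linarith
    · rw [Bx.box_time_mul hd hr, Bx.box_sub hr2 hr3, Bx.box_sub hr1 (Rg.static hb1),
        Bx.box_add (Rg.const c) ((T24.rg_ρ hs' hi hx.1).const_mul ε), Bx.box_const,
        Bx.box_const_mul ε (T24.rg_ρ hs' hi hx.1), T24.box_ρ hs' hi hx.1,
        Bx.box_const_mul _ (rg_SC hs' hi hx.1), box_SC hs' hi hx.1, Bx.box_static]
      simp only [hval]
      have hp := T24.posDef hs' hi hx.1
      have h0 := (kahAt_gc K0 ((A.e i).map_source hi)).posDef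
      have h1 : lap (S.g s i) b (A.e i x) ≤
          P.Cb / (2 * α) * trg (S.g s i (A.e i x)) (gc K0 i (A.e i x)) := by
        rw [← trg_smul]
        refine trg_mono hp (hess_herm hb1) (h0.1.smul (by simp [IsSelfAdjoint])) fun v => ?_
        rw [nq_smul, ← S.hC]
        exact hb4 v
      have h2 : 0 ≤ trg (S.g s i (A.e i x)) (gc K0 i (A.e i x)) :=
        trg_nonneg hp h0.1 fun v => nq_nonneg h0.posSemidef v
      have h3 : P.Cb / (2 * α) = P.Cb / α / 2 := by field_simp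
      have h4 := mul_nonneg hCα h2
      have h5 : 0 < (1 + s)⁻¹ := inv_pos.2 (hpos hs)
      have h6 : 0 < c + ε * S.ρ s x - zt K0 y α x - P.Cb / α * Os.Sf K0 (S.g s) (S.v s) s x :=
        (mul_pos_iff_of_pos_left h5).1 ((mul_pos hK1 hEp).trans hgt)
      have h7 : 0 ≤ P.K1 * ((P.V - P.K) * S.q * S.E s x) := by
        have : 0 < P.V - P.K := by linarith [h.KV]
        positivity
      have h8 : -1 / (1 + s) ^ 2 * (c + ε * S.ρ s x - zt K0 y α x -
          P.Cb / α * Os.Sf K0 (S.g s) (S.v s) s x) ≤ 0 :=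
        mul_nonpos_of_nonpos_of_nonneg (div_nonpos_of_nonpos_of_nonneg (by norm_num) (sq_nonneg _))
          h6.le
      have h9 : (1 + s)⁻¹ * (0 + ε * 0 - -lap (S.g s i) b (A.e i x) -
          P.Cb / α * trg (S.g s i (A.e i x)) (gc K0 i (A.e i x))) ≤ 0 :=
        mul_nonpos_of_nonneg_of_nonpos h5.le (by rw [h3] at h1; linarith)
      linarith

theorem of_of (h : P.Ok) (hK : 2 * (P.K + P.Cb * (n ^ 2 * P.K)) ≤ P.K1) (S : Stp P I a) :
    S.OF := by
  intro s hs x hx α hα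
  refine ⟨fun y => ?_, ?_⟩
  · have h1 := of_gen h hK S (c := dK K0 p y - 1) (ε := -1) (by simp) hα y
      (fun x hx => by linarith [((S.init' hx).if' α hα).1 y]) s hs x hx
    linarith
  · have h1 := of_gen h hK S (c := -1) (ε := 1) (by simp) hα p
      (fun x hx => by linarith [((S.init' hx).if' α hα).2]) s hs x hx
    linarith

/-- **leaf (f)** -/
theorem lfStmt (n : ℕ) : LfStmt n := by
  unfold LfStmt Leaf
  refine Os.Ev.of_thr (fun _ => 0) (fun _ _ => 0)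
    (fun Cb K _ => 2 * (K + Cb * (n ^ 2 * K))) (fun _ _ _ _ _ _ => 0) ?_
  intro P h _ _ hK _ M _ _ _ A K0 p I a S
  exact of_of h hK S

end Crest.Agent.T223.Lo
end
end

-- ▼ part T223/OsApx_89
section

/-!
# Row 223, module OSG (helper89): leaf APX, from the exported flows to `Apx`
-/

set_option autoImplicit false

open Set Filter Topology Metric
open scoped ContDiff ComplexConjugate Matrix ComplexOrder

namespace Crest.Agent.T223.Os

open Crest.Agent.R275.Geo Crest.Agent.R273.Kah_333 Crest.Agent.R273.Hess_333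
open Crest.Agent.T223.Br Crest.Agent.T223.Tr Crest.Agent.R273.RMan4_798

namespace Ax89

variable {n : ℕ} {M : Type} [TopologicalSpace M] {A : Atl n M}

theorem nq0 {g : Cn n → Mat n} {z : Cn n} (h : KahAt g z) (v : Cn n) : 0 ≤ nq (g z) v :=
  Ev.nq_nonneg h.posDef.posSemidef v

theorem bkge_mono {g : Cn n → Mat n} {z : Cn n} (h : KahAt g z) {l l' : ℝ} (hl : BKge g z l)
    (e : l ≤ l') : BKge g z l' := fun v w => by
  refine le_trans (neg_le_neg ?_) (hl v w)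
  exact mul_le_mul_of_nonneg_right (mul_le_mul_of_nonneg_right e (nq0 h v)) (nq0 h w)

theorem bkle_mono {g : Cn n → Mat n} {z : Cn n} (h : KahAt g z) {l l' : ℝ} (hl : BKle g z l)
    (e : l ≤ l') : BKle g z l' := fun v w =>
  (hl v w).trans (mul_le_mul_of_nonneg_right (mul_le_mul_of_nonneg_right e (nq0 h v)) (nq0 h w))

theorem bkge_of_lyhGe {G : MF A} {τ κ θ : ℝ} {x : M} (h : LyhGe G τ κ θ x) {i : A.ι}
    (hi : x ∈ (A.e i).source) : BKge (G i) (A.e i x) θ := fun v w => by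
  have := h i hi 0 w v
  simp only [lyhS, norm_zero, ne_eq, OfNat.ofNat_ne_zero, not_false_eq_true, zero_pow, mul_zero,
    add_zero, zero_mul, map_zero, Complex.zero_re, zero_add] at this
  linarith

/-- `lyh` with parameter `t` from `lyhS` with a larger parameter -/
theorem lyh_ge {g : ℝ → Cn n → Mat n} {t τ t1 η : ℝ} {z : Cn n} (h : KRFat g t z) (h1 : 0 < t1)
    (h2 : t1 ≤ t) (h3 : t ≤ τ) (hη : 0 ≤ η) (hb : BKge (g t) z η) (c : ℂ) (a v : Cn n) :
    lyhS (g t) τ z c a v - ‖c‖ ^ 2 * (n * η / t1 * nq (g t z) v) ≤ lyh g t t z c a v := by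
  have h4 := ric_ge_of_BKge h.kahAt hb v
  have h5 := nq0 h.kahAt v
  have ht : 0 < t := h1.trans_le h2
  have h6 : τ⁻¹ ≤ t⁻¹ := inv_anti₀ ht h3
  have h7 : t⁻¹ ≤ t1⁻¹ := inv_anti₀ h1 h2
  have h8 : 0 ≤ τ⁻¹ := inv_nonneg.2 (ht.le.trans h3)
  have h9 : 0 ≤ (n : ℝ) * η * nq (g t z) v := by positivity
  have h10 : τ⁻¹ * nq (ric (g t) z) v - n * η / t1 * nq (g t z) v ≤ t⁻¹ * nq (ric (g t) z) v := by
    have e1 := mul_le_mul_of_nonneg_left h4 (sub_nonneg.2 h6)
    have e2 := mul_le_mul_of_nonneg_right (show t⁻¹ - τ⁻¹ ≤ t1⁻¹ by linarith) h9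
    rw [div_eq_mul_inv]
    nlinarith
  have h11 := mul_le_mul_of_nonneg_left h10 (sq_nonneg ‖c‖)
  rw [lyh, lyhS, h.ricT_eq_hess]
  simp only [Ev.nq_add, Ev.nq_smul]
  nlinarith

theorem lipOn_mono {G : MF A} {U V : Set M} {c c' : ℝ} {ρ : M → ℝ} (h : LipOn G U c ρ)
    (hV : V ⊆ U) (hc : c ≤ c') : LipOn G V c' ρ := fun i x hi hx ε hε => by
  filter_upwards [h i x hi (hV hx) ε hε] with w hw
  exact hw.trans (mul_le_mul_of_nonneg_right (by linarith) (Real.sqrt_nonneg _))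

/-- a bound for `Ψ` that does not depend on the time shift -/
theorem Ψ_le {P : Par} (h : P.Ok) {x X s t1 T : ℝ} (hx : 0 ≤ x) (hX : x ≤ X) (h1 : 0 < t1)
    (h2 : t1 ≤ s) (h3 : s ≤ T) :
    P.Ψ x s ≤ (X + P.B * (1 + T) ^ 2) ^ 2 *
      (Real.log (X + P.B * (1 + T) ^ 2) + P.B + Real.log (1 + 1 / t1)) ^ 2 := by
  have hs : 0 ≤ s := h1.le.trans h2
  have e1 : P.ρs s ≤ P.B * (1 + T) ^ 2 := h.ρs_mono hs h3
  have e2 := h.one_le_ρs hs
  have e3 : P.ell x s ≤ Real.log (X + P.B * (1 + T) ^ 2) + P.B + Real.log (1 + 1 / t1) := by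
    have f1 : Real.log (x + P.ρs s) ≤ Real.log (X + P.B * (1 + T) ^ 2) :=
      Real.log_le_log (by linarith) (by linarith)
    have f2 : Real.log (1 + 1 / P.τ s) ≤ Real.log (1 + 1 / t1) := by
      have := h.τ_pos hs
      refine Real.log_le_log (by positivity) ?_
      have := one_div_le_one_div_of_le h1 (h2.trans h.le_τ)
      linarith
    rw [Par.ell]
    linarith
  exact mul_le_mul (pow_le_pow_left₀ (by linarith) (by linarith) 2)
    (pow_le_pow_left₀ (h.ell_pos hx hs).le e3 2) (sq_nonneg _) (sq_nonneg _)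

variable [T2Space M] [ConnectedSpace M]

theorem cont_dK (K : Kah A) (x : M) : Continuous fun y : M => dK K x y := by
  have h : Continuous fun y : (ofKah K).M => dist (α := (ofKah K).M) x y :=
    continuous_const.dist continuous_id
  exact h

theorem exists_bdd (K : Kah A) (p : M) {Q : Set M} (hQ : IsCompact Q) :
    ∃ D : ℝ, 0 ≤ D ∧ ∀ x ∈ Q, dK K p x ≤ D := by
  obtain ⟨D, hD⟩ := hQ.bddAbove_image (cont_dK K p).continuousOn
  exact ⟨max D 0, le_max_right _ _, fun x hx => (hD ⟨x, hx, rfl⟩).trans (le_max_left _ _)⟩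

theorem ev_big (K : Kah A) (p : M) {Q : Set M} (hQ : IsCompact Q) (T : ℝ) {ε : ℝ} (hε : 0 < ε) :
    ∀ᶠ k : ℕ in atTop, Q ⊆ {x | dK K p x < k + 1} ∧ T ≤ k ∧ 1 / ((k : ℝ) + 1) ≤ ε := by
  obtain ⟨D, -, hD⟩ := exists_bdd K p hQ
  filter_upwards [tendsto_natCast_atTop_atTop.eventually_ge_atTop D,
    tendsto_natCast_atTop_atTop.eventually_ge_atTop T,
    tendsto_one_div_add_atTop_nhds_zero_nat.eventually (ge_mem_nhds hε)] with k h1 h2 h3
  exact ⟨fun x hx => by have := hD x hx; simp only [mem_ofPred_eq]; linarith, h2, h3⟩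

end Ax89

open Ax89

/-- leaf APX -/
theorem apxStmt (n : ℕ) : ApxStmt n := by
  intro M _ _ _ A K0 p I Cb K V K1 Λ L B δ h
  choose tA a T G hP htA hT hF hO using h
  have hB : 1 ≤ B := (hP 0).B1
  have hΛ : 1 ≤ Λ := (hP 0).Λ1
  have hop : ∀ k : ℕ, IsOpen {x | dK K0 p x < k + 1} := fun k =>
    isOpen_lt (cont_dK K0 p) continuous_const
  have hη : ∀ k : ℕ, (0 : ℝ) ≤ 1 / (k + 1) := fun k => by positivity
  have hI : ∀ {k : ℕ} {T0 t : ℝ}, T0 ≤ k → 0 < t → t ≤ T0 → t ∈ Ioo 0 (T k) :=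
    fun h1 h2 h3 => ⟨h2, (h3.trans h1).trans_lt (hT _)⟩
  have hlv : ∀ {k : ℕ} {t : ℝ}, t ∈ Ioo 0 (T k) → ∀ {i : A.ι} {x : M}, x ∈ (A.e i).source →
      dK K0 p x < k + 1 → lvol K0 (G k t) i x = lv K0 (G k t) x := fun ht i x hi hx =>
    have hk := (hF _).kah _ (Ioo_subset_Icc_self ht)
    lvol_indep K0 hk.tr hi (ch_mem A x) hx (hk.kah _ x (ch_mem A x) hx).posDef
  refine ⟨⟨G, fun T0 Q hQ => ?_, fun T0 Q hQ ε hε => ?_, fun t1 T0 Q ht1 hQ ε hε => ?_,
    fun T0 Q hQ ε hε => ?_, fun T0 Q hQ => ?_, fun t1 T0 Q ht1 hQ => ?_, fun T0 => ?_,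
    B, fun T0 => ?_⟩⟩
  · filter_upwards [ev_big K0 p hQ T0 one_pos] with k ⟨h1, h2, _⟩ t ht
    have ht' := hI h2 ht.1 ht.2
    exact ⟨((hF k).kah t (Ioo_subset_Icc_self ht')).tr.mono h1,
      fun i x hi hx => (hF k).krf t ht' i x hi (h1 hx)⟩
  · filter_upwards [ev_big K0 p hQ T0 hε] with k ⟨h1, h2, h3⟩ t ht i x hi hx
    have ht' := Ioo_subset_Icc_self (hI h2 ht.1 ht.2)
    obtain ⟨ρ, -, -, -, hx'⟩ := hO k t ht'
    exact bkge_mono (((hF k).kah t ht').kah i x hi (h1 hx))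
      (bkge_of_lyhGe (hx' x (h1 hx)).1 hi) h3
  · have hc : (0 : ℝ) < 1 + n / t1 := by positivity
    filter_upwards [ev_big K0 p hQ T0 (div_pos hε hc)] with k ⟨h1, h2, h3⟩ t ht i x hi hx c a v
    have ht' := hI h2 (ht1.trans_le ht.1) ht.2
    obtain ⟨ρ, -, -, -, hx'⟩ := hO k t (Ioo_subset_Icc_self ht')
    have hL := (hx' x (h1 hx)).1
    have hk := (hF k).krf t ht' i x hi (h1 hx)
    have e1 := lyh_ge hk ht1 ht.1 (hP k).le_τ (hη k) (bkge_of_lyhGe hL hi) c a v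
    have e2 := hL i hi c a v
    have e3 := nq0 hk.kahAt a
    have e4 := nq0 hk.kahAt v
    rw [le_div_iff₀ hc] at h3
    refine le_trans ?_ e1
    set η : ℝ := 1 / ((k : ℝ) + 1)
    set x1 := nq (G k t i (A.e i x)) a
    set x2 := nq (G k t i (A.e i x)) v
    have e5 : 0 ≤ η * (n / t1) := mul_nonneg (hη k) (by positivity)
    have e6 := mul_le_mul_of_nonneg_right h3 (mul_nonneg (add_nonneg (sq_nonneg ‖c‖) e3) e4)
    have e7 := mul_nonneg e5 (mul_nonneg e3 e4)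
    have e8 : (n : ℝ) * η / t1 = η * (n / t1) := by ring
    rw [e8]
    nlinarith
  · filter_upwards [ev_big K0 p hQ T0 hε] with k ⟨h1, h2, h3⟩ t ht i x hi hx v
    obtain ⟨ρ, -, -, -, hx'⟩ := hO k t (Ioo_subset_Icc_self (hI h2 ht.1 ht.2))
    refine ((hx' x (h1 hx)).2.1 i hi v).trans (mul_le_mul_of_nonneg_right (by linarith) ?_)
    exact Ev.nq_nonneg (K0.pos i x hi).posSemidef v
  · obtain ⟨C', hC', hθ⟩ := I.pot Q hQ
    obtain ⟨D, hD0, hD⟩ := exists_bdd K0 p hQ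
    refine ⟨C' * (2 + (B * (1 + T0) + B * D)) + (1 + C') + C', ?_⟩
    filter_upwards [ev_big K0 p hQ T0 one_pos] with k ⟨h1, h2, _⟩ t ht i x hi hx
    have ht' := hI h2 ht.1 ht.2
    obtain ⟨ρ, -, -, -, hx'⟩ := hO k t (Ioo_subset_Icc_self ht')
    obtain ⟨-, -, -, e1, -, e2, -⟩ := hx' x (h1 hx)
    obtain ⟨θ, f1, f2, f3⟩ := hθ (a k)
    have e3 := e2 C' θ ⟨hC', f1, f2⟩
    have e4 := f3 x hx
    have e5 : ρ x ≤ B * (1 + T0) + B * D := e1.trans (add_le_add
      (mul_le_mul_of_nonneg_left (by linarith [ht.2]) (by linarith))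
      (mul_le_mul_of_nonneg_left (hD x hx) (by linarith)))
    have e6 := mul_le_mul_of_nonneg_left (add_le_add_right e5 2) hC'
    rw [hlv ht' hi (h1 hx)]
    linarith
  · obtain ⟨D, hD0, hD⟩ := exists_bdd K0 p hQ
    set Y := (B * (1 + T0) + B * D + B * (1 + T0) ^ 2) ^ 2 *
      (Real.log (B * (1 + T0) + B * D + B * (1 + T0) ^ 2) + B + Real.log (1 + 1 / t1)) ^ 2 with hY
    have hY0 : 0 ≤ Y := by positivity
    refine ⟨Λ * Y / t1 + 1 + n ^ 2, ?_⟩
    filter_upwards [ev_big K0 p hQ T0 one_pos] with k ⟨h1, h2, h3⟩ t ht i x hi hx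
    have ht' := hI h2 (ht1.trans_le ht.1) ht.2
    obtain ⟨ρ, -, -, -, hx'⟩ := hO k t (Ioo_subset_Icc_self ht')
    obtain ⟨hL, -, e0, e1, -, -, e2⟩ := hx' x (h1 hx)
    have hk := (hF k).kah t (Ioo_subset_Icc_self ht')
    have hk' := hk.kah i x hi (h1 hx)
    refine bkle_mono hk' (Ev.bkle_of_bkge hk' (hη k) (bkge_of_lyhGe hL hi)) ?_
    have e5 : ρ x ≤ B * (1 + T0) + B * D := e1.trans (add_le_add
      (mul_le_mul_of_nonneg_left (by linarith [ht.2]) (by linarith))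
      (mul_le_mul_of_nonneg_left (hD x hx) (by linarith)))
    have e6 : _ ≤ Y := Ψ_le (hP k) e0 e5 ht1 ht.1 ht.2
    have e7 := mul_le_mul_of_nonneg_left e6 (show 0 ≤ Λ by linarith)
    have e8 : t1 ≤ t + tA k := ht.1.trans (hP k).le_τ
    have e9 : Sc (G k t) x ≤ Λ * Y / t1 + 1 := by
      have f1 : Λ * Y / (t + tA k) ≤ Λ * Y / t1 :=
        div_le_div_of_nonneg_left (by positivity) ht1 e8
      have f2 : Sc (G k t) x - 1 ≤ Λ * Y / (t + tA k) := by
        rw [le_div_iff₀ (ht1.trans_le e8)]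
        change (t + tA k) * Sc (G k t) x ≤ Λ * _ + (t + tA k) at e2
        linarith
      linarith
    rw [hk.scal_indep hi (ch_mem A x) ((hop k).mem_nhds (h1 hx))]
    have e10 := mul_le_mul_of_nonneg_left h3 (sq_nonneg (n : ℝ))
    change Sc (G k t) x + _ ≤ _
    linarith
  · have hT0 := abs_nonneg T0
    refine ⟨4 + B + 4 * (B * (1 + |T0|)) + B * (1 + |T0|) ^ 2, by positivity, fun Q hQ => ?_⟩
    filter_upwards [ev_big K0 p hQ T0 one_pos] with k ⟨h1, h2, _⟩ t ht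
    obtain ⟨ρ, e1, e2, -, hx'⟩ := hO k t (Ioo_subset_Icc_self (hI h2 ht.1 ht.2))
    have f1 : 0 ≤ B * (1 + |T0|) := by positivity
    have f2 : 0 ≤ B * (1 + |T0|) ^ 2 := by positivity
    refine ⟨ρ, lipOn_mono e1 h1 (by change B ≤ _; linarith), fun x hx => ?_⟩
    obtain ⟨-, -, -, -, e3, -⟩ := hx' x (h1 hx)
    have f3 : t ≤ |T0| := ht.2.trans (le_abs_self T0)
    have f4 : _ ≤ B * (1 + |T0|) ^ 2 := (hP k).ρs_mono ht.1.le f3
    have f5 : ρ p ≤ B * (1 + |T0|) :=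
      e2.trans (mul_le_mul_of_nonneg_left (by linarith) (by change 0 ≤ B; linarith))
    have f6 := le_abs_self (ρ x - ρ p)
    have f7 := abs_nonneg (ρ x - ρ p)
    have f8 := mul_nonneg (show 0 ≤ B + 4 * (B * (1 + |T0|)) + B * (1 + |T0|) ^ 2 by positivity) f7
    nlinarith
  · filter_upwards [ev_big K0 p (isCompact_singleton (x := p)) T0 one_pos]
      with k ⟨h1, h2, _⟩ t ht i hi
    have ht' := hI h2 ht.1 ht.2
    obtain ⟨ρ, -, -, e, -⟩ := hO k t (Ioo_subset_Icc_self ht')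
    rw [hlv ht' hi (h1 rfl)]
    exact e

end Crest.Agent.T223.Os
end

-- ▼ part T223/OsInitL_7
section

/-!
# Row 223, module OSG, leaf INIT-L (helper7): `initLStmt : InitLStmt n`

With `τ = s²`, `c = s c'` the form `lyhS` becomes a function `Fm s z c' a v` that is jointly
continuous up to `s = 0`, where it is `|c'|² Ric(v,v̄) + R(v,v̄,a,ā) > 0`.  Compactness of the
spheres, homogeneity, chart independence and compactness of `Z`.
-/

set_option autoImplicit false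
set_option linter.unusedVariables false

open Set Filter Topology Metric
open scoped ContDiff ComplexConjugate Matrix ComplexOrder

namespace Crest.Agent.T223.Os.IL7

open Crest.Agent.R275.Geo Crest.Agent.R273.Kah_333 Crest.Agent.R273.Hess_333
open Crest.Agent.T223.Br Crest.Agent.T223.Tr

noncomputable section

variable {n : ℕ}

/-- `lyhS g (s²) z (s c) a v`, continued to `s = 0` -/
def Fm (g : Cn n → Mat n) (s : ℝ) (z : Cn n) (c : ℂ) (a v : Cn n) : ℝ :=
  ‖c‖ ^ 2 * (s ^ 2 * nq (hess (scal g) z + ric g z * (g z)⁻¹ * ric g z) v + nq (ric g z) v)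
    + 2 * (s * (conj c * ∑ k, a k * hC (nabRic g z k) v).re) + bis g z v a

theorem lyhS_eq (g : Cn n → Mat n) {s : ℝ} (hs : 0 < s) (z : Cn n) (c : ℂ) (a v : Cn n) :
    lyhS g (s ^ 2) z ((s : ℂ) * c) a v = Fm g s z c a v := by
  unfold lyhS Fm
  rw [Ev.nq_add _ (((((s ^ 2)⁻¹ : ℝ)) : ℂ) • ric g z), Ev.nq_smul, norm_mul, Complex.norm_real,
    Real.norm_eq_abs, abs_of_pos hs, map_mul, Complex.conj_ofReal, mul_assoc (s : ℂ),
    Complex.re_ofReal_mul]
  field_simp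

theorem hC_vsmul (H : Mat n) (t : ℝ) (v : Cn n) : hC H (t • v) = ((t ^ 2 : ℝ) : ℂ) * hC H v := by
  unfold hC
  simp only [Finset.mul_sum, PiLp.smul_apply, Complex.real_smul, map_mul, Complex.conj_ofReal]
  refine Finset.sum_congr rfl fun a _ => Finset.sum_congr rfl fun b _ => ?_
  push_cast; ring

theorem nq_vsmul (H : Mat n) (t : ℝ) (v : Cn n) : nq H (t • v) = t ^ 2 * nq H v := by
  rw [nq_eq_re, nq_eq_re, hC_vsmul, Complex.re_ofReal_mul]

theorem bis_vsmul (g : Cn n → Mat n) (z : Cn n) (t r : ℝ) (v a : Cn n) :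
    bis g z (t • v) (r • a) = r ^ 2 * t ^ 2 * bis g z v a := by
  rw [bis_eq, bis_eq, ← Complex.re_ofReal_mul]
  congr 1
  simp only [hC_vsmul, Finset.mul_sum, PiLp.smul_apply, Complex.real_smul, map_mul,
    Complex.conj_ofReal]
  refine Finset.sum_congr rfl fun a _ => Finset.sum_congr rfl fun b _ => ?_
  push_cast; ring

theorem Fm_smul (g : Cn n → Mat n) (s : ℝ) (z : Cn n) (r t : ℝ) (c : ℂ) (a v : Cn n) :
    Fm g s z (r • c) (r • a) (t • v) = r ^ 2 * t ^ 2 * Fm g s z c a v := by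
  unfold Fm
  have h1 : conj (r • c) * ∑ k, (r • a) k * hC (nabRic g z k) (t • v) =
      ((r ^ 2 * t ^ 2 : ℝ) : ℂ) * (conj c * ∑ k, a k * hC (nabRic g z k) v) := by
    simp only [hC_vsmul, Finset.mul_sum, PiLp.smul_apply, Complex.real_smul, map_mul,
      Complex.conj_ofReal]
    refine Finset.sum_congr rfl fun k _ => ?_
    push_cast; ring
  rw [h1, Complex.re_ofReal_mul, nq_vsmul, nq_vsmul, bis_vsmul, norm_smul, mul_pow,
    Real.norm_eq_abs, sq_abs]
  ring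

section cont

variable {X : Type*} [TopologicalSpace X] {x : X}

theorem ca_coord {v : X → Cn n} (hv : ContinuousAt v x) (a : Fin n) :
    ContinuousAt (fun w => v w a) x :=
  (EuclideanSpace.proj (𝕜 := ℂ) a).continuous.continuousAt.comp hv

theorem ca_sum {ι : Type*} [Fintype ι] {f : ι → X → ℂ} (h : ∀ i, ContinuousAt (f i) x) :
    ContinuousAt (fun w => ∑ i, f i w) x := tendsto_finsetSum _ fun i _ => h i

theorem ca_conj {f : X → ℂ} (h : ContinuousAt f x) : ContinuousAt (fun w => conj (f w)) x :=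
  Complex.continuous_conj.continuousAt.comp h

theorem ca_re {f : X → ℂ} (h : ContinuousAt f x) : ContinuousAt (fun w => (f w).re) x :=
  Complex.continuous_re.continuousAt.comp h

theorem ca_hC {H : X → Mat n} {v : X → Cn n} (hH : ∀ a b, ContinuousAt (fun w => H w a b) x)
    (hv : ContinuousAt v x) : ContinuousAt (fun w => hC (H w) (v w)) x :=
  ca_sum fun a => ca_sum fun b => ((hH a b).mul (ca_coord hv a)).mul (ca_conj (ca_coord hv b))

theorem ca_Fm {g : Cn n → Mat n} {s : X → ℝ} {z : X → Cn n} {c : X → ℂ} {a v : X → Cn n}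
    (hg : KahAt g (z x)) (hs : ContinuousAt s x) (hz : ContinuousAt z x) (hc : ContinuousAt c x)
    (ha : ContinuousAt a x) (hv : ContinuousAt v x) :
    ContinuousAt (fun w => Fm g (s w) (z w) (c w) (a w) (v w)) x := by
  have hsm : SmM g (z x) := hg.sm
  have hi := hsm.inv hg.det_ne
  have key : ∀ {H : Cn n → Mat n}, SmM H (z x) →
      ContinuousAt (fun w => hC (H (z w)) (v w)) x := fun {H} hH =>
    ca_hC (H := fun w => H (z w))
      (fun a b => ContinuousAt.comp (g := fun y => H y a b) (hH a b).continuousAt hz) hv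
  have h1 := ca_re (key ((smM_hess hg.cd_scal).add ((hg.smM_ric.mul hi).mul hg.smM_ric)))
  have h2 := ca_re (key hg.smM_ric)
  have h3 : ∀ k, ContinuousAt (fun w => hC (nabRic g (z w) k) (v w)) x := fun k =>
    key (H := fun y => nabRic g y k)
      ((hg.smM_ric.wdM (false, k)).sub (((hsm.wdM (false, k)).mul hi).mul hg.smM_ric))
  have h4 : ∀ k l, ContinuousAt (fun w => hC (Rm g (z w) k l) (v w)) x := fun k l =>
    key (H := fun y => Rm g y k l)
      (((hsm.wdM (true, l)).wdM (false, k)).neg.add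
        (((hsm.wdM (false, k)).mul hi).mul (hsm.wdM (true, l))))
  simp only [Fm, bis_eq, nq_eq_re]
  refine (((hc.norm.pow 2).mul (((hs.pow 2).mul h1).add h2)).add (continuousAt_const.mul
    (hs.mul (ca_re ((ca_conj hc).mul (ca_sum fun k => (ca_coord ha k).mul (h3 k))))))).add
    (ca_re (ca_sum fun k => ca_sum fun l =>
      ((h4 k l).mul (ca_coord ha k)).mul (ca_conj (ca_coord ha l))))

end cont

/-- the local statement in one chart -/
theorem loc {g : Cn n → Mat n} {z : Cn n} (hg : KahAt g z) (hr : (ric g z).PosDef)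
    (hb : ∀ v w : Cn n, v ≠ 0 → w ≠ 0 → 0 < bis g z v w) :
    ∀ᶠ q : ℝ × Cn n in 𝓝 (0, z), ∀ c a v, 0 ≤ Fm g q.1 q.2 c a v := by
  have hK : IsCompact (sphere (0 : ℂ × Cn n) 1 ×ˢ sphere (0 : Cn n) 1) :=
    (isCompact_sphere _ _).prod (isCompact_sphere _ _)
  have h1 := hK.eventually_forall_of_forall_eventually (x₀ := ((0, z) : ℝ × Cn n))
    (P := fun q y => 0 < Fm g q.1 q.2 y.1.1 y.1.2 y.2) (by
      rintro ⟨⟨c, a⟩, v⟩ ⟨hca, hv⟩
      have hv0 : v ≠ 0 := by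
        rintro rfl
        simp at hv
      have hc : ContinuousAt (fun w : (ℝ × Cn n) × ((ℂ × Cn n) × Cn n) =>
          Fm g w.1.1 w.1.2 w.2.1.1 w.2.1.2 w.2.2) ((0, z), ((c, a), v)) :=
        ca_Fm (z := fun w : (ℝ × Cn n) × ((ℂ × Cn n) × Cn n) => w.1.2) hg
          (by fun_prop) (by fun_prop) (by fun_prop) (by fun_prop) (by fun_prop)
      refine hc.eventually (lt_mem_nhds ?_)
      have hR := Ev.nq_pos hr hv0
      simp only [Fm]
      by_cases ha : a = 0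
      · have hc0 : c ≠ 0 := by
          rintro rfl
          rw [ha] at hca
          simp [Prod.mk_zero_zero] at hca
        have h0 : bis g z v a = 0 := by
          have := bis_vsmul g z 1 0 v 0
          rw [ha]
          simpa using this
        have := norm_pos_iff.2 hc0
        rw [h0]
        simp only [ne_eq, OfNat.ofNat_ne_zero, not_false_eq_true, zero_pow, zero_mul, zero_add,
          mul_zero, add_zero]
        positivity
      · have := hb v a hv0 ha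
        simp only [ne_eq, OfNat.ofNat_ne_zero, not_false_eq_true, zero_pow, zero_mul, zero_add,
          mul_zero, add_zero]
        positivity)
  filter_upwards [h1] with q hq c a v
  by_cases hv : v = 0
  · have := Fm_smul g q.1 q.2 1 0 c a v
    rw [hv] at this ⊢
    simp only [one_smul, smul_zero] at this
    rw [this]; simp
  by_cases hca : ((c, a) : ℂ × Cn n) = 0
  · have := Fm_smul g q.1 q.2 0 1 c a v
    obtain ⟨hc, ha⟩ := Prod.mk_eq_zero.1 hca
    rw [hc, ha] at this ⊢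
    simp only [one_smul, smul_zero] at this
    rw [this]; simp
  have hp1 := norm_pos_iff.2 hv
  have hp2 := norm_pos_iff.2 hca
  have h2 := hq (‖((c, a) : ℂ × Cn n)‖⁻¹ • (c, a), ‖v‖⁻¹ • v) ⟨by
    simp only [mem_sphere_zero_iff_norm, norm_smul, norm_inv, norm_norm]
    exact inv_mul_cancel₀ hp2.ne', by
    simp only [mem_sphere_zero_iff_norm, norm_smul, norm_inv, norm_norm]
    exact inv_mul_cancel₀ hp1.ne'⟩
  simp only [Prod.smul_mk] at h2
  rw [Fm_smul] at h2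
  exact (pos_of_mul_pos_right h2 (by positivity)).le

end

end Crest.Agent.T223.Os.IL7

namespace Crest.Agent.T223.Os

open Crest.Agent.R275.Geo Crest.Agent.R273.Kah_333 Crest.Agent.T223.Br Crest.Agent.T223.Tr IL7

/-- **INIT-L** -/
theorem initLStmt (n : ℕ) : InitLStmt n := by
  intro M _ _ A K0 Z hK hZ
  have h1 := hZ.eventually_forall_of_forall_eventually (x₀ := (0 : ℝ))
    (P := fun s x => 0 < s → LyhGe (gc K0) (s ^ 2) 1 0 x) (by
      intro x _
      have hi := ch_mem A x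
      have ht := (A.e (ch A x)).map_source hi
      have h2 := loc (kahAt_gc K0 _ ht) (ric_posDef_of_BKpos hK _ ht) (hK _ _ ht)
      have hc : Tendsto (fun q : ℝ × M => ((q.1, A.e (ch A x) q.2) : ℝ × Cn n)) (𝓝 (0, x))
          (𝓝 (0, A.e (ch A x) x)) :=
        Tendsto.prodMk_nhds continuousAt_fst
          (((A.e (ch A x)).continuousAt hi).tendsto.comp continuousAt_snd)
      have hs : Tendsto (fun q : ℝ × M => q.2) (𝓝 (0, x)) (𝓝 x) := continuousAt_snd
      filter_upwards [hc.eventually h2, hs.eventually ((A.e (ch A x)).open_source.mem_nhds hi)]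
        with q hq hq' h0
      rw [lyhGe_iff (kahOn_gc K0 univ) isOpen_univ (mem_univ _) hq']
      intro c a v
      have h3 := hq (((q.1⁻¹ : ℝ) : ℂ) * c) a v
      rw [← lyhS_eq _ h0, ← mul_assoc, ← Complex.ofReal_mul, mul_inv_cancel₀ h0.ne'] at h3
      simpa using h3)
  obtain ⟨ε, hε, h2⟩ := Metric.eventually_nhds_iff.1 h1
  refine ⟨(ε / 2) ^ 2, by positivity, fun τ h0 hτ x hx => ?_⟩
  have h3 : √τ ≤ ε / 2 := Real.sqrt_le_iff.2 ⟨by positivity, hτ⟩
  have h4 := Real.sqrt_pos.2 h0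
  have h5 := h2 (y := √τ) (by rw [Real.dist_eq, sub_zero, abs_of_pos h4]; linarith) x hx h4
  rwa [Real.sq_sqrt h0.le] at h5

end Crest.Agent.T223.Os
end

-- ▼ part T223/OsLc_24
section

/-!
# Row 223, module OSG (helper24): the leaf (c), `0 ≤ ρ` and `|∂ρ|² ≤ 1 + K E`
-/

set_option autoImplicit false
set_option linter.unusedVariables false
set_option linter.unusedSectionVars false

open Set Filter Topology Metric
open scoped ContDiff ComplexConjugate Matrix ComplexOrder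

namespace Crest.Agent.T223.Os

open Crest.Agent.R275.Geo Crest.Agent.R273.Kah_333 Crest.Agent.R273.Hess_333
open Crest.Agent.T223.Br Crest.Agent.T223.Tr
open Crest.Agent.T223.Db (dom SmST)
open Crest.Agent.T223.Bx (Rg)

noncomputable section

variable {n : ℕ} {M : Type} [TopologicalSpace M] {A : Atl n M}
variable [T2Space M] [ConnectedSpace M] {K0 : Kah A} {p : M}

namespace T24

open Stp

variable {P : Par} {I : Init K0 p} {a : ℝ} {S : Stp P I a}

section loc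

variable {s : ℝ} (hs : s ∈ Ioo S.t S.b) {i : A.ι} {x : M} (hi : x ∈ (A.e i).source) (hx : x ∈ S.U)
include hs hi hx

theorem heatAt_ρ : Ev.HeatAt (fun s => S.g s i) (fun s => inC A i (S.ρ s)) s (A.e i x) where
  sm := cd_ρ hs hi hx
  eq := by
    filter_upwards [ev_loc hs hi hx] with q hq
    have := box_ρ hq.1 hq.2.1 hq.2.2.1
    rwa [hq.2.2.2] at this


/-- `Gr (g s) (ρ s)` read in the chart, near `(s, e i x)` -/
theorem ev_Gr_ρ : ∀ᶠ q : ℝ × Cn n in 𝓝 (s, A.e i x),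
    Gr (S.g q.1) (S.ρ q.1) ((A.e i).symm q.2) = gsq (S.g q.1 i) (inC A i (S.ρ q.1)) q.2 := by
  filter_upwards [ev_loc hs hi hx] with q hq
  have := Gr_ρ hq.1 hq.2.1 hq.2.2.1
  rwa [hq.2.2.2] at this


theorem rg_gsq_ρ : Rg (fun s w => gsq (S.g s i) (inC A i (S.ρ s)) w) s (A.e i x) :=
  Rg.of_joint ((krfAt hs hi hx).cd_gsq (φ := fun s => inC A i (S.ρ s)) (cd_ρ hs hi hx))


end loc

variable (h : P.Ok)
include h

theorem sg_nonneg (hV : P.V ≤ P.B) {s : ℝ} (hs : s ∈ Icc S.t S.t') : 0 ≤ S.sg s := by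
  linarith [le_sg h hs, S.mul_r_le h hV, S.B_le_σ h, h.B1]

theorem ρ_nonneg (hV : P.V ≤ P.B) : ∀ s ∈ Icc S.t S.t', ∀ x ∈ S.Kc, 0 ≤ S.ρ s x := by
  have key := touchE h (F := fun s x => -1 * S.ρ s x) (c0 := 0) le_rfl
    (continuousOn_const.mul (cont_ρK h)).upperSemicontinuousOn
    (fun x hx => by linarith [(S.init' hx).ic.1])
    (fun s hs x hx hE => by linarith [(one_le_E_iff h).1 hE, sg_nonneg h hV hs])
    fun s hs hts x hx _ _ ε hε => by
      have hs' := mem_Ioo h hs hts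
      have hi := ch_mem A x
      refine ⟨_, hi, fun s w => -1 * inC A (ch A x) (S.ρ s) w, (rg_ρ hs' hi hx.1).const_mul _,
        Eventually.of_forall fun q => le_rfl, by simp only [inC_apply _ hi], ?_⟩
      rw [Bx.box_const_mul _ (rg_ρ hs' hi hx.1), box_ρ hs' hi hx.1]
      linarith
  exact fun s hs x hx => by linarith [key s hs x hx]

theorem Gr_ρ_le :
    ∀ s ∈ Icc S.t S.t', ∀ x ∈ S.Kc, Gr (S.g s) (S.ρ s) x ≤ 1 + P.K * S.E s x := by
  have key := touchE h (F := fun s x => Gr (S.g s) (S.ρ s) x - 1) (c0 := P.K) h.K0.le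
    ((cont_GrK h S.hρ.sm).sub continuousOn_const).upperSemicontinuousOn
    (fun x hx => by
      have h1 := (S.init' hx).ic.2
      have h2 := e0_le h ⟨le_rfl, (S.t_lt h).le⟩ hx
      have h3 := E_pos (S := S) S.t x
      have h4 := mul_le_mul_of_nonneg_left (h2.trans (by linarith : _ ≤ S.E S.t x)) h.K0.le
      linarith)
    (fun s hs x hx hE => by
      have h1 := (crudeK h hs hx).gρ
      have h2 := mul_le_mul_of_nonneg_left hE h.K0.le
      linarith)
    fun s hs hts x hx _ _ ε hε => by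
      have hs' := mem_Ioo h hs hts
      have hi := ch_mem A x
      refine ⟨_, hi, fun s w => gsq (S.g s (ch A x)) (inC A (ch A x) (S.ρ s)) w - 1,
        (rg_gsq_ρ hs' hi hx.1).sub (Rg.const 1), ?_, by simp only [Gr_ρ hs' hi hx.1], ?_⟩
      · filter_upwards [nhdsWithin_le_nhds (ev_Gr_ρ hs' hi hx.1)] with q hq
        exact le_of_eq (by rw [← hq]; rfl)
      · rw [Bx.box_sub (rg_gsq_ρ hs' hi hx.1) (Rg.const 1), Bx.box_const]
        have h1 := Ev.box_gsq_nonpos (krfAt hs' hi hx.1) (heatAt_ρ hs' hi hx.1)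
        have h2 : 0 ≤ P.K * ((P.V - P.K) * S.q * S.E s x) :=
          mul_nonneg h.K0.le (mul_nonneg (mul_nonneg (by linarith [h.KV]) (S.q_pos h).le)
            (E_pos s x).le)
        linarith
  exact fun s hs x hx => by linarith [key s hs x hx]

end T24

/-- **leaf (c)** -/
theorem lcStmt (n : ℕ) : LcStmt n := by
  unfold LcStmt Leaf
  refine Ev.of_thr (fun _ => 0) (fun _ _ => 0) (fun _ _ _ => 0) (fun _ _ V _ _ _ => V) ?_
  intro P h _ _ _ hV M _ _ _ A K0 p I a S s hs x hx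
  exact ⟨T24.ρ_nonneg h hV s hs x hx, T24.Gr_ρ_le h s hs x hx⟩

end

end Crest.Agent.T223.Os
end

-- ▼ part T223/OsLd_92
section

/-!
# Row 223, module OSG (helper92): the scalar barrier on one step and the leaf (d)
-/

set_option autoImplicit false
set_option linter.unusedVariables false

open Set Filter Topology Metric
open scoped ContDiff ComplexConjugate Matrix ComplexOrder

namespace Crest.Agent.T223.Os

open Crest.Agent.R275.Geo Crest.Agent.R273.Kah_333 Crest.Agent.R273.Hess_333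
open Crest.Agent.T223.Br Crest.Agent.T223.Tr
open Crest.Agent.T223.Db (dom SmST)

noncomputable section

namespace Ld92

variable {n : ℕ} {M : Type} [TopologicalSpace M] {A : Atl n M}

theorem rg_of_smST {a b s : ℝ} {U : Set M} (hU : IsOpen U) {f : ℝ → M → ℝ}
    (h : SmST A (Icc a b) U f) (hs : s ∈ Ioo a b) {i : A.ι} {x : M} (hi : x ∈ (A.e i).source)
    (hx : x ∈ U) : Bx.Rg (fun s => inC A i (f s)) s (A.e i x) :=
  Bx.Rg.of_joint ((h i).contDiffAt (prod_mem_nhds (Icc_mem_nhds hs.1 hs.2)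
    ((isOpen_dom i hU).mem_nhds (mem_dom hi hx))))

theorem lv_chart (K0 : Kah A) {G : MF A} {U : Set M} (hG : KahOn G U) {i : A.ι} {w : Cn n}
    (hw : w ∈ dom A i U) : lv K0 G ((A.e i).symm w) = ldet (gc K0 i) w - ldet (G i) w := by
  have hi := (A.e i).map_target hw.1
  rw [lv, lvol_indep K0 hG.tr (ch_mem A _) hi hw.2 (hG.kah i _ hi hw.2).posDef, lvol,
    (A.e i).right_inv hw.1]

theorem smST_lv (K0 : Kah A) {a b : ℝ} {U : Set M} {g : ℝ → MF A} (h : FlowOn a b U g) :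
    SmST A (Icc a b) U fun s => lv K0 (g s) := by
  intro i
  refine ContDiffOn.congr (f := fun q : ℝ × Cn n => ldet (gc K0 i) q.2 - ldet (g q.1 i) q.2) ?_
    fun q hq => lv_chart K0 (h.kah _ hq.1) hq.2
  intro q hq
  have hi := (A.e i).map_target hq.2.1
  have hp := ((h.kah _ hq.1).kah i _ hi hq.2.2).posDef
  rw [(A.e i).right_inv hq.2.1] at hp
  refine (cd_static q.1 (kahAt_gc K0 i hq.2.1).cd_ldet).contDiffWithinAt.sub ?_
  have h1 : ContDiffAt ℝ ∞ (fun G : Fin n → Fin n → ℂ => Real.log (Matrix.of G).det.re)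
      (fun k l => g q.1 i q.2 k l) :=
    Lo.contDiffAt_logdet (K := fun G : Fin n → Fin n → ℂ => Matrix.of G)
      (fun k l => (contDiffAt_apply ℝ ℂ l _).comp _ (contDiffAt_apply ℝ _ k _)) hp
  exact h1.comp_contDiffWithinAt q (f := fun q : ℝ × Cn n => fun k l => g q.1 i q.2 k l)
    (contDiffWithinAt_pi.2 fun k => contDiffWithinAt_pi.2 fun l => h.sm i k l q hq)

/-- `□ log (det g₀ / det g) = tr_g Ric₀` -/
theorem box_lv (K0 : Kah A) {a b s : ℝ} {U : Set M} (hU : IsOpen U) {g : ℝ → MF A}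
    (h : FlowOn a b U g) (hs : s ∈ Ioo a b) {i : A.ι} {x : M} (hi : x ∈ (A.e i).source)
    (hx : x ∈ U) : box (fun s => g s i) (fun s => inC A i (lv K0 (g s))) s (A.e i x) =
      trg (g s i (A.e i x)) (ric (gc K0 i) (A.e i x)) := by
  have hk := h.krf s hs i x hi hx
  have h0 := kahAt_gc K0 i ((A.e i).map_source hi)
  rw [Bx.box_congr' (ψ := fun s w => ldet (gc K0 i) w - ldet (g s i) w) (by
    filter_upwards [prod_mem_nhds (Icc_mem_nhds hs.1 hs.2)
      ((isOpen_dom i hU).mem_nhds (mem_dom hi hx))] with q hq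
    exact lv_chart K0 (h.kah _ hq.1) hq.2),
    Bx.box_sub (Bx.Rg.static h0.cd_ldet) (Bx.Rg.of_joint hk.cd_ldet), Bx.box_static, box,
    (Lo.krf_ldet hk).deriv]
  simp only [lap, scal, ric, Bx.trg_neg]
  ring

/-- a Ricci potential plus `lv` is a subsolution -/
theorem box_pot (K0 : Kah A) {a b s : ℝ} {U W : Set M} (hU : IsOpen U) {g : ℝ → MF A}
    (h : FlowOn a b U g) (hs : s ∈ Ioo a b) {i : A.ι} {x : M} (hi : x ∈ (A.e i).source)
    (hx : x ∈ U) [T2Space M] [ConnectedSpace M] {θ : M → ℝ} (hθ : Pot K0 W θ) (hW : x ∈ W) :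
    box (fun s => g s i) (fun s w => inC A i θ w + inC A i (lv K0 (g s)) w) s (A.e i x) ≤ 0 := by
  have h1 := sm_inC hθ.sm hi
  rw [Bx.box_add (Bx.Rg.static h1) (rg_of_smST hU (smST_lv K0 h) hs hi hx), box_lv K0 hU h hs hi hx,
    Bx.box_static, lap]
  have := Lo.trg_mono (h.krf s hs i x hi hx).posDef
    (kahAt_gc K0 i ((A.e i).map_source hi)).ric_herm (hess_herm h1) (hθ.ge i x hi hW)
  linarith

variable [T2Space M] [ConnectedSpace M] {K0 : Kah A} {p : M} {P : Par} {I : Init K0 p} {a : ℝ}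

/-- oscillation of `lv` in one step -/
theorem lv_osc (S : Stp P I a) (hP : P.Ok) {s : ℝ} (hs : s ∈ Icc S.t S.t') {x : M}
    (hx : x ∈ S.Kc) : lv K0 (S.g s) x ≤ lv K0 (S.g S.t) x + n ^ 2 * P.K := by
  have hr := S.r_pos hP
  have hd : ∀ s ∈ interior (Icc S.t S.t'), HasDerivAt (fun s => lv K0 (S.g s) x)
      (scal (S.g s (ch A x)) (A.e (ch A x) x)) s := by
    intro s hs
    rw [interior_Icc] at hs
    have hk := S.flow.krf s ⟨hs.1, hs.2.trans S.lt'⟩ _ x (ch_mem A x) hx.1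
    exact ((Lo.krf_ldet hk).const_sub (ldet (gc K0 (ch A x)) (A.e (ch A x) x))).congr_deriv
      (neg_neg _)
  have hc : ContinuousOn (fun s => lv K0 (S.g s) x) (Icc S.t S.t') :=
    (continuousOn_of_SmST (smST_lv K0 S.flow)).comp (f := fun s => (s, x)) (by fun_prop)
      fun s hs => ⟨Stp.mem_Icc hP hs, hx.1⟩
  have h1 := (convex_Icc S.t S.t').image_sub_le_mul_sub_of_deriv_le hc
    (fun s hs => (hd s hs).differentiableAt.differentiableWithinAt)
    (C := n * (n * (P.K / S.r ^ 2))) (fun s hs => by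
      rw [(hd s hs).deriv]
      have hs' := interior_subset hs
      have hk := (S.flow.kah s (Stp.mem_Icc hP hs')).kah _ x (ch_mem A x) hx.1
      exact Ev.trg_upper hk.posDef hk.ric_herm
        (ric_le_of_BKle hk ((Stp.crudeK hP hs' hx).bk _ (ch_mem A x)).2))
    S.t ⟨le_rfl, (S.t_lt hP).le⟩ s hs hs.1
  have h2 : n * (n * (P.K / S.r ^ 2)) * (s - S.t) ≤ n * (n * (P.K / S.r ^ 2)) * S.r ^ 2 :=
    mul_le_mul_of_nonneg_left (Stp.sub_le hP hs) (by have := hP.K0; positivity)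
  have h3 : n * (n * (P.K / S.r ^ 2)) * S.r ^ 2 = n ^ 2 * P.K := by field_simp
  linarith

/-- **the scalar barrier on one step**: a subsolution of the heat equation with small initial
values and small oscillation stays below `A0 E` -/
theorem barrier (S : Stp P I a) (hP : P.Ok) {F : ℝ → M → ℝ} {A0 : ℝ} (hA : 0 ≤ A0)
    (hF : SmST A (Icc S.t S.b) S.U F)
    (hbox : ∀ s ∈ Ioo S.t S.b, ∀ x ∈ S.U, box (fun s => S.g s (ch A x))
      (fun s => inC A (ch A x) (F s)) s (A.e (ch A x) x) ≤ 0)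
    (hinit : ∀ x ∈ S.Kc, F S.t x ≤ A0 * (min (S.E S.t x) 1 / P.J))
    (hosc : ∀ s ∈ Icc S.t S.t', ∀ x ∈ S.Kc, F s x ≤ F S.t x + A0 / 2) :
    S.On fun s x => F s x ≤ A0 * S.E s x := by
  have hout : ∀ s ∈ Icc S.t S.t', ∀ x ∈ S.Kc, S.sg s ≤ S.ρ s x → F s x ≤ A0 * S.E s x := by
    intro s hs x hx h
    have h1 := mul_le_mul_of_nonneg_left ((Stp.one_le_E_iff hP).2 h) hA
    have h2 := mul_le_mul_of_nonneg_left (Stp.e0_le' (S := S) hP x) hA
    linarith [hinit x hx, hosc s hs x hx]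
  have hsub : Tch.MD S.t S.t' S.Kc (fun q => S.ρ q.1 q.2) S.sg ⊆ Icc S.t S.t' ×ˢ S.Kc :=
    fun q hq => ⟨⟨hq.1, hq.2.1⟩, hq.2.2.1⟩
  have key := Tch.touch_MD (h := fun q => F q.1 q.2) (a := fun _ => 0) (b := fun q => S.E q.1 q.2)
    (K := A0) S.cptK (Stp.cont_ρK hP) Stp.continuous_sg.continuousOn
    (fun q hq => Stp.hint hP (hsub hq).1 (hsub hq).2 hq.2.2.2)
    (((continuousOn_of_SmST hF).mono (hsub.trans (Stp.cyl_sub hP))).upperSemicontinuousOn)
    continuousOn_const ((Stp.cont_E hP).mono hsub) (fun q _ => Stp.E_pos _ _)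
    (fun q hq h => by
      have h1 := mul_le_mul_of_nonneg_left (Stp.e0_le hP (hsub hq).1 (hsub hq).2) hA
      have h2 := hinit _ (hsub hq).2
      have h3 := mul_nonneg hA (Stp.E_pos (S := S) q.1 q.2).le
      have h4 : F q.1 q.2 = F S.t q.2 := by rw [h]
      rw [zero_add]
      linarith)
    (fun q hq h => by
      rw [zero_add]
      exact hout _ (hsub hq).1 _ (hsub hq).2 h.ge)
    (fun q hq ht _ Λ hΛ he _ hm => by
      obtain ⟨s, x⟩ := q
      obtain ⟨hs, hx⟩ := hsub hq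
      have hs' := Stp.mem_Ioo hP hs ht
      have hi := ch_mem A x
      set i := ch A x with hidef
      have hρ := rg_of_smST S.op S.hρ.sm hs' hi hx.1
      have hk := S.flow.krf s hs' i x hi hx.1
      have ht' : Tendsto (fun q : ℝ × Cn n => (q.1, (A.e i).symm q.2)) (past s (A.e i x))
          (𝓝[{q | q.1 ≤ s}] (s, x)) := by
        refine tendsto_nhdsWithin_iff.2 ⟨?_, self_mem_nhdsWithin⟩
        exact (continuousAt_fst.tendsto.prodMk_nhds
          ((tendsto_symm hi).comp continuousAt_snd.tendsto)).mono_left nhdsWithin_le_nhds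
      have h1 := Bx.box_le_of_touch (g := fun s => S.g s i) hk.posDef
        (rg_of_smST S.op hF hs' hi hx.1)
        ((hρ.Eb (σ := S.σ) (V := P.V) (t₀ := S.t) (r := S.r)).const_mul Λ)
        ((ht'.eventually hm).mono fun q hq => by rw [zero_add] at hq; exact hq)
        (by
          simp only [inC, Bx.Eb, (A.e i).left_inv hi]
          rw [zero_add] at he
          exact he)
      rw [Bx.box_const_mul _ hρ.Eb] at h1
      have h2 := Bx.box_Eb_ge (σ := S.σ) (V := P.V) (t₀ := S.t) (S.r_pos hP) hρ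
        (S.hρ.eq s hs' i x hi hx.1).ge (Stp.crudeK hP hs hx).gρ
      have h3 : 0 < (P.V - P.K) / S.r ^ 2 *
          Bx.Eb S.σ P.V S.t S.r (fun s => inC A i (S.ρ s)) s (A.e i x) :=
        mul_pos (div_pos (by linarith [hP.KV]) (pow_pos (S.r_pos hP) 2)) (Bx.Eb_pos _ _ _ _ _ _ _)
      have h4 := mul_pos (hA.trans_lt hΛ) (h3.trans_le h2)
      linarith [hbox s hs' x hx.1])
  intro s hs x hx
  rcases le_total (S.sg s) (S.ρ s x) with h | h
  · exact hout s hs x hx h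
  · simpa using key (s, x) ⟨hs.1, hs.2, hx, h⟩

/-- potential plus `lv` minus a solution of the heat equation -/
theorem pot_barrier (S : Stp P I a) (hP : P.Ok) {θ : M → ℝ} (hθ : Pot K0 {x | I.ρ0 x < a} θ)
    {w : ℝ → M → ℝ} (hw : HeatOn S.t S.b S.U S.g w) {A0 : ℝ} (hA : 0 ≤ A0)
    (hinit : ∀ x ∈ S.Kc, θ x + lv K0 (S.g S.t) x - w S.t x ≤ A0 * (min (S.E S.t x) 1 / P.J))
    (hosc : ∀ s ∈ Icc S.t S.t', ∀ x ∈ S.Kc, w S.t x - w s x + n ^ 2 * P.K ≤ A0 / 2) :
    S.On fun s x => θ x + lv K0 (S.g s) x - w s x ≤ A0 * S.E s x := by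
  have h1 : SmST A (Icc S.t S.b) S.U fun s x => θ x + lv K0 (S.g s) x := fun i =>
    ((smOn_of_sm hθ.sm S.U).smST _ i).add (smST_lv K0 S.flow i)
  refine barrier S hP hA (fun i => (h1 i).sub (hw.sm i)) (fun s hs x hx => ?_) hinit
    fun s hs x hx => by linarith [hosc s hs x hx, lv_osc S hP hs hx]
  have hi := ch_mem A x
  have h2 := Bx.box_sub (g := fun s => S.g s (ch A x)) (rg_of_smST S.op h1 hs hi hx)
    (rg_of_smST S.op hw.sm hs hi hx)
  have h3 := box_pot K0 S.op S.flow hs hi hx hθ (S.sub x hx)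
  rw [hw.eq s hs _ x hi hx, sub_zero] at h2
  exact h2.trans_le h3

theorem heat_lin {a b : ℝ} {U : Set M} (hU : IsOpen U) {g : ℝ → MF A} {ρ : ℝ → M → ℝ}
    (h : HeatOn a b U g ρ) (c : ℝ) : HeatOn a b U g fun s x => c * (2 + ρ s x) where
  sm i := contDiffOn_const.mul (contDiffOn_const.add (h.sm i))
  eq s hs i x hi hx := by
    have h1 := rg_of_smST hU h.sm hs hi hx
    have h2 := Bx.box_const_mul (g := fun s => g s i) c ((Bx.Rg.const 2).add h1)
    rw [Bx.box_add (Bx.Rg.const 2) h1, Bx.box_const, h.eq s hs i x hi hx] at h2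
    exact h2.trans (by simp)

end Ld92

open Ld92 in
theorem ldStmt (n : ℕ) : LdStmt n := by
  unfold LdStmt Leaf
  refine Ev.of_thr (fun _ => 0) (fun _ _ => 0) (fun _ K _ => 2 * (n ^ 2 + 1) * K)
    (fun _ _ _ _ _ _ => 0) ?_
  intro P hP _ _ hK _ M _ _ _ A K0 p I a S
  have k0 := hP.K0
  have kn : 0 ≤ (n : ℝ) ^ 2 * P.K := by positivity
  have hρ : ∀ s ∈ Icc S.t S.t', ∀ x ∈ S.Kc, S.ρ S.t x - S.ρ s x ≤ P.K := fun s hs x hx => by
    have h1 := (abs_le.1 (Stp.crudeK hP hs hx).oρ).1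
    nlinarith [S.r_le_one hP]
  have d1 := pot_barrier S hP (I.u0_pot a) S.hu hP.K10.le (fun x hx => (S.init' hx).id.1)
    fun s hs x hx => by linarith [(abs_le.1 (Stp.crudeK hP hs hx).ou).1]
  have hc := heat_lin S.op S.hρ P.Cb
  have d2 := barrier S hP (F := fun s x => S.u s x - P.Cb * (2 + S.ρ s x))
    (A0 := P.K1 * (1 + P.Cb)) (by have := hP.K10; have := hP.Cb0; positivity)
    (fun i => (S.hu.sm i).sub (hc.sm i))
    (fun s hs x hx => by
      have hi := ch_mem A x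
      have h2 := Bx.box_sub (g := fun s => S.g s (ch A x)) (rg_of_smST S.op S.hu.sm hs hi hx)
        (rg_of_smST S.op hc.sm hs hi hx)
      rw [hc.eq s hs _ x hi hx, S.hu.eq s hs _ x hi hx, sub_zero] at h2
      exact h2.le)
    (fun x hx => by linarith [(S.init' hx).id.2.1])
    fun s hs x hx => by
      have h1 := (abs_le.1 (Stp.crudeK hP hs hx).ou).2
      have h2 := mul_le_mul_of_nonneg_left (hρ s hs x hx) hP.Cb0.le
      have h3 := mul_le_mul_of_nonneg_right (show 2 * P.K ≤ P.K1 by linarith)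
        (show 0 ≤ 1 + P.Cb by linarith [hP.Cb0])
      nlinarith
  refine fun s hs x hx => ⟨d1 s hs x hx, by linarith [d2 s hs x hx], fun C' θ hθ => ?_⟩
  have d3 := pot_barrier S hP hθ.2.1 (heat_lin S.op S.hρ C') (A0 := P.K1 * (1 + C'))
    (by have := hP.K10; have := hθ.1; positivity)
    (fun x hx => by linarith [(S.init' hx).id.2.2 C' θ hθ])
    fun s hs x hx => by
      have h2 := mul_le_mul_of_nonneg_left (hρ s hs x hx) hθ.1
      have h3 := mul_le_mul_of_nonneg_right (show 2 * P.K ≤ P.K1 by linarith) hθ.1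
      nlinarith
  linarith [d3 s hs x hx]

end

end Crest.Agent.T223.Os
end

-- ▼ part T223/OsLgA_41
section

/-!
# Row 223, module OSG, leaf (g) (helper41), part A: the contact point in one chart
-/

set_option autoImplicit false
set_option linter.unusedVariables false
set_option linter.unusedSectionVars false

open Set Filter Topology Metric
open scoped ContDiff ComplexConjugate Matrix ComplexOrder

namespace Crest.Agent.T223.Os.Lg41

open Crest.Agent.R275.Geo Crest.Agent.R273.Hess_333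
open Crest.Agent.T223.Br Crest.Agent.T223.Bx
open Crest.Agent.T223.Tr (nq)
open Crest.Agent.T223.Ev (HeatAt)

noncomputable section

variable {n : ℕ} {P : Par}

/-! ### calculus of `Ψ` -/

theorem hasDerivAt_ell_x {y s : ℝ} (hX : 0 < y + P.ρs s) :
    HasDerivAt (fun y => P.ell y s) (y + P.ρs s)⁻¹ y := by
  have := ((((hasDerivAt_id y).add_const (P.ρs s)).log hX.ne').add_const P.B).add_const
    (Real.log (1 + 1 / P.τ s))
  simpa [Par.ell] using this

theorem hasDerivAt_Ψ_x {y s : ℝ} (hX : 0 < y + P.ρs s) :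
    HasDerivAt (fun y => P.Ψ y s)
      (2 * (y + P.ρs s) * P.ell y s ^ 2 + 2 * (y + P.ρs s) * P.ell y s) y := by
  have := (((hasDerivAt_id y).add_const (P.ρs s)).pow 2).mul ((hasDerivAt_ell_x hX).pow 2)
  refine this.congr_deriv ?_
  simp only [id, Pi.pow_apply]
  field_simp
  ring

theorem hasDerivAt_Ψ_xx {y s : ℝ} (hX : 0 < y + P.ρs s) :
    HasDerivAt (fun y => 2 * (y + P.ρs s) * P.ell y s ^ 2 + 2 * (y + P.ρs s) * P.ell y s)
      (2 * P.ell y s ^ 2 + 6 * P.ell y s + 2) y := by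
  have h1 := ((hasDerivAt_id y).add_const (P.ρs s)).const_mul 2
  have := (h1.mul ((hasDerivAt_ell_x hX).pow 2)).add (h1.mul (hasDerivAt_ell_x hX))
  refine this.congr_deriv ?_
  simp only [id, Pi.pow_apply]
  field_simp
  ring

theorem hasDerivAt_ρs (s : ℝ) : HasDerivAt P.ρs (2 * P.B * (1 + s)) s := by
  have := ((((hasDerivAt_id s).const_add 1).pow 2).const_mul P.B)
  refine this.congr_deriv ?_
  simp only [id]
  ring

theorem hasDerivAt_ell_s {y s : ℝ} (hX : 0 < y + P.ρs s) (hτ : 0 < P.τ s) :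
    HasDerivAt (fun s => P.ell y s)
      (2 * P.B * (1 + s) / (y + P.ρs s) - 1 / (P.τ s * (P.τ s + 1))) s := by
  have h1 : HasDerivAt P.τ 1 s := (hasDerivAt_id s).add_const P.tA
  have h2 : HasDerivAt (fun s => 1 + 1 / P.τ s) (-1 / P.τ s ^ 2) s := by
    have := (h1.inv hτ.ne').const_add 1
    simpa only [one_div, Pi.inv_apply] using this
  have h3 : 0 < 1 + 1 / P.τ s := by positivity
  have := (((((hasDerivAt_ρs s).const_add y).log hX.ne').add_const P.B)).add (h2.log h3.ne')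
  refine this.congr_deriv ?_
  field_simp
  ring

theorem exists_Ψ_s (h : P.Ok) {y s : ℝ} (hy : 0 ≤ y) (hs : 0 ≤ s) :
    ∃ D, HasDerivAt (fun s => P.Ψ y s) D s ∧ -(2 / P.B * P.Ψ y s) ≤ P.τ s * D := by
  have hX : 0 < y + P.ρs s := by linarith [h.one_le_ρs hs]
  have hτ := h.τ_pos hs
  have h1 := (((hasDerivAt_ρs (P := P) s).const_add y).pow 2).mul
    ((hasDerivAt_ell_s hX hτ).pow 2)
  refine ⟨_, h1, ?_⟩
  simp only [Pi.pow_apply]
  have hl := h.B_le_ell hy hs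
  have hB := h.B0
  have hl0 := h.ell_pos hy hs
  set X := y + P.ρs s
  set l := P.ell y s
  set τ := P.τ s
  have e : τ * (((2 : ℕ) : ℝ) * X ^ (2 - 1) * (2 * P.B * (1 + s)) * l ^ 2 +
      X ^ 2 * (((2 : ℕ) : ℝ) * l ^ (2 - 1) * (2 * P.B * (1 + s) / X - 1 / (τ * (τ + 1))))) =
      τ * (4 * X * P.B * (1 + s) * l ^ 2 + 4 * X * l * P.B * (1 + s)) - 2 * X ^ 2 * l / (τ + 1) := by
    push_cast
    field_simp
    ring
  rw [e]
  have h2 : 0 ≤ τ * (4 * X * P.B * (1 + s) * l ^ 2 + 4 * X * l * P.B * (1 + s)) := by positivity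
  have h3 : 2 * X ^ 2 * l / (τ + 1) ≤ 2 * X ^ 2 * l :=
    div_le_self (by positivity) (by linarith)
  have h4 : 2 * X ^ 2 * l ≤ 2 / P.B * P.Ψ y s := by
    change _ ≤ 2 / P.B * (X ^ 2 * l ^ 2)
    rw [div_mul_eq_mul_div, le_div_iff₀ hB]
    have : 0 ≤ X ^ 2 * l := by positivity
    nlinarith
  linarith

theorem τ_Ψ_xx (h : P.Ok) {y s : ℝ} (hy : 0 ≤ y) (hs : 0 ≤ s) :
    P.τ s * (2 * P.ell y s ^ 2 + 6 * P.ell y s + 2) ≤ 10 / P.B * P.Ψ y s := by
  have hl := h.B1.trans (h.B_le_ell hy hs)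
  have hB := h.B0
  have hB1 := h.B1
  have h1 := h.lin_le_ρs hs
  have h2 := h.τ_le (s := s)
  have hτ := h.τ_pos hs
  have h3 := h.one_le_ρs hs
  change _ ≤ 10 / P.B * ((y + P.ρs s) ^ 2 * P.ell y s ^ 2)
  set X := y + P.ρs s
  set l := P.ell y s
  have h4 : P.τ s * P.B ≤ X ^ 2 := by
    have : P.τ s * P.B ≤ X := by nlinarith
    have : 1 ≤ X := by linarith
    nlinarith
  rw [div_mul_eq_mul_div, le_div_iff₀ hB]
  have h5 : 2 * l ^ 2 + 6 * l + 2 ≤ 10 * l ^ 2 := by nlinarith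
  calc P.τ s * (2 * l ^ 2 + 6 * l + 2) * P.B = (P.τ s * P.B) * (2 * l ^ 2 + 6 * l + 2) := by ring
    _ ≤ X ^ 2 * (10 * l ^ 2) := mul_le_mul h4 h5 (by positivity) (by positivity)
    _ = _ := by ring

theorem cd_Ψ {y s : ℝ} (hX : 0 < y + P.ρs s) (hτ : 0 < P.τ s) :
    ContDiffAt ℝ ∞ (fun q : ℝ × ℝ => P.Ψ q.2 q.1) (s, y) := by
  have h1 : ContDiffAt ℝ ∞ (fun q : ℝ × ℝ => q.2 + P.ρs q.1) (s, y) := by
    unfold Par.ρs; fun_prop
  have h2 : ContDiffAt ℝ ∞ (fun q : ℝ × ℝ => P.τ q.1) (s, y) := by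
    unfold Par.τ; fun_prop
  have h3 : 0 < 1 + 1 / P.τ s := by positivity
  exact (h1.pow 2).mul ((((h1.log hX.ne').add contDiffAt_const).add
    ((contDiffAt_const.add (contDiffAt_const.div h2 hτ.ne')).log h3.ne')).pow 2)

variable {g : ℝ → Cn n → Mat n} {u ρ : ℝ → Cn n → ℝ} {s : ℝ} {z : Cn n}

theorem rg_Ψ (h : P.Ok) (hρ : Rg ρ s z) (h0 : 0 ≤ ρ s z) (hs : 0 ≤ s) :
    Rg (fun s w => P.Ψ (ρ s w) s) s z :=
  Rg.comp₂ (F := fun s y => P.Ψ y s)
    (cd_Ψ (by linarith [h.one_le_ρs hs]) (h.τ_pos hs)) hρ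

/-- `Ψ (ρ, s)` is almost a supersolution -/
theorem box_Ψ_ge (h : P.Ok) (hg : (g s z).PosDef) (hρ : Rg ρ s z) (hb : box g ρ s z = 0)
    (h0 : 0 ≤ ρ s z) (hs : 0 ≤ s) (hK : gsq (g s) (ρ s) z ≤ P.K) :
    -(12 * P.K / P.B * P.Ψ (ρ s z) s) ≤ P.τ s * box g (fun s w => P.Ψ (ρ s w) s) s z := by
  have hX : 0 < ρ s z + P.ρs s := by linarith [h.one_le_ρs hs]
  obtain ⟨D, hD, hD'⟩ := exists_Ψ_s h h0 hs
  have hev : ∀ᶠ y in 𝓝 (ρ s z), 0 < y + P.ρs s :=
    (continuous_id.add continuous_const).continuousAt.eventually (lt_mem_nhds hX)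
  rw [box_chain₂ (F := fun s y => P.Ψ y s)
    ((cd_Ψ hX (h.τ_pos hs)).differentiableAt (by simp)) hD
    (hev.mono fun y hy => hasDerivAt_Ψ_x hy) (hasDerivAt_Ψ_xx hX) hρ, hb]
  have h1 := τ_Ψ_xx h h0 hs
  have h2 := gsq_nonneg (g := g s) (u := ρ s) hg
  have hl := h.ell_pos h0 hs
  have hτ := h.τ_pos hs
  have hΨ := h.Ψ_pos h0 hs
  have hB := h.B0
  have h3 : P.τ s * (2 * P.ell (ρ s z) s ^ 2 + 6 * P.ell (ρ s z) s + 2) * gsq (g s) (ρ s) z ≤
      10 / P.B * P.Ψ (ρ s z) s * P.K := mul_le_mul h1 hK h2 (by positivity)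
  have h4 : 2 / P.B * P.Ψ (ρ s z) s ≤ 2 / P.B * P.Ψ (ρ s z) s * P.K :=
    le_mul_of_one_le_right (by positivity) h.K_1
  have h5 : 12 * P.K / P.B * P.Ψ (ρ s z) s =
      10 / P.B * P.Ψ (ρ s z) s * P.K + 2 / P.B * P.Ψ (ρ s z) s * P.K := by ring
  nlinarith

/-! ### the Bernstein quantity in a chart -/

/-- `Os.Phi` in a chart -/
def PhiC (P : Par) (g : ℝ → Cn n → Mat n) (u : ℝ → Cn n → ℝ) (s : ℝ) (z : Cn n) : ℝ :=
  P.τ s * scal (g s) z + 16 * n * (P.τ s * gsq (g s) (u s) z + u s z ^ 2)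

theorem hasDerivAt_τ (s : ℝ) : HasDerivAt P.τ 1 s := (hasDerivAt_id s).add_const P.tA

theorem rg_scal (hk : KRFat g s z) : Rg (fun s w => scal (g s) w) s z :=
  Rg.of_joint (Cn.cda_scal (g := g) (p := (s, z)) hk.sm hk.pos.self_of_nhds)

theorem rg_gsq (hk : KRFat g s z) (hu : HeatAt g u s z) :
    Rg (fun s w => gsq (g s) (u s) w) s z :=
  Rg.of_joint (Cn.cda_gsq (g := g) (p := (s, z)) hk.sm hk.pos.self_of_nhds hu.sm)

theorem rg_PhiC (hk : KRFat g s z) (hu : HeatAt g u s z) : Rg (PhiC P g u) s z := by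
  have hτ : Rg (fun s (_ : Cn n) => P.τ s) s z := Rg.time (hasDerivAt_τ s).differentiableAt
  exact (hτ.mul (rg_scal hk)).add (Rg.const_mul _ ((hτ.mul (rg_gsq hk hu)).add
    (Rg.of_joint (φ := fun s w => u s w ^ 2) (hu.sm.pow 2))))

theorem box_PhiC (hk : KRFat g s z) (hu : HeatAt g u s z) {l e : ℝ} (hτ : 0 ≤ P.τ s) (h0 : 0 ≤ l)
    (hl : BKge (g s) z l)
    (he : ∀ v, -(e * nq (g s z) v) ≤ nq (hess (u s) z) v - nq (ric (g s) z) v) :
    box g (PhiC P g u) s z ≤ scal (g s) z - 6 * P.τ s * scal (g s) z ^ 2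
      - 16 * n * gsq (g s) (u s) z + P.τ s * (19 * n ^ 4 * l ^ 2 + 16 * n ^ 2 * e ^ 2) := by
  have r0 : Rg (fun s (_ : Cn n) => P.τ s) s z := Rg.time (hasDerivAt_τ s).differentiableAt
  have r1 := rg_scal hk
  have r2 := rg_gsq hk hu
  have r3 : Rg (fun s w => u s w ^ 2) s z := Rg.of_joint (φ := fun s w => u s w ^ 2) (hu.sm.pow 2)
  have e1 := box_add (g := g) (r0.mul r1) (Rg.const_mul (16 * n) ((r0.mul r2).add r3))
  rw [box_const_mul _ ((r0.mul r2).add r3), box_add (r0.mul r2) r3,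
    box_time_mul (hasDerivAt_τ s) r1, box_time_mul (hasDerivAt_τ s) r2, Ev.box_scal hk,
    Ev.box_sq hk hu] at e1
  change box g (PhiC P g u) s z = _ at e1
  rw [e1]
  have b1 := Ev.box_gsq hk hu
  have b2 := Ev.nrm_ric_le hk.kahAt h0 hl
  have b3 := Ev.nrm_hess_ge hk.kahAt hl (e := e) (Rg.of_joint hu.sm).sp fun v => by
    linarith [he v]
  have b4 : (n : ℝ) * box g (fun t z => gsq (g t) (u t) z) s z ≤
      -(scal (g s) z ^ 2 / 2 - n ^ 2 * e ^ 2 - n ^ 4 * l ^ 2) := by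
    have := mul_le_mul_of_nonneg_left b1 (Nat.cast_nonneg (α := ℝ) n)
    linarith
  have b5 := mul_le_mul_of_nonneg_left b4 hτ
  have b6 := mul_le_mul_of_nonneg_left b2 hτ
  nlinarith

theorem num_contact {n K K1 B V E Ψ τ R G U bE bΨ bΦ q r Λ' : ℝ} (hn : 0 ≤ n) (hK0 : 0 < K)
    (hK10 : 0 < K1) (hB0 : 0 < B) (hV : K + 1 ≤ V) (hτ : 0 < τ) (hr : 0 < r) (hq : q = 1 / r ^ 2)
    (hE0 : 0 < E) (hE : E ≤ 1) (hΨ : 1 ≤ Ψ) (hΛ : 1 ≤ Λ')
    (hK1 : 35 * (n + 1) ^ 4 * K ^ 2 ≤ K1) (hB : 24 * K ≤ B)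
    (t1 : K1 * 1 * q * E + K1 * τ * q * bE + Λ' * bΨ ≤ bΦ)
    (t2 : bΦ ≤ R - 6 * τ * R ^ 2 - 16 * n * G +
      τ * (19 * n ^ 4 * (K * q * E) ^ 2 + 16 * n ^ 2 * ((n + 1) * K * q * E) ^ 2))
    (t3 : (V - K) / r ^ 2 * E ≤ bE) (t4 : -(12 * K / B * Ψ) ≤ τ * bΨ)
    (heq : τ * R + 16 * n * (τ * G + U) = K1 * τ * q * E + Λ' * Ψ)
    (hu2 : 64 * n * U ≤ Λ' * Ψ) : False := by
  have hq0 : 0 < q := by rw [hq]; positivity
  have t5 : q * E ≤ bE := by
    refine le_trans ?_ t3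
    refine mul_le_mul_of_nonneg_right ?_ hE0.le
    rw [hq]
    exact div_le_div_of_nonneg_right (by linarith) (by positivity)
  have t6 : 19 * n ^ 4 * (K * q * E) ^ 2 + 16 * n ^ 2 * ((n + 1) * K * q * E) ^ 2 ≤
      K1 * q * (q * E) := by
    have a1 : n ^ 4 ≤ (n + 1) ^ 4 := pow_le_pow_left₀ hn (by linarith) 4
    have a2 : n ^ 2 ≤ (n + 1) ^ 2 := pow_le_pow_left₀ hn (by linarith) 2
    have a3 : 19 * n ^ 4 + 16 * n ^ 2 * (n + 1) ^ 2 ≤ 35 * (n + 1) ^ 4 := by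
      nlinarith [mul_le_mul_of_nonneg_right a2 (sq_nonneg (n + 1))]
    have a4 : (19 * n ^ 4 + 16 * n ^ 2 * (n + 1) ^ 2) * K ^ 2 ≤ K1 :=
      (mul_le_mul_of_nonneg_right a3 (sq_nonneg _)).trans hK1
    have a5 : E ^ 2 ≤ E := by nlinarith
    calc _ = ((19 * n ^ 4 + 16 * n ^ 2 * (n + 1) ^ 2) * K ^ 2) * (q ^ 2 * E ^ 2) := by ring
      _ ≤ K1 * (q ^ 2 * E) :=
          mul_le_mul a4 (mul_le_mul_of_nonneg_left a5 (sq_nonneg _)) (by positivity) hK10.le
      _ = _ := by ring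
  have t7 : τ * (K1 * q * (q * E)) ≤ K1 * τ * q * bE := by
    have := mul_le_mul_of_nonneg_left t5 (show 0 ≤ K1 * τ * q by positivity)
    linarith
  have t8 : Λ' * bΨ ≤ R - 6 * τ * R ^ 2 - 16 * n * G := by
    have a1 := mul_le_mul_of_nonneg_left t6 hτ.le
    have a2 : 0 ≤ K1 * 1 * q * E := by positivity
    linarith
  have t9 : 12 * K / B ≤ 1 / 2 := by
    rw [div_le_div_iff₀ hB0 (by norm_num)]; linarith
  have t10 : -(1 / 2 * (Λ' * Ψ)) ≤ τ * (Λ' * bΨ) := by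
    have a1 : 12 * K / B * Ψ ≤ 1 / 2 * Ψ := mul_le_mul_of_nonneg_right t9 (by linarith)
    have a2 : -(1 / 2 * Ψ) ≤ τ * bΨ := by linarith
    have a3 := mul_le_mul_of_nonneg_left a2 (show 0 ≤ Λ' by linarith)
    linarith
  have t11 := mul_le_mul_of_nonneg_left t8 hτ.le
  have t12 : 1 ≤ Λ' * Ψ := one_le_mul_of_one_le_of_one_le hΛ hΨ
  have t13 : 0 ≤ K1 * τ * q * E := by positivity
  nlinarith [sq_nonneg (τ * R - 1 / 6)]

/-- **no contact** -/
theorem no_contact (h : P.Ok) (hk : KRFat g s z) (hu : HeatAt g u s z) (hρ : HeatAt g ρ s z)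
    {σ t r q Λ' : ℝ} (hs : 0 ≤ s) (hr : 0 < r) (hq : q = 1 / r ^ 2) (h0 : 0 ≤ ρ s z)
    (hK : gsq (g s) (ρ s) z ≤ P.K) (hE : Eb σ P.V t r ρ s z ≤ 1)
    (hl : BKge (g s) z (P.K * q * Eb σ P.V t r ρ s z))
    (he : ∀ v, -((n + 1) * P.K * q * Eb σ P.V t r ρ s z * nq (g s z) v) ≤
      nq (hess (u s) z) v - nq (ric (g s) z) v)
    (hm : ∀ᶠ w in past s z, PhiC P g u w.1 w.2 ≤
      P.K1 * P.τ w.1 * q * Eb σ P.V t r ρ w.1 w.2 + Λ' * P.Ψ (ρ w.1 w.2) w.1)
    (heq : PhiC P g u s z = P.K1 * P.τ s * q * Eb σ P.V t r ρ s z + Λ' * P.Ψ (ρ s z) s)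
    (hu2 : 64 * n * u s z ^ 2 ≤ Λ' * P.Ψ (ρ s z) s) (hΛ : 1 ≤ Λ')
    (hK1 : 35 * (n + 1) ^ 4 * P.K ^ 2 ≤ P.K1) (hB : 24 * P.K ≤ P.B) : False := by
  have hg : (g s z).PosDef := hk.pos.self_of_nhds
  have hτ := h.τ_pos hs
  have hq0 : 0 < q := by rw [hq]; positivity
  have hK0 := h.K0
  have hK10 := h.K10
  have hn : (0 : ℝ) ≤ n := Nat.cast_nonneg n
  have rρ : Rg ρ s z := Rg.of_joint hρ.sm
  have bρ : box g ρ s z = 0 := hρ.eq.self_of_nhds
  have rE : Rg (Eb σ P.V t r ρ) s z := rρ.Eb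
  have rΨ := rg_Ψ h rρ h0 hs
  have d1 : HasDerivAt (fun s => P.K1 * P.τ s * q) (P.K1 * 1 * q) s :=
    ((hasDerivAt_τ s).const_mul P.K1).mul_const q
  have rW : Rg (fun s w => P.K1 * P.τ s * q * Eb σ P.V t r ρ s w) s z :=
    (Rg.time d1.differentiableAt).mul rE
  have t1 := box_le_of_touch hg (rg_PhiC hk hu) (rW.add (rΨ.const_mul Λ')) hm heq
  rw [box_add rW (rΨ.const_mul Λ'), box_const_mul _ rΨ, box_time_mul d1 rE] at t1
  have hE0 := Eb_pos σ P.V t r ρ s z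
  have t2 := box_PhiC (P := P) hk hu hτ.le (by positivity) hl he
  have t3 := box_Eb_ge (g := g) (σ := σ) (V := P.V) (t₀ := t) hr rρ bρ.ge hK
  have t4 := box_Ψ_ge h hg rρ bρ h0 hs hK
  have hΨ := h.one_le_Ψ h0 hs
  have hG := gsq_nonneg (g := g s) (u := u s) hg
  exact num_contact hn hK0 hK10 h.B0 h.KV hτ hr hq hE0 hE hΨ hΛ hK1 hB t1 t2 t3 t4 heq hu2

end

end Crest.Agent.T223.Os.Lg41
end

-- ▼ part T223/OsLg_41

/-!
# Row 223, module OSG, leaf (g) (helper41): the Bernstein estimate on one step, `lgStmt`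
-/

set_option autoImplicit false
set_option linter.unusedVariables false
set_option linter.unusedSectionVars false

open Set Filter Topology Metric
open scoped ContDiff ComplexConjugate Matrix ComplexOrder

namespace Crest.Agent.T223.Os

open Crest.Agent.R275.Geo Crest.Agent.R275.EDR890 Crest.Agent.R273.Kah_333
open Crest.Agent.R273.Hess_333 Crest.Agent.T223.Br
open Crest.Agent.T223.Tr (nq)
open Crest.Agent.T223.Db (dom SmST)
open Crest.Agent.T223.Ev (HeatAt)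

noncomputable section

namespace Lg41

variable {n : ℕ} {M : Type} [TopologicalSpace M] {A : Atl n M}

theorem cdOn_wd {a b : ℝ} (hab : a < b) {D : Set (Cn n)} (hD : IsOpen D)
    {f : ℝ → Cn n → ℂ} (hf : ContDiffOn ℝ ∞ (fun q : ℝ × Cn n => f q.1 q.2) (Icc a b ×ˢ D))
    (r : WI n) : ContDiffOn ℝ ∞ (fun q : ℝ × Cn n => wd r (f q.1) q.2) (Icc a b ×ˢ D) :=
  (wdLc (W := ℂ) r).contDiff.comp_contDiffOn (T24.cdOn_fderiv_slice hab hD hf)

theorem cont_Sc {a b : ℝ} (hab : a < b) {U : Set M} (hU : IsOpen U) {g : ℝ → MF A}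
    (hg : FlowOn a b U g) : ContinuousOn (fun q : ℝ × M => Sc (g q.1) q.2) (Icc a b ×ˢ U) := by
  refine T24.continuousOn_of_charts (f := fun s x => Sc (g s) x)
    (F := fun i q => scal (g q.1 i) q.2) (fun i => ?_)
    fun i s hs x hi hx => Sc_eq (hg.kah s hs) hU hx hi
  have hp : ∀ q ∈ Icc a b ×ˢ dom A i U, (g q.1 i q.2).PosDef := fun q hq =>
    (kahAt_dom (hg.kah q.1 hq.1) hq.2).posDef
  have h1 : ContDiffOn ℝ ∞ (fun q : ℝ × Cn n => (g q.1 i q.2).det) (Icc a b ×ˢ dom A i U) := by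
    simp only [Matrix.det_apply']
    exact ContDiffOn.sum fun σ _ => contDiffOn_const.mul (contDiffOn_prod fun k _ => hg.sm i _ _)
  have h2 : ContDiffOn ℝ ∞ (fun q : ℝ × Cn n => cu (ldet (g q.1 i)) q.2) (Icc a b ×ˢ dom A i U) :=
    Complex.ofRealCLM.contDiff.comp_contDiffOn
      ((Complex.reCLM.contDiff.comp_contDiffOn h1).log fun q hq =>
        (Complex.pos_iff.1 (hp q hq).det_pos).1.ne')
  have h3 : ∀ k l, ContinuousOn (fun q : ℝ × Cn n => ric (g q.1 i) q.2 k l)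
      (Icc a b ×ˢ dom A i U) := fun k l =>
    (cdOn_wd hab (isOpen_dom i hU) (f := fun s => wd (true, l) (cu (ldet (g s i))))
      (cdOn_wd hab (isOpen_dom i hU) (f := fun s => cu (ldet (g s i))) h2 _) _).continuousOn.neg
  have h4 := T24.contOn_inv (G := fun q : ℝ × Cn n => g q.1 i q.2)
    (fun k l => (hg.sm i k l).continuousOn) fun q hq => (hp q hq).det_pos.ne'
  refine Complex.continuous_re.comp_continuousOn ?_
  simp only [Matrix.trace, Matrix.diag_apply, Matrix.mul_apply]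
  exact continuousOn_finsetSum _ fun k _ => continuousOn_finsetSum _ fun l _ =>
    (h4 k l).mul (h3 l k)

theorem bkge_of_lyhGe {G : MF A} {τ κ θ : ℝ} {x : M} (h : LyhGe G τ κ θ x) {i : A.ι}
    (hi : x ∈ (A.e i).source) : BKge (G i) (A.e i x) θ := by
  intro v w
  have := h i hi 0 w v
  simp only [lyhS, norm_zero, map_zero, zero_mul, Complex.zero_re, mul_zero, ne_eq,
    OfNat.ofNat_ne_zero, not_false_eq_true, zero_pow, add_zero, zero_add] at this
  linarith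

theorem scal_le {g : Cn n → Mat n} {z : Cn n} (h : KahAt g z) {c : ℝ} (hc : BKle g z c) :
    scal g z ≤ n ^ 2 * c := by
  have := Ev.trg_upper h.posDef h.ric_herm (b := n * c) fun v => Tr.ric_le_of_BKle h hc v
  unfold scal
  nlinarith

theorem num_out {n K K1 τ τ0 q R G u u0 R0 G0 ΛΨ e : ℝ} (hn : 0 ≤ n) (hK : 1 ≤ K)
    (hK1 : 300 * (n + 1) ^ 4 * K ^ 2 ≤ K1) (hτ0 : 0 < τ0) (hτ : τ0 ≤ τ) (hq : 0 < q)
    (h1 : 1 ≤ τ * q) (hR : R ≤ n ^ 2 * (K * q)) (hG : G ≤ K * q) (hu : |u - u0| ≤ K)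
    (hR0 : -(n ^ 2 * (K * q)) ≤ R0) (hG0 : 0 ≤ G0) (he : e ≤ 1 / 16)
    (hΛ : ΛΨ ≤ 2 * (τ0 * q))
    (h0 : τ0 * R0 + 16 * n * (τ0 * G0 + u0 ^ 2) ≤ ΛΨ + K1 * τ0 * q * e) :
    τ * R + 16 * n * (τ * G + u ^ 2) ≤ K1 * τ * q * (1 / 3) := by
  have hτ' : 0 < τ := hτ0.trans_le hτ
  have hK0 : 0 < K := by linarith
  have hN : 1 ≤ (n + 1) ^ 4 := one_le_pow₀ (by linarith)
  have hN1 : n ≤ (n + 1) ^ 4 := by
    have : n + 1 ≤ (n + 1) ^ 4 := le_self_pow₀ (by linarith) (by norm_num)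
    linarith
  have hN2 : n ^ 2 ≤ (n + 1) ^ 4 :=
    (pow_le_pow_left₀ hn (by linarith) 2).trans (pow_le_pow_right₀ (by linarith) (by norm_num))
  have hKK : K ≤ K ^ 2 := by nlinarith
  have hK2 : 1 ≤ K ^ 2 := by nlinarith
  set N := (n + 1) ^ 4 * K ^ 2 with hNd
  have b1 : n ^ 2 * K ≤ N := mul_le_mul hN2 hKK hK0.le (by positivity)
  have b2 : n * K ≤ N := mul_le_mul hN1 hKK hK0.le (by positivity)
  have b3 : n * K ^ 2 ≤ N := mul_le_mul_of_nonneg_right hN1 (by positivity)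
  have b4 : 1 ≤ N := one_le_mul_of_one_le_of_one_le hN hK2
  have hK1' : 300 * N ≤ K1 := by rw [hNd, ← mul_assoc]; exact hK1
  have hK10 : 0 ≤ K1 := by linarith
  set T := τ * q with hT
  set T0 := τ0 * q with hT0
  have hT00 : 0 < T0 := by positivity
  have hTT : T0 ≤ T := mul_le_mul_of_nonneg_right hτ hq.le
  have a1 : τ * R ≤ N * T := by
    have := mul_le_mul_of_nonneg_left hR hτ'.le
    have h2 := mul_le_mul_of_nonneg_right b1 (show 0 ≤ T by linarith)
    calc τ * R ≤ τ * (n ^ 2 * (K * q)) := this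
      _ = n ^ 2 * K * T := by rw [hT]; ring
      _ ≤ _ := h2
  have a2 : n * (τ * G) ≤ N * T := by
    have := mul_le_mul_of_nonneg_left (mul_le_mul_of_nonneg_left hG hτ'.le) hn
    have h2 := mul_le_mul_of_nonneg_right b2 (show 0 ≤ T by linarith)
    calc n * (τ * G) ≤ n * (τ * (K * q)) := this
      _ = n * K * T := by rw [hT]; ring
      _ ≤ _ := h2
  have a3 : -(N * T) ≤ τ0 * R0 := by
    have := mul_le_mul_of_nonneg_left hR0 hτ0.le
    have h2 : n ^ 2 * K * T0 ≤ N * T := mul_le_mul b1 hTT hT00.le (by linarith)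
    calc -(N * T) ≤ -(n ^ 2 * K * T0) := by linarith
      _ = τ0 * -(n ^ 2 * (K * q)) := by rw [hT0]; ring
      _ ≤ _ := this
  have a4 : K1 * τ0 * q * e ≤ K1 * T / 16 := by
    have h2 : K1 * T0 * e ≤ K1 * T0 * (1 / 16) := mul_le_mul_of_nonneg_left he (by positivity)
    have h3 : K1 * T0 ≤ K1 * T := mul_le_mul_of_nonneg_left hTT hK10
    calc K1 * τ0 * q * e = K1 * T0 * e := by rw [hT0]; ring
      _ ≤ _ := by linarith
  have a5 : 0 ≤ n * (τ0 * G0) := by positivity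
  have a6 : n * u ^ 2 ≤ 2 * (n * u0 ^ 2) + 2 * (n * K ^ 2) := by
    have h2 : (u - u0) ^ 2 ≤ K ^ 2 := by
      rw [← sq_abs]; exact pow_le_pow_left₀ (abs_nonneg _) hu 2
    have h3 : u ^ 2 ≤ 2 * u0 ^ 2 + 2 * K ^ 2 := by nlinarith [sq_nonneg (u - 2 * u0)]
    nlinarith [mul_le_mul_of_nonneg_left h3 hn]
  have a7 : N ≤ N * T := le_mul_of_one_le_right (by linarith) h1
  have a8 : T ≤ N * T := le_mul_of_one_le_left (by linarith) b4
  have a9 : 300 * (N * T) ≤ K1 * T := by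
    have := mul_le_mul_of_nonneg_right hK1' (show 0 ≤ T by linarith)
    linarith
  have e1 : K1 * τ * q * (1 / 3) = K1 * T / 3 := by rw [hT]; ring
  rw [e1]
  nlinarith

theorem num_grad {n K K1 τ q R G U W E : ℝ} (hn : 1 ≤ n) (hK : 1 ≤ K)
    (hK1 : 300 * (n + 1) ^ 4 * K ^ 2 ≤ K1) (hτ : 0 < τ) (hq : 0 < q) (hE : 0 < E) (hW : 0 ≤ W)
    (hU : 0 ≤ U) (hG : 0 ≤ G) (hR : -(n ^ 2 * (K * q * E)) ≤ R)
    (h : τ * R + 16 * n * (τ * G + U) ≤ K1 * τ * q * E + W) : τ * G ≤ W + K1 * τ * q * E := by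
  have hN2 : n ^ 2 ≤ (n + 1) ^ 4 :=
    (pow_le_pow_left₀ (by linarith) (by linarith) 2).trans
      (pow_le_pow_right₀ (by linarith) (by norm_num))
  have hKK : K ≤ K ^ 2 := by nlinarith
  have b1 : n ^ 2 * K ≤ (n + 1) ^ 4 * K ^ 2 := mul_le_mul hN2 hKK (by linarith) (by positivity)
  have b2 : n ^ 2 * K ≤ K1 := by nlinarith [show 0 ≤ (n + 1) ^ 4 * K ^ 2 by positivity]
  have hT : 0 < τ * q * E := by positivity
  have a1 : -(K1 * τ * q * E) ≤ τ * R := by
    have h2 := mul_le_mul_of_nonneg_left hR hτ.le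
    have h3 := mul_le_mul_of_nonneg_right b2 hT.le
    calc -(K1 * τ * q * E) = -(K1 * (τ * q * E)) := by ring
      _ ≤ -(n ^ 2 * K * (τ * q * E)) := by linarith
      _ = τ * -(n ^ 2 * (K * q * E)) := by ring
      _ ≤ _ := h2
  have a2 : 0 ≤ n * U := by positivity
  have a3 : τ * G ≤ n * (τ * G) := le_mul_of_one_le_left (by positivity) hn
  have a4 : 0 ≤ τ * G := by positivity
  nlinarith

variable [T2Space M] [ConnectedSpace M] {K0 : Kah A} {p : M}
variable {P : Par} {I : Init K0 p} {a : ℝ} {S : Stp P I a}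

open Stp

theorem heatAt {f : ℝ → M → ℝ} (hf : HeatOn S.t S.b S.U S.g f) {s : ℝ} (hs : s ∈ Ioo S.t S.b)
    {i : A.ι} {x : M} (hi : x ∈ (A.e i).source) (hx : x ∈ S.U) :
    HeatAt (fun s => S.g s i) (fun s => inC A i (f s)) s (A.e i x) where
  sm := T24.cd_of_SmST S.op hf.sm hs hi hx
  eq := by
    filter_upwards [T24.ev_loc hs hi hx] with q hq
    have := hf.eq q.1 hq.1 i _ hq.2.1 hq.2.2.1
    rwa [hq.2.2.2] at this

theorem Phi_eq {s : ℝ} (hs : s ∈ Ioo S.t S.b) {i : A.ι} {x : M} (hi : x ∈ (A.e i).source)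
    (hx : x ∈ S.U) : Phi (S.g s) (S.u s) (P.τ s) x =
      PhiC P (fun s => S.g s i) (fun s => inC A i (S.u s)) s (A.e i x) := by
  rw [Phi, PhiC, Sc_eq (S.flow.kah s (Ioo_subset_Icc_self hs)) S.op hx hi, T24.Gr_u hs hi hx,
    inC_apply _ hi]

theorem Gr_nonneg (h : P.Ok) {s : ℝ} (hs : s ∈ Icc S.t S.t') {x : M} (hx : x ∈ S.Kc)
    (f : M → ℝ) : 0 ≤ Gr (S.g s) f x :=
  Ev.gsq_nonneg ((S.flow.kah s (mem_Icc h hs)).kah _ x (ch_mem A x) hx.1).posDef

theorem Ψ_nonneg (P : Par) (y s : ℝ) : 0 ≤ P.Ψ y s := by unfold Par.Ψ; positivity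

/-- the crude bound where `E ≥ 1/3` -/
theorem Phi_out (h : P.Ok) (hK1 : 300 * (n + 1) ^ 4 * P.K ^ 2 ≤ P.K1)
    (hB : 10 * (2 * P.K + 4) ≤ P.B) {s : ℝ} (hs : s ∈ Icc S.t S.t') {x : M} (hx : x ∈ S.Kc) :
    Phi (S.g s) (S.u s) (P.τ s) x ≤ P.K1 * P.τ s * S.q * (1 / 3) := by
  have ht : S.t ∈ Icc S.t S.t' := ⟨le_rfl, (S.t_lt h).le⟩
  have c := crudeK h hs hx
  have c0 := crudeK h ht hx
  have k := (S.flow.kah s (mem_Icc h hs)).kah _ x (ch_mem A x) hx.1
  have k0 := (S.flow.kah S.t (mem_Icc h ht)).kah _ x (ch_mem A x) hx.1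
  have i0 := S.init' hx
  have hR := scal_le k (c.bk _ (ch_mem A x)).2
  have hR0 := Ev.scal_ge k0 (c0.bk _ (ch_mem A x)).1
  have hG := c.gu
  rw [S.div_r h] at hR hR0 hG
  have hΛ : P.Λ * P.Ψ (S.ρ S.t x) S.t ≤ 2 * (P.τ S.t * S.q) :=
    (mul_le_mul_of_nonneg_right h.ΛL (Ψ_nonneg _ _ _)).trans (ΛΨ_le h ht hx i0.ic.1 hB)
  exact num_out (Nat.cast_nonneg n) h.K_1 hK1 (h.τ_pos S.t0) (h.τ_mono hs.1) (S.q_pos h)
    (one_le_τq h hs) hR hG c.ou hR0 (Gr_nonneg h ht hx _) (e0_le' h x) hΛ i0.ig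

theorem E_third (h : P.Ok) {s : ℝ} {x : M} :
    (S.E s x ≤ 1 / 3 ↔ S.ρ s x ≤ S.sg s - Real.log 3 * S.r) ∧
    (1 / 3 ≤ S.E s x ↔ S.sg s - Real.log 3 * S.r ≤ S.ρ s x) := by
  have e : Real.exp (-Real.log 3) = 1 / 3 := by
    rw [Real.exp_neg, Real.exp_log (by norm_num), one_div]
  rw [← e, E_le_exp_iff h, exp_le_E_iff h, neg_mul, ← sub_eq_add_neg]
  exact ⟨Iff.rfl, Iff.rfl⟩

theorem og (hn : 1 ≤ n) (h : P.Ok) (hK1 : 300 * (n + 1) ^ 4 * P.K ^ 2 ≤ P.K1)
    (hB : 64 * P.K ≤ P.B) (hA : S.OA) (hb : S.OB) (hC : S.OC) (hL : S.OL) : S.OG := by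
  have hB' : 10 * (2 * P.K + 4) ≤ P.B := by linarith [h.K_1]
  have hK10 := h.K10
  have hq := S.q_pos h
  have out : ∀ s ∈ Icc S.t S.t', ∀ x ∈ S.Kc, 1 / 3 ≤ S.E s x →
      Phi (S.g s) (S.u s) (P.τ s) x ≤ P.K1 * P.τ s * S.q * S.E s x := fun s hs x hx hE =>
    (Phi_out h hK1 hB' hs hx).trans (mul_le_mul_of_nonneg_left hE
      (by have := h.τ_pos (nonneg h hs); positivity))
  have cτ : ContinuousOn (fun q : ℝ × M => P.τ q.1) (Icc S.t S.t' ×ˢ S.Kc) :=
    (continuous_fst.add continuous_const).continuousOn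
  have cΦ : ContinuousOn (fun q : ℝ × M => Phi (S.g q.1) (S.u q.1) (P.τ q.1) q.2)
      (Icc S.t S.t' ×ˢ S.Kc) :=
    (cτ.mul ((cont_Sc ((S.t_lt h).trans S.lt') S.op S.flow).mono (cyl_sub h))).add
      (continuousOn_const.mul ((cτ.mul (T24.cont_GrK h S.hu.sm)).add
        ((T24.cont_K h S.hu.sm).pow 2)))
  have cΨ : ContinuousOn (fun q : ℝ × M => P.Ψ (S.ρ q.1 q.2) q.1) (Icc S.t S.t' ×ˢ S.Kc) := by
    intro q hq'
    have h0 := (hC q.1 hq'.1 q.2 hq'.2).1
    have h1 := nonneg h hq'.1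
    exact ContinuousAt.comp_continuousWithinAt (g := fun w : ℝ × ℝ => P.Ψ w.2 w.1)
      (f := fun q : ℝ × M => (q.1, S.ρ q.1 q.2))
      (cd_Ψ (by linarith [h.one_le_ρs h1]) (h.τ_pos h1)).continuousAt
      (continuousWithinAt_fst.prodMk (cont_ρK h q hq'))
  have key := T24.touch h (c := Real.log 3) (Real.log_nonneg (by norm_num))
    (F := fun s x => Phi (S.g s) (S.u s) (P.τ s) x)
    (α := fun s x => P.K1 * P.τ s * S.q * S.E s x) (β := fun s x => P.Ψ (S.ρ s x) s) (Λ0 := P.Λ)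
    cΦ.upperSemicontinuousOn
    (((continuousOn_const.mul cτ).mul continuousOn_const).mul (cont_E h)) cΨ
    (fun s hs x hx _ => h.Ψ_pos (hC s hs x hx).1 (nonneg h hs)) ?_ ?_ ?_
  · intro s hs x hx
    rcases le_total (S.E s x) (1 / 3) with h1 | h1
    · have := key s hs x hx ((E_third h).1.1 h1)
      unfold IG
      linarith
    · have h2 := out s hs x hx h1
      have h3 := mul_nonneg h.Λ0.le (Ψ_nonneg P (S.ρ s x) s)
      unfold IG
      linarith
  · intro x hx _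
    have ht : S.t ∈ Icc S.t S.t' := ⟨le_rfl, (S.t_lt h).le⟩
    have h1 : Phi _ _ _ _ ≤ _ := (S.init' hx).ig
    have h2 := e0_le h ht hx
    have h3 := E_pos (S := S) S.t x
    have h4 : P.K1 * P.τ S.t * S.q * (min (S.E S.t x) 1 / P.J) ≤ P.K1 * P.τ S.t * S.q * S.E S.t x :=
      mul_le_mul_of_nonneg_left (by linarith) (by have := h.τ_pos S.t0; positivity)
    linarith
  · intro s hs x hx e
    have h2 := out s hs x hx ((E_third h).2.2 e.ge)
    have h3 := mul_nonneg h.Λ0.le (Ψ_nonneg P (S.ρ s x) s)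
    linarith
  · intro s hs hts x hx hρ Λ' hΛ e hg hl
    have hs' := mem_Ioo h hs hts
    have hs0 := nonneg h hs
    have hτ := h.τ_pos hs0
    have hE3 : S.E s x ≤ 1 / 3 := (E_third h).1.2 hρ.le
    have hΛ0 : 0 ≤ Λ' := h.Λ0.le.trans hΛ.le
    have hu2 := hL s hs Λ' hΛ.le (fun y hy => ?_) x hx hE3
    · have hi := ch_mem A x
      set i := ch A x
      have eE : Bx.Eb S.σ P.V S.t S.r (fun s => inC A i (S.ρ s)) s (A.e i x) = S.E s x :=
        T24.EC_apply hi s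
      refine no_contact (g := fun s => S.g s i) (u := fun s => inC A i (S.u s))
        (ρ := fun s => inC A i (S.ρ s)) (σ := S.σ) (t := S.t) (r := S.r) (q := S.q) (Λ' := Λ') h
        (T24.krfAt hs' hi hx.1) (heatAt S.hu hs' hi hx.1) (heatAt S.hρ hs' hi hx.1) hs0
        (S.r_pos h) rfl ?_ (T24.gsq_ρ_le hs' hi hx.1) ?_ ?_ ?_ ?_ ?_ ?_ (h.Λ1.trans hΛ.le) ?_
        (by linarith [h.K0])
      · rw [inC_apply _ hi]; exact (hC s hs x hx).1
      · rw [eE]; linarith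
      · rw [eE]; exact bkge_of_lyhGe (hA s hs x hx) hi
      · rw [eE]; exact hb s hs x hx i hi
      · filter_upwards [hl i hi, nhdsWithin_le_nhds (T24.ev_loc hs' hi hx.1)] with w h1 h2
        have h3 := Phi_eq h2.1 h2.2.1 h2.2.2.1
        rw [h2.2.2.2] at h3
        rw [← h3]
        exact h1
      · rw [← Phi_eq hs' hi hx.1, eE, inC_apply _ hi]; exact e
      · rw [inC_apply _ hi, inC_apply _ hi]; exact hu2
      · have : 0 ≤ ((n : ℝ) + 1) ^ 4 * P.K ^ 2 := by positivity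
        nlinarith
    · have hW := mul_nonneg hΛ0 (Ψ_nonneg P (S.ρ s y) s)
      have hE := E_pos (S := S) s y
      rcases le_total (S.E s y) (1 / 3) with h1 | h1
      · have h2 := hg s hs le_rfl y hy ((E_third h).1.1 h1)
        have k := (S.flow.kah s (mem_Icc h hs)).kah _ y (ch_mem A y) hy.1
        have hR := Ev.scal_ge k (bkge_of_lyhGe (hA s hs y hy) (ch_mem A y))
        exact num_grad (by exact_mod_cast hn) h.K_1 hK1 hτ hq hE hW (sq_nonneg _)
          (Gr_nonneg h hs hy _) hR h2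
      · have h2 := (crudeK h hs hy).gu
        rw [S.div_r h] at h2
        have h3 : 3 * P.K ≤ P.K1 := by
          have a1 : (1 : ℝ) ≤ (n + 1) ^ 4 := one_le_pow₀ (by linarith [Nat.cast_nonneg (α := ℝ) n])
          have a2 : P.K ≤ P.K ^ 2 := by nlinarith [h.K_1]
          nlinarith [h.K0]
        have h4 : P.τ s * Gr (S.g s) (S.u s) y ≤ P.τ s * (P.K * S.q) :=
          mul_le_mul_of_nonneg_left h2 hτ.le
        have h5 : P.K1 * P.τ s * S.q * (1 / 3) ≤ P.K1 * P.τ s * S.q * S.E s y :=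
          mul_le_mul_of_nonneg_left h1 (by positivity)
        have h6 : 3 * P.K * (P.τ s * S.q) ≤ P.K1 * (P.τ s * S.q) :=
          mul_le_mul_of_nonneg_right h3 (by positivity)
        nlinarith

end Lg41

/-- **leaf (g)** -/
theorem lgStmt {n : ℕ} (hn : 1 ≤ n) : LgStmt n := by
  unfold LgStmt Leaf
  refine Ev.of_thr (fun _ => 0) (fun _ _ => 0) (fun _ K _ => 300 * (n + 1) ^ 4 * K ^ 2)
    (fun _ K _ _ _ _ => 64 * K) ?_
  intro P h _ _ hK hB M _ _ _ A K0 p I a S hA hb hC hL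
  exact Lg41.og hn h hK hB hA hb hC hL

end

end Crest.Agent.T223.Os
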