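import Mathlib
import Crest.Agent.T223.OsDef_21
import Crest.Agent.T223.FrA_38

-- ▼ part T223/GlueA_93
section

/-!
# Row 223 (helper93): gluing of one-sided smooth functions across a time slice (Mathlib only)

`Pr a m c O k f1 f2` : `f1` is smooth on `[a,m] × O`, `f2` on `[m,c] × O`, they agree at time `m` and
the glued function is `C^k` on `[a,c] × O`.
`Pr.sp` : spatial derivatives stay in the class (no loss), `Pr.succ_of_time` : if the time derivatives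
are in the class `k` then the pair is in the class `k + 1`.
-/

set_option autoImplicit false
set_option linter.unusedSectionVars false

open Set Filter Topology
open scoped ContDiff

noncomputable section

namespace Crest.Agent.T223.Gl93

variable {E : Type} [NormedAddCommGroup E] [NormedSpace ℝ E]

/-- the glued function -/
def gl {F : Type} (m : ℝ) (f1 f2 : ℝ × E → F) (q : ℝ × E) : F := if q.1 ≤ m then f1 q else f2 q

/-- the spatial derivative -/
def sp {F : Type} [NormedAddCommGroup F] [NormedSpace ℝ F] (f : ℝ × E → F) (q : ℝ × E) :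
    E →L[ℝ] F := fderiv ℝ (fun w => f (q.1, w)) q.2

structure Pr {F : Type} [NormedAddCommGroup F] [NormedSpace ℝ F] (a m c : ℝ) (O : Set E) (k : ℕ)
    (f1 f2 : ℝ × E → F) : Prop where
  s1 : ContDiffOn ℝ ∞ f1 (Icc a m ×ˢ O)
  s2 : ContDiffOn ℝ ∞ f2 (Icc m c ×ˢ O)
  eq : ∀ z ∈ O, f1 (m, z) = f2 (m, z)
  gl : ContDiffOn ℝ k (gl m f1 f2) (Icc a c ×ˢ O)

variable {a b m c : ℝ} {O : Set E}

theorem uniq (hab : a < b) (hO : IsOpen O) : UniqueDiffOn ℝ (Icc a b ×ˢ O) :=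
  (uniqueDiffOn_Icc hab).prod hO.uniqueDiffOn

theorem mem_closure_Ioo (hab : a < b) {q : ℝ × E} (hq : q ∈ Icc a b ×ˢ O) :
    q ∈ closure (Ioo a b ×ˢ O) := by
  rw [closure_prod_eq, closure_Ioo hab.ne]
  exact ⟨hq.1, subset_closure hq.2⟩

theorem mem_closure_int (hab : a < b) (hO : IsOpen O) {q : ℝ × E} (hq : q ∈ Icc a b ×ˢ O) :
    q ∈ closure (interior (Icc a b ×ˢ O)) := by
  rw [interior_prod_eq, interior_Icc, hO.interior_eq]
  exact mem_closure_Ioo hab hq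

omit [NormedAddCommGroup E] [NormedSpace ℝ E] in
theorem gl_eq1 {F : Type} (f1 f2 : ℝ × E → F) : EqOn (gl m f1 f2) f1 (Icc a m ×ˢ O) :=
  fun _ hq => if_pos hq.1.2

omit [NormedAddCommGroup E] [NormedSpace ℝ E] in
theorem gl_eq2 {F : Type} {f1 f2 : ℝ × E → F} (h : ∀ z ∈ O, f1 (m, z) = f2 (m, z)) :
    EqOn (gl m f1 f2) f2 (Icc m c ×ˢ O) := by
  rintro ⟨t, z⟩ hq
  by_cases ht : t ≤ m
  · have : t = m := le_antisymm ht hq.1.1
    subst this
    exact (if_pos le_rfl).trans (h z hq.2)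
  · exact if_neg ht

omit [NormedAddCommGroup E] [NormedSpace ℝ E] in
theorem union_eq (ham : a < m) (hmc : m < c) :
    Icc a c ×ˢ O = Icc a m ×ˢ O ∪ Icc m c ×ˢ O := by
  rw [← union_prod, Icc_union_Icc_eq_Icc ham.le hmc.le]

omit [NormedSpace ℝ E] in
theorem cases3 {q : ℝ × E} (hq : q ∈ Icc a c ×ˢ O) :
    (q ∈ Icc a m ×ˢ O ∧ q ∈ Icc m c ×ˢ O) ∨ (q ∈ Icc a m ×ˢ O ∧ q ∉ closure (Icc m c ×ˢ O)) ∨
      (q ∈ Icc m c ×ˢ O ∧ q ∉ closure (Icc a m ×ˢ O)) := by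
  rcases lt_trichotomy q.1 m with h | h | h
  · refine Or.inr (Or.inl ⟨⟨⟨hq.1.1, h.le⟩, hq.2⟩, fun h' => ?_⟩)
    rw [closure_prod_eq, closure_Icc] at h'
    exact absurd h'.1.1 (not_le.2 h)
  · exact Or.inl ⟨⟨⟨hq.1.1, h.le⟩, hq.2⟩, ⟨⟨h.ge, hq.1.2⟩, hq.2⟩⟩
  · refine Or.inr (Or.inr ⟨⟨⟨h.le, hq.1.2⟩, hq.2⟩, fun h' => ?_⟩)
    rw [closure_prod_eq, closure_Icc] at h'
    exact absurd h'.1.2 (not_le.2 h)

section F

variable {F : Type} [NormedAddCommGroup F] [NormedSpace ℝ F] {f f1 f2 h1 h2 : ℝ × E → F} {k : ℕ}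

theorem pr_zero (ham : a < m) (hmc : m < c) (s1 : ContDiffOn ℝ ∞ f1 (Icc a m ×ˢ O))
    (s2 : ContDiffOn ℝ ∞ f2 (Icc m c ×ˢ O)) (eq : ∀ z ∈ O, f1 (m, z) = f2 (m, z)) :
    Pr a m c O 0 f1 f2 := by
  refine ⟨s1, s2, eq, ?_⟩
  rw [Nat.cast_zero, contDiffOn_zero]
  have c1 : ContinuousOn (gl m f1 f2) (Icc a m ×ˢ O) := s1.continuousOn.congr (gl_eq1 f1 f2)
  have c2 : ContinuousOn (gl m f1 f2) (Icc m c ×ˢ O) := s2.continuousOn.congr (gl_eq2 eq)
  intro q hq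
  rw [union_eq ham hmc]
  rcases cases3 (m := m) hq with h | h | h
  · exact (c1 q h.1).union (c2 q h.2)
  · exact (c1 q h.1).union (continuousWithinAt_of_notMem_closure h.2)
  · exact (continuousWithinAt_of_notMem_closure h.2).union (c2 q h.1)

theorem hasFDeriv_gl (ham : a < m) (hmc : m < c) {D1 D2 : ℝ × E → (ℝ × E) →L[ℝ] F}
    (d1 : ∀ q ∈ Icc a m ×ˢ O, HasFDerivWithinAt f1 (D1 q) (Icc a m ×ˢ O) q)
    (d2 : ∀ q ∈ Icc m c ×ˢ O, HasFDerivWithinAt f2 (D2 q) (Icc m c ×ˢ O) q)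
    (eq : ∀ z ∈ O, f1 (m, z) = f2 (m, z)) (eqD : ∀ z ∈ O, D1 (m, z) = D2 (m, z))
    {q : ℝ × E} (hq : q ∈ Icc a c ×ˢ O) :
    HasFDerivWithinAt (gl m f1 f2) (gl m D1 D2 q) (Icc a c ×ˢ O) q := by
  have c1 : ∀ q ∈ Icc a m ×ˢ O,
      HasFDerivWithinAt (gl m f1 f2) (gl m D1 D2 q) (Icc a m ×ˢ O) q := fun q hq => by
    rw [gl_eq1 D1 D2 hq]
    exact (d1 q hq).congr (gl_eq1 f1 f2) (gl_eq1 f1 f2 hq)
  have c2 : ∀ q ∈ Icc m c ×ˢ O,
      HasFDerivWithinAt (gl m f1 f2) (gl m D1 D2 q) (Icc m c ×ˢ O) q := fun q hq => by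
    rw [gl_eq2 eqD hq]
    exact (d2 q hq).congr (gl_eq2 eq) (gl_eq2 eq hq)
  rw [union_eq ham hmc]
  rcases cases3 (m := m) hq with h | h | h
  · exact (c1 q h.1).union (c2 q h.2)
  · exact (c1 q h.1).union (HasFDerivWithinAt.of_notMem_closure h.2)
  · exact (HasFDerivWithinAt.of_notMem_closure h.2).union (c2 q h.1)

theorem Pr.congr (h : Pr a m c O k f1 f2) (ham : a < m) (hmc : m < c)
    (e1 : ∀ q ∈ Icc a m ×ˢ O, h1 q = f1 q) (e2 : ∀ q ∈ Icc m c ×ˢ O, h2 q = f2 q) :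
    Pr a m c O k h1 h2 := by
  refine ⟨h.s1.congr e1, h.s2.congr e2, fun z hz => ?_, h.gl.congr fun q hq => ?_⟩
  · rw [e1 _ ⟨⟨ham.le, le_rfl⟩, hz⟩, e2 _ ⟨⟨le_rfl, hmc.le⟩, hz⟩, h.eq z hz]
  · unfold Gl93.gl
    split_ifs with ht
    · exact e1 q ⟨⟨hq.1.1, ht⟩, hq.2⟩
    · exact e2 q ⟨⟨(not_le.1 ht).le, hq.1.2⟩, hq.2⟩

theorem hasD (h : ContDiffOn ℝ ∞ f (Icc a b ×ˢ O)) {q : ℝ × E} (hq : q ∈ Icc a b ×ˢ O) :
    HasFDerivWithinAt f (fderivWithin ℝ f (Icc a b ×ˢ O) q) (Icc a b ×ˢ O) q :=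
  (h.differentiableOn (by simp) q hq).hasFDerivWithinAt

theorem smD (hab : a < b) (hO : IsOpen O) (h : ContDiffOn ℝ ∞ f (Icc a b ×ˢ O)) :
    ContDiffOn ℝ ∞ (fderivWithin ℝ f (Icc a b ×ˢ O)) (Icc a b ×ˢ O) :=
  ((contDiffOn_infty_iff_fderivWithin (uniq hab hO)).1 h).2

theorem pr_succ (ham : a < m) (hmc : m < c) (hO : IsOpen O)
    (s1 : ContDiffOn ℝ ∞ f1 (Icc a m ×ˢ O)) (s2 : ContDiffOn ℝ ∞ f2 (Icc m c ×ˢ O))
    (eq : ∀ z ∈ O, f1 (m, z) = f2 (m, z))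
    (h : Pr a m c O k (fderivWithin ℝ f1 (Icc a m ×ˢ O)) (fderivWithin ℝ f2 (Icc m c ×ˢ O))) :
    Pr a m c O (k + 1) f1 f2 := by
  refine ⟨s1, s2, eq, ?_⟩
  have hu := uniq (ham.trans hmc) hO
  have hd := fun q (hq : q ∈ Icc a c ×ˢ O) =>
    hasFDeriv_gl ham hmc (fun q hq => hasD s1 hq) (fun q hq => hasD s2 hq) eq h.eq hq
  rw [Nat.cast_succ, contDiffOn_succ_iff_fderivWithin hu]
  refine ⟨fun q hq => (hd q hq).differentiableWithinAt, by simp, ?_⟩
  exact h.gl.congr fun q hq => (hd q hq).fderivWithin (hu q hq)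

theorem Pr.fderiv (h : Pr a m c O (k + 1) f1 f2) (ham : a < m) (hmc : m < c) (hO : IsOpen O) :
    Pr a m c O k (fderivWithin ℝ f1 (Icc a m ×ˢ O)) (fderivWithin ℝ f2 (Icc m c ×ˢ O)) := by
  have hu := uniq (ham.trans hmc) hO
  have hg := h.gl
  rw [Nat.cast_succ, contDiffOn_succ_iff_fderivWithin hu] at hg
  have e1 : ∀ q ∈ Icc a m ×ˢ O, fderivWithin ℝ f1 (Icc a m ×ˢ O) q =
      fderivWithin ℝ (Gl93.gl m f1 f2) (Icc a c ×ˢ O) q := by
    intro q hq
    have hs : Icc a m ×ˢ O ⊆ Icc a c ×ˢ O := prod_mono (Icc_subset_Icc_right hmc.le) le_rfl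
    have h3 := ((hg.1 q (hs hq)).hasFDerivWithinAt.mono hs).congr
      (fun x hx => (gl_eq1 f1 f2 hx).symm) (gl_eq1 f1 f2 hq).symm
    exact h3.fderivWithin (uniq ham hO q hq)
  have e2 : ∀ q ∈ Icc m c ×ˢ O, fderivWithin ℝ f2 (Icc m c ×ˢ O) q =
      fderivWithin ℝ (Gl93.gl m f1 f2) (Icc a c ×ˢ O) q := by
    intro q hq
    have hs : Icc m c ×ˢ O ⊆ Icc a c ×ˢ O := prod_mono (Icc_subset_Icc_left ham.le) le_rfl
    have h3 := ((hg.1 q (hs hq)).hasFDerivWithinAt.mono hs).congr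
      (fun x hx => (gl_eq2 h.eq hx).symm) (gl_eq2 h.eq hq).symm
    exact h3.fderivWithin (uniq hmc hO q hq)
  refine ⟨smD ham hO h.s1, smD hmc hO h.s2, fun z hz => ?_, hg.2.2.congr fun q hq => ?_⟩
  · rw [e1 _ ⟨⟨ham.le, le_rfl⟩, hz⟩, e2 _ ⟨⟨le_rfl, hmc.le⟩, hz⟩]
  · unfold Gl93.gl
    split_ifs with ht
    · exact e1 q ⟨⟨hq.1.1, ht⟩, hq.2⟩
    · exact e2 q ⟨⟨(not_le.1 ht).le, hq.1.2⟩, hq.2⟩

/-- post-composition with a continuous linear map -/
theorem Pr.clm {G : Type} [NormedAddCommGroup G] [NormedSpace ℝ G] (h : Pr a m c O k f1 f2)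
    (L : F →L[ℝ] G) : Pr a m c O k (fun q => L (f1 q)) (fun q => L (f2 q)) := by
  refine ⟨L.contDiff.comp_contDiffOn h.s1, L.contDiff.comp_contDiffOn h.s2,
    fun z hz => by rw [h.eq z hz], (L.contDiff.comp_contDiffOn h.gl).congr fun q _ => ?_⟩
  simp only [Gl93.gl, Function.comp_apply]
  split_ifs <;> rfl

theorem Pr.add (h : Pr a m c O k f1 f2) (h' : Pr a m c O k h1 h2) :
    Pr a m c O k (fun q => f1 q + h1 q) (fun q => f2 q + h2 q) := by
  refine ⟨h.s1.add h'.s1, h.s2.add h'.s2, fun z hz => by rw [h.eq z hz, h'.eq z hz],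
    (h.gl.add h'.gl).congr fun q _ => ?_⟩
  simp only [Gl93.gl]
  split_ifs <;> rfl

theorem sp_eq (hO : IsOpen O) (h : ContDiffOn ℝ ∞ f (Icc a b ×ˢ O)) {q : ℝ × E}
    (hq : q ∈ Icc a b ×ˢ O) (v : E) : sp f q v = fderivWithin ℝ f (Icc a b ×ˢ O) q (0, v) := by
  have h1 : HasFDerivWithinAt (fun w : E => ((q.1, w) : ℝ × E)) (ContinuousLinearMap.inr ℝ ℝ E)
      O q.2 := (hasFDerivAt_prodMk_right q.1 q.2).hasFDerivWithinAt
  have h2 := HasFDerivWithinAt.comp (f := fun w : E => ((q.1, w) : ℝ × E)) q.2 (hasD h hq) h1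
    (fun w hw => ⟨hq.1, hw⟩)
  have h3 := (h2.hasFDerivAt (hO.mem_nhds hq.2)).fderiv
  exact congrArg (fun L : E →L[ℝ] F => L v) h3

theorem fderiv_apply_symm (hab : a < b) (hO : IsOpen O) (h : ContDiffOn ℝ ∞ f (Icc a b ×ˢ O))
    (u : ℝ × E) {q : ℝ × E} (hq : q ∈ Icc a b ×ˢ O) :
    fderivWithin ℝ (fun q => fderivWithin ℝ f (Icc a b ×ˢ O) q u) (Icc a b ×ˢ O) q =
      fderivWithin ℝ (fderivWithin ℝ f (Icc a b ×ˢ O)) (Icc a b ×ˢ O) q u := by
  have h1 := ((hasD (smD hab hO h) hq).clm_apply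
    (hasFDerivWithinAt_const u q (Icc a b ×ˢ O))).fderivWithin (uniq hab hO q hq)
  have h2 := (h q hq).isSymmSndFDerivWithinAt
    (by rw [minSmoothness_of_isRCLikeNormedField]; exact WithTop.coe_le_coe.2 (le_top (a := (2 : ℕ∞))))
    (uniq hab hO)
    (mem_closure_int hab hO hq) hq
  rw [h1]
  refine ContinuousLinearMap.ext fun w => ?_
  simpa using h2 w u

end F

theorem pr_dir (ham : a < m) (hmc : m < c) (hO : IsOpen O) (v : E) (k : ℕ) :
    ∀ (F : Type) [NormedAddCommGroup F] [NormedSpace ℝ F] (f1 f2 : ℝ × E → F),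
      Pr a m c O k f1 f2 → Pr a m c O k (fun q => fderivWithin ℝ f1 (Icc a m ×ˢ O) q (0, v))
        (fun q => fderivWithin ℝ f2 (Icc m c ×ˢ O) q (0, v)) := by
  have heq : ∀ (F : Type) [NormedAddCommGroup F] [NormedSpace ℝ F] (f1 f2 : ℝ × E → F) (k : ℕ),
      Pr a m c O k f1 f2 → ∀ z ∈ O, fderivWithin ℝ f1 (Icc a m ×ˢ O) (m, z) (0, v) =
        fderivWithin ℝ f2 (Icc m c ×ˢ O) (m, z) (0, v) := by
    intro F _ _ f1 f2 k h z hz
    rw [← sp_eq hO h.s1 ⟨⟨ham.le, le_rfl⟩, hz⟩, ← sp_eq hO h.s2 ⟨⟨le_rfl, hmc.le⟩, hz⟩]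
    have : (fun w => f1 (m, w)) =ᶠ[𝓝 z] fun w => f2 (m, w) := by
      filter_upwards [hO.mem_nhds hz] with w hw using h.eq w hw
    simp only [sp]
    rw [this.fderiv_eq]
  induction k with
  | zero =>
    intro F _ _ f1 f2 h
    exact pr_zero ham hmc ((smD ham hO h.s1).clm_apply contDiffOn_const)
      ((smD hmc hO h.s2).clm_apply contDiffOn_const) (heq F f1 f2 0 h)
  | succ k ih =>
    intro F _ _ f1 f2 h
    refine pr_succ ham hmc hO ((smD ham hO h.s1).clm_apply contDiffOn_const)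
      ((smD hmc hO h.s2).clm_apply contDiffOn_const) (heq F f1 f2 _ h) ?_
    exact (ih _ _ _ (h.fderiv ham hmc hO)).congr ham hmc
      (fun q hq => fderiv_apply_symm ham hO h.s1 _ hq)
      (fun q hq => fderiv_apply_symm hmc hO h.s2 _ hq)

section F

variable {F : Type} [NormedAddCommGroup F] [NormedSpace ℝ F] {f f1 f2 h h1 h2 : ℝ × E → F} {k : ℕ}

/-- **spatial derivatives stay in the class** -/
theorem Pr.sp (h : Pr a m c O k f1 f2) (ham : a < m) (hmc : m < c) (hO : IsOpen O) (v : E) :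
    Pr a m c O k (fun q => sp f1 q v) (fun q => sp f2 q v) :=
  (pr_dir ham hmc hO v k F f1 f2 h).congr ham hmc (fun _ hq => sp_eq hO h.s1 hq v)
    (fun _ hq => sp_eq hO h.s2 hq v)

theorem time_eq (hab : a < b) (hO : IsOpen O) (hf : ContDiffOn ℝ ∞ f (Icc a b ×ˢ O))
    (hh : ContinuousOn h (Icc a b ×ˢ O))
    (hd : ∀ t ∈ Ioo a b, ∀ z ∈ O, HasDerivAt (fun s => f (s, z)) (h (t, z)) t)
    {q : ℝ × E} (hq : q ∈ Icc a b ×ˢ O) : fderivWithin ℝ f (Icc a b ×ˢ O) q (1, 0) = h q := by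
  have hs : Ioo a b ×ˢ O ⊆ Icc a b ×ˢ O := prod_mono Ioo_subset_Icc_self le_rfl
  have h1 : EqOn (fun q => fderivWithin ℝ f (Icc a b ×ˢ O) q (1, 0)) h (Ioo a b ×ˢ O) := by
    rintro ⟨t, z⟩ hq
    have h2 : HasFDerivAt f (fderivWithin ℝ f (Icc a b ×ˢ O) (t, z)) (t, z) :=
      (hasD hf (hs hq)).hasFDerivAt
        (mem_of_superset ((isOpen_Ioo.prod hO).mem_nhds hq) hs)
    have h3 : HasDerivAt (fun s : ℝ => ((s, z) : ℝ × E)) (1, 0) t :=
      (hasDerivAt_id _).prodMk (hasDerivAt_const _ _)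
    have h4 := HasFDerivAt.comp_hasDerivAt (f := fun s : ℝ => ((s, z) : ℝ × E)) t h2 h3
    exact h4.unique (hd t hq.1 z hq.2)
  exact h1.of_subset_closure ((smD hab hO hf).clm_apply contDiffOn_const).continuousOn hh hs
    (fun q hq => mem_closure_Ioo hab hq) hq

/-- **gain of one derivative from the equation** -/
theorem Pr.succ_of_time [FiniteDimensional ℝ E] (h : Pr a m c O k f1 f2) (ham : a < m)
    (hmc : m < c) (hO : IsOpen O) (hh : Pr a m c O k h1 h2)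
    (d1 : ∀ t ∈ Ioo a m, ∀ z ∈ O, HasDerivAt (fun s => f1 (s, z)) (h1 (t, z)) t)
    (d2 : ∀ t ∈ Ioo m c, ∀ z ∈ O, HasDerivAt (fun s => f2 (s, z)) (h2 (t, z)) t) :
    Pr a m c O (k + 1) f1 f2 := by
  have key : ∀ y : ℝ × E, Pr a m c O k (fun q => fderivWithin ℝ f1 (Icc a m ×ˢ O) q y)
      (fun q => fderivWithin ℝ f2 (Icc m c ×ˢ O) q y) := by
    rintro ⟨τ, v⟩
    have e : ((τ, v) : ℝ × E) = τ • ((1, 0) : ℝ × E) + (0, v) := by simp
    refine ((hh.clm (τ • ContinuousLinearMap.id ℝ F)).add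
      (pr_dir ham hmc hO v k F f1 f2 h)).congr ham hmc (fun q hq => ?_) (fun q hq => ?_)
    · rw [e, map_add, map_smul, time_eq ham hO h.s1 hh.s1.continuousOn d1 hq]
      rfl
    · rw [e, map_add, map_smul, time_eq hmc hO h.s2 hh.s2.continuousOn d2 hq]
      rfl
  refine pr_succ ham hmc hO h.s1 h.s2 h.eq ⟨smD ham hO h.s1, smD hmc hO h.s2, fun z hz => ?_, ?_⟩
  · exact ContinuousLinearMap.ext fun y => (key y).eq z hz
  · rw [contDiffOn_clm_apply]
    intro y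
    refine (key y).gl.congr fun q _ => ?_
    simp only [Gl93.gl]
    split_ifs <;> rfl

/-- the time derivative of a smooth glued function at interior times -/
theorem hasDerivAt_of_sm (hO : IsOpen O) (hf : ContDiffOn ℝ ∞ f (Icc a b ×ˢ O))
    (hh : ContinuousOn h (Icc a b ×ˢ O))
    (hd : ∀ t ∈ Ioo a b, t ≠ m → ∀ z ∈ O, HasDerivAt (fun s => f (s, z)) (h (t, z)) t)
    {t : ℝ} (ht : t ∈ Ioo a b) {z : E} (hz : z ∈ O) :
    HasDerivAt (fun s => f (s, z)) (h (t, z)) t := by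
  by_cases htm : t = m
  swap
  · exact hd t ht htm z hz
  subst htm
  have hs : Icc a t ×ˢ O ⊆ Icc a b ×ˢ O := prod_mono (Icc_subset_Icc_right ht.2.le) le_rfl
  have hq : ((t, z) : ℝ × E) ∈ Icc a t ×ˢ O := ⟨⟨ht.1.le, le_rfl⟩, hz⟩
  have h1 := time_eq ht.1 hO (hf.mono hs) (hh.mono hs)
    (fun s hs' z hz => hd s ⟨hs'.1, hs'.2.trans ht.2⟩ hs'.2.ne z hz) hq
  have h2 : HasFDerivAt f (fderivWithin ℝ f (Icc a b ×ˢ O) (t, z)) (t, z) :=
    (hasD hf (hs hq)).hasFDerivAt (mem_of_superset ((isOpen_Ioo.prod hO).mem_nhds ⟨ht, hz⟩)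
      (prod_mono Ioo_subset_Icc_self le_rfl))
  rw [h2.hasFDerivWithinAt.fderivWithin (uniq ht.1 hO _ hq)] at h1
  have h3 : HasDerivAt (fun s : ℝ => ((s, z) : ℝ × E)) (1, 0) t :=
    (hasDerivAt_id _).prodMk (hasDerivAt_const _ _)
  have h4 := HasFDerivAt.comp_hasDerivAt (f := fun s : ℝ => ((s, z) : ℝ × E)) t h2 h3
  rw [h1] at h4
  exact h4

end F

end Crest.Agent.T223.Gl93
end
end

-- ▼ part T223/OsGlue_93
section

/-!
# Row 223, module OSG, leaf GLUE (helper93): two flows with a common slice glue smoothly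
-/

set_option autoImplicit false

open Set Filter Topology Metric
open scoped ContDiff ComplexConjugate Matrix ComplexOrder

noncomputable section

namespace Crest.Agent.T223.Gl93

open Crest.Agent.R275.Geo Crest.Agent.R275.EDR890 Crest.Agent.R273.Kah_333
open Crest.Agent.R273.Hess_333 Crest.Agent.T223.Br Crest.Agent.T223.Tr
open Crest.Agent.T223.Db (dom SmST)

variable {n : ℕ} {a m c : ℝ} {O : Set (Cn n)} {k : ℕ}

theorem cd_ldet {X : Type} [NormedAddCommGroup X] [NormedSpace ℝ X] {s : Set X} {G : X → Mat n}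
    {N : WithTop ℕ∞} (h : ∀ a b, ContDiffOn ℝ N (fun q => G q a b) s)
    (hp : ∀ q ∈ s, (G q).PosDef) :
    ContDiffOn ℝ N (fun q => ((Real.log (G q).det.re : ℝ) : ℂ)) s := by
  have h1 : ContDiffOn ℝ N (fun q => (G q).det) s := by
    simp only [Matrix.det_apply']
    exact ContDiffOn.sum fun σ _ => contDiffOn_const.mul (contDiffOn_prod fun i _ => h _ _)
  have h2 : ContDiffOn ℝ N (fun q => (G q).det.re) s := Complex.reCLM.contDiff.comp_contDiffOn h1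
  refine Complex.ofRealCLM.contDiff.comp_contDiffOn (h2.log fun q hq => ?_)
  exact (Complex.pos_iff.1 (hp q hq).det_pos).1.ne'

theorem Pr.wd {f1 f2 : ℝ × Cn n → ℂ} (h : Pr a m c O k f1 f2) (ham : a < m) (hmc : m < c)
    (hO : IsOpen O) (s : WI n) :
    Pr a m c O k (fun q => wd s (fun w => f1 (q.1, w)) q.2)
      (fun q => wd s (fun w => f2 (q.1, w)) q.2) :=
  (((h.sp ham hmc hO (EuclideanSpace.single s.2 1)).add
    ((h.sp ham hmc hO (EuclideanSpace.single s.2 Complex.I)).clm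
      (ContinuousLinearMap.mul ℝ ℂ (cI s.1)))).clm
        (ContinuousLinearMap.mul ℝ ℂ (1 / 2))).congr ham hmc (fun _ _ => rfl) (fun _ _ => rfl)

variable {G1 G2 : ℝ → Cn n → Mat n}

theorem pr_hess (ham : a < m) (hmc : m < c) (hO : IsOpen O)
    (p1 : ∀ q ∈ Icc a m ×ˢ O, (G1 q.1 q.2).PosDef) (p2 : ∀ q ∈ Icc m c ×ˢ O, (G2 q.1 q.2).PosDef)
    (h : ∀ i j, Pr a m c O k (fun q => G1 q.1 q.2 i j) (fun q => G2 q.1 q.2 i j)) (i j : Fin n) :
    Pr a m c O k (fun q => hess (ldet (G1 q.1)) q.2 i j)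
      (fun q => hess (ldet (G2 q.1)) q.2 i j) := by
  have h1 : Pr a m c O k (fun q => ((ldet (G1 q.1) q.2 : ℝ) : ℂ))
      (fun q => ((ldet (G2 q.1) q.2 : ℝ) : ℂ)) := by
    have e : ∀ z ∈ O, G1 m z = G2 m z := fun z hz => Matrix.ext fun i j => (h i j).eq z hz
    refine ⟨cd_ldet (fun i j => (h i j).s1) p1, cd_ldet (fun i j => (h i j).s2) p2,
      fun z hz => by simp only [ldet, e z hz], ?_⟩
    have h2 := cd_ldet (G := gl m (fun q => G1 q.1 q.2) (fun q => G2 q.1 q.2))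
      (s := Icc a c ×ˢ O) (N := k) (fun i j => (h i j).gl.congr fun q _ => by
        simp only [gl]; split_ifs <;> rfl) (fun q hq => by
        simp only [gl]
        split_ifs with ht
        · exact p1 q ⟨⟨hq.1.1, ht⟩, hq.2⟩
        · exact p2 q ⟨⟨(not_le.1 ht).le, hq.1.2⟩, hq.2⟩)
    refine h2.congr fun q _ => ?_
    simp only [gl, ldet]
    split_ifs <;> rfl
  exact (h1.wd ham hmc hO (true, j)).wd ham hmc hO (false, i)

theorem pr_all (ham : a < m) (hmc : m < c) (hO : IsOpen O)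
    (s1 : ∀ i j, ContDiffOn ℝ ∞ (fun q : ℝ × Cn n => G1 q.1 q.2 i j) (Icc a m ×ˢ O))
    (s2 : ∀ i j, ContDiffOn ℝ ∞ (fun q : ℝ × Cn n => G2 q.1 q.2 i j) (Icc m c ×ˢ O))
    (p1 : ∀ q ∈ Icc a m ×ˢ O, (G1 q.1 q.2).PosDef) (p2 : ∀ q ∈ Icc m c ×ˢ O, (G2 q.1 q.2).PosDef)
    (d1 : ∀ t ∈ Ioo a m, ∀ z ∈ O, ∀ i j,
      HasDerivAt (fun s => G1 s z i j) (hess (ldet (G1 t)) z i j) t)
    (d2 : ∀ t ∈ Ioo m c, ∀ z ∈ O, ∀ i j,
      HasDerivAt (fun s => G2 s z i j) (hess (ldet (G2 t)) z i j) t)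
    (e : ∀ z ∈ O, G1 m z = G2 m z) (k : ℕ) :
    ∀ i j, Pr a m c O k (fun q => G1 q.1 q.2 i j) (fun q => G2 q.1 q.2 i j) := by
  induction k with
  | zero => exact fun i j => pr_zero ham hmc (s1 i j) (s2 i j) fun z hz => by simp only [e z hz]
  | succ k ih =>
    exact fun i j => (ih i j).succ_of_time ham hmc hO (pr_hess ham hmc hO p1 p2 ih i j)
      (fun t ht z hz => d1 t ht z hz i j) (fun t ht z hz => d2 t ht z hz i j)

variable {M : Type} [TopologicalSpace M] {A : Atl n M}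

theorem isOpen_dom (i : A.ι) {U : Set M} (hU : IsOpen U) : IsOpen (dom A i U) :=
  (A.e i).isOpen_inter_preimage_symm hU

theorem kahAt_of_dom {G : MF A} {U : Set M} (h : KahOn G U) {i : A.ι} {z : Cn n}
    (hz : z ∈ dom A i U) : KahAt (G i) z := by
  have h1 := h.kah i _ ((A.e i).map_target hz.1) hz.2
  rwa [(A.e i).right_inv hz.1] at h1

theorem flow_of_dom {a b : ℝ} {U : Set M} {g : ℝ → MF A} (h : Os.FlowOn a b U g) {i : A.ι}
    {t : ℝ} (ht : t ∈ Ioo a b) {z : Cn n} (hz : z ∈ dom A i U) (k l : Fin n) :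
    HasDerivAt (fun s => g s i z k l) (hess (ldet (g t i)) z k l) t := by
  have h1 := h.krf t ht i _ ((A.e i).map_target hz.1) hz.2
  rw [(A.e i).right_inv hz.1] at h1
  exact h1.flow.self_of_nhds k l

end Crest.Agent.T223.Gl93

namespace Crest.Agent.T223.Os

open Crest.Agent.R275.Geo Crest.Agent.R273.Hess_333 Crest.Agent.T223.Gl93
open Crest.Agent.T223.Db (dom SmST)

theorem glueStmt (n : ℕ) : GlueStmt n := by
  intro M _ A U g1 g2 a m c hU ham hmc h1 h2 he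
  have hk : ∀ s ∈ Icc a c, KahOn (if s ≤ m then g1 s else g2 s) U := by
    intro s hs
    split_ifs with hsm
    · exact h1.kah s ⟨hs.1, hsm⟩
    · exact h2.kah s ⟨(not_le.1 hsm).le, hs.2⟩
  have p1 : ∀ i, ∀ q ∈ Icc a m ×ˢ dom A i U, (g1 q.1 i q.2).PosDef := fun i q hq =>
    (kahAt_of_dom (h1.kah q.1 hq.1) hq.2).pos.self_of_nhds
  have p2 : ∀ i, ∀ q ∈ Icc m c ×ˢ dom A i U, (g2 q.1 i q.2).PosDef := fun i q hq =>
    (kahAt_of_dom (h2.kah q.1 hq.1) hq.2).pos.self_of_nhds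
  have hP : ∀ i (j : ℕ) k l, Pr a m c (dom A i U) j (fun q => g1 q.1 i q.2 k l)
      (fun q => g2 q.1 i q.2 k l) := by
    intro i j
    refine pr_all (G1 := fun s => g1 s i) (G2 := fun s => g2 s i) ham hmc (isOpen_dom i hU)
      (h1.sm i) (h2.sm i) (p1 i) (p2 i) (fun t ht z hz => flow_of_dom h1 ht hz)
      (fun t ht z hz => flow_of_dom h2 ht hz) (fun z hz => ?_) j
    have h3 := he i _ ((A.e i).map_target hz.1) hz.2
    rwa [(A.e i).right_inv hz.1] at h3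
  have hs : ∀ i k l, ContDiffOn ℝ ∞
      (fun q : ℝ × Cn n => (if q.1 ≤ m then g1 q.1 else g2 q.1) i q.2 k l)
      (Icc a c ×ˢ dom A i U) := by
    intro i k l
    rw [contDiffOn_infty]
    intro j
    refine (hP i j k l).gl.congr fun q _ => ?_
    simp only [gl]
    split_ifs <;> rfl
  refine ⟨hs, hk, fun s hs' i x hx hxU => ?_⟩
  have hO := isOpen_dom (A := A) i hU
  have hz : A.e i x ∈ dom A i U := ⟨(A.e i).map_source hx, by rwa [(A.e i).left_inv hx]⟩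
  have hN : Ioo a c ×ˢ dom A i U ∈ 𝓝 (s, A.e i x) := (isOpen_Ioo.prod hO).mem_nhds ⟨hs', hz⟩
  have hsub : Ioo a c ×ˢ dom A i U ⊆ Icc a c ×ˢ dom A i U := prod_mono Ioo_subset_Icc_self le_rfl
  have hka : ∀ q ∈ Ioo a c ×ˢ dom A i U, KahAt ((if q.1 ≤ m then g1 q.1 else g2 q.1) i) q.2 :=
    fun q hq => kahAt_of_dom (hk q.1 (hsub hq).1) hq.2
  refine ⟨?_, ?_, ?_, ?_, ?_⟩
  · filter_upwards [hN] with q hq k l
    exact (hs i k l).contDiffAt (mem_of_superset ((isOpen_Ioo.prod hO).mem_nhds hq) hsub)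
  · filter_upwards [hN] with q hq using (hka q hq).pos.self_of_nhds
  · filter_upwards [hN] with q hq using (hka q hq).closed.self_of_nhds
  · filter_upwards [hN] with q hq using (hka q hq).closed'.self_of_nhds
  · filter_upwards [hN] with q hq k l
    have hc : ContinuousOn
        (fun q : ℝ × Cn n => hess (ldet ((if q.1 ≤ m then g1 q.1 else g2 q.1) i)) q.2 k l)
        (Icc a c ×ˢ dom A i U) := by
      refine (pr_hess (G1 := fun s => g1 s i) (G2 := fun s => g2 s i) ham hmc hO (p1 i) (p2 i)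
        (hP i 0) k l).gl.continuousOn.congr fun q _ => ?_
      simp only [gl]
      split_ifs <;> rfl
    refine hasDerivAt_of_sm (m := m) hO (hs i k l) hc (fun t ht htm z hz => ?_) hq.1 hq.2
    rcases lt_or_gt_of_ne htm with h | h
    · simp only [if_pos h.le]
      refine (flow_of_dom h1 ⟨ht.1, h⟩ hz k l).congr_of_eventuallyEq ?_
      filter_upwards [Iio_mem_nhds h] with u hu
      rw [if_pos (le_of_lt hu)]
    · simp only [if_neg (not_le.2 h)]
      refine (flow_of_dom h2 ⟨h, ht.2⟩ hz k l).congr_of_eventuallyEq ?_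
      filter_upwards [Ioi_mem_nhds h] with u hu
      rw [if_neg (not_le.2 hu)]

end Crest.Agent.T223.Os
end
end

-- ▼ part T223/OsOsg_23
section

/-!
# Row 223, module OSG (helper23): the Osgood count `osgoodStmt : OsgoodStmt`
-/

set_option autoImplicit false

open Set

namespace Crest.Agent.T223.Os.Osg23

noncomputable section

theorem log_drop {A A' η : ℝ} (hA : 0 < A) (h0 : 0 ≤ η) (h1 : η ≤ A / 2) (h2 : A - η ≤ A') :
    Real.log A - 2 * η / A ≤ Real.log A' := by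
  have h3 : 0 < A - η := by linarith
  have h4 : Real.log (A - η) ≤ Real.log A' := Real.log_le_log h3 h2
  have h5 := Real.one_sub_inv_le_log_of_pos (div_pos h3 hA)
  rw [Real.log_div h3.ne' hA.ne', inv_div] at h5
  have h6 : A / (A - η) ≤ 1 + 2 * η / A := by
    rw [div_le_iff₀ h3]
    have : (1 + 2 * η / A) * (A - η) = A + η * (A - 2 * η) / A := by field_simp; ring
    rw [this]
    have : 0 ≤ η * (A - 2 * η) / A := div_nonneg (mul_nonneg h0 (by linarith)) hA.le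
    linarith
  linarith

/-- fourth root of `τ` -/
def w (P : Par) (s : ℝ) : ℝ := √(√(P.τ s))

/-- the Osgood function -/
def F (P : Par) (T c σ t : ℝ) : ℝ :=
  Real.log (Real.log (σ + P.ρs (T + 1)) + P.B) + 2 * c * w P t

theorem w_pow {P : Par} {s : ℝ} (h : 0 ≤ P.τ s) : w P s ^ 4 = P.τ s := by
  have : w P s ^ 2 = √(P.τ s) := Real.sq_sqrt (Real.sqrt_nonneg _)
  rw [show (4 : ℕ) = 2 * 2 by norm_num, pow_mul, this, Real.sq_sqrt h]

theorem w_nonneg (P : Par) (s : ℝ) : 0 ≤ w P s := Real.sqrt_nonneg _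

theorem w_le {P : Par} {s W : ℝ} (h : 0 ≤ P.τ s) (hW : 1 ≤ W) (h1 : P.τ s ≤ W) : w P s ≤ W := by
  refine le_of_not_gt fun h2 => ?_
  have h3 : W ^ 4 < w P s ^ 4 := pow_lt_pow_left₀ h2 (by linarith) (by norm_num)
  rw [w_pow h] at h3
  have h4 : W ≤ W ^ 4 := le_self_pow₀ hW (by norm_num)
  linarith

theorem ρs_ge {P : Par} (hP : P.Ok) {t : ℝ} (ht : 0 ≤ t) : 1 + t ≤ P.ρs t := by
  unfold Par.ρs
  have := hP.B1
  nlinarith [mul_nonneg ht ht]

theorem ρs_mono {P : Par} (hP : P.Ok) {s t : ℝ} (hs : 0 ≤ s) (h : s ≤ t) : P.ρs s ≤ P.ρs t := by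
  unfold Par.ρs
  have := hP.B1
  gcongr

theorem ell_ge {P : Par} (hP : P.Ok) {σ t : ℝ} (hσ : 0 ≤ σ) (ht : 0 ≤ t) : 1 ≤ P.ell σ t := by
  unfold Par.ell
  have h1 : 0 ≤ Real.log (σ + P.ρs t) := Real.log_nonneg (by linarith [ρs_ge hP ht])
  have h2 : 0 < P.τ t := by unfold Par.τ; linarith [hP.tA0]
  have h3 : 0 ≤ Real.log (1 + 1 / P.τ t) :=
    Real.log_nonneg (by have := one_div_pos.2 h2; linarith)
  linarith [hP.B1]

theorem r_sq {P : Par} (hP : P.Ok) {σ t : ℝ} (_hσ : 0 ≤ σ) (ht : 0 ≤ t) :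
    P.r σ t ^ 2 = P.τ t / (P.L * ((σ + P.ρs t) ^ 2 * P.ell σ t ^ 2)) := by
  have h2 : 0 < P.τ t := by unfold Par.τ; linarith [hP.tA0]
  have hL : 0 < P.L := by linarith [hP.Λ1, hP.ΛL]
  unfold Par.r Par.Ψ
  exact Real.sq_sqrt (by positivity)

set_option maxHeartbeats 3200000 in
theorem step {P : Par} (hP : P.Ok) {m0 T σ t : ℝ} (hm : 0 ≤ m0) (h0 : 0 ≤ t) (h1 : t ≤ T)
    (hσ : 4 * m0 * (T + 2) + 1 ≤ σ) :
    P.δ * P.r σ t ^ 2 ≤ 1 ∧ 1 ≤ σ - m0 * P.r σ t + P.ρs (T + 1) ∧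
      F P T (90 * m0 * √P.L / P.δ * (T + 2)) σ t ≤
        F P T (90 * m0 * √P.L / P.δ * (T + 2)) (σ - m0 * P.r σ t) (t + P.δ * P.r σ t ^ 2) := by
  have hT : 0 ≤ T := h0.trans h1
  have hσ0 : 0 ≤ σ := by nlinarith
  have hτ : 0 < P.τ t := by unfold Par.τ; linarith [hP.tA0]
  have hτ1 : P.τ t ≤ 1 + t := by unfold Par.τ; linarith [hP.tA1]
  have hL : 1 ≤ P.L := by linarith [hP.Λ1, hP.ΛL]
  have hδ := hP.δ0
  have hδ1 := hP.δ1
  have hB := hP.B1
  have hr2 := r_sq hP hσ0 h0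
  have hr0 : 0 ≤ P.r σ t := Real.sqrt_nonneg _
  have hl := ell_ge hP hσ0 h0
  have hρ := ρs_ge hP h0
  have hρ' : P.ρs t ≤ P.ρs (T + 1) := ρs_mono hP h0 (by linarith)
  obtain ⟨r, hr⟩ : ∃ r, P.r σ t = r := ⟨_, rfl⟩
  obtain ⟨X, hX⟩ : ∃ X, σ + P.ρs t = X := ⟨_, rfl⟩
  obtain ⟨l, hldef⟩ : ∃ l, P.ell σ t = l := ⟨_, rfl⟩
  obtain ⟨Z, hZ⟩ : ∃ Z, σ + P.ρs (T + 1) = Z := ⟨_, rfl⟩
  rw [hr, hX, hldef] at hr2
  rw [hr] at hr0 ⊢
  rw [hldef] at hl
  have hX1 : 1 + t ≤ X := by linarith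
  have hXZ : X ≤ Z := by linarith
  have hden : X ≤ P.L * (X ^ 2 * l ^ 2) := by
    have a1 : X ≤ X ^ 2 := by nlinarith
    have a2 : X ^ 2 ≤ X ^ 2 * l ^ 2 := le_mul_of_one_le_right (by positivity) (by nlinarith)
    have a3 : X ^ 2 * l ^ 2 ≤ P.L * (X ^ 2 * l ^ 2) := le_mul_of_one_le_left (by positivity) hL
    linarith
  have hdp : 0 < P.L * (X ^ 2 * l ^ 2) := by linarith
  have hr1 : r ^ 2 ≤ 1 := by rw [hr2, div_le_one hdp]; linarith
  have hrτ : r ^ 2 ≤ P.τ t := by rw [hr2]; exact div_le_self hτ.le (by linarith)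
  have hr1' : r ≤ 1 := by nlinarith
  have hΔ1 : P.δ * r ^ 2 ≤ 1 := by nlinarith
  have hΔτ : P.δ * r ^ 2 ≤ P.τ t := by nlinarith [sq_nonneg r]
  have hmr : m0 * r ≤ Z / 4 := by nlinarith
  have hmr0 : 0 ≤ m0 * r := mul_nonneg hm hr0
  have hZ2 : 2 ≤ Z := by nlinarith
  refine ⟨hΔ1, by linarith, ?_⟩
  -- the fourth roots
  have hτ' : P.τ (t + P.δ * r ^ 2) = P.τ t + P.δ * r ^ 2 := by unfold Par.τ; ring
  have hΔ0 : 0 ≤ P.δ * r ^ 2 := by positivity
  obtain ⟨a, ha⟩ : ∃ a, a = w P t := ⟨_, rfl⟩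
  obtain ⟨a', ha'⟩ : ∃ a', a' = w P (t + P.δ * r ^ 2) := ⟨_, rfl⟩
  have ha4 : a ^ 4 = P.τ t := ha ▸ w_pow hτ.le
  have ha4' : a' ^ 4 = P.τ t + P.δ * r ^ 2 := by
    rw [← hτ', ha']; exact w_pow (by rw [hτ']; linarith)
  have ha0 : 0 < a := by
    refine lt_of_le_of_ne (ha ▸ w_nonneg P t) fun h => ?_
    rw [← h] at ha4
    linarith
  have ha0' : 0 ≤ a' := ha' ▸ w_nonneg P _
  have haa : a ≤ a' := by
    refine le_of_not_gt fun h => ?_
    have := pow_lt_pow_left₀ h ha0' (show (4 : ℕ) ≠ 0 by norm_num)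
    linarith
  have h2a : a' ^ 2 ≤ 2 * a ^ 2 := by
    refine le_of_not_gt fun h => ?_
    have := pow_lt_pow_left₀ h (by positivity) (show (2 : ℕ) ≠ 0 by norm_num)
    nlinarith [pow_pos ha0 4]
  have h2a' : a' ≤ 2 * a := by
    refine le_of_not_gt fun h => ?_
    have h5 := pow_lt_pow_left₀ h (by positivity) (show (2 : ℕ) ≠ 0 by norm_num)
    have h6 : (2 * a) ^ 2 = 4 * a ^ 2 := by ring
    have h7 := pow_pos ha0 2
    linarith
  have hd : P.δ * r ^ 2 ≤ 9 * a ^ 3 * (a' - a) := by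
    have e : P.δ * r ^ 2 = (a' - a) * ((a' + a) * (a' ^ 2 + a ^ 2)) := by
      have : P.δ * r ^ 2 = a' ^ 4 - a ^ 4 := by linarith
      rw [this]; ring
    have b1 : (a' + a) * (a' ^ 2 + a ^ 2) ≤ (3 * a) * (3 * a ^ 2) :=
      mul_le_mul (by linarith) (by linarith) (by positivity) (by positivity)
    rw [e]
    calc (a' - a) * ((a' + a) * (a' ^ 2 + a ^ 2)) ≤ (a' - a) * ((3 * a) * (3 * a ^ 2)) :=
          mul_le_mul_of_nonneg_left b1 (by linarith)
      _ = _ := by ring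
  have hsL : 0 < √P.L := Real.sqrt_pos.2 (by linarith)
  have hX0 : 0 < X := by linarith
  have hs : r * (√P.L * X * l) = a ^ 2 := by
    have b1 : (r * (√P.L * X * l)) ^ 2 = (a ^ 2) ^ 2 := by
      have b2 : √P.L ^ 2 = P.L := Real.sq_sqrt (by linarith)
      calc (r * (√P.L * X * l)) ^ 2 = r ^ 2 * (√P.L ^ 2 * (X ^ 2 * l ^ 2)) := by ring
        _ = P.τ t := by rw [b2, hr2]; field_simp
        _ = _ := by rw [← ha4]; ring
    exact (pow_left_inj₀ (by positivity) (by positivity) (by norm_num)).1 b1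
  have hδr : P.δ * r ≤ 9 * a * (a' - a) * (√P.L * X * l) := by
    have b1 : a ^ 2 * (P.δ * r) ≤ a ^ 2 * (9 * a * (a' - a) * (√P.L * X * l)) := by
      calc a ^ 2 * (P.δ * r) = (P.δ * r ^ 2) * (√P.L * X * l) := by rw [← hs]; ring
        _ ≤ (9 * a ^ 3 * (a' - a)) * (√P.L * X * l) := by gcongr
        _ = _ := by ring
    exact le_of_mul_le_mul_left b1 (by positivity)
  -- the logarithms
  obtain ⟨z, hz⟩ : ∃ z, z = Real.log Z + P.B := ⟨_, rfl⟩
  have hlZ : 0 ≤ Real.log Z := Real.log_nonneg (by linarith)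
  have hz1 : 1 ≤ z := by linarith
  have hlog : a * Real.log (1 + 1 / P.τ t) ≤ 4 := by
    have b1 : 1 + 1 / P.τ t ≤ (1 + 1 / a) ^ 4 := by
      rw [← ha4, ← one_div_pow]
      have : 0 < 1 / a := by positivity
      nlinarith [pow_pos this 2, pow_pos this 3]
    have b2 : Real.log (1 + 1 / P.τ t) ≤ 4 * (1 / a) := by
      calc Real.log (1 + 1 / P.τ t) ≤ Real.log ((1 + 1 / a) ^ 4) :=
            Real.log_le_log (by positivity) b1
        _ = 4 * Real.log (1 + 1 / a) := by rw [Real.log_pow]; norm_num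
        _ ≤ 4 * (1 / a) := by
            have := Real.log_le_sub_one_of_pos (show 0 < 1 + 1 / a by positivity)
            linarith
    calc a * Real.log (1 + 1 / P.τ t) ≤ a * (4 * (1 / a)) := by gcongr
      _ = 4 := by field_simp
  have haW : a ≤ T + 2 := ha ▸ w_le hτ.le (by linarith) (by linarith)
  have hal : a * l ≤ 5 * (T + 2) * z := by
    have b1 : l ≤ z + Real.log (1 + 1 / P.τ t) := by
      have := Real.log_le_log hX0 hXZ
      rw [← hldef, hz]; unfold Par.ell; rw [hX]; linarith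
    have b2 : a * l ≤ a * z + 4 := by nlinarith
    have b3 : a * z ≤ (T + 2) * z := by gcongr
    nlinarith
  obtain ⟨c, hc⟩ : ∃ c, c = 90 * m0 * √P.L / P.δ * (T + 2) := ⟨_, rfl⟩
  obtain ⟨η, hη⟩ : ∃ η, η = 2 * (m0 * r) / Z := ⟨_, rfl⟩
  have hZ0 : 0 < Z := by linarith
  have hη0 : 0 ≤ η := by rw [hη]; positivity
  have hη1 : η ≤ 1 / 2 := by rw [hη, div_le_iff₀ hZ0]; linarith
  have hηc : η ≤ c * (a' - a) * z := by
    rw [hη, div_le_iff₀ hZ0]
    have b1 : P.δ * r ≤ 9 * (a' - a) * √P.L * Z * (5 * (T + 2) * z) := by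
      calc P.δ * r ≤ 9 * (a' - a) * √P.L * X * (a * l) := by linarith
        _ ≤ _ := by
          have : 0 ≤ a' - a := by linarith
          gcongr
    have b2 : r ≤ 9 * (a' - a) * √P.L * Z * (5 * (T + 2) * z) / P.δ := by
      rw [le_div_iff₀ hδ]; linarith
    calc 2 * (m0 * r) ≤ 2 * (m0 * (9 * (a' - a) * √P.L * Z * (5 * (T + 2) * z) / P.δ)) := by
          gcongr
      _ = _ := by rw [hc]; field_simp; ring
  have e1 := log_drop (A' := σ - m0 * r + P.ρs (T + 1)) hZ0 hmr0 (by linarith) (by linarith)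
  have e2 := log_drop (A := z) (η := η)
    (A' := Real.log (σ - m0 * r + P.ρs (T + 1)) + P.B) (by linarith) hη0 (by linarith)
    (by linarith)
  have e3 : 2 * η / z ≤ 2 * (c * (a' - a)) := by
    rw [div_le_iff₀ (by linarith)]; linarith
  unfold F
  rw [← hc, hZ, ← hz, ← ha, ← ha']
  linarith

theorem osgoodStmt : OsgoodStmt := by
  intro Cb K V K1 Λ L B δ m0 T Sg hm
  set T' := max T 0 with hT'
  have hT0 : 0 ≤ T' := le_max_right _ _
  set S' := max Sg (4 * m0 * (T' + 2) + 1) with hS'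
  set c := 90 * m0 * √L / δ * (T' + 2) with hc
  set ρ := B * (1 + (T' + 1)) ^ 2 with hρ
  refine ⟨max S' (Real.exp (Real.exp (2 * c * (T' + 2)) * (Real.log (S' + ρ) + B))),
    fun σ0 hσ0 tA hP => ?_⟩
  set P : Par := ⟨Cb, K, V, K1, Λ, L, B, δ, tA⟩ with hPdef
  have hB : 1 ≤ B := hP.B1
  have hδ : 0 < δ := hP.δ0
  have htA : 0 < tA := hP.tA0
  have htA1 : tA ≤ 1 := hP.tA1
  have hL : 1 ≤ L := le_trans hP.Λ1 hP.ΛL
  have hρe : P.ρs (T' + 1) = ρ := rfl
  have hρ1 : 1 ≤ ρ := by rw [← hρe]; linarith [ρs_ge hP (show 0 ≤ T' + 1 by linarith)]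
  have hS1 : 4 * m0 * (T' + 2) + 1 ≤ S' := le_max_right _ _
  have hS0 : 1 ≤ S' := by nlinarith
  have hc0 : 0 ≤ c := by positivity
  have hσS : S' ≤ σ0 := (le_max_left _ _).trans hσ0
  set μ := δ * (tA / (L * ((σ0 + ρ) ^ 2 * (Real.log (σ0 + ρ) + B + Real.log (1 + 1 / tA)) ^ 2)))
    with hμ
  have hl1 : 0 ≤ Real.log (σ0 + ρ) := Real.log_nonneg (by linarith)
  have hl2 : 0 ≤ Real.log (1 + 1 / tA) :=
    Real.log_nonneg (by have := one_div_pos.2 htA; linarith)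
  have hμ0 : 0 < μ := by
    have : 0 < σ0 + ρ := by linarith
    have : 0 < Real.log (σ0 + ρ) + B + Real.log (1 + 1 / tA) := by linarith
    positivity
  set G : ℕ → Prop := fun j => S' ≤ (P.seq m0 σ0 j).1 ∧ (P.seq m0 σ0 j).1 ≤ σ0 ∧
    j * μ ≤ (P.seq m0 σ0 j).2 ∧ (P.seq m0 σ0 j).2 ≤ T' + 1 ∧
    F P T' c σ0 0 ≤ F P T' c (P.seq m0 σ0 j).1 (P.seq m0 σ0 j).2 with hG
  have hG0 : G 0 := ⟨hσS, le_rfl, by simp [Par.seq], by simp only [Par.seq]; linarith, le_rfl⟩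
  have hstep : ∀ j, G j → (P.seq m0 σ0 j).2 ≤ T' → G (j + 1) := by
    intro j ⟨g1, g2, g3, g4, g5⟩ hj
    set σ := (P.seq m0 σ0 j).1 with hσ
    set t := (P.seq m0 σ0 j).2 with ht
    have ht0 : 0 ≤ t := le_trans (by positivity) g3
    obtain ⟨s1, s2, s3⟩ := step hP hm ht0 hj (hS1.trans g1)
    have hr0 : 0 ≤ P.r σ t := Real.sqrt_nonneg _
    have e1 : (P.seq m0 σ0 (j + 1)).1 = σ - m0 * P.r σ t := rfl
    have e2 : (P.seq m0 σ0 (j + 1)).2 = t + P.δ * P.r σ t ^ 2 := rfl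
    have s4 : F P T' c σ0 0 ≤ F P T' c (σ - m0 * P.r σ t) (t + P.δ * P.r σ t ^ 2) := g5.trans s3
    have hΔ0 : 0 ≤ P.δ * P.r σ t ^ 2 := mul_nonneg hδ.le (sq_nonneg _)
    simp only [hG, e1, e2]
    refine ⟨?_, by nlinarith [mul_nonneg hm hr0], ?_, by linarith, s4⟩
    · unfold F at s4
      rw [hρe] at s4 s2
      have hw0 := w_nonneg P 0
      have hw1 : w P (t + P.δ * P.r σ t ^ 2) ≤ T' + 2 :=
        w_le (by change 0 ≤ t + P.δ * P.r σ t ^ 2 + tA; linarith) (by linarith)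
          (by change t + P.δ * P.r σ t ^ 2 + tA ≤ _; linarith)
      set Y := Real.log (σ - m0 * P.r σ t + ρ) + P.B with hY
      have hBB : P.B = B := rfl
      have hY0 : 0 < Y := by have := Real.log_nonneg s2; linarith
      have hz0 : 0 < Real.log (S' + ρ) + B := by
        have := Real.log_nonneg (show 1 ≤ S' + ρ by linarith); linarith
      have b1 : Real.exp (2 * c * (T' + 2)) * (Real.log (S' + ρ) + B) ≤
          Real.log (σ0 + ρ) + P.B := by
        have b2 : Real.exp (Real.exp (2 * c * (T' + 2)) * (Real.log (S' + ρ) + B)) ≤ σ0 + ρ := by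
          linarith [(le_max_right _ _).trans hσ0]
        have := (Real.le_log_iff_exp_le (by linarith)).2 b2
        linarith
      have b3 := Real.log_le_log (by positivity) b1
      rw [Real.log_mul (Real.exp_pos _).ne' hz0.ne', Real.log_exp] at b3
      have b4 : 2 * c * w P (t + P.δ * P.r σ t ^ 2) ≤ 2 * c * (T' + 2) := by gcongr
      have b5 : 0 ≤ 2 * c * w P 0 := by positivity
      have b6 : Real.log (Real.log (S' + ρ) + B) ≤ Real.log Y := by linarith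
      have b7 := (Real.log_le_log_iff hz0 hY0).1 b6
      have b8 : Real.log (S' + ρ) ≤ Real.log (σ - m0 * P.r σ t + ρ) := by linarith
      have := (Real.log_le_log_iff (by linarith) (by linarith)).1 b8
      linarith
    · have hσ0' : 0 ≤ σ := by linarith
      have b1 : μ ≤ P.δ * P.r σ t ^ 2 := by
        rw [r_sq hP hσ0' ht0, hμ]
        have hl := ell_ge hP hσ0' ht0
        have hρt : P.ρs t ≤ ρ := ρs_mono hP ht0 g4
        have hρt' := ρs_ge hP ht0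
        have hτ : tA ≤ P.τ t := by change tA ≤ t + tA; linarith
        have hell : P.ell σ t ≤ Real.log (σ0 + ρ) + B + Real.log (1 + 1 / tA) := by
          unfold Par.ell
          have a1 : Real.log (σ + P.ρs t) ≤ Real.log (σ0 + ρ) :=
            Real.log_le_log (by linarith) (by linarith)
          have a2 : Real.log (1 + 1 / P.τ t) ≤ Real.log (1 + 1 / tA) := by
            have := one_div_le_one_div_of_le htA hτ
            have := one_div_pos.2 (htA.trans_le hτ)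
            exact Real.log_le_log (by linarith) (by linarith)
          have hBB : P.B = B := rfl
          linarith
        have hX : 0 < σ + P.ρs t := by linarith
        have hLL : P.L = L := rfl
        have hδδ : P.δ = δ := rfl
        rw [hLL, hδδ]
        have hXX : σ + P.ρs t ≤ σ0 + ρ := by linarith
        gcongr
        linarith
      push_cast
      linarith
  by_contra hcon
  have hall : ∀ j, ∀ i, i ≤ j → G i := by
    intro j
    induction j with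
    | zero => intro i hi; rw [Nat.le_zero.1 hi]; exact hG0
    | succ j ih =>
      intro i hi
      rcases Nat.lt_or_eq_of_le hi with h | h
      · exact ih i (Nat.lt_succ_iff.1 h)
      · subst h
        refine hstep j (ih j le_rfl) ?_
        refine le_of_not_gt fun hlt => hcon ⟨j, (le_max_left _ _).trans hlt.le, fun i hi =>
          ⟨(le_max_left _ _).trans (ih i hi).1, (ih i hi).2.2.2.1⟩⟩
  obtain ⟨j, hj⟩ := exists_nat_gt ((T' + 1) / μ)
  have h1 := hall j j le_rfl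
  rw [div_lt_iff₀ hμ0] at hj
  linarith [h1.2.2.1, h1.2.2.2.1]

end

end Crest.Agent.T223.Os.Osg23
end

-- ▼ part T223/OsSpot_51

/-!
# Row 223, module OSG (helper51): SPOT, the potential from time `0`
-/

set_option autoImplicit false

open Set Filter Topology Metric
open scoped ContDiff ComplexConjugate Matrix ComplexOrder

namespace Crest.Agent.T223.Os

open Crest.Agent.R275.Geo Crest.Agent.R273.Kah_333 Crest.Agent.R273.Hess_333
open Crest.Agent.R273.HessB_333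
open Crest.Agent.T223.Br Crest.Agent.T223.Tr
open Crest.Agent.T223.Db (dom SmST)

namespace Sp51

variable {n : ℕ} {M : Type} [TopologicalSpace M] {A : Atl n M}

theorem log_det_pull {J g g' : Mat n} (hg : g.PosDef) (hg' : g'.PosDef)
    (e : g = Jᵀ * g' * J.map conj) :
    Real.log g.det.re = Real.log g'.det.re + Real.log (‖J.det‖ ^ 2) := by
  have h1 := det_re_pos hg
  rw [e, det_pull] at h1 ⊢
  have h2 : ‖J.det‖ ^ 2 ≠ 0 := fun h => by rw [h, zero_mul] at h1; exact lt_irrefl _ h1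
  rw [Real.log_mul h2 (det_re_pos hg').ne', add_comm]

theorem lvol_eq (K0 : Kah A) {G : MF A} {U : Set M} (hG : KahOn G U) {i j : A.ι} {x : M}
    (hi : x ∈ (A.e i).source) (hj : x ∈ (A.e j).source) (hx : x ∈ U) :
    lvol K0 G i x = lvol K0 G j x := by
  simp only [lvol, ldet, gc, (A.e i).left_inv hi, (A.e j).left_inv hj]
  rw [log_det_pull (K0.pos i x hi) (K0.pos j x hj) (K0.tr i j x ⟨hi, hj⟩),
    log_det_pull (hG.kah i x hi hx).posDef (hG.kah j x hj hx).posDef (hG.tr i j x ⟨hi, hj⟩ hx)]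
  ring

theorem lv_eq (K0 : Kah A) {G : MF A} {U : Set M} (hG : KahOn G U) {i : A.ι} {x : M}
    (hi : x ∈ (A.e i).source) (hx : x ∈ U) : lv K0 G x = lvol K0 G i x :=
  lvol_eq K0 hG (ch_mem A x) hi hx

theorem lv_read (K0 : Kah A) {G : MF A} {U : Set M} (hG : KahOn G U) {i : A.ι} {z : Cn n}
    (hz : z ∈ dom A i U) : lv K0 G ((A.e i).symm z) = ldet (gc K0 i) z - ldet (G i) z := by
  rw [lv_eq K0 hG ((A.e i).map_target hz.1) hz.2, lvol, (A.e i).right_inv hz.1]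

theorem cd_ldet0 (K0 : Kah A) {i : A.ι} {z : Cn n} (hz : z ∈ (A.e i).target) :
    ContDiffAt ℝ ∞ (ldet (gc K0 i)) z :=
  cd_ldet (fun a b => (K0.sm i a b).contDiffAt ((A.e i).open_target.mem_nhds hz))
    (K0.pos i _ ((A.e i).map_target hz))

theorem cd_ldetG {G : MF A} {U : Set M} (hG : KahOn G U) {i : A.ι} {z : Cn n}
    (hz : z ∈ dom A i U) : ContDiffAt ℝ ∞ (ldet (G i)) z := by
  have := (hG.kah i _ ((A.e i).map_target hz.1) hz.2).cd_ldet
  rwa [(A.e i).right_inv hz.1] at this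

end Sp51

open Sp51

/-- leaf SPOT -/
theorem spotStmt (n : ℕ) : SpotStmt n := by
  intro M _ A K0 a b U g φ v0 hab hU hg hφ hv0 he
  have hK := hg.kah a ⟨le_rfl, hab.le⟩
  have ho : ∀ i, IsOpen (dom A i U) := fun i => (A.e i).isOpen_inter_preimage_symm hU
  refine ⟨fun s x => v0 x + φ s x - (s - a) * lv K0 (g a) x, ⟨fun i => ?_, ?_, ?_⟩, ?_⟩
  · have h1 : ContDiffOn ℝ ∞ (fun z => ldet (gc K0 i) z - ldet (g a i) z) (dom A i U) :=
      fun z hz => ((cd_ldet0 K0 hz.1).sub (cd_ldetG hK hz)).contDiffWithinAt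
    have h2 : MapsTo (Prod.snd : ℝ × Cn n → Cn n) (Icc a b ×ˢ dom A i U) (dom A i U) :=
      fun q hq => hq.2
    refine ((((hv0 i).comp contDiffOn_snd h2).add (hφ.sm i)).sub
      ((contDiffOn_fst.sub (contDiffOn_const (c := a))).mul (h1.comp contDiffOn_snd h2))).congr fun q hq => ?_
    simp only [Function.comp, inC, lv_read K0 hK hq.2]
  · intro s hs i x hx hxU
    have hz : A.e i x ∈ dom A i U := ⟨(A.e i).map_source hx, by rwa [(A.e i).left_inv hx]⟩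
    have hn := (ho i).mem_nhds hz
    have c1 : ContDiffAt ℝ ∞ (inC A i v0) (A.e i x) := (hv0 i).contDiffAt hn
    have c2 : ContDiffAt ℝ ∞ (inC A i (φ s)) (A.e i x) :=
      ((hφ.sm i).comp (contDiffOn_const.prodMk contDiffOn_id) fun z hz => ⟨hs, hz⟩).contDiffAt hn
    have c3 := cd_ldet0 K0 hz.1
    have c4 := cd_ldetG hK hz
    have e1 : inC A i (fun x => v0 x + φ s x - (s - a) * lv K0 (g a) x) =ᶠ[𝓝 (A.e i x)]
        fun z => inC A i v0 z + inC A i (φ s) z - (s - a) * (ldet (gc K0 i) z - ldet (g a i) z) := by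
      filter_upwards [hn] with z hz
      simp only [inC, lv_read K0 hK hz]
    rw [hφ.pot s hs i x hx hxU]
    nth_rw 1 [he i x hx hxU]
    simp only [gφ, ric]
    rw [hess_congr e1, hess_sub (c1.add c2) (contDiffAt_const.mul (c3.sub c4)), hess_add c1 c2,
      hess_const_mul _ (c3.sub c4), hess_sub c3 c4]
    push_cast
    module
  · intro s hs x hx
    have h1 := hφ.dt s hs _ x (ch_mem A x) hx
    have h2 := (h1.const_add (v0 x)).sub
      (((hasDerivAt_id s).sub_const a).mul_const (lv K0 (g a) x))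
    refine h2.congr_deriv ?_
    simp only [lv, lvol]
    ring
  · intro x hx
    simp [hφ.zero x hx]

end Crest.Agent.T223.Os
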