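import Crest.Agent.T223.TrPb_90

/-!
# Row 223, module END (helper90): `endStmt : CovStmt n → EndStmt n`
-/

set_option autoImplicit false
set_option linter.unusedVariables false
set_option linter.unusedSectionVars false

open Set Filter Topology Metric
open scoped ContDiff ComplexConjugate Matrix ComplexOrder

namespace Crest.Agent.T223.Tr

open Crest.Agent.R275.Geo Crest.Agent.R273.Kah_333 Crest.Agent.R273.Hess_333
open Crest.Agent.R275.Core144 Crest.Agent.R273.HessB_333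

noncomputable section

variable {n : ℕ} {M : Type} [TopologicalSpace M] {A : Atl n M}

theorem exists_locinv {χ : Cn n → Cn n} {w : Cn n} (h : ∀ᶠ y in 𝓝 w, DifferentiableAt ℂ χ y)
    (hi : Function.Injective (fderiv ℂ χ w)) :
    ∃ σ : Cn n → Cn n, σ (χ w) = w ∧ DifferentiableAt ℂ σ (χ w) ∧
      Function.Injective (fderiv ℂ σ (χ w)) ∧ ∀ᶠ y in 𝓝 (χ w), χ (σ y) = y := by
  have h1 : HasStrictFDerivAt χ ((eqvOf _ hi : Cn n ≃L[ℂ] Cn n) : Cn n →L[ℂ] Cn n) w := by
    rw [eqvOf_coe]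
    exact (contDiffAt_of_eventually h).hasStrictFDerivAt (by simp)
  refine ⟨h1.localInverse χ _ w, h1.localInverse_apply_image,
    h1.to_localInverse.hasFDerivAt.differentiableAt, ?_, h1.eventually_right_inverse⟩
  rw [h1.to_localInverse.hasFDerivAt.fderiv]
  exact (eqvOf _ hi).symm.injective

theorem hol_symm (A : Atl n M) (i : A.ι) : Hol A (A.e i).symm (A.e i).target := by
  intro z hz
  refine ⟨(A.e i).continuousAt_symm hz, fun j hj => ?_⟩
  exact (A.holo i j).differentiableAt ((isOpen_ov i j).mem_nhds ⟨hz, hj⟩)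

theorem real_contDiffAt {F : Type*} [NormedAddCommGroup F] [NormedSpace ℂ F] [CompleteSpace F]
    {f : Cn n → F} {z : Cn n} (h : ∀ᶠ w in 𝓝 z, DifferentiableAt ℂ f w) : ContDiffAt ℝ ∞ f z :=
  ((contDiffAt_of_eventually h).restrict_scalars ℝ).of_le le_top

theorem eventually_diff_jac {T : Cn n → Cn n} {z : Cn n}
    (h : ∀ᶠ w in 𝓝 z, DifferentiableAt ℂ T w) (b a : Fin n) :
    ∀ᶠ w in 𝓝 z, DifferentiableAt ℂ (fun y => jac T y b a) w := by
  filter_upwards [h.eventually_nhds] with w hw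
  have h1 : ContDiffAt ℂ 1 (fderiv ℂ T) w := (contDiffAt_of_eventually hw).fderiv_right le_top
  have h2 : DifferentiableAt ℂ (fderiv ℂ T) w := h1.differentiableAt (by simp)
  have h3 : DifferentiableAt ℂ (fun y => fderiv ℂ T y (EuclideanSpace.single a 1)) w :=
    h2.clm_apply (differentiableAt_const _)
  exact (EuclideanSpace.proj (𝕜 := ℂ) b).differentiableAt.comp w h3

theorem eventually_diff_det {T : Cn n → Cn n} {z : Cn n}
    (h : ∀ᶠ w in 𝓝 z, DifferentiableAt ℂ T w) :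
    ∀ᶠ w in 𝓝 z, DifferentiableAt ℂ (fun y => (fderiv ℂ T y).det) w := by
  have h1 : ∀ᶠ w in 𝓝 z, ∀ b a, DifferentiableAt ℂ (fun y => jac T y b a) w := by
    simp only [eventually_all]
    exact fun b a => eventually_diff_jac h b a
  filter_upwards [h1] with w hw
  have h2 : (fun y => (fderiv ℂ T y).det) = fun y => (jac T y).det := by
    funext y; rw [jac_eq, det_mat]
  rw [h2]
  simp only [Matrix.det_apply']
  refine DifferentiableAt.fun_sum fun σ _ => DifferentiableAt.const_mul ?_ _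
  exact (HasFDerivAt.finsetProd (g := fun i y => jac T y (σ i) i)
    fun i _ => (hw _ _).hasFDerivAt).differentiableAt

theorem contDiffAt_g (K : Kah A) (i : A.ι) {z : Cn n} (hz : z ∈ (A.e i).target) (a b : Fin n) :
    ContDiffAt ℝ ∞ (fun w => K.g i ((A.e i).symm w) a b) z :=
  (K.sm i a b).contDiffAt ((A.e i).open_target.mem_nhds hz)

theorem contDiffAt_ld (K : Kah A) (i : A.ι) {z : Cn n} (hz : z ∈ (A.e i).target) :
    ContDiffAt ℝ ∞ (fun w => - Real.log (K.g i ((A.e i).symm w)).det.re) z := by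
  have h1 : ContDiffAt ℝ ∞ (fun w => (K.g i ((A.e i).symm w)).det) z := by
    simp only [Matrix.det_apply']
    refine ContDiffAt.sum fun σ _ => contDiffAt_const.mul ?_
    exact contDiffAt_prod fun a _ => contDiffAt_g K i hz _ _
  exact ((Complex.reCLM.contDiff.contDiffAt.comp z h1).log
    (det_re_pos (K.pos i _ ((A.e i).map_target hz))).ne').neg

theorem continuousAt_pbm (K : Kah A) {f : Cn n → M} {U : Set (Cn n)} (hf : Hol A f U)
    (hU : IsOpen U) {z : Cn n} (hz : z ∈ U) : ContinuousAt (pbm K f) z := by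
  obtain ⟨i, hi⟩ := A.cover (f z)
  have hev := hf.eventually hU hz hi
  have hd : ∀ᶠ w in 𝓝 z, DifferentiableAt ℂ (rd A i f) w := hev.mono fun _ hw => hw.2.2
  have hJ : ContinuousAt (jac (rd A i f)) z :=
    continuousAt_pi.2 fun b => continuousAt_pi.2 fun a =>
      (eventually_diff_jac hd b a).self_of_nhds.continuousAt
  have hg : ContinuousAt (fun w => K.g i ((A.e i).symm (rd A i f w))) z :=
    continuousAt_pi.2 fun a => continuousAt_pi.2 fun b =>
      ContinuousAt.comp (f := rd A i f)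
        (contDiffAt_g K i ((A.e i).map_source hi) a b).continuousAt hd.self_of_nhds.continuousAt
  have h1 : ContinuousAt (fun w => (jac (rd A i f) w)ᵀ * K.g i ((A.e i).symm (rd A i f w)) *
      (jac (rd A i f) w).map conj) z := by
    refine ContinuousAt.mul (ContinuousAt.mul ?_ hg) ?_
    · exact (continuous_id.matrix_transpose.continuousAt).comp hJ
    · exact ((continuous_id.matrix_map Complex.continuous_conj).continuousAt).comp hJ
  refine h1.congr ?_
  filter_upwards [hev] with w hw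
  rw [pbm_eq K hf hw.1 hw.2.1, pbi, rd, (A.e i).left_inv hw.2.1]

theorem nq_le (g : Matrix (Fin n) (Fin n) ℂ) (v : Cn n) :
    nq g v ≤ (∑ a, ∑ b, ‖g a b‖) * ‖v‖ ^ 2 := by
  unfold nq
  refine (Complex.re_le_norm _).trans ((norm_sum_le _ _).trans ?_)
  rw [Finset.sum_mul]
  refine Finset.sum_le_sum fun a _ => (norm_sum_le _ _).trans ?_
  rw [Finset.sum_mul]
  refine Finset.sum_le_sum fun b _ => ?_
  rw [norm_mul, norm_mul, RCLike.norm_conj, mul_assoc, sq]
  gcongr <;> exact PiLp.norm_apply_le v _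

theorem exists_bound_pbm (K : Kah A) {f : Cn n → M} {U Q : Set (Cn n)} (hf : Hol A f U)
    (hU : IsOpen U) (hQ : IsCompact Q) (hQU : Q ⊆ U) :
    ∃ B > 0, ∀ z ∈ Q, ∀ v, nq (pbm K f z) v ≤ B * ‖v‖ ^ 2 := by
  have hc : ContinuousOn (fun z => ∑ a, ∑ b, ‖pbm K f z a b‖) Q := by
    refine continuousOn_finsetSum _ fun a _ => continuousOn_finsetSum _ fun b _ => ?_
    intro z hz
    exact (continuousAt_pi.1 (continuousAt_pi.1 (continuousAt_pbm K hf hU (hQU hz)) a)
      b).norm.continuousWithinAt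
  obtain ⟨B, hB⟩ := hQ.bddAbove_image hc
  refine ⟨max B 1, by positivity, fun z hz v => (nq_le _ _).trans ?_⟩
  gcongr
  exact (hB (mem_image_of_mem _ hz)).trans (le_max_left _ _)

/-- the Ricci potential of a pull-back -/
theorem pot_pbm {K : Kah A} (hK : RicPos K) {f : Cn n → M} {U : Set (Cn n)} (hf : Imm A f U)
    (hU : IsOpen U) {z : Cn n} (hz : z ∈ U) :
    ContDiffAt ℝ ∞ (fun y => - Real.log (pbm K f y).det.re) z ∧
      (hess (fun y => - Real.log (pbm K f y).det.re) z).PosDef := by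
  obtain ⟨i, hi⟩ := A.cover (f z)
  have hev := hf.1.eventually hU hz hi
  set T := rd A i f with hT
  have hd : ∀ᶠ w in 𝓝 z, DifferentiableAt ℂ T w := hev.mono fun _ hw => hw.2.2
  set ld : Cn n → ℝ := fun w => - Real.log (K.g i ((A.e i).symm w)).det.re with hld
  have hTz : T z ∈ (A.e i).target := (A.e i).map_source hi
  have h0 : (fderiv ℂ T z).det ≠ 0 := (det_ne_zero_iff _).2 (hf.2 z hz i hi)
  have he : (fun y => - Real.log (pbm K f y).det.re) =ᶠ[𝓝 z]
      fun y => ld (T y) - Real.log (‖(fderiv ℂ T y).det‖ ^ 2) := by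
    filter_upwards [hev] with w hw
    have h1 := (det_ne_zero_iff _).2 (hf.2 w hw.1 i hw.2.1)
    have h2 := det_re_pos (K.pos i _ hw.2.1)
    rw [det_pbm K hf.1 hw.1 hw.2.1, Real.log_mul (by positivity) h2.ne']
    simp only [hld, hT, rd, (A.e i).left_inv hw.2.1]
    ring
  have h1 : ContDiffAt ℝ ∞ (fun y => ld (T y)) z :=
    ContDiffAt.comp (f := T) z (contDiffAt_ld K i hTz) (real_contDiffAt hd)
  have h2 : ContDiffAt ℝ ∞ (fun y => Real.log (‖(fderiv ℂ T y).det‖ ^ 2)) z :=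
    ((real_contDiffAt (eventually_diff_det hd)).norm_sq ℝ).log (by positivity)
  refine ⟨(h1.sub h2).congr_of_eventuallyEq he, ?_⟩
  rw [hess_congr he, hess_sub h1 h2, hess_log_norm (eventually_diff_det hd) h0, sub_zero]
  have h3 : hess (fun y => ld (T y)) z = ((jac T z).map conj)ᴴ * hess ld (T z) *
      (jac T z).map conj := by
    ext a b
    rw [hess_comp (u := ld) (T := T) (contDiffAt_ld K i hTz) hd]
    simp only [Matrix.mul_apply, Matrix.conjTranspose_apply, Matrix.map_apply, Finset.sum_mul,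
      RCLike.star_def, Complex.conj_conj]
    rw [Finset.sum_comm]
    rfl
  rw [h3]
  refine (hK i _ hTz).conjTranspose_mul_mul_same ?_
  refine Matrix.mulVec_injective_iff_isUnit.2 ((Matrix.isUnit_iff_isUnit_det _).2 ?_)
  have h4 : ((jac T z).map conj).det = conj (jac T z).det :=
    (RingHom.map_det (starRingEnd ℂ) _).symm
  rw [h4, jac_eq, det_mat, isUnit_iff_ne_zero]
  simpa using h0

variable {K0 : Kah A} {p : M} {K : ℕ → Kah A} {τ : ℕ → ℝ} {Λ : ℝ} {ψ : ℕ → Cn n → M}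
  {Φ : ℕ → ℕ → Cn n → Cn n} {r κ : ℝ}

/-- bounds for `K0` in the chart `k` give Lipschitz bounds for the transition maps -/
theorem lip_of_lower (h : QCh K0 p K τ Λ ψ) (hc : Coc Φ r κ) (ht : IsTr ψ Φ r) {j k : ℕ}
    (hjk : j ≤ k) (K' : Kah A) {a b η : ℝ} (ha : 0 < a) (hη : 0 ≤ η) (hb : b ≤ a * η ^ 2)
    (h1 : ∀ w ∈ ball (0 : Cn n) r, ∀ v, nq (pbm K' (ψ j) w) v ≤ b * ‖v‖ ^ 2)
    (h2 : ∀ w ∈ ball (0 : Cn n) r, ∀ v, a * ‖v‖ ^ 2 ≤ nq (pbm K' (ψ k) (Φ j k w)) v) :
    ∀ w ∈ ball (0 : Cn n) r, ‖fderiv ℂ (Φ j k) w‖ ≤ η ∧ ‖Φ j k w‖ ≤ η * ‖w‖ := by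
  have hb2 : ball (0 : Cn n) (1 / 2) ⊆ ball 0 1 := ball_subset_ball (by norm_num)
  have hd : ∀ w ∈ ball (0 : Cn n) r, DifferentiableAt ℂ (Φ j k) w := fun w hw =>
    (hc.hol j k hjk).differentiableAt (isOpen_ball.mem_nhds hw)
  have key : ∀ w ∈ ball (0 : Cn n) r, ‖fderiv ℂ (Φ j k) w‖ ≤ η := by
    intro w hw
    refine ContinuousLinearMap.opNorm_le_bound _ hη fun v => ?_
    have h3 := nq_pbm_comp K' (f := ψ j) (h.qc k).imm.1 (hd w hw) (hb2 (ht.2 j k hjk w hw).1)
      (by filter_upwards [isOpen_ball.mem_nhds hw] with y hy using (ht.2 j k hjk y hy).2) v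
    have h4 := h1 w hw v
    have h5 := h2 w hw (fderiv ℂ (Φ j k) w v)
    have h6 : a * ‖fderiv ℂ (Φ j k) w v‖ ^ 2 ≤ a * (η * ‖v‖) ^ 2 := by
      calc _ ≤ b * ‖v‖ ^ 2 := by rw [← h3] at h5; exact h5.trans h4
        _ ≤ a * η ^ 2 * ‖v‖ ^ 2 := by gcongr
        _ = _ := by ring
    exact (pow_le_pow_iff_left₀ (norm_nonneg _) (by positivity) two_ne_zero).1
      (le_of_mul_le_mul_left h6 ha)
  intro w hw
  refine ⟨key w hw, ?_⟩
  have := (convex_ball (0 : Cn n) r).norm_image_sub_le_of_norm_fderiv_le (𝕜 := ℂ) hd key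
    (mem_ball_self hc.r_pos) hw
  rwa [hc.zero j k hjk, sub_zero, sub_zero] at this

theorem shrink_lip (h : QCh K0 p K τ Λ ψ) (hc : Coc Φ r κ) (ht : IsTr ψ Φ r) {μ : ℕ → ℝ}
    (hμ : ∀ j, 1 ≤ μ j)
    (hs : ∀ Q : Set M, IsCompact Q → ∀ δ : ℝ, 0 < δ → ∀ᶠ j in atTop,
      ∀ w ∈ ball (0 : Cn n) (1 / 2), ψ j w ∈ Q → ∀ v,
        μ j ^ (2 * n) * ‖v‖ ^ 2 ≤ δ * nq (pbm K0 (ψ j) w) v) (j : ℕ) {η : ℝ} (hη : 0 < η) :
    ∀ᶠ k in atTop, j ≤ k ∧ ∀ w ∈ ball (0 : Cn n) r, ‖Φ j k w‖ ≤ η / μ k ^ n * ‖w‖ := by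
  have hsub : closedBall (0 : Cn n) r ⊆ ball 0 1 := closedBall_subset_ball (by linarith [ht.1])
  obtain ⟨B, hB, hBb⟩ := exists_bound_pbm K0 (h.qc j).imm.1 isOpen_ball
    (isCompact_closedBall 0 r) hsub
  have hQ : IsCompact (ψ j '' closedBall 0 r) :=
    (isCompact_closedBall 0 r).image_of_continuousOn ((h.qc j).imm.1.continuousOn.mono hsub)
  filter_upwards [hs _ hQ (η ^ 2 / B) (by positivity), eventually_ge_atTop j] with k hk hjk
  have hμk : 0 < μ k := lt_of_lt_of_le one_pos (hμ k)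
  refine ⟨hjk, fun w hw => (lip_of_lower h hc ht hjk K0 (a := μ k ^ (2 * n) * B / η ^ 2) (b := B)
    (by positivity) (by positivity) (le_of_eq ?_)
    (fun w hw => hBb w (ball_subset_closedBall hw)) (fun w hw v => ?_) w hw).2⟩
  · rw [mul_comm 2 n, pow_mul]; field_simp
  · have h1 := hk _ (ht.2 j k hjk w hw).1
      ⟨w, ball_subset_closedBall hw, (ht.2 j k hjk w hw).2.symm⟩ v
    rw [div_mul_eq_mul_div, le_div_iff₀ hB] at h1
    rw [div_mul_eq_mul_div, div_le_iff₀ (by positivity)]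
    linarith

/-- every point of `M` is eventually near the centre of the charts -/
theorem good_all [T2Space M] [ConnectedSpace M] (h : QCh K0 p K τ Λ ψ) (hs : Shrink K0 ψ) (x : M)
    {η : ℝ} (hη : 0 < η) : ∀ᶠ k in atTop, ∃ y : Cn n, ‖y‖ < η ∧ ψ k y = x := by
  obtain ⟨μ, C, hμ, -, hs⟩ := hs
  set Good : M → Prop := fun x => ∀ η : ℝ, 0 < η → ∀ᶠ k in atTop, ∃ y : Cn n, ‖y‖ < η ∧ ψ k y = x
    with hG
  have hb2 : ball (0 : Cn n) (1 / 2) ⊆ ball 0 1 := ball_subset_ball (by norm_num)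
  have hloc : ∀ x0 : M, ∃ N ∈ 𝓝 x0, ∀ x ∈ N, ∀ x' ∈ N, Good x → Good x' := by
    intro x0
    obtain ⟨i, hi⟩ := A.cover x0
    obtain ⟨ε, hε, hεs⟩ := Metric.isOpen_iff.1 (A.e i).open_target _ ((A.e i).map_source hi)
    set s := ε / 4 with hs'
    have hs0 : 0 < s := by positivity
    have hsub : closedBall (A.e i x0) (3 * s) ⊆ (A.e i).target :=
      (closedBall_subset_ball (by linarith)).trans hεs
    obtain ⟨B, hB, hBb⟩ := exists_bound_pbm K0 (hol_symm A i) (A.e i).open_target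
      (isCompact_closedBall _ _) hsub
    have hQ : IsCompact ((A.e i).symm '' closedBall (A.e i x0) (3 * s)) :=
      (isCompact_closedBall _ _).image_of_continuousOn ((A.e i).continuousOn_symm.mono hsub)
    refine ⟨(A.e i).source ∩ A.e i ⁻¹' ball (A.e i x0) s, inter_mem
      ((A.e i).open_source.mem_nhds hi) ((A.e i).continuousAt hi (ball_mem_nhds _ hs0)),
      fun x hx x' hx' hg η hη => ?_⟩
    set η' := min η (1 / 2) with hη'
    have hη'0 : 0 < η' := lt_min hη (by norm_num)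
    set κ' := η' / (4 * s) with hκ'
    have hκ'0 : 0 < κ' := by positivity
    have hκs : κ' * (2 * s) = η' / 2 := by rw [hκ']; field_simp; ring
    have hD : ball (A.e i x) (2 * s) ⊆ closedBall (A.e i x0) (3 * s) := fun y hy => by
      have h1 : dist (A.e i x) (A.e i x0) < s := hx.2
      rw [mem_ball] at hy
      rw [mem_closedBall]
      linarith [dist_triangle y (A.e i x) (A.e i x0)]
    filter_upwards [hg (η' / 2) (by positivity), hs _ hQ (κ' ^ 2 / B) (by positivity)]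
      with k ⟨y0, hy0, hy0e⟩ hk
    have hcmp : Cmp A (A.e i).symm (ball (A.e i x) (2 * s)) (ψ k) (ball 0 (1 / 2)) κ' := by
      refine cmp_of_nq K0 ((hol_symm A i).mono (hD.trans hsub)) ((h.qc k).imm.1.mono hb2)
        (a := B / κ' ^ 2) (b := B) (by positivity) hκ'0.le (le_of_eq (by field_simp))
        (fun z hz => hBb z (hD hz)) fun z hz y hy hzy w => ?_
      have h1 := hk y hy ⟨z, hD hz, hzy⟩ w
      have h2 : 1 * ‖w‖ ^ 2 ≤ μ k ^ (2 * n) * ‖w‖ ^ 2 := by
        gcongr; exact one_le_pow₀ (hμ k)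
      have h3 := h2.trans h1
      rw [div_mul_eq_mul_div, le_div_iff₀ hB] at h3
      rw [div_mul_eq_mul_div, div_le_iff₀ (by positivity)]
      linarith
    obtain ⟨Φ, -, -, hΦ⟩ := exists_lift ((h.qc k).imm.mono hb2)
      ((hol_symm A i).mono (hD.trans hsub)) hcmp hκ'0.le (by positivity) (y0 := y0)
      (by rw [hy0e, (A.e i).left_inv hx.1])
      (by rw [hκs]; linarith [min_le_right η (1 / 2)])
    have hx'D : A.e i x' ∈ ball (A.e i x) (2 * s) := by
      have h1 : dist (A.e i x) (A.e i x0) < s := hx.2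
      have h2 : dist (A.e i x') (A.e i x0) < s := hx'.2
      rw [mem_ball]
      linarith [dist_triangle_right (A.e i x') (A.e i x) (A.e i x0)]
    obtain ⟨h1, h2, -⟩ := hΦ _ hx'D
    refine ⟨Φ (A.e i x'), ?_, by rw [h2, (A.e i).left_inv hx'.1]⟩
    have h3 : κ' * ‖A.e i x' - A.e i x‖ ≤ κ' * (2 * s) := by
      gcongr
      rw [← dist_eq_norm]; exact (mem_ball.1 hx'D).le
    calc ‖Φ (A.e i x')‖ = ‖y0 + (Φ (A.e i x') - y0)‖ := by congr 1; abel
      _ ≤ ‖y0‖ + ‖Φ (A.e i x') - y0‖ := norm_add_le _ _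
      _ < η' := by linarith
      _ ≤ η := min_le_left _ _
  have hlc : IsLocallyConstant Good := by
    rw [IsLocallyConstant.iff_eventually_eq]
    intro x0
    obtain ⟨N, hN, H⟩ := hloc x0
    filter_upwards [hN] with x hx
    exact propext ⟨H x hx x0 (mem_of_mem_nhds hN), H x0 (mem_of_mem_nhds hN) x hx⟩
  have hp : Good p := fun η hη => Eventually.of_forall fun k => ⟨0, by simpa using hη, h.zero k⟩
  have := hlc.apply_eq_of_preconnectedSpace p x
  exact (this ▸ hp : Good x) η hη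

/-- `EndStmt` with the conclusion of `YauImm` -/
def EndImm (n : ℕ) : Prop :=
  ∀ (M : Type) [TopologicalSpace M] [T2Space M] [ConnectedSpace M] (A : Atl n M) (K0 : Kah A)
    (p : M) (K : ℕ → Kah A) (τ : ℕ → ℝ) (Λ : ℝ) (ψ : ℕ → Cn n → M)
    (Φ : ℕ → ℕ → Cn n → Cn n) (r κ : ℝ), QCh K0 p K τ Λ ψ → RicPos K0 → Shrink K0 ψ →
    Coc Φ r κ → IsTr ψ Φ r → Basin Φ r κ →
    ∃ F : M → Cn n, Function.Bijective F ∧
      (∀ i, DifferentiableOn ℂ (fun z => F ((A.e i).symm z)) (A.e i).target) ∧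
      ∀ i, ∀ z ∈ (A.e i).target,
        Function.Injective (fderiv ℂ (fun z => F ((A.e i).symm z)) z)

theorem fderiv_rd_symm (A : Atl n M) (i : A.ι) {z : Cn n} (hz : z ∈ (A.e i).target) :
    fderiv ℂ (rd A i (A.e i).symm) z = ContinuousLinearMap.id ℂ _ := by
  have h : rd A i (A.e i).symm =ᶠ[𝓝 z] id := by
    filter_upwards [(A.e i).open_target.mem_nhds hz] with w hw
    exact (A.e i).right_inv hw
  rw [h.fderiv_eq, fderiv_id]

theorem endImm (n : ℕ) (hcov : Cov.CovStmt n) : EndImm n := by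
  intro M _ _ _ A K0 p K τ Λ ψ Φ r κ h hric hs hc ht hb
  obtain ⟨ρ, χ, hρ, hρr, χ1, χ2, χ3, χ4, χ5, χ6⟩ := hb
  have hκ := hc.one_le
  have hΛ := h.one_le
  set ρ' := ρ / κ with hρ'
  have hρ'0 : 0 < ρ' := by positivity
  have hs1 : ball (0 : Cn n) ρ' ⊆ ball 0 ρ := ball_subset_ball (div_le_self hρ.le hκ)
  have hs2 : ball (0 : Cn n) ρ ⊆ ball 0 r := ball_subset_ball hρr
  have hs3 : ball (0 : Cn n) ρ' ⊆ ball 0 1 :=
    (hs1.trans hs2).trans (ball_subset_ball (by linarith [ht.1]))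
  have hwd : ∀ j k, j ≤ k → ∀ w ∈ ball (0 : Cn n) ρ', ∀ w' ∈ ball (0 : Cn n) ρ',
      χ j w = χ k w' → ψ j w = ψ k w' := by
    intro j k hjk w hw w' hw' he
    have h1 : Φ j k w ∈ ball (0 : Cn n) ρ := by
      have := hc.bd j k hjk w (hs2 (hs1 hw))
      rw [mem_ball_zero_iff] at hw ⊢
      rw [hρ', lt_div_iff₀ (by positivity)] at hw
      linarith
    have h2 : Φ j k w = w' := χ2 k h1 (hs1 hw') ((χ5 j k hjk w hw).trans he)
    rw [← h2, (ht.2 j k hjk w (hs2 (hs1 hw))).2]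
  have hex : ∀ z : Cn n, ∃ j, ∃ w ∈ ball (0 : Cn n) ρ', χ j w = z := fun z => by
    obtain ⟨j, hj⟩ := χ6 ‖z‖
    exact ⟨j, hj (mem_closedBall_zero_iff.2 le_rfl)⟩
  choose jz wz hwz hχz using hex
  set Ψ : Cn n → M := fun z => ψ (jz z) (wz z) with hΨ
  have hΨχ : ∀ j, ∀ w ∈ ball (0 : Cn n) ρ', Ψ (χ j w) = ψ j w := by
    intro j w hw
    rcases le_total j (jz (χ j w)) with hle | hle
    · exact (hwd _ _ hle w hw _ (hwz _) (hχz _).symm).symm
    · exact hwd _ _ hle _ (hwz _) w hw (hχz _)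
  have hχd : ∀ j, ∀ w ∈ ball (0 : Cn n) ρ', ∀ᶠ y in 𝓝 w, DifferentiableAt ℂ (χ j) y := by
    intro j w hw
    filter_upwards [isOpen_ball.mem_nhds (hs1 hw)] with y hy
    exact (χ1 j).differentiableAt (isOpen_ball.mem_nhds hy)
  have hImm : Imm A Ψ univ := by
    have key : ∀ z : Cn n, ContinuousAt Ψ z ∧ ∀ i, Ψ z ∈ (A.e i).source →
        DifferentiableAt ℂ (rd A i Ψ) z ∧ Function.Injective (fderiv ℂ (rd A i Ψ) z) := by
      intro z
      obtain ⟨σ, σ1, σ2, σ3, σ4⟩ := exists_locinv (hχd (jz z) _ (hwz z))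
        ((det_ne_zero_iff _).1 (χ3 _ _ (hs1 (hwz z))))
      rw [hχz z] at σ1 σ2 σ3 σ4
      have hm : σ z ∈ ball (0 : Cn n) ρ' := by rw [σ1]; exact hwz z
      have he : ∀ᶠ y in 𝓝 z, ψ (jz z) (σ y) = Ψ y := by
        filter_upwards [σ4, σ2.continuousAt (isOpen_ball.mem_nhds hm)] with y hy hy'
        rw [← hΨχ _ _ hy', hy]
      obtain ⟨c1, c2⟩ := (h.qc (jz z)).imm.1.comp_at σ2 (hs3 hm) he
      refine ⟨c1, fun i hi => ⟨(c2 i hi).1, ?_⟩⟩
      rw [(c2 i hi).2]
      exact ((h.qc (jz z)).imm.2 _ (hs3 hm) i (by rwa [he.self_of_nhds])).comp σ3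
    exact ⟨fun z _ => ⟨(key z).1, fun i hi => ((key z).2 i hi).1⟩,
      fun z _ i hi => ((key z).2 i hi).2⟩
  have hloc : IsLocalHomeomorph Ψ :=
    isLocalHomeomorph_iff_isLocalHomeomorphOn_univ.2 (hImm.isLocalHomeomorphOn isOpen_univ)
  have hsurj : Function.Surjective Ψ := by
    intro x
    obtain ⟨k, y, hy, hyx⟩ := (good_all h hs x hρ'0).exists
    exact ⟨χ k y, by rw [hΨχ k y (mem_ball_zero_iff.2 hy), hyx]⟩
  obtain ⟨μ, C, hμ, hC, hsh⟩ := hs
  set u : Cn n → ℝ := fun y => - Real.log (pbm K0 Ψ y).det.re with hu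
  have hchart : ∀ j, ∀ w ∈ ball (0 : Cn n) ρ',
      u (χ j w) - Real.log (‖(fderiv ℂ (χ j) w).det‖ ^ 2) =
        - Real.log (pbm K0 (ψ j) w).det.re := by
    intro j w hw
    have h1 := det_pbm_comp K0 (f := ψ j) hImm.1 (hχd j w hw).self_of_nhds (mem_univ _)
      (by filter_upwards [isOpen_ball.mem_nhds hw] with y hy using hΨχ j y hy)
    have h2 := χ3 j w (hs1 hw)
    rw [h1, Real.log_mul (by positivity) (det_pbm_pos K0 hImm (mem_univ _)).ne']
    simp only [hu]; ring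
  have hlogΛ : 0 ≤ Real.log Λ := Real.log_nonneg hΛ
  have hinj : Function.Injective Ψ := by
    refine hcov M Ψ χ u μ ρ' Λ (|u 0| + |C| + 2 * n * Real.log Λ) hρ'0 hloc
      (fun j => (χ1 j).mono hs1) (fun j => (χ2 j).mono hs1) (fun j w hw => χ3 j w (hs1 hw)) χ4 hμ
      (fun R δ hδ => ?_) (fun U θ hU hθ he => ?_) (fun j U θ hU hU1 hm hθ he w hw => ?_)
      (contDiff_iff_contDiffAt.2 fun z => (pot_pbm hric hImm isOpen_univ (mem_univ z)).1)
      (fun z => (pot_pbm hric hImm isOpen_univ (mem_univ z)).2.posSemidef)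
      (pot_pbm hric hImm isOpen_univ (mem_univ 0)).2.det_pos.ne' (fun j w hw => ?_) fun j => ?_
    · obtain ⟨j, hj⟩ := χ6 R
      obtain ⟨k, hjk, hk⟩ := (shrink_lip h hc ht hμ hsh j
        (η := min 1 (δ / ρ')) (lt_min one_pos (by positivity))).exists
      refine ⟨k, fun z hz => ?_⟩
      obtain ⟨w, hw, rfl⟩ := hj hz
      refine ⟨Φ j k w, ?_, χ5 j k hjk w hw⟩
      have h1 := hk w (hs2 (hs1 hw))
      have h2 : 1 ≤ μ k ^ n := one_le_pow₀ (hμ k)
      have h3 : 0 < min 1 (δ / ρ') / μ k ^ n := by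
        have : 0 < min 1 (δ / ρ') := lt_min one_pos (by positivity)
        positivity
      rw [mem_ball_zero_iff] at hw ⊢
      refine h1.trans_lt ((mul_lt_mul_of_pos_left hw h3).trans_le (le_min ?_ ?_))
      · calc _ ≤ 1 / 1 * ρ' := by gcongr; exact min_le_left _ _
          _ = ρ' := by ring
      · calc _ ≤ δ / ρ' / μ k ^ n * ρ' := by gcongr; exact min_le_right _ _
          _ = _ := by field_simp
    · have key : ∀ z ∈ U, DifferentiableAt ℂ θ z := by
        intro z hz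
        obtain ⟨i, hi⟩ := A.cover (Ψ z)
        exact (lift_differentiableAt hImm isOpen_univ (f := Ψ) (hθ.continuousAt (hU.mem_nhds hz))
          (mem_univ _) (by filter_upwards [hU.mem_nhds hz] with y hy using he y hy) hi
          ((hImm.1 z (mem_univ _)).2 i hi)).1
      refine ⟨fun z hz => (key z hz).differentiableWithinAt, fun z hz => ?_⟩
      have h1 := det_pbm_comp K0 (f := Ψ) hImm.1 (key z hz) (mem_univ _)
        (by filter_upwards [hU.mem_nhds hz] with y hy using he y hy)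
      have h2 := det_pbm_pos K0 hImm (mem_univ z)
      have h3 := det_pbm_pos K0 hImm (mem_univ (θ z))
      have h4 : ‖(fderiv ℂ θ z).det‖ ^ 2 ≠ 0 := by
        intro h0; rw [h1, h0, zero_mul] at h2; exact lt_irrefl _ h2
      simp only [hu]
      rw [h1, Real.log_mul h4 h3.ne']; ring
    · refine ContinuousLinearMap.opNorm_le_bound _ (by positivity) fun v => ?_
      have h1 := nq_pbm_comp (K j) (f := ψ j) (h.qc j).imm.1
        (hθ.differentiableAt (hU.mem_nhds hw)) (hs3 (hm hw))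
        (by
          filter_upwards [hU.mem_nhds hw] with y hy
          rw [← hΨχ j _ (hm hy), he y hy, hΨχ j _ (hU1 hy)]) v
      have h2 := (h.qc j).hi w (hs3 (hU1 hw)) v
      have h3 := (h.qc j).lo _ (hs3 (hm hw)) (fderiv ℂ θ w v)
      have hτ := h.τ_pos j
      have h4 : τ j * ‖fderiv ℂ θ w v‖ ^ 2 ≤ τ j * (Λ * ‖v‖) ^ 2 := by
        calc _ ≤ Λ * (Λ * τ j * ‖v‖ ^ 2) := by
              rw [← h1] at h3; exact h3.trans (by gcongr)
          _ = _ := by ring
      exact (pow_le_pow_iff_left₀ (norm_nonneg _) (by positivity) two_ne_zero).1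
        (le_of_mul_le_mul_left h4 hτ)
    · rw [hchart j w hw]
      have h1 : ((Λ ^ 2)⁻¹) ^ n ≤ (pbm K0 (ψ j) w).det.re := by
        refine det_ge_of_nq (pbm_herm _ _ _) (by positivity) fun v => ?_
        have h2 := (h.anti0 j).pbm (ψ j) w v
        have h3 := (h.qc j).lo w (hs3 hw) v
        have h4 := h.τ_lo j
        rw [one_mul] at h2
        rw [inv_mul_le_iff₀ (by positivity)]
        calc ‖v‖ ^ 2 = 1 * ‖v‖ ^ 2 := (one_mul _).symm
          _ ≤ Λ * τ j * ‖v‖ ^ 2 := by gcongr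
          _ = Λ * (τ j * ‖v‖ ^ 2) := by ring
          _ ≤ Λ * (Λ * nq (pbm K0 (ψ j) w) v) :=
            mul_le_mul_of_nonneg_left (h3.trans (by gcongr)) (by positivity)
          _ = _ := by ring
      have h2 := Real.log_le_log (by positivity) h1
      rw [Real.log_pow, Real.log_inv, Real.log_pow] at h2
      have h3 : 0 ≤ |u 0| + |C| + 2 * n * Real.log Λ := by positivity
      have h4 := mul_le_mul_of_nonneg_left (hμ j) h3
      push_cast at h2
      nlinarith [abs_nonneg (u 0), abs_nonneg C]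
    · have h1 := hchart j 0 (mem_ball_self hρ'0)
      rw [χ4 j, Real.log_pow] at h1
      have h2 := hC j
      have h3 := hμ j
      have h4 : C * μ j ≤ |C| * μ j := by gcongr; exact le_abs_self C
      have h5 : u 0 ≤ |u 0| * μ j := (le_abs_self _).trans (le_mul_of_one_le_right
        (abs_nonneg _) h3)
      have h6 : 0 ≤ 2 * n * Real.log Λ * μ j := by positivity
      have h7 : 0 ≤ |C| * μ j := by positivity
      have h8 : 0 ≤ |u 0| * μ j := by positivity
      push_cast at h1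
      nlinarith
  set e : Cn n ≃ₜ M := (Equiv.ofBijective Ψ ⟨hinj, hsurj⟩).toHomeomorphOfContinuousOpen
    hloc.continuous hloc.isOpenMap with he
  have key := fun (i : A.ι) (z : Cn n) (hz : z ∈ (A.e i).target) =>
    lift_differentiableAt hImm isOpen_univ (f := (A.e i).symm)
      (Φ := fun z => e.symm ((A.e i).symm z))
      (e.symm.continuous.continuousAt.comp ((A.e i).continuousAt_symm hz)) (mem_univ _)
      (Eventually.of_forall fun y => e.apply_symm_apply _) ((A.e i).map_target hz)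
      ((hol_symm A i z hz).2 i ((A.e i).map_target hz))
  refine ⟨e.symm, e.symm.bijective, fun i z hz => (key i z hz).1.differentiableWithinAt,
    fun i z hz v w hvw => ?_⟩
  have h1 := (key i z hz).2 v
  have h2 := (key i z hz).2 w
  rw [fderiv_rd_symm A i hz] at h1 h2
  rw [hvw, h2] at h1
  exact h1.symm


end

end Crest.Agent.T223.Tr
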