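import Crest.Agent.T223.OsAsm_21
import Crest.Agent.T223.LoE_18
import Crest.Agent.T223.OsLg_41_Mg
import Crest.Agent.T223.OsSpot_51_Mg
import Crest.Agent.T223.OsLp_84
import Crest.Agent.T223.StMA_88
import Crest.Agent.T223.StChK_51
import Crest.Agent.T223.LxReg_54_Mg
import Crest.Agent.T223.LxIS_83
import Crest.Agent.T223.QcSt_35
import Crest.Agent.T223.QcDbl_35
import Crest.Agent.T223.QcIf_47
import Crest.Agent.T223.QcLift_35
import Crest.Agent.T223.Gr4_44_Mg
import Crest.Agent.T223.QcWrB_48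
import Crest.Agent.T223.OsDef_21
import Crest.Agent.T223.FrA_38
import Crest.Agent.T223.EvLA_41
import Crest.Agent.T223.GeoDef2_76
import Crest.Agent.T223.LipKah_93
import Crest.Agent.T223.TrTr_90
import Crest.Agent.T223.FrB_38
import Crest.Agent.T223.U0S_15
import Crest.Agent.T223.LoCal_18
import Crest.Agent.T223.GeoDef_76
import Crest.Agent.T223.TrEnd_90

-- ▼ part T223/OsInt_21
section

/-!
# Row 223, module OSG (helper21): the leaves proved so far are plugged in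
-/

set_option autoImplicit false

namespace Crest.Agent.T223.Os

theorem osgStmt1 {n : ℕ} (hn : 1 ≤ n) (ha : LaStmt n) (hb : LbStmt n) (hl : LlStmt n)
    (hStep : StepStmt n) (hRen : RenewStmt n) (hIG : InitGStmt n) : OsgStmt n :=
  osgStmt hn ha hb (lcStmt n) (ldStmt n) (Lo.leStmt hn) (Lo.lfStmt n) hl (lgStmt hn) (lpStmt n)
    hStep (spotStmt n) hRen hIG (initLStmt n) (glueStmt n) Osg23.osgoodStmt (apxStmt n)

end Crest.Agent.T223.Os
end

-- ▼ part T223/StInt_88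
section

/-!
# Row 223, STEP (helper88): integration
-/

set_option autoImplicit false

namespace Crest.Agent.T223.St

theorem stepStmt_of {n : ℕ} (hP : Lx.PicStmt (2 * n)) (hN : NemStmt n) (hH : ChHStmt n)
    (hA : AsmStmt n) : Os.StepStmt n :=
  scaleStmt n (hA (trfStmt n) (flowStmt n) (heatStmt (Db.linSol n))
    (maStmt hP (Db.linSol n) hN (regStmt (Lx.fnReg (Lx.isStmt _ ℝ))) (trfStmt n))
    (chKStmt (Lx.fnHB (Lx.isStep _ ℝ) (Lx.intStmt _ ℝ))) hH (cruStmt n))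

theorem stepStmt_of2 {n : ℕ} (hN : NemStmt n) (hA : AsmStmt n) : Os.StepStmt n :=
  stepStmt_of (Lx.picStmt _) hN (H88.chH (Lx.linHB (Lx.isStep _ ℝ) (Lx.intStmt _ ℝ))) hA

end Crest.Agent.T223.St
end

-- ▼ part T223/QcOut_35
section

/-!
# Row 223, module QC (helper35): from one doubling step to `QCStmt`
-/

set_option autoImplicit false
set_option linter.unusedSectionVars false
set_option linter.unusedVariables false

open Set Filter Topology Metric
open scoped ComplexOrder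

namespace Crest.Agent.T223.Qc35

open Crest.Agent.R275.Geo Crest.Agent.T223.Tr Crest.Agent.T223.Br

theorem bk_mono {n : ℕ} {g : Cn n → Mat n} {z : Cn n} (hg : (g z).PosDef) {a b : ℝ} (hab : a ≤ b)
    (h : BKge g z a ∧ BKle g z a) : BKge g z b ∧ BKle g z b := by
  have h0 : ∀ v w, a * nq (g z) v * nq (g z) w ≤ b * nq (g z) v * nq (g z) w := fun v w => by
    have := nq_nonneg hg.posSemidef v
    have := nq_nonneg hg.posSemidef w
    gcongr
  exact ⟨fun v w => le_trans (neg_le_neg (h0 v w)) (h.1 v w), fun v w => (h.2 v w).trans (h0 v w)⟩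

theorem qcStmt_of_dbl {n : ℕ} (hD : DblStmt n) : QCStmt n := by
  intro ε hε
  obtain ⟨ε0, N, hε0, hN, H⟩ := hD (min ε (1 / 2)) (by positivity)
  refine ⟨ε0, 3 + N, hε0, by positivity, ?_⟩
  intro M _ _ A G U ρ c r σ hU hG hc hr hρ hK hB x hx hxσ
  obtain ⟨r0, hr0, hst⟩ := qc_start hU hG hρ hc hK
  have step : ∀ s : ℝ, 0 < s → s ≤ r →
      (∀ y ∈ U, ρ y ≤ σ - (3 + N) * c * s →
        ∃ ψ : Cn n → M, QC G {y | y ∈ U ∧ ρ y ≤ σ} y s (1 / 2) ψ) →
      ∀ y ∈ U, ρ y ≤ σ - (3 + N) * c * (2 * s) →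
        ∃ ψ : Cn n → M, QC G {y | y ∈ U ∧ ρ y ≤ σ} y (2 * s) (min ε (1 / 2)) ψ := by
    intro s hs hsr h y hy hyσ
    refine H M A G U ρ c s σ (σ - (3 + N) * c * s) hU hG hc hs hρ (fun i y hi hy hyσ => ?_) h y hy
      (by nlinarith [mul_pos hc hs])
    exact bk_mono (hG.kah i y hi hy).pos.self_of_nhds (by gcongr) (hB i y hi hy hyσ)
  have iter : ∀ t : ℝ, 0 < t → t ≤ r0 → ∀ j : ℕ, 2 ^ j * t ≤ r →
      ∀ y ∈ U, ρ y ≤ σ - (3 + N) * c * (2 ^ j * t) →
        ∃ ψ : Cn n → M, QC G {y | y ∈ U ∧ ρ y ≤ σ} y (2 ^ j * t) (1 / 2) ψ := by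
    intro t ht htr j
    induction j with
    | zero =>
      intro _ y hy hyσ
      rw [pow_zero, one_mul] at hyσ ⊢
      exact hst t ht htr y hy (by nlinarith [mul_pos hN (mul_pos hc ht)])
    | succ j ih =>
      intro hj y hy hyσ
      have e : (2 : ℝ) ^ (j + 1) * t = 2 * (2 ^ j * t) := by ring
      rw [e] at hj hyσ ⊢
      have hp : (0 : ℝ) < 2 ^ j * t := by positivity
      obtain ⟨ψ, hψ⟩ := step _ hp (by linarith) (ih (by linarith)) y hy hyσ
      exact ⟨ψ, QC.mono hψ hψ.maps (min_le_right _ _)⟩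
  obtain ⟨k, hk⟩ := pow_unbounded_of_one_lt (r / r0) (one_lt_two (α := ℝ))
  have hk0 : (0 : ℝ) < 2 ^ k := by positivity
  have e1 : (2 : ℝ) ^ k * (r / 2 / 2 ^ k) = r / 2 := by field_simp
  have h1 := iter (r / 2 / 2 ^ k) (by positivity) (by
    rw [div_lt_iff₀ hr0] at hk
    rw [div_le_iff₀ hk0]; nlinarith) k (by rw [e1]; linarith)
  rw [e1] at h1
  have e2 : 2 * (r / 2) = r := by ring
  obtain ⟨ψ, hψ⟩ := step (r / 2) (by positivity) (by linarith) h1 x hx (by rw [e2]; exact hxσ)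
  rw [e2] at hψ
  exact ⟨ψ, QC.mono hψ hψ.maps (min_le_left _ _)⟩

end Crest.Agent.T223.Qc35
end

-- ▼ part T223/QcPol_35
section

/-!
# Row 223, module QC (helper35): the leaf POLAR
-/

set_option autoImplicit false
set_option linter.unusedSectionVars false
set_option linter.unusedVariables false

open Set Filter Topology Metric
open scoped InnerProductSpace ComplexConjugate

namespace Crest.Agent.T223.Qc35

open Crest.Agent.T223.Qc47

noncomputable section

variable {E : Type} [NormedAddCommGroup E] [InnerProductSpace ℂ E] [FiniteDimensional ℂ E]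

theorem inv_sqrt_near {η m : ℝ} (h0 : 0 ≤ η) (h1 : η ≤ 1 / 2) (hm : |m - 1| ≤ η) :
    0 < m ∧ |(√m)⁻¹ - 1| ≤ η := by
  obtain ⟨h2, h3⟩ := abs_le.1 hm
  have hp : 0 < m := by linarith
  refine ⟨hp, ?_⟩
  have hs : 0 < √m := Real.sqrt_pos.2 hp
  have hss : √m * √m = m := Real.mul_self_sqrt hp.le
  rw [abs_le]
  constructor
  · have h4 : √m ≤ 1 + η := by
      rw [Real.sqrt_le_left (by linarith)]; nlinarith
    have h5 : (1 - η) * √m ≤ 1 := by nlinarith
    have h6 : 1 - η ≤ (√m)⁻¹ := by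
      rw [inv_eq_one_div, le_div_iff₀ hs]; exact h5
    linarith
  · have h4 : 1 ≤ ((1 + η) * √m) ^ 2 := by
      have : ((1 + η) * √m) ^ 2 = (1 + η) ^ 2 * m := by rw [mul_pow, Real.sq_sqrt hp.le]
      rw [this]
      have h7 : (1 + η) ^ 2 * (1 - η) ≤ (1 + η) ^ 2 * m := by gcongr; linarith
      nlinarith [mul_nonneg h0 (show 0 ≤ 1 - η - η ^ 2 by nlinarith)]
    have h5 : 1 ≤ (1 + η) * √m := by
      by_contra hc
      push Not at hc
      have : 0 ≤ (1 + η) * √m := by positivity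
      nlinarith
    have h6 : (√m)⁻¹ ≤ 1 + η := by
      rw [inv_eq_one_div, div_le_iff₀ hs]; exact h5
    linarith

theorem polarStmt : PolarStmt E := by
  intro η B h0 h1 hB
  have : CompleteSpace E := FiniteDimensional.complete ℂ E
  set T : E →ₗ[ℂ] E := ((ContinuousLinearMap.adjoint B ∘L B : E →L[ℂ] E) : E →ₗ[ℂ] E) with hTdef
  have hTi : ∀ v w, ⟪T v, w⟫_ℂ = ⟪B v, B w⟫_ℂ := fun v w => by
    simp [hTdef, ContinuousLinearMap.adjoint_inner_left]
  have hT : T.IsSymmetric := fun v w => by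
    rw [hTi, ← inner_conj_symm v (T w), hTi, inner_conj_symm]
  set b := hT.eigenvectorBasis (n := Module.finrank ℂ E) rfl with hb
  set m := hT.eigenvalues (n := Module.finrank ℂ E) rfl with hm
  have hrep : ∀ v i, b.repr (T v) i = (m i : ℂ) * b.repr v i := fun v i =>
    hT.eigenvectorBasis_apply_self_apply rfl v i
  have hn : ∀ v : E, ‖v‖ ^ 2 = ∑ i, ‖b.repr v i‖ ^ 2 := fun v => by
    rw [← b.repr.norm_map v, EuclideanSpace.norm_sq_eq]
  have hq : ∀ v : E, ‖B v‖ ^ 2 = ∑ i, m i * ‖b.repr v i‖ ^ 2 := fun v => by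
    have h2 : ((‖B v‖ ^ 2 : ℝ) : ℂ) = ((∑ i, m i * ‖b.repr v i‖ ^ 2 : ℝ) : ℂ) := by
      have h3 : ⟪B v, B v⟫_ℂ = ((‖B v‖ ^ 2 : ℝ) : ℂ) := by
        rw [inner_self_eq_norm_sq_to_K]; simp
      rw [← h3, ← hTi, ← b.repr.inner_map_map, PiLp.inner_apply]
      push_cast
      refine Finset.sum_congr rfl fun i _ => ?_
      rw [hrep]
      simp only [RCLike.inner_apply, map_mul, Complex.conj_ofReal]
      rw [mul_left_comm, Complex.mul_conj, Complex.normSq_eq_norm_sq]; push_cast; ring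
    exact_mod_cast h2
  have hmi : ∀ i, |m i - 1| ≤ η := fun i => by
    have h2 := hB (b i)
    rw [hq, b.orthonormal.1 i] at h2
    have h3 : ∑ j, m j * ‖b.repr (b i) j‖ ^ 2 = m i := by
      rw [Finset.sum_eq_single i]
      · simp
      · intro j _ hj
        simp [OrthonormalBasis.repr_self, hj]
      · simp
    rw [h3] at h2
    simpa using h2
  let D : EuclideanSpace ℂ (Fin (Module.finrank ℂ E)) →ₗ[ℂ]
      EuclideanSpace ℂ (Fin (Module.finrank ℂ E)) :=
    { toFun := fun x => WithLp.toLp 2 fun i => (((√(m i))⁻¹ : ℝ) : ℂ) * x i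
      map_add' := fun x y => by ext i; simp [mul_add]
      map_smul' := fun c x => by ext i; simp [mul_left_comm] }
  let S0 : E →ₗ[ℂ] E :=
    (b.repr.symm.toLinearEquiv : _ →ₗ[ℂ] E) ∘ₗ D ∘ₗ (b.repr.toLinearEquiv : E →ₗ[ℂ] _)
  have hS0 : ∀ v i, b.repr (S0 v) i = (((√(m i))⁻¹ : ℝ) : ℂ) * b.repr v i := fun v i => by
    simp [S0, D]
  refine ⟨LinearMap.toContinuousLinearMap S0, ?_, fun v => ?_⟩
  · refine ContinuousLinearMap.opNorm_le_bound _ h0 fun v => ?_
    have h2 : ‖S0 v - v‖ ^ 2 ≤ (η * ‖v‖) ^ 2 := by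
      rw [hn, mul_pow, hn v, Finset.mul_sum]
      refine Finset.sum_le_sum fun i _ => ?_
      have h3 : b.repr (S0 v - v) i = ((((√(m i))⁻¹ - 1 : ℝ)) : ℂ) * b.repr v i := by
        rw [map_sub, PiLp.sub_apply, hS0]; push_cast; ring
      rw [h3, norm_mul, mul_pow, Complex.norm_real, Real.norm_eq_abs]
      gcongr
      exact (inv_sqrt_near h0 h1 (hmi i)).2
    exact (abs_le_of_sq_le_sq' h2 (by positivity)).2
  · have h2 : ‖B (S0 v)‖ ^ 2 = ‖v‖ ^ 2 := by
      rw [hq, hn v]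
      refine Finset.sum_congr rfl fun i _ => ?_
      have hp := (inv_sqrt_near h0 h1 (hmi i)).1
      rw [hS0, norm_mul, mul_pow, Complex.norm_real, Real.norm_eq_abs, sq_abs, inv_pow,
        Real.sq_sqrt hp.le]
      field_simp
    exact (sq_eq_sq₀ (norm_nonneg _) (norm_nonneg _)).1 h2

end

end Crest.Agent.T223.Qc35
end

-- ▼ part T223/QcLiftS_35
section

/-!
# Row 223, module QC (helper35): the leaf LIFT for the abstract interface
-/

set_option autoImplicit false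
set_option linter.unusedSectionVars false
set_option linter.unusedVariables false

open Set Filter Topology Metric

namespace Crest.Agent.T223.Qc35

open Crest.Agent.T223.Qc47
open Crest.Agent.T223.Tr (PL path_lift lift_unique)

noncomputable section

section gen

variable {E : Type*} [NormedAddCommGroup E] [InnerProductSpace ℂ E] [FiniteDimensional ℂ E]
variable {X : Type*} [TopologicalSpace X] [T2Space X]

/-- lift on a small convex set -/
theorem lift_conv {η : ℝ} (hη : η ≤ 1) {ψ f : E → X} {U W D : Set E} (hU : IsOpen U)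
    (hψ : IsLocalHomeomorphOn ψ U) (hW : IsOpen W) (hf : ContinuousOn f W) (hG : LG η f W ψ U)
    (hD : Convex ℝ D) (hDW : D ⊆ W) {x0 y0 : E} {r : ℝ} (hx0 : x0 ∈ D) (hDr : D ⊆ ball x0 r)
    (hKU : closedBall y0 (3 / 2 * r) ⊆ U) (h0 : ψ y0 = f x0) :
    ∃ Φ : E → E, ContinuousOn Φ D ∧ Φ x0 = y0 ∧
      ∀ x ∈ D, Φ x ∈ U ∧ ψ (Φ x) = f x ∧ ‖Φ x - y0‖ ≤ 3 / 2 * ‖x - x0‖ := by
  have : ProperSpace E := FiniteDimensional.proper ℂ E
  have hr : 0 < r := pos_of_mem_ball (hDr hx0)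
  have hseg : ∀ x ∈ D, ∀ s ∈ Icc (0 : ℝ) 1, x0 + (s : ℂ) • (x - x0) ∈ W := by
    intro x hx s hs
    apply hDW
    have := hD.add_smul_sub_mem hx0 hx hs
    rwa [← Complex.coe_smul] at this
  have hy0 : y0 ∈ U := hKU (mem_closedBall_self (by positivity))
  have hex : ∀ x ∈ D, ∃ Γ, PL ψ U (fun s => f (x0 + (s : ℂ) • (x - x0))) y0 1 Γ := by
    intro x hx
    refine path_lift hU hψ (isCompact_closedBall y0 (3 / 2 * r)) hKU ?_ hy0
      (by simpa using h0) fun t ht Γ hΓ => ?_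
    · exact hf.comp (by fun_prop) (hseg x hx)
    · have h1 := seg_bound hη hψ hW hf hG (hseg x hx) ht hΓ
      rw [mem_closedBall, dist_eq_norm]
      have hx' := hDr hx
      rw [mem_ball, dist_eq_norm] at hx'
      calc _ ≤ 3 / 2 * ‖x - x0‖ * t := h1
        _ ≤ 3 / 2 * r * 1 := by gcongr <;> [exact ht.1; exact ht.2]
        _ = 3 / 2 * r := mul_one _
  choose! Γ hΓ using hex
  have hI1 : (1 : ℝ) ∈ Icc (0 : ℝ) 1 := ⟨zero_le_one, le_rfl⟩
  have hcont : ContinuousOn (fun x => Γ x 1) D := by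
    have hp : IsLocalHomeomorph (fun w : U => ψ w) := by
      rw [isLocalHomeomorph_iff_isLocalHomeomorphOn_univ]
      exact hψ.comp hU.isOpenEmbedding_subtypeVal.isLocalHomeomorph.isLocalHomeomorphOn
        (fun w _ => w.2)
    let F : C(unitInterval × D, X) :=
      ⟨fun ta => f (x0 + (((ta.1 : ℝ)) : ℂ) • ((ta.2 : E) - x0)),
        hf.comp_continuous (by fun_prop) fun ta => hseg _ ta.2.2 _ ta.1.2⟩
    let g : unitInterval × D → U := fun ta =>
      ⟨Γ ta.2 ta.1, ((hΓ _ ta.2.2).2.2 _ ta.1.2).1⟩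
    have hg : Continuous g := by
      refine hp.continuous_lift (T2Space.isSeparatedMap _) F
        (funext fun ta => ((hΓ _ ta.2.2).2.2 _ ta.1.2).2) ?_ fun a => ?_
      · have : (fun a : D => g ⟨0, a⟩) = fun _ => ⟨y0, hy0⟩ := by
          funext a; exact Subtype.ext (hΓ _ a.2).2.1
        rw [this]; exact continuous_const
      · refine Continuous.subtype_mk ?_ _
        exact (hΓ _ a.2).1.comp_continuous continuous_subtype_val fun t => t.2
    rw [continuousOn_iff_continuous_domRestrict]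
    exact continuous_subtype_val.comp (hg.comp (Continuous.prodMk_right (1 : unitInterval)))
  have hb : ∀ x ∈ D, ‖Γ x 1 - y0‖ ≤ 3 / 2 * ‖x - x0‖ := fun x hx => by
    simpa using seg_bound hη hψ hW hf hG (hseg x hx) hI1 (hΓ x hx)
  refine ⟨fun x => Γ x 1, hcont, ?_, fun x hx => ⟨((hΓ x hx).2.2 1 hI1).1, ?_, hb x hx⟩⟩
  · have h1 := hb x0 hx0
    rw [sub_self, norm_zero, mul_zero] at h1
    exact sub_eq_zero.1 (norm_le_zero_iff.1 h1)
  · simpa using ((hΓ x hx).2.2 1 hI1).2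

/-- extension of a lift inside a convex open set -/
theorem lift_ext' {η μ : ℝ} (hη : η ≤ 1) (hμ : 0 < μ) {ψ f : E → X} {U W C : Set E}
    (hU : IsOpen U) (hψ : IsLocalHomeomorphOn ψ U) (hW : IsOpen W) (hWc : Convex ℝ W)
    (hf : ContinuousOn f W) (hG : LG η f W ψ U) (hC : Convex ℝ C) (hCW : C ⊆ W) {γ : E → E}
    (hγ : ContinuousOn γ C) (hl : ∀ x ∈ C, ψ (γ x) = f x)
    (hCU : ∀ x ∈ C, closedBall (γ x) (3 / 2 * μ) ⊆ U) :
    ∃ γ' : E → E, ContinuousOn γ' (W ∩ thickening μ C) ∧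
      (∀ z ∈ W ∩ thickening μ C, γ' z ∈ U ∧ ψ (γ' z) = f z) ∧
      ∀ x ∈ C, ∀ z ∈ W, z ∈ ball x μ → ‖γ' z - γ x‖ ≤ 3 / 2 * ‖z - x‖ := by
  have hγU : ∀ x ∈ C, γ x ∈ U := fun x hx => hCU x hx (mem_closedBall_self (by positivity))
  have hcv : ∀ x, Convex ℝ (W ∩ ball x μ) := fun x => hWc.inter (convex_ball x μ)
  have h1 : ∀ x ∈ C, ∃ Φ : E → E, ContinuousOn Φ (W ∩ ball x μ) ∧ Φ x = γ x ∧
      ∀ z ∈ W ∩ ball x μ, Φ z ∈ U ∧ ψ (Φ z) = f z ∧ ‖Φ z - γ x‖ ≤ 3 / 2 * ‖z - x‖ := fun x hx =>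
    lift_conv hη hU hψ hW hf hG (hcv x) inter_subset_left ⟨hCW hx, mem_ball_self hμ⟩
      inter_subset_right (hCU x hx) (hl x hx)
  choose! Φ hΦc hΦ0 hΦl using h1
  have hA : ∀ x ∈ C, EqOn (Φ x) γ ((W ∩ ball x μ) ∩ C) := fun x hx =>
    lift_unique hU hψ ((hcv x).inter hC).isPreconnected
      ((hΦc x hx).mono inter_subset_left) (hγ.mono inter_subset_right)
      (fun z hz => (hΦl x hx z hz.1).1) (fun z hz => hγU z hz.2)
      (fun z hz => by rw [(hΦl x hx z hz.1).2.1, hl z hz.2])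
      ⟨⟨hCW hx, mem_ball_self hμ⟩, hx⟩ (hΦ0 x hx)
  have hB : ∀ x ∈ C, ∀ x' ∈ C, EqOn (Φ x) (Φ x') ((W ∩ ball x μ) ∩ (W ∩ ball x' μ)) := by
    intro x hx x' hx' z hz
    have hd : dist x x' < 2 * μ := by
      have := dist_triangle_left x x' z
      have h2 := mem_ball.1 hz.1.2
      have h3 := mem_ball.1 hz.2.2
      linarith
    have hmC : midpoint ℝ x x' ∈ C := hC.midpoint_mem hx hx'
    have hm1 : midpoint ℝ x x' ∈ W ∩ ball x μ := by
      refine ⟨hCW hmC, ?_⟩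
      rw [mem_ball, dist_midpoint_left]; norm_num; linarith
    have hm2 : midpoint ℝ x x' ∈ W ∩ ball x' μ := by
      refine ⟨hCW hmC, ?_⟩
      rw [mem_ball, dist_midpoint_right]; norm_num; linarith
    exact lift_unique hU hψ ((hcv x).inter (hcv x')).isPreconnected
      ((hΦc x hx).mono inter_subset_left) ((hΦc x' hx').mono inter_subset_right)
      (fun z hz => (hΦl x hx z hz.1).1) (fun z hz => (hΦl x' hx' z hz.2).1)
      (fun z hz => by rw [(hΦl x hx z hz.1).2.1, (hΦl x' hx' z hz.2).2.1]) ⟨hm1, hm2⟩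
      ((hA x hx ⟨hm1, hmC⟩).trans (hA x' hx' ⟨hm2, hmC⟩).symm) hz
  have h2 : ∀ z ∈ thickening μ C, ∃ x ∈ C, z ∈ ball x μ := fun z hz => by
    obtain ⟨x, hx, hd⟩ := mem_thickening_iff.1 hz
    exact ⟨x, hx, hd⟩
  choose! c hcC hcb using h2
  have h3 : ∀ x ∈ C, ∀ z ∈ W ∩ ball x μ, Φ (c z) z = Φ x z := fun x hx z hz => by
    have hz' : z ∈ thickening μ C := mem_thickening_iff.2 ⟨x, hx, hz.2⟩
    exact hB _ (hcC z hz') x hx ⟨⟨hz.1, hcb z hz'⟩, hz⟩
  refine ⟨fun z => Φ (c z) z, fun z hz => ?_, fun z hz => ?_, fun x hx z hz hzx => ?_⟩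
  · have ho : W ∩ ball (c z) μ ∈ 𝓝 z := (hW.inter isOpen_ball).mem_nhds ⟨hz.1, hcb z hz.2⟩
    have h4 : ContinuousAt (Φ (c z)) z := (hΦc _ (hcC z hz.2)).continuousAt ho
    refine (h4.congr ?_).continuousWithinAt
    filter_upwards [ho] with w hw
    exact (h3 _ (hcC z hz.2) w hw).symm
  · have := hΦl _ (hcC z hz.2) z ⟨hz.1, hcb z hz.2⟩
    exact ⟨this.1, this.2.1⟩
  · show ‖Φ (c z) z - γ x‖ ≤ _
    rw [h3 x hx z ⟨hz, hzx⟩]
    exact (hΦl x hx z ⟨hz, hzx⟩).2.2

end gen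

variable {E : Type} [NormedAddCommGroup E] [InnerProductSpace ℂ E] {M : Type} [TopologicalSpace M]

/-- `M` with the leaf topology of the pseudogroup -/
def Lf (P : PG E M) : Type := M

/-- the identity into the leaf space -/
def toLf (P : PG E M) (ψ : E → M) : E → Lf P := ψ

instance (P : PG E M) : TopologicalSpace (Lf P) where
  IsOpen U := ∀ ψ z, P.H ψ z → toLf P ψ z ∈ U → toLf P ψ ⁻¹' U ∈ 𝓝 z
  isOpen_univ := fun ψ z _ _ => by simp
  isOpen_inter := fun s t hs ht ψ z h hz => by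
    rw [preimage_inter]; exact inter_mem (hs ψ z h hz.1) (ht ψ z h hz.2)
  isOpen_sUnion := fun S hS ψ z h hz => by
    obtain ⟨s, hs, hzs⟩ := hz
    exact mem_of_superset (hS s hs ψ z h hzs) (preimage_mono (subset_sUnion_of_mem hs))

theorem lf_isOpen {P : PG E M} {U : Set (Lf P)} :
    IsOpen U ↔ ∀ ψ z, P.H ψ z → toLf P ψ z ∈ U → toLf P ψ ⁻¹' U ∈ 𝓝 z := Iff.rfl

instance (P : PG E M) [T2Space M] : T2Space (Lf P) := by
  refine T2Space.of_injective_continuous (f := fun x : Lf P => (show M from x))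
    (fun _ _ h => h) ?_
  refine continuous_def.2 fun s hs => lf_isOpen.2 fun ψ z h hz => ?_
  exact P.cont h (hs.mem_nhds hz)

theorem lf_cont {P : PG E M} {ψ : E → M} {z : E} (h : P.H ψ z) : ContinuousAt (toLf P ψ) z := by
  intro s hs
  obtain ⟨t, hts, ht, hz⟩ := mem_nhds_iff.1 hs
  exact mem_of_superset (lf_isOpen.1 ht ψ z h hz) (preimage_mono hts)

theorem lf_loc {P : PG E M} {ψ : E → M} {U : Set E} (h : ∀ z ∈ U, P.H ψ z) :
    IsLocalHomeomorphOn (toLf P ψ) U := by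
  rw [isLocalHomeomorphOn_iff_isOpenEmbedding_restrict]
  intro x hx
  obtain ⟨s, hs, hinj⟩ := P.inj (h x hx)
  obtain ⟨t, hts, ht, hxt⟩ := _root_.mem_nhds_iff.1 (inter_mem hs (P.ev (h x hx)))
  refine ⟨t, ht.mem_nhds hxt, IsOpenEmbedding.of_continuous_injective_isOpenMap ?_ ?_ ?_⟩
  · exact continuousOn_iff_continuous_domRestrict.1
      fun z hz => (lf_cont (hts hz).2).continuousWithinAt
  · intro a b hab
    exact Subtype.ext (hinj (hts a.2).1 (hts b.2).1 hab)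
  · intro o ho
    refine lf_isOpen.2 fun φ w hφ hw => ?_
    obtain ⟨a, ha, hwa⟩ := hw
    obtain ⟨τ, h1, h2, -, h3⟩ := P.trans hφ (hts a.2).2 hwa.symm
    have ho' : IsOpen ((↑) '' o : Set E) := ht.isOpenMap_subtype_val o ho
    have h4 : ∀ᶠ y in 𝓝 w, τ y ∈ ((↑) '' o : Set E) :=
      h1.self_of_nhds.continuousAt (ho'.mem_nhds (by rw [h2]; exact ⟨a, ha, rfl⟩))
    filter_upwards [h3, h4] with y hy hy'
    obtain ⟨b, hb, hby⟩ := hy'
    exact ⟨b, hb, by show ψ b = φ y; rw [hby, hy]⟩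

/-- a continuous local lift agrees with any other local lift through the same point -/
theorem lift_eventuallyEq {P : PG E M} {φ ψ : E → M} {x : E} {Φ τ : E → E} (hφ : P.H φ (Φ x))
    (h1 : ContinuousAt Φ x) (h2 : ContinuousAt τ x) (h3 : τ x = Φ x)
    (h4 : ∀ᶠ c in 𝓝 x, φ (Φ c) = ψ c) (h5 : ∀ᶠ c in 𝓝 x, φ (τ c) = ψ c) : Φ =ᶠ[𝓝 x] τ := by
  obtain ⟨s, hs, hinj⟩ := P.inj hφ
  filter_upwards [h4, h5, h1 hs, h2 (by rw [h3]; exact hs)] with c a b c1 c2
  exact hinj c1 c2 (a.trans b.symm)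

theorem lg_of_good [FiniteDimensional ℂ E] {P : PG E M} {φ ψ : E → M} {V V' : Set E} {η : ℝ}
    (h0 : 0 ≤ η) (hη : η ≤ 1 / 2) (hψ : P.Good ψ V η) (hφ : P.Good φ V' η) :
    LG (4 * η) (toLf P ψ) V (toLf P φ) V' := by
  intro x hx Φ h1 h2 h3
  obtain ⟨τ, t1, t2, t3, t4⟩ := P.trans (hψ x hx).1 (hφ _ h2).1 h3.self_of_nhds.symm
  have he := lift_eventuallyEq (hφ _ h2).1 h1 t1.self_of_nhds.continuousAt t2 h3 t4
  refine ⟨t1.self_of_nhds.congr_of_eventuallyEq he, ?_⟩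
  rw [he.fderiv_eq]
  have hH : P.H φ (τ x) := by rw [t2]; exact (hφ _ h2).1
  obtain ⟨c1, c2⟩ := P.comp hH t1 t3
  have c3 := (P.congr c1 (ψ' := ψ) (t4.mono fun y hy => hy.symm)).2
  intro v
  have a1 := abs_le.1 ((hψ x hx).2 v)
  have a2 := abs_le.1 ((hφ _ h2).2 (fderiv ℂ τ x v))
  rw [c3, c2, t2] at a1
  have p1 := sq_nonneg ‖v‖
  have p2 := sq_nonneg ‖fderiv ℂ τ x v‖
  set a := ‖fderiv ℂ τ x v‖ ^ 2
  set b := ‖v‖ ^ 2
  rw [abs_le]
  constructor
  · by_contra hc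
    push Not at hc
    nlinarith [a1.1, a2.2, mul_nonneg h0 p1, mul_nonneg h0 (mul_nonneg h0 p1)]
  · have : a ≤ 3 * b := by nlinarith [a1.2, a2.1]
    nlinarith [a1.2, a2.1, mul_nonneg h0 p1]

theorem liftStmt [FiniteDimensional ℂ E] : LiftStmt E := by
  intro s Λ δ hs hδ
  set L := |Λ| + 1 with hL
  have hL0 : 0 < L := by positivity
  set l := min (1 / 2) (δ / (4 * L)) with hl
  have hl0 : 0 < l := by positivity
  have hl1 : l ≤ 1 / 2 := min_le_left _ _
  have hlL : l * L ≤ δ / 4 := by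
    have : l ≤ δ / (4 * L) := min_le_right _ _
    rw [le_div_iff₀ (by positivity)] at this
    linarith
  set d := min (l * s) δ with hd
  have hd0 : 0 < d := by positivity
  obtain ⟨η0, h0, h1, hsm⟩ := exists_small (δ := d) (L := L) (ε := δ / 4) hd0 hL0.le
    (by positivity)
  refine ⟨η0 / 4, by positivity, ?_⟩
  intro M _ _ P ψ φ V V' z0 τ hVo hVc hsV hVΛ hV' hVV' hψ hφ t1 t2 t3 t4
  have hG := lg_of_good (by positivity) (by linarith) hψ hφ
  have h4 : 4 * (η0 / 4) = η0 := by ring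
  rw [h4] at hG
  have hz0 : z0 ∈ V := hsV (mem_ball_self hs)
  have hφl : IsLocalHomeomorphOn (toLf P φ) V' := lf_loc fun z hz => (hφ z hz).1
  have hψc : ContinuousOn (toLf P ψ) V := fun z hz => (lf_cont (hψ z hz).1).continuousWithinAt
  have hVL : ∀ z ∈ V, ‖z - z0‖ < L := fun z hz => by
    have := hVΛ hz
    rw [mem_ball, dist_eq_norm] at this
    linarith [le_abs_self Λ]
  set C : Set E := (fun z => z0 + (1 - l) • (z - z0)) '' V with hC
  have hCc : Convex ℝ C := by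
    rintro _ ⟨x, hx, rfl⟩ _ ⟨y, hy, rfl⟩ a b ha hb hab
    refine ⟨a • x + b • y, hVc hx hy ha hb hab, ?_⟩
    have : z0 = a • z0 + b • z0 := by rw [← add_smul, hab, one_smul]
    simp only
    nth_rewrite 1 [this]
    nth_rewrite 3 [this]
    module
  have hCm : ∀ x ∈ C, ball x (l * s) ⊆ V := by
    rintro _ ⟨x, hx, rfl⟩ w hw
    rw [mem_ball, dist_eq_norm] at hw
    have h5 : z0 + l⁻¹ • (w - (z0 + (1 - l) • (x - z0))) ∈ V := by
      apply hsV
      rw [mem_ball, dist_eq_norm, add_sub_cancel_left, norm_smul, norm_inv,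
        Real.norm_of_nonneg hl0.le, inv_mul_lt_iff₀ hl0]
      exact hw
    have h6 := hVc hx h5 (show 0 ≤ 1 - l by linarith) hl0.le (by ring)
    convert h6 using 1
    rw [smul_add, smul_smul, mul_inv_cancel₀ hl0.ne', one_smul]
    module
  have hCV : C ⊆ V := fun x hx => hCm x hx (mem_ball_self (by positivity))
  have hz0C : z0 ∈ C := ⟨z0, hz0, by simp⟩
  obtain ⟨b1, b2, b3⟩ := hsm η0 η0 le_rfl le_rfl
  obtain ⟨γ, g1, g2, g3, -, g5⟩ := lift_confined (a := η0) (L := L) (y0 := z0) h0 h1 hd0 hV' hφl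
    hVo hψc hG hCc hz0C (fun x hx => (hVL x (hCV hx)).le)
    (fun x hx => (ball_subset_ball (min_le_left _ _)).trans (hCm x hx))
    (fun x hx => by
      rw [add_sub_cancel]
      exact (ball_subset_closedBall.trans (closedBall_subset_closedBall
        ((min_le_right _ _).trans (by linarith)))).trans (hVV' x (hCV hx)))
    (by have := t4.self_of_nhds; rw [t2] at this; exact this)
    (fun Φ c1 c2 c3 => by
      have hH : P.H φ (Φ z0) := by
        rw [c2]; exact (hφ z0 (hVV' z0 hz0 (mem_closedBall_self (by positivity)))).1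
      rw [(lift_eventuallyEq hH c1 t1.self_of_nhds.continuousAt (by rw [t2, c2]) c3 t4).fderiv_eq]
      linarith) b3
  have hC4 : C ⊆ thickening (d / 4) C := self_subset_thickening (by positivity) C
  have hC8 : C ⊆ thickening (d / 8) C := self_subset_thickening (by positivity) C
  have hγx : ∀ x ∈ C, ‖γ x - x‖ ≤ δ / 4 := fun x hx => by
    have := (g5 x (hC8 hx)).2.trans b2
    rwa [add_sub_cancel] at this
  obtain ⟨γ', e1, e2, e3⟩ := lift_ext' (μ := l * L) h1 (by positivity) hV' hφl hVo hVc hψc hG hCc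
    hCV (g1.continuousOn.mono hC4) (fun x hx => (g3 x (hC4 hx)).2)
    (fun x hx w hw => by
      apply hVV' x (hCV hx)
      rw [mem_closedBall, dist_eq_norm] at hw ⊢
      calc ‖w - x‖ = ‖(w - γ x) + (γ x - x)‖ := by congr 1; abel
        _ ≤ ‖w - γ x‖ + ‖γ x - x‖ := norm_add_le _ _
        _ ≤ 2 * δ := by linarith [hγx x hx])
  have hnear : ∀ z ∈ V, ‖z - (z0 + (1 - l) • (z - z0))‖ < l * L := fun z hz => by
    have : z - (z0 + (1 - l) • (z - z0)) = l • (z - z0) := by module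
    rw [this, norm_smul, Real.norm_of_nonneg hl0.le]
    exact mul_lt_mul_of_pos_left (hVL z hz) hl0
  have hVT : V ⊆ V ∩ thickening (l * L) C := fun z hz =>
    ⟨hz, mem_thickening_iff.2 ⟨_, ⟨z, hz, rfl⟩, by rw [dist_eq_norm]; exact hnear z hz⟩⟩
  refine ⟨γ', (hG.of_lift hVo subset_rfl (e1.mono hVT) fun z hz => e2 z (hVT hz)).1,
    fun z hz => ⟨(e2 z (hVT hz)).2, ?_⟩⟩
  set x := z0 + (1 - l) • (z - z0) with hx
  have hxC : x ∈ C := ⟨z, hz, rfl⟩
  have h7 := hnear z hz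
  have h8 := e3 x hxC z hz (by rw [mem_ball, dist_eq_norm]; exact h7)
  calc ‖γ' z - z‖ = ‖(γ' z - γ x) + (γ x - x) - (z - x)‖ := by congr 1; abel
    _ ≤ ‖(γ' z - γ x) + (γ x - x)‖ + ‖z - x‖ := norm_sub_le _ _
    _ ≤ ‖γ' z - γ x‖ + ‖γ x - x‖ + ‖z - x‖ := by gcongr; exact norm_add_le _ _
    _ ≤ δ := by linarith [hγx x hxC]

end

end Crest.Agent.T223.Qc35
end

-- ▼ part T223/QcFin_47
section

/-!
# Row 223, quasi-charts: the static quasi-chart theorem
-/

set_option autoImplicit false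

namespace Crest.Agent.T223.Qc47

/-- **QC** -/
theorem qcStmt (n : ℕ) : QCStmt n :=
  Qc35.qcStmt_of_dbl (Qc48.dblStmt (Qc48.impStmt (Gr.limStmt n))
    (extStmt Qc35.polarStmt Qc35.liftStmt))

end Crest.Agent.T223.Qc47
end

-- ▼ part T223/OsInitG_81
section

/-!
# Row 223 (helper81): `Os.InitGStmt`, affine charts of a small radius are good
-/

set_option autoImplicit false

open Set Filter Topology Metric
open scoped ContDiff ComplexConjugate Matrix ComplexOrder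

namespace Crest.Agent.T223.Os

open Crest.Agent.R275.Geo Crest.Agent.R275.EDR890 Crest.Agent.R273.Kah_333
open Crest.Agent.R273.Hess_333
open Crest.Agent.T223.Br Crest.Agent.T223.Tr

noncomputable section

namespace G81

variable {n : ℕ}

section calc81
variable {E F : Type*} [NormedAddCommGroup E] [NormedSpace ℝ E] [NormedAddCommGroup F]
  [NormedSpace ℝ F]

theorem bdd_iter {f : E → F} {O K : Set E} (hO : IsOpen O) (hK : IsCompact K) (hKO : K ⊆ O)
    (hf : ContDiffOn ℝ ∞ f O) (k : ℕ) :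
    ∃ B : ℝ, 0 ≤ B ∧ ∀ j ≤ k, ∀ z ∈ K, ‖iteratedFDeriv ℝ j f z‖ ≤ B := by
  have h : ∀ j : ℕ, ∃ C : ℝ, ∀ z ∈ K, ‖iteratedFDeriv ℝ j f z‖ ≤ C := fun j =>
    hK.exists_bound_of_continuousOn fun z hz =>
      ((hf.contDiffAt (hO.mem_nhds (hKO hz))).continuousAt_iteratedFDeriv
        (by exact_mod_cast le_top)).continuousWithinAt
  choose C hC using h
  refine ⟨∑ j ∈ Finset.range (k + 1), |C j|, Finset.sum_nonneg fun _ _ => abs_nonneg _,
    fun j hj z hz => (hC j z hz).trans ((le_abs_self _).trans ?_)⟩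
  exact Finset.single_le_sum (f := fun j => |C j|) (fun _ _ => abs_nonneg _)
    (Finset.mem_range.2 (by omega))

/-- iterated derivatives along an affine map -/
theorem iter_aff {f : E → F} {O : Set E} (hO : IsOpen O) (hf : ContDiffOn ℝ ∞ f O) (z : E)
    (L : E →L[ℝ] E) {w : E} (hw : z + L w ∈ O) (j : ℕ) :
    ‖iteratedFDeriv ℝ j (fun y => f (z + L y)) w‖ ≤ ‖iteratedFDeriv ℝ j f (z + L w)‖ * ‖L‖ ^ j := by
  have hO' : IsOpen ((fun y => z + y) ⁻¹' O) := hO.preimage (continuous_const.add continuous_id)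
  have hf' : ContDiffOn ℝ ∞ (fun y => f (z + y)) ((fun y => z + y) ⁻¹' O) :=
    hf.comp (contDiff_const.add contDiff_id).contDiffOn fun _ h => h
  have hO'' : IsOpen (L ⁻¹' ((fun y => z + y) ⁻¹' O)) := hO'.preimage L.continuous
  have h := L.iteratedFDerivWithin_comp_right hf' hO'.uniqueDiffOn hO''.uniqueDiffOn (x := w) hw
    (i := j) (by exact_mod_cast le_top)
  rw [iteratedFDerivWithin_of_isOpen j hO'' (show w ∈ _ from hw),
    iteratedFDerivWithin_of_isOpen j hO' (show L w ∈ _ from hw), iteratedFDeriv_comp_add_left] at h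
  have h2 := (iteratedFDeriv ℝ j f (z + L w)).norm_compContinuousLinearMap_le fun _ => L
  rw [← h, Finset.prod_const, Finset.card_univ, Fintype.card_fin] at h2
  exact h2

end calc81

/-- `|dφ (v)|² ≤ 4 |∂φ|² |v|²` -/
theorem fderiv_sq_le {g : Cn n → Mat n} {φ : Cn n → ℝ} {z : Cn n} (hg : (g z).PosDef)
    (hφ : DifferentiableAt ℝ φ z) (v : Cn n) :
    fderiv ℝ φ z v ^ 2 ≤ 4 * (gsq g φ z * nq (g z) v) := by
  set ξ := dz φ z with hξ
  have hop : ∀ v : Cn n, nq (Matrix.of fun a b => ξ a * conj (ξ b)) v = ‖∑ a, ξ a * v a‖ ^ 2 := by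
    intro v
    have : (∑ a, ∑ b, (Matrix.of fun a b => ξ a * conj (ξ b)) a b * v a * conj (v b)) =
        (∑ a, ξ a * v a) * conj (∑ a, ξ a * v a) := by
      rw [map_sum, Finset.sum_mul_sum]
      refine Finset.sum_congr rfl fun a _ => Finset.sum_congr rfl fun b _ => ?_
      simp only [Matrix.of_apply, map_mul]; ring
    rw [nq, this, Complex.mul_conj, Complex.normSq_eq_norm_sq]
    exact Complex.ofReal_re _
  have h1 := Ev.nq_le_trg hg (A := Matrix.of fun a b => ξ a * conj (ξ b)) (b := 0)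
    (by ext a b; simp [Matrix.conjTranspose_apply, mul_comm])
    (fun v => by rw [hop, zero_mul, add_zero]; positivity) v
  rw [hop, zero_mul, add_zero, mul_zero, add_zero, ← nqi_eq_trg] at h1
  have h2 : fderiv ℝ (cu φ) z = Complex.ofRealCLM.comp (fderiv ℝ φ z) :=
    (Complex.ofRealCLM.hasFDerivAt.comp z hφ.hasFDerivAt).fderiv
  have h3 := wdL_vec false (fderiv ℝ (cu φ) z) v
  have h4 : ∑ a, cj false (v a) • wdL (false, a) (fderiv ℝ (cu φ) z) = ∑ a, ξ a * v a :=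
    Finset.sum_congr rfl fun a _ => by rw [smul_eq_mul, mul_comm]; rfl
  rw [h4, h2] at h3
  have h5 : fderiv ℝ φ z v / 2 = (∑ a, ξ a * v a).re := by
    rw [← h3]; simp; ring
  have h6 := Complex.abs_re_le_norm (∑ a, ξ a * v a)
  rw [← h5] at h6
  have h7 := pow_le_pow_left₀ (abs_nonneg _) h6 2
  rw [sq_abs] at h7
  unfold gsq
  linarith

theorem abs_nq_le {H : Mat n} {c : ℝ} (h : ∀ a b, ‖H a b‖ ≤ c) (v : Cn n) :
    |nq H v| ≤ n ^ 2 * c * ‖v‖ ^ 2 := by
  refine (Complex.abs_re_le_norm _).trans ((norm_sum_le _ _).trans ?_)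
  refine (Finset.sum_le_card_nsmul _ _ (n * (c * ‖v‖ ^ 2)) fun a _ => ?_).trans (by simp; linarith)
  refine (norm_sum_le _ _).trans
    ((Finset.sum_le_card_nsmul _ _ (c * ‖v‖ ^ 2) fun b _ => ?_).trans (by simp))
  rw [norm_mul, norm_mul, RCLike.norm_conj, sq, ← mul_assoc]
  have hc := (norm_nonneg _).trans (h a b)
  have h1 := PiLp.norm_apply_le v a
  have h2 := PiLp.norm_apply_le v b
  gcongr
  exact h a b

/-- an orthonormal frame -/
theorem exists_frame {g : Mat n} (hg : g.PosDef) :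
    ∃ L : Cn n →L[ℂ] Cn n, (mat L)ᵀ * g * (mat L).map conj = 1 := by
  obtain ⟨T, -, h, -, -⟩ := Ev.exists_diag hg hg.1
  refine ⟨Matrix.toEuclideanCLM (𝕜 := ℂ) (T.map conj), ?_⟩
  have e : mat (Matrix.toEuclideanCLM (𝕜 := ℂ) (T.map conj)) = T.map conj := by
    ext b a
    show ((T.map conj) *ᵥ (Pi.single a 1)) b = _
    simp
  rw [e, ← h]
  congr 1
  ext a b
  simp

theorem mat_smul (r : ℝ) (L : Cn n →L[ℂ] Cn n) : mat ((r : ℂ) • L) = (r : ℂ) • mat L := by
  ext b a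
  simp [mat]

theorem norm_mat_le (L : Cn n →L[ℂ] Cn n) (b a : Fin n) : ‖mat L b a‖ ≤ ‖L‖ := by
  refine (PiLp.norm_apply_le (L (EuclideanSpace.single a 1)) b).trans ((L.le_opNorm _).trans ?_)
  simp

/-- the pulled back metric in an affine chart -/
def pa (g : Cn n → Mat n) (z : Cn n) (L : Cn n →L[ℂ] Cn n) (w : Cn n) : Mat n :=
  (mat L)ᵀ * g (z + L w) * (mat L).map conj

theorem pa_apply (g : Cn n → Mat n) (z : Cn n) (L : Cn n →L[ℂ] Cn n) (a b : Fin n) :
    (fun w => pa g z L w a b) = fun w => ∑ p : Fin n × Fin n,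
      (mat L p.2 a * conj (mat L p.1 b)) • g (z + L w) p.2 p.1 := by
  funext w
  simp only [pa, Matrix.mul_apply, Matrix.transpose_apply, Matrix.map_apply, Finset.sum_mul,
    Fintype.sum_prod_type, smul_eq_mul]
  exact Finset.sum_congr rfl fun _ _ => Finset.sum_congr rfl fun _ _ => by ring

theorem cd_aff {F : Type*} [NormedAddCommGroup F] [NormedSpace ℝ F] {f : Cn n → F}
    {O : Set (Cn n)} (hO : IsOpen O) (hf : ContDiffOn ℝ ∞ f O) (z : Cn n) (L : Cn n →L[ℂ] Cn n)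
    {w : Cn n} (hw : z + L w ∈ O) : ContDiffAt ℝ ∞ (fun y => f (z + L y)) w :=
  (hf.contDiffAt (hO.mem_nhds hw)).comp w
    (contDiff_const.add (L.restrictScalars ℝ).contDiff).contDiffAt

theorem iter_pa {g : Cn n → Mat n} {O : Set (Cn n)} (hO : IsOpen O)
    (hg : ∀ a b, ContDiffOn ℝ ∞ (fun z => g z a b) O) (z : Cn n) (L : Cn n →L[ℂ] Cn n) {w : Cn n}
    (hw : z + L w ∈ O) (j : ℕ) {B : ℝ}
    (hB : ∀ a b, ‖iteratedFDeriv ℝ j (fun z => g z a b) (z + L w)‖ ≤ B) (a b : Fin n) :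
    ‖iteratedFDeriv ℝ j (fun w => pa g z L w a b) w‖ ≤ n ^ 2 * (‖L‖ ^ 2 * (B * ‖L‖ ^ j)) := by
  have hc : ∀ c d, ContDiffAt ℝ j (fun y => g (z + L y) c d) w := fun c d =>
    (cd_aff hO (hg c d) z L hw).of_le (by exact_mod_cast le_top)
  rw [pa_apply, iteratedFDeriv_fun_sum_apply fun p _ => (hc _ _).const_smul _]
  refine (norm_sum_le _ _).trans ((Finset.sum_le_card_nsmul _ _ (‖L‖ ^ 2 * (B * ‖L‖ ^ j))
    fun p _ => ?_).trans (by simp [sq]))
  rw [iteratedFDeriv_const_smul_apply' (hc _ _), norm_smul, norm_mul, RCLike.norm_conj, sq]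
  have h1 := iter_aff hO (hg p.2 p.1) z (L.restrictScalars ℝ) hw j
  rw [ContinuousLinearMap.norm_restrictScalars] at h1
  refine mul_le_mul (mul_le_mul (norm_mat_le _ _ _) (norm_mat_le _ _ _) (norm_nonneg _)
    (norm_nonneg _)) (h1.trans ?_) (norm_nonneg _) (by positivity)
  exact mul_le_mul_of_nonneg_right (hB _ _) (by positivity)

theorem arith {r Λ B N : ℝ} (hr : 0 < r) (hΛ : 1 ≤ Λ) (hB : 1 ≤ B) (hN : 1 ≤ N)
    (h : r * (10 * N ^ 2 * Λ ^ 3 * B) ≤ 1) :
    r * Λ ^ 3 * B * N ^ 2 ≤ 1 / 10 ∧ r * Λ ^ 3 * B * N ≤ 1 / 10 ∧ B * (r * Λ) ≤ 1 ∧ r * Λ ≤ 1 ∧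
      B * (r * Λ) ^ 2 ≤ 4 * r := by
  have hq : r * Λ ^ 3 * B * N ^ 2 ≤ 1 / 10 := by linarith
  have hq0 : 0 ≤ r * Λ ^ 3 * B := by positivity
  have hq1 : r * Λ ^ 3 * B * N ≤ 1 / 10 :=
    le_trans (mul_le_mul_of_nonneg_left (le_self_pow₀ hN two_ne_zero) hq0) hq
  have hq2 : r * Λ ^ 3 * B ≤ 1 / 10 := (le_mul_of_one_le_right hq0 hN).trans hq1
  have hΛ2 : Λ ≤ Λ ^ 2 := le_self_pow₀ hΛ two_ne_zero
  have hΛ3 : Λ ^ 2 ≤ Λ ^ 3 := pow_le_pow_right₀ hΛ (by norm_num)
  have hq3 : r * Λ ^ 2 * B ≤ 1 / 10 := le_trans (by gcongr) hq2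
  have hq4 : r * Λ * B ≤ 1 / 10 := le_trans (by gcongr) hq3
  have hq5 : r * Λ ≤ r * Λ * B := le_mul_of_one_le_right (by positivity) hB
  exact ⟨hq, hq1, by linarith, by linarith, by nlinarith⟩

set_option maxHeartbeats 400000 in
/-- the statement in one chart -/
theorem loc {g : Cn n → Mat n} {u ρ : Cn n → ℝ} {O : Set (Cn n)} (hO : IsOpen O) {z0 : Cn n}
    (h0 : z0 ∈ O) (hg : ∀ a b, ContDiffOn ℝ ∞ (fun z => g z a b) O) (hp : ∀ z ∈ O, (g z).PosDef)
    (hu : ContDiffOn ℝ ∞ u O) (hρ : ContDiffOn ℝ ∞ ρ O) (hs : ∀ z ∈ O, gsq g ρ z ≤ 1) :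
    ∃ ε r0 : ℝ, 0 < ε ∧ 0 < r0 ∧ ∀ r, 0 < r → r ≤ r0 → ∀ z ∈ ball z0 ε,
      ∃ L : Cn n →L[ℂ] Cn n, (∀ w ∈ ball (0 : Cn n) 1, z + L w ∈ O) ∧
        pa g z L 0 = ((r ^ 2 : ℝ) : ℂ) • (1 : Mat n) ∧
        (∀ w ∈ ball (0 : Cn n) 1, ∀ v, |nq (pa g z L w) v - r ^ 2 * ‖v‖ ^ 2| ≤
          1 / 10 * r ^ 2 * ‖v‖ ^ 2) ∧
        (∀ j, 1 ≤ j → j ≤ 8 → ∀ w ∈ ball (0 : Cn n) 1, ∀ a b,
          ‖iteratedFDeriv ℝ j (fun y => pa g z L y a b) w‖ ≤ r ^ 2) ∧
        (∀ j, 1 ≤ j → j ≤ 4 → ∀ w ∈ ball (0 : Cn n) 1,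
          ‖iteratedFDeriv ℝ j (fun y => u (z + L y)) w‖ ≤ 1) ∧
        (∀ w ∈ ball (0 : Cn n) 1, ‖fderiv ℝ (fun y => ρ (z + L y)) w‖ ≤ 4 * r) ∧
        ∀ j, 1 ≤ j → j ≤ 4 → ∀ w ∈ ball (0 : Cn n) 1,
          ‖iteratedFDeriv ℝ j (fun y => ρ (z + L y)) w‖ ≤ 4 * r := by
  obtain ⟨ε2, hε2, hK⟩ := Metric.nhds_basis_closedBall.mem_iff.1 (hO.mem_nhds h0)
  have hc := isCompact_closedBall z0 ε2
  choose Bg hBg0 hBg using fun a b => bdd_iter hO hc hK (hg a b) 8
  obtain ⟨Bu, hBu0, hBu⟩ := bdd_iter hO hc hK hu 8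
  obtain ⟨Bρ, hBρ0, hBρ⟩ := bdd_iter hO hc hK hρ 8
  obtain ⟨Λ0, hΛ0⟩ := hc.exists_bound_of_continuousOn (f := fun z => trg (g z) 1) fun z hz =>
    (cd_trg (H := fun _ => 1) (fun a b => (hg a b).contDiffAt (hO.mem_nhds (hK hz)))
      (hp z (hK hz)).det_pos.ne' fun a b => contDiffAt_const).continuousAt.continuousWithinAt
  set Λ := |Λ0| + 1 with hΛ
  have hΛ1 : 1 ≤ Λ := by linarith [abs_nonneg Λ0]
  have hs0 : 0 ≤ ∑ a, ∑ b, Bg a b :=
    Finset.sum_nonneg fun a _ => Finset.sum_nonneg fun b _ => hBg0 a b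
  set B := 1 + ∑ a, ∑ b, Bg a b + Bu + Bρ with hB
  have hB1 : 1 ≤ B := by linarith
  have hBgB : ∀ a b, Bg a b ≤ B := fun a b => by
    have h1 := Finset.single_le_sum (f := fun b => Bg a b) (fun b _ => hBg0 a b) (Finset.mem_univ b)
    have h2 := Finset.single_le_sum (f := fun a => ∑ b, Bg a b)
      (fun a _ => Finset.sum_nonneg fun b _ => hBg0 a b) (Finset.mem_univ a)
    linarith
  set N : ℝ := (n : ℝ) ^ 2 + 1 with hN
  have hN1 : 1 ≤ N := le_add_of_nonneg_left (sq_nonneg _)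
  have hnN : (n : ℝ) ^ 2 ≤ N := by linarith
  refine ⟨ε2 / 2, min (ε2 / (2 * Λ)) (1 / (10 * N ^ 2 * Λ ^ 3 * B)), by positivity, by positivity,
    fun r hr hr0 z hz => ?_⟩
  have hr1 : r * Λ ≤ ε2 / 2 := by
    have := hr0.trans (min_le_left _ _)
    rw [le_div_iff₀ (by positivity)] at this
    linarith
  have hr2 : r * (10 * N ^ 2 * Λ ^ 3 * B) ≤ 1 := by
    have := hr0.trans (min_le_right _ _)
    rwa [le_div_iff₀ (by positivity)] at this
  have hzK : z ∈ closedBall z0 ε2 := by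
    rw [mem_ball] at hz; rw [mem_closedBall]; linarith
  obtain ⟨L0, hL0⟩ := exists_frame (hp z (hK hzK))
  have hL0n : ‖L0‖ ≤ Λ := by
    refine L0.opNorm_le_bound (by linarith) fun v => ?_
    have h1 := Ev.nq_le_trg (hp z (hK hzK)) (A := 1) (b := 0) Matrix.isHermitian_one
      (fun v => by rw [nq_one, zero_mul, add_zero]; positivity) (L0 v)
    rw [nq_one, zero_mul, add_zero, mul_zero, add_zero, ← nq_pull, hL0, nq_one] at h1
    have h2 : trg (g z) 1 ≤ Λ ^ 2 := by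
      have := (le_abs_self _).trans ((hΛ0 z hzK).trans (le_abs_self Λ0))
      have h3 : Λ ≤ Λ ^ 2 := le_self_pow₀ hΛ1 two_ne_zero
      linarith
    refine abs_le_of_sq_le_sq' ?_ (by positivity) |>.2
    rw [mul_pow]
    exact h1.trans (mul_le_mul_of_nonneg_right h2 (by positivity))
  set L : Cn n →L[ℂ] Cn n := (r : ℂ) • L0 with hL
  have hLn : ‖L‖ ≤ r * Λ := by
    rw [hL, norm_smul, Complex.norm_real, Real.norm_eq_abs, abs_of_pos hr]
    gcongr
  have hL0' := norm_nonneg L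
  obtain ⟨hq, hq1, hq4, hq5, hq6⟩ := arith hr hΛ1 hB1 hN1 hr2
  have hL1 : ‖L‖ ≤ 1 := hLn.trans hq5
  have hmem : ∀ w ∈ ball (0 : Cn n) 1, z + L w ∈ closedBall z0 ε2 := fun w hw => by
    rw [mem_ball_zero_iff] at hw
    rw [mem_ball, dist_eq_norm] at hz
    rw [mem_closedBall, dist_eq_norm, add_sub_right_comm]
    have h1 := (L.le_opNorm w).trans (mul_le_of_le_one_right hL0' hw.le)
    have h2 := norm_add_le (z - z0) (L w)
    linarith
  have hpow : ∀ j, 1 ≤ j → ‖L‖ ^ j ≤ r * Λ := fun j hj =>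
    (pow_le_of_le_one hL0' hL1 (by omega)).trans hLn
  have hdG : ∀ j, 1 ≤ j → j ≤ 8 → ∀ w ∈ ball (0 : Cn n) 1, ∀ a b,
      ‖iteratedFDeriv ℝ j (fun y => pa g z L y a b) w‖ ≤ r * Λ ^ 3 * B * N * r ^ 2 := by
    intro j h1 h8 w hw a b
    refine (iter_pa hO hg z L (hK (hmem w hw)) j
      (fun c d => (hBg c d j h8 _ (hmem w hw)).trans (hBgB c d)) a b).trans ?_
    calc _ ≤ N * ((r * Λ) ^ 2 * (B * (r * Λ))) := by have := hpow j h1; gcongr
      _ = _ := by ring
  have hc0 : pa g z L 0 = ((r ^ 2 : ℝ) : ℂ) • (1 : Mat n) := by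
    rw [pa, map_zero, add_zero, hL, mat_smul, ← hL0]
    ext a b
    simp only [Matrix.mul_apply, Matrix.transpose_apply, Matrix.map_apply, Matrix.smul_apply,
      smul_eq_mul, map_mul, Complex.conj_ofReal, Finset.mul_sum, Finset.sum_mul]
    refine Finset.sum_congr rfl fun _ _ => Finset.sum_congr rfl fun _ _ => ?_
    push_cast
    ring
  have hnq : ∀ w ∈ ball (0 : Cn n) 1, ∀ v, |nq (pa g z L w) v - r ^ 2 * ‖v‖ ^ 2| ≤
      1 / 10 * r ^ 2 * ‖v‖ ^ 2 := by
    intro w hw v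
    have h1 : ∀ a b, ‖(pa g z L w - pa g z L 0) a b‖ ≤ r * Λ ^ 3 * B * N * r ^ 2 := by
      intro a b
      have h2 := (convex_ball (0 : Cn n) 1).norm_image_sub_le_of_norm_fderiv_le (𝕜 := ℝ)
        (f := fun y => pa g z L y a b) (C := r * Λ ^ 3 * B * N * r ^ 2) (fun y hy => by
          rw [pa_apply]
          exact DifferentiableAt.fun_sum fun p _ => ((cd_aff hO (hg _ _) z L
            (hK (hmem y hy))).differentiableAt (by simp)).fun_const_smul _)
        (fun y hy => by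
          rw [← norm_iteratedFDeriv_one]; exact hdG 1 le_rfl (by norm_num) y hy a b)
        (mem_ball_self one_pos) hw
      refine h2.trans (mul_le_of_le_one_right (by positivity) ?_)
      rw [sub_zero]
      exact (mem_ball_zero_iff.1 hw).le
    have h3 := abs_nq_le h1 v
    rw [nq_sub, hc0, nq_smul, nq_one] at h3
    refine h3.trans ?_
    calc _ ≤ N * (r * Λ ^ 3 * B * N * r ^ 2) * ‖v‖ ^ 2 := by gcongr
      _ = r * Λ ^ 3 * B * N ^ 2 * r ^ 2 * ‖v‖ ^ 2 := by ring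
      _ ≤ _ := by gcongr
  have hρ1 : ∀ w ∈ ball (0 : Cn n) 1, ‖fderiv ℝ (fun y => ρ (z + L y)) w‖ ≤ 4 * r := by
    intro w hw
    have hy := hK (hmem w hw)
    have hd : DifferentiableAt ℝ ρ (z + L w) :=
      (hρ.contDiffAt (hO.mem_nhds hy)).differentiableAt (by simp)
    have h1 : HasFDerivAt (fun y => ρ (z + L y))
        ((fderiv ℝ ρ (z + L w)).comp (L.restrictScalars ℝ)) w :=
      hd.hasFDerivAt.comp w ((L.restrictScalars ℝ).hasFDerivAt.const_add z)
    rw [h1.fderiv]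
    refine ContinuousLinearMap.opNorm_le_bound _ (by positivity) fun v => ?_
    have h2 := fderiv_sq_le (g := g) (hp _ hy) hd (L v)
    have h3 : nq (g (z + L w)) (L v) = nq (pa g z L w) v := (nq_pull _ _ _).symm
    have h4 := (abs_le.1 (hnq w hw v)).2
    have h5 := mul_le_mul_of_nonneg_right (hs _ hy) (nq_nonneg (hp _ hy).posSemidef (L v))
    have h6 : 0 ≤ r ^ 2 * ‖v‖ ^ 2 := by positivity
    refine abs_le_of_sq_le_sq ?_ (by positivity)
    show fderiv ℝ ρ (z + L w) (L v) ^ 2 ≤ _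
    rw [mul_pow, mul_pow]
    linarith
  refine ⟨L, fun w hw => hK (hmem w hw), hc0, hnq, fun j h1 h8 w hw a b =>
    (hdG j h1 h8 w hw a b).trans (mul_le_of_le_one_left (by positivity) (by linarith)),
    fun j h1 h4 w hw => ?_, hρ1, fun j h1 h4 w hw => ?_⟩
  · have h := iter_aff hO hu z (L.restrictScalars ℝ) (hK (hmem w hw)) j
    rw [ContinuousLinearMap.norm_restrictScalars] at h
    refine h.trans ((mul_le_mul ((hBu j (by omega) _ (hmem w hw)).trans (by linarith : Bu ≤ B))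
      (hpow j h1) (by positivity) (by positivity)).trans hq4)
  · rcases h1.eq_or_lt with rfl | h2
    · rw [norm_iteratedFDeriv_one]; exact hρ1 w hw
    have h := iter_aff hO hρ z (L.restrictScalars ℝ) (hK (hmem w hw)) j
    rw [ContinuousLinearMap.norm_restrictScalars] at h
    have h3 : ‖L‖ ^ j ≤ (r * Λ) ^ 2 :=
      (pow_le_pow_of_le_one hL0' hL1 h2).trans (pow_le_pow_left₀ hL0' hLn 2)
    refine h.trans ((mul_le_mul ((hBρ j (by omega) _ (hmem w hw)).trans (by linarith : Bρ ≤ B))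
      h3 (by positivity) (by positivity)).trans hq6)

end G81

open G81

theorem initGStmt (n : ℕ) : InitGStmt n := by
  intro M _ _ A K0 u ρ W Z hW hZ hZW hu hρ hs
  refine hZ.induction_on (p := fun S => ∃ r0 : ℝ, 0 < r0 ∧ ∀ r, 0 < r → r ≤ r0 → ∀ x ∈ S,
    ∃ ψ, Good (gc K0) u ρ W r 4 x ψ) ⟨1, one_pos, fun _ _ _ x hx => hx.elim⟩
    (fun S T hST ⟨r0, h0, h⟩ => ⟨r0, h0, fun r h1 h2 x hx => h r h1 h2 x (hST hx)⟩)
    (fun S T ⟨r0, h0, h⟩ ⟨r1, h1, h'⟩ => ⟨min r0 r1, lt_min h0 h1, fun r h2 h3 x hx =>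
      hx.elim (h r h2 (h3.trans (min_le_left _ _)) x) (h' r h2 (h3.trans (min_le_right _ _)) x)⟩)
    fun x0 hx0 => ?_
  obtain ⟨i, hi⟩ := A.cover x0
  set O : Set (Cn n) := (A.e i).target ∩ (A.e i).symm ⁻¹' W with hO
  have hOo : IsOpen O := (A.e i).symm.isOpen_inter_preimage hW
  have h0 : A.e i x0 ∈ O := ⟨(A.e i).map_source hi, by
    show (A.e i).symm (A.e i x0) ∈ W
    rw [(A.e i).left_inv hi]; exact hZW hx0⟩
  obtain ⟨ε, r0, hε, hr0, h⟩ := loc (g := gc K0 i) (u := inC A i u) (ρ := inC A i ρ) hOo h0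
    (fun a b => (K0.sm i a b).mono inter_subset_left)
    (fun z hz => K0.pos i _ ((A.e i).map_target hz.1)) ((hu i).mono inter_subset_left)
    ((hρ i).mono inter_subset_left) fun z hz => hs i z hz.1
  refine ⟨(A.e i).source ∩ A.e i ⁻¹' ball (A.e i x0) ε, mem_nhdsWithin_of_mem_nhds
    (((A.e i).isOpen_inter_preimage isOpen_ball).mem_nhds ⟨hi, mem_ball_self hε⟩),
    r0, hr0, fun r h1 h2 x hx => ?_⟩
  obtain ⟨L, hL, hc0, hnq, hdG, hdu, hρ1, hdρ⟩ := h r h1 h2 _ hx.2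
  set z := A.e i x with hz
  set ψ : Cn n → M := fun w => (A.e i).symm (z + L w) with hψ
  have hsrc : ∀ w ∈ ball (0 : Cn n) 1, ψ w ∈ (A.e i).source := fun w hw =>
    (A.e i).map_target (hL w hw).1
  have hrd : ∀ w ∈ ball (0 : Cn n) 1, HasFDerivAt (rd A i ψ) L w := fun w hw => by
    refine (L.hasFDerivAt.const_add z).congr_of_eventuallyEq ?_
    filter_upwards [isOpen_ball.mem_nhds hw] with y hy
    exact (A.e i).right_inv (hL y hy).1
  have hhol : Hol A ψ (ball 0 1) := fun w hw => by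
    have hc : ContinuousAt ψ w := ((A.e i).continuousAt_symm (hL w hw).1).comp
      (f := fun w => z + L w) (continuous_const.add L.continuous).continuousAt
    exact ⟨hc, fun j hj => (rd_trans hc (hsrc w hw) hj (hrd w hw).differentiableAt).1⟩
  have hpm : ∀ w, pull (gc K0) ψ w = pbm K0 ψ w := fun w => by
    unfold pull pbF pbm pbi gc
    rw [OpenPartialHomeomorph.left_inv _ (A.cover (ψ w)).choose_spec]
  have hpa : ∀ w ∈ ball (0 : Cn n) 1, pull (gc K0) ψ w = pa (gc K0 i) z L w := fun w hw => by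
    rw [hpm, pbm_eq K0 hhol hw (hsrc w hw), pbi, jac_eq, (hrd w hw).fderiv]
    rfl
  refine ⟨ψ, ⟨⟨hhol, fun w hw j hj => ?_⟩, fun w hw => (hL w hw).2, ?_, ?_, fun w hw v => ?_,
    fun w hw v => ?_⟩, fun j a1 a2 w hw a b => ?_, hdu, hρ1, hdρ⟩
  · refine (injective_iff_map_eq_zero _).2 fun v hv => ?_
    have a1 := nq_pbm K0 hhol hw hj v
    rw [hv, ← hpm, hpa w hw] at a1
    have a2 := (abs_le.1 (hnq w hw v)).1
    rw [a1, show nq (K0.g j (ψ w)) 0 = 0 by simp [nq]] at a2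
    have a3 : ‖v‖ ^ 2 ≤ 0 := by
      by_contra a4
      have := mul_pos (pow_pos h1 2) (not_le.1 a4)
      linarith
    exact norm_eq_zero.1 (pow_eq_zero_iff two_ne_zero |>.1 (le_antisymm a3 (sq_nonneg _)))
  · simp only [hψ, map_zero, add_zero, hz]
    exact (A.e i).left_inv hx.1
  · rw [hpa 0 (mem_ball_self one_pos), hc0]
  · rw [hpa w hw]; linarith [(abs_le.1 (hnq w hw v)).1]
  · rw [hpa w hw]; linarith [(abs_le.1 (hnq w hw v)).2]
  · have e : (fun y => pull (gc K0) ψ y a b) =ᶠ[𝓝 w] fun y => pa (gc K0 i) z L y a b := by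
      filter_upwards [isOpen_ball.mem_nhds hw] with y hy
      rw [hpa y hy]
    rw [(e.iteratedFDeriv ℝ j).self_of_nhds]
    exact hdG j a1 a2 w hw a b

end

end Crest.Agent.T223.Os
end

-- ▼ part T223/HnHJ_93
section

/-!
# Row 223, module HARN, leaf HJ (helper93): `|∇ f|² ≤ κ f_t` integrated along paths
-/

set_option autoImplicit false

open Set Filter Topology Metric Manifold MeasureTheory
open scoped ContDiff Manifold

namespace Crest.Agent.T223.Hn

open Crest.Agent.R275.Geo Crest.Agent.R273.Kah_333 Crest.Agent.R273.RMan4_798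
open Crest.Agent.R273.RMan_798 Crest.Agent.T223.Br Crest.Agent.T223.Tr Crest.Agent.T223.Lp93

theorem hj_alg {p q κ s η l : ℝ} (hκ : 0 ≤ κ) (hp : 0 ≤ p) (hs : 0 ≤ s) (hη : 0 < η) (hl : 0 < l)
    (h : q ^ 2 ≤ κ * p * s ^ 2) : 0 ≤ l * (s + η) * p + q + κ / (4 * l) * (s + η) := by
  have h1 : q ^ 2 ≤ (l * (s + η) * p + κ / (4 * l) * (s + η)) ^ 2 := by
    have h2 : κ * p * s ^ 2 ≤ κ * p * (s + η) ^ 2 := by gcongr; linarith
    have h3 : (l * (s + η) * p + κ / (4 * l) * (s + η)) ^ 2 =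
        (l * (s + η) * p - κ / (4 * l) * (s + η)) ^ 2 + κ * p * (s + η) ^ 2 := by
      field_simp
      ring
    rw [h3]
    nlinarith [sq_nonneg (l * (s + η) * p - κ / (4 * l) * (s + η))]
  have h4 := (abs_le_of_sq_le_sq' h1 (by positivity)).1
  linarith

theorem hjStmt (n : ℕ) : HJStmt n := by
  intro M _ _ _ A K f t1 t2 κ h12 hκ H x y
  have hT : 0 < t2 - t1 := sub_pos.2 h12
  have key : ∀ r, dK K x y < r → f t1 x ≤ f t2 y + κ * r ^ 2 / (4 * (t2 - t1)) := by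
    intro r hr
    obtain ⟨r', hr1, hr2⟩ := exists_between hr
    have hr0 : 0 ≤ r' := (dK_nonneg K x y).trans hr1.le
    obtain ⟨γ, h0, h1, hs, hl⟩ := exists_path K hr1
    set η : ℝ := r - r' with hη
    have hη0 : 0 < η := sub_pos.2 hr2
    set sp : ℝ → ℝ := spd (ofKah K) γ 0 1 with hsp
    have hc : ContinuousOn sp (Icc 0 1) := continuousOn_spd zero_lt_one hs
    have hsp0 : ∀ u, 0 ≤ sp u := fun u => spd_nonneg _ _ _ _
    set l : ℝ → ℝ := fun u => (∫ t in (0 : ℝ)..u, sp t) + η * u with hldef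
    have hld : ∀ u ∈ Icc (0 : ℝ) 1, HasDerivWithinAt l (sp u + η) (Icc 0 1) u := by
      intro u hu
      have : Fact (u ∈ Icc (0 : ℝ) 1) := ⟨hu⟩
      refine HasDerivWithinAt.add ?_ ?_
      · exact intervalIntegral.integral_hasDerivWithinAt_right (t := Icc 0 1)
          ((hc.mono (Icc_subset_Icc_right hu.2)).intervalIntegrable_of_Icc hu.1)
          ⟨Icc 0 1, self_mem_nhdsWithin, hc.aestronglyMeasurable measurableSet_Icc⟩ (hc u hu)
      · simpa using ((hasDerivAt_id u).const_mul η).hasDerivWithinAt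
    have hl0 : l 0 = 0 := by simp [hldef]
    have hlm : MonotoneOn l (Icc 0 1) := by
      refine monotoneOn_of_hasDerivWithinAt_nonneg (convex_Icc 0 1)
        (fun u hu => (hld u hu).continuousWithinAt) (f' := fun u => sp u + η)
        (fun u hu => (hld u (interior_subset hu)).mono interior_subset) fun u _ => ?_
      linarith [hsp0 u]
    have hI0 : 0 ≤ ∫ t in (0 : ℝ)..1, sp t :=
      intervalIntegral.integral_nonneg zero_le_one fun u _ => hsp0 u
    have hI1 : ∫ t in (0 : ℝ)..1, sp t ≤ r' := by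
      have := hl.le
      rwa [length_eq zero_lt_one hs, ENNReal.ofReal_le_ofReal_iff hr0] at this
    have hL0 : 0 < l 1 := by simp only [hldef]; linarith
    have hL1 : l 1 ≤ r := by simp only [hldef]; linarith
    set lam : ℝ := (t2 - t1) / l 1 with hlam
    have hlam0 : 0 < lam := div_pos hT hL0
    set s : ℝ → ℝ := fun u => t1 + lam * l u with hsdef
    have hs1 : s 1 = t2 := by simp only [hsdef, hlam]; field_simp; ring
    have hs0 : s 0 = t1 := by simp [hsdef, hl0]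
    have hsI : ∀ u ∈ Icc (0 : ℝ) 1, s u ∈ Icc t1 t2 := by
      intro u hu
      have h2 := hlm (left_mem_Icc.2 zero_le_one) hu hu.1
      have h3 := hlm hu (right_mem_Icc.2 zero_le_one) hu.2
      rw [← hs1, ← hs0]
      simp only [hsdef]
      constructor <;> gcongr
    have hsd : ∀ u ∈ Icc (0 : ℝ) 1, HasDerivWithinAt s (lam * (sp u + η)) (Icc 0 1) u :=
      fun u hu => ((hld u hu).const_mul lam).const_add t1
    have hΦ : ∀ u ∈ Icc (0 : ℝ) 1, ∃ D : ℝ, 0 ≤ D ∧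
        HasDerivWithinAt (fun u => f (s u) (γ u) + κ / (4 * lam) * l u) D (Icc 0 1) u := by
      intro u hu
      obtain ⟨w, hw, hnq⟩ := exists_vel K hu hs
      set i := ix K (γ u) with hi
      have hmem : γ u ∈ (A.e i).source := ix_mem K (γ u)
      set z := A.e i (γ u) with hz
      obtain ⟨hF, hp, hg⟩ := H (s u) (hsI u hu) i z ((A.e i).map_source hmem)
      set D := fderiv ℝ (fun q : ℝ × Cn n => f q.1 ((A.e i).symm q.2)) (s u, z) with hD
      have hF' := hF.hasFDerivAt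
      rw [← hD] at hF'
      have e1 : deriv (fun t => f t ((A.e i).symm z)) (s u) = D (1, 0) := by
        have h2 : HasDerivAt (fun t : ℝ => ((t, z) : ℝ × Cn n)) (1, 0) (s u) :=
          (hasDerivAt_id _).prodMk (hasDerivAt_const _ _)
        exact (hF'.comp_hasDerivAt (s u) h2).deriv
      have e2 : fderiv ℝ (fun w => f (s u) ((A.e i).symm w)) z w = D (0, w) := by
        have h2 := hF'.comp z (hasFDerivAt_prodMk_right (𝕜 := ℝ) (s u) z)
        exact congrArg (fun L : Cn n →L[ℝ] ℝ => L w) h2.fderiv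
      have h3 : HasDerivWithinAt (fun u' => f (s u') ((A.e i).symm (A.e i (γ u'))))
          (D (lam * (sp u + η), w)) (Icc 0 1) u := by
        have h9 := HasFDerivAt.comp_hasDerivWithinAt (f := fun u' => (s u', A.e i (γ u'))) u hF'
          ((hsd u hu).prodMk hw)
        exact h9
      have h4 : HasDerivWithinAt (fun u' => f (s u') (γ u'))
          (D (lam * (sp u + η), w)) (Icc 0 1) u := by
        refine h3.congr_of_eventuallyEq ?_ ?_
        · have h5 : ∀ᶠ u' in 𝓝[Icc 0 1] u, γ u' ∈ (A.e i).source :=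
            hs.continuousOn u hu ((A.e i).open_source.mem_nhds hmem)
          filter_upwards [h5] with u' hu'
          rw [(A.e i).left_inv hu']
        · rw [(A.e i).left_inv hmem]
      refine ⟨_, ?_, h4.add ((hld u hu).const_mul _)⟩
      have e3 : D (lam * (sp u + η), w) = lam * (sp u + η) * D (1, 0) + D (0, w) := by
        have h9 : ((lam * (sp u + η), w) : ℝ × Cn n) =
            (lam * (sp u + η)) • ((1, 0) : ℝ × Cn n) + (0, w) := by simp
        rw [h9, map_add, map_smul, smul_eq_mul]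
      have h6 := hg w
      rw [e1, e2, hnq] at h6
      rw [e1] at hp
      rw [e3]
      exact hj_alg hκ hp (hsp0 u) hη0 hlam0 h6
    choose! D hD0 hD using hΦ
    have hmono : MonotoneOn (fun u => f (s u) (γ u) + κ / (4 * lam) * l u) (Icc 0 1) :=
      monotoneOn_of_hasDerivWithinAt_nonneg (convex_Icc 0 1)
        (fun u hu => (hD u hu).continuousWithinAt) (f' := D)
        (fun u hu => (hD u (interior_subset hu)).mono interior_subset)
        fun u hu => hD0 u (interior_subset hu)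
    have h7 := hmono (left_mem_Icc.2 zero_le_one) (right_mem_Icc.2 zero_le_one) zero_le_one
    simp only [hs0, hs1, h0, h1, hl0, mul_zero, add_zero] at h7
    refine h7.trans ?_
    have h8 : κ / (4 * lam) * l 1 = κ * l 1 ^ 2 / (4 * (t2 - t1)) := by
      simp only [hlam]; field_simp
    rw [h8]
    gcongr
  have h2 : Tendsto (fun r : ℝ => f t2 y + κ * r ^ 2 / (4 * (t2 - t1))) (𝓝[>] dK K x y)
      (𝓝 (f t2 y + κ * dK K x y ^ 2 / (4 * (t2 - t1)))) :=
    tendsto_nhdsWithin_of_tendsto_nhds (Continuous.tendsto (by fun_prop) _)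
  exact ge_of_tendsto h2 (eventually_nhdsWithin_of_forall key)

end Crest.Agent.T223.Hn
end

-- ▼ part T223/GeoA_38
section

/-!
# Row 223, HARN (helper38): scalar curvature and volume ratio of the complete flow, Harnack
-/

set_option autoImplicit false
set_option linter.unusedVariables false
set_option linter.unusedSectionVars false

open Set Filter Topology Metric
open scoped ContDiff ComplexConjugate Matrix ComplexOrder

namespace Crest.Agent.T223.Hn38

open Crest.Agent.R275.Geo Crest.Agent.R273.Kah_333 Crest.Agent.R273.RMan4_798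
open Crest.Agent.T223.Br Crest.Agent.T223.Tr Crest.Agent.T223.Hn

noncomputable section

variable {n : ℕ} {M : Type} [TopologicalSpace M] {A : Atl n M}

/-- a chart at `x` -/
def ch (A : Atl n M) (x : M) : A.ι := (A.cover x).choose

theorem ch_mem (A : Atl n M) (x : M) : x ∈ (A.e (ch A x)).source := (A.cover x).choose_spec

/-- scalar curvature -/
def RK (K : Kah A) (x : M) : ℝ := scal (gc K (ch A x)) (A.e (ch A x) x)

/-- `log (det g₀ / det g)` -/
def LV (K0 K : Kah A) (x : M) : ℝ := lvol K0 (gc K) (ch A x) x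

theorem RK_eq (K : Kah A) {i : A.ι} {x : M} (hi : x ∈ (A.e i).source) :
    scal (gc K i) (A.e i x) = RK K x :=
  (kahOn_gc K univ).scal_indep hi (ch_mem A x) univ_mem

theorem RK_eq' (K : Kah A) {i : A.ι} {z : Cn n} (hz : z ∈ (A.e i).target) :
    RK K ((A.e i).symm z) = scal (gc K i) z := by
  rw [← RK_eq K ((A.e i).map_target hz), (A.e i).right_inv hz]

theorem LV_eq (K0 K : Kah A) {i : A.ι} {x : M} (hi : x ∈ (A.e i).source) :
    lvol K0 (gc K) i x = LV K0 K x :=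
  lvol_indep K0 (trOn_gc K univ) hi (ch_mem A x) (mem_univ _)
    (kahAt_gc K _ ((A.e _).map_source (ch_mem A x))).posDef

theorem LV_eq' (K0 K : Kah A) {i : A.ι} {x : M} (hi : x ∈ (A.e i).source) :
    LV K0 K x = Real.log (K0.g i x).det.re - Real.log (K.g i x).det.re := by
  rw [← LV_eq K0 K hi, lvol, ldet, ldet, gc_apply K0 hi, gc_apply K hi]

theorem LV_nonneg {K0 K : Kah A} (h : KLe K 1 K0) (x : M) : 0 ≤ LV K0 K x := by
  have hi := ch_mem A x
  rw [LV_eq' K0 K hi]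
  have h1 := Lo.logdet_le (K.pos _ _ hi) (K0.pos _ _ hi) one_pos (h _ _ hi)
  rw [Real.log_one, mul_zero, zero_add] at h1
  linarith

theorem hasDerivAt_nq {G : ℝ → Mat n} {G' : Mat n} {t : ℝ}
    (h : ∀ a b, HasDerivAt (fun s => G s a b) (G' a b) t) (v : Cn n) :
    HasDerivAt (fun s => nq (G s) v) (nq G' v) t := by
  have h1 : HasDerivAt (fun s => ∑ a, ∑ b, G s a b * v a * conj (v b))
      (∑ a, ∑ b, G' a b * v a * conj (v b)) t :=
    HasDerivAt.fun_sum fun a _ => HasDerivAt.fun_sum fun b _ => ((h a b).mul_const _).mul_const _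
  exact Complex.reCLM.hasFDerivAt.comp_hasDerivAt t h1

theorem nq_neg (G : Mat n) (v : Cn n) : nq (-G) v = -nq G v := by
  have h := nq_smul G (-1) v
  simpa using h

variable [T2Space M] [ConnectedSpace M]

theorem dK_mono {K K' : Kah A} (h : KLe K 1 K') (x y : M) : dK K x y ≤ dK K' x y := by
  have h1 : LipOn (gc K') univ 1 (dK K x) := by
    intro i y hy _ ε hε
    filter_upwards [U0.lipOn_dK K x i y hy (mem_univ _) ε hε] with w hw
    refine hw.trans (mul_le_mul_of_nonneg_left (Real.sqrt_le_sqrt ?_) (by linarith))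
    rw [gc_apply K hy, gc_apply K' hy]
    simpa using h i y hy (w - A.e i y)
  have h2 := Lp93.lipOn_dK h1 zero_le_one x y
  have h3 : dK K x x = 0 := dist_self (α := (ofKah K).M) x
  rw [h3, sub_zero, one_mul] at h2
  exact (le_abs_self _).trans h2

theorem compact_dK (K : Kah A) (hP : ProperSpace (ofKah K).M) (x : M) (r : ℝ) :
    IsCompact {y : M | dK K x y ≤ r} := by
  have h : IsCompact (closedBall (α := (ofKah K).M) x r) := isCompact_closedBall _ _
  have e : {y : M | dK K x y ≤ r} = closedBall (α := (ofKah K).M) x r := by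
    ext y
    exact (mem_closedBall' (α := (ofKah K).M)).symm
  rw [e]
  exact h

variable {K0 : Kah A} {p : M} (F : Flow K0 p)

theorem tr_at {t : ℝ} (ht : 0 < t) (i : A.ι) {z : Cn n} (hz : z ∈ (A.e i).target) :
    ContDiffAt ℝ ∞ (fun q : ℝ × Cn n => scal (gc (F.K q.1) i) q.2) (t, z) ∧
    (ric (gc (F.K t) i) z).PosSemidef ∧ 0 ≤ scal (gc (F.K t) i) z ∧
    BKle (gc (F.K t) i) z (scal (gc (F.K t) i) z) ∧
    HasDerivAt (fun s => ldet (gc (F.K s) i) z) (-scal (gc (F.K t) i) z) t ∧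
    0 ≤ deriv (fun s => scal (gc (F.K s) i) z) t + scal (gc (F.K t) i) z / t ∧
    ∀ v, (fderiv ℝ (scal (gc (F.K t) i)) z v) ^ 2 ≤
      4 * scal (gc (F.K t) i) z *
        (deriv (fun s => scal (gc (F.K s) i) z) t + scal (gc (F.K t) i) z / t) *
        nq (gc (F.K t) i z) v :=
  traceStmt n (fun s => gc (F.K s) i) t z ht (F.krf t ht i z hz) (F.lyh t ht i z hz)
    (F.bk t ht i z hz)

theorem anti {s t : ℝ} (hs : 0 < s) (hst : s ≤ t) : KLe (F.K t) 1 (F.K s) := by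
  intro i x hx v
  have hz := (A.e i).map_source hx
  have hd : ∀ τ, 0 < τ → HasDerivAt (fun τ => nq (gc (F.K τ) i (A.e i x)) v)
      (nq (-ric (gc (F.K τ) i) (A.e i x)) v) τ := fun τ hτ =>
    hasDerivAt_nq (G := fun τ => gc (F.K τ) i (A.e i x))
      (fun a b => hasDerivAt_g (F.krf τ hτ i _ hz) a b) v
  have h1 : AntitoneOn (fun τ => nq (gc (F.K τ) i (A.e i x)) v) (Ioi 0) := by
    refine antitoneOn_of_deriv_nonpos (convex_Ioi 0)
      (fun τ hτ => (hd τ hτ).continuousAt.continuousWithinAt)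
      (fun τ hτ => (hd τ (interior_subset hτ)).differentiableAt.differentiableWithinAt) ?_
    intro τ hτ
    have hτ' : 0 < τ := interior_subset hτ
    rw [(hd τ hτ').deriv, nq_neg, neg_nonpos]
    exact nq_nonneg (tr_at F hτ' i hz).2.1 v
  have h2 := h1 (mem_Ioi.2 hs) (mem_Ioi.2 (hs.trans_le hst)) hst
  simp only [gc_apply _ hx] at h2
  rwa [one_mul]

theorem R_nonneg {t : ℝ} (ht : 0 < t) (x : M) : 0 ≤ RK (F.K t) x :=
  (tr_at F ht _ ((A.e _).map_source (ch_mem A x))).2.2.1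

theorem hasDerivAt_LV {t : ℝ} (ht : 0 < t) (x : M) :
    HasDerivAt (fun s => LV K0 (F.K s) x) (RK (F.K t) x) t := by
  have h := (tr_at F ht _ ((A.e _).map_source (ch_mem A x))).2.2.2.2.1
  have h1 := h.const_sub (ldet (gc K0 (ch A x)) (A.e (ch A x) x))
  rw [neg_neg] at h1
  exact h1

theorem LV_mono (x : M) : MonotoneOn (fun s => LV K0 (F.K s) x) (Ioi 0) :=
  monotoneOn_of_deriv_nonneg (convex_Ioi 0)
    (fun τ hτ => (hasDerivAt_LV F hτ x).continuousAt.continuousWithinAt)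
    (fun τ hτ => (hasDerivAt_LV F (interior_subset hτ) x).differentiableAt.differentiableWithinAt)
    fun τ hτ => by
      rw [(hasDerivAt_LV F (interior_subset hτ) x).deriv]
      exact R_nonneg F (interior_subset hτ) x

/-- the Harnack inequality, regularised -/
theorem harn_δ {t1 t2 δ : ℝ} (h1 : 0 < t1) (h12 : t1 < t2) (hδ : 0 < δ) (x y : M) :
    Real.log (t1 * RK (F.K t1) x + δ) ≤
      Real.log (t2 * RK (F.K t2) y + δ) + 4 * dK (F.K t1) x y ^ 2 / (4 * (t2 - t1)) := by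
  refine hjStmt n M A (F.K t1) (fun t x => Real.log (t * RK (F.K t) x + δ)) t1 t2 4 h12
    (by norm_num) ?_ x y
  intro t ht i z hz
  have ht0 : 0 < t := h1.trans_le ht.1
  obtain ⟨a1, a2, a3, a4, a5, a6, a7⟩ := tr_at F ht0 i hz
  set R := scal (gc (F.K t) i) z with hR
  set Rt := deriv (fun s => scal (gc (F.K s) i) z) t with hRt
  have hpos : 0 < t * R + δ := by positivity
  have e1 : (fun q : ℝ × Cn n => Real.log (q.1 * RK (F.K q.1) ((A.e i).symm q.2) + δ)) =ᶠ[𝓝 (t, z)]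
      fun q : ℝ × Cn n => Real.log (q.1 * scal (gc (F.K q.1) i) q.2 + δ) := by
    filter_upwards [continuous_snd.continuousAt.eventually ((A.e i).open_target.mem_nhds hz)]
      with q hq
    rw [RK_eq' _ hq]
  have e2 : (fun s => Real.log (s * RK (F.K s) ((A.e i).symm z) + δ)) =
      fun s => Real.log (s * scal (gc (F.K s) i) z + δ) := by
    funext s
    rw [RK_eq' _ hz]
  have e3 : (fun w => Real.log (t * RK (F.K t) ((A.e i).symm w) + δ)) =ᶠ[𝓝 z]
      fun w => Real.log (t * scal (gc (F.K t) i) w + δ) := by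
    filter_upwards [(A.e i).open_target.mem_nhds hz] with w hw
    rw [RK_eq' _ hw]
  have d1 : HasDerivAt (fun s => scal (gc (F.K s) i) z) Rt t :=
    ((cdAt_time a1).differentiableAt (by simp)).hasDerivAt
  have d2 : HasDerivAt (fun s => Real.log (s * scal (gc (F.K s) i) z + δ))
      ((1 * R + t * Rt) / (t * R + δ)) t :=
    (((hasDerivAt_id t).mul d1).add_const δ).log hpos.ne'
  have d3 : HasFDerivAt (scal (gc (F.K t) i)) (fderiv ℝ (scal (gc (F.K t) i)) z) z :=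
    ((kahAt_gc (F.K t) i hz).cd_scal.differentiableAt (by simp)).hasFDerivAt
  have d4 : HasFDerivAt (fun w => Real.log (t * scal (gc (F.K t) i) w + δ))
      ((t * R + δ)⁻¹ • (t • fderiv ℝ (scal (gc (F.K t) i)) z)) z :=
    ((d3.const_mul t).add_const δ).log hpos.ne'
  have hP : 1 * R + t * Rt = t * (Rt + R / t) := by field_simp; ring
  refine ⟨?_, ?_, fun v => ?_⟩
  · refine DifferentiableAt.congr_of_eventuallyEq ?_ e1
    exact ((differentiableAt_fst.mul (a1.differentiableAt (by simp))).add_const δ).log hpos.ne'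
  · rw [e2, d2.deriv, hP]
    positivity
  · rw [e2, d2.deriv, hP, e3.fderiv_eq, d4.fderiv]
    simp only [smul_apply, smul_eq_mul]
    set P := Rt + R / t with hPd
    set D := fderiv ℝ (scal (gc (F.K t) i)) z v with hD
    have b1 := a7 v
    have b2 : nq (gc (F.K t) i z) v ≤ nq (gc (F.K t1) i z) v := by
      have := anti F h1 ht.1 i _ ((A.e i).map_target hz) v
      rwa [one_mul] at this
    have b3 : 0 ≤ nq (gc (F.K t) i z) v := nq_nonneg (kahAt_gc _ i hz).posDef.posSemidef v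
    have b4 : D ^ 2 ≤ 4 * R * P * nq (gc (F.K t1) i z) v :=
      b1.trans (mul_le_mul_of_nonneg_left b2 (by positivity))
    have b5 : 0 ≤ nq (gc (F.K t1) i z) v := b3.trans b2
    rw [show ((t * R + δ)⁻¹ * (t * D)) ^ 2 = t ^ 2 * D ^ 2 / (t * R + δ) ^ 2 by field_simp,
      show 4 * (t * P / (t * R + δ)) * nq (gc (F.K t1) i z) v =
        4 * t * P * nq (gc (F.K t1) i z) v * (t * R + δ) / (t * R + δ) ^ 2 by field_simp]
    refine div_le_div_of_nonneg_right ?_ (by positivity)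
    calc t ^ 2 * D ^ 2 ≤ t ^ 2 * (4 * R * P * nq (gc (F.K t1) i z) v) := by gcongr
      _ = 4 * t * P * nq (gc (F.K t1) i z) v * (t * R) := by ring
      _ ≤ _ := by gcongr; linarith

/-- the Harnack inequality -/
theorem harn {t1 t2 D : ℝ} (h1 : 0 < t1) (h12 : t1 < t2) {x y : M} (hD : dK (F.K t1) x y ≤ D) :
    t1 * RK (F.K t1) x ≤ t2 * RK (F.K t2) y * Real.exp (D ^ 2 / (t2 - t1)) := by
  have h2 : 0 < t2 := h1.trans h12
  have r1 := R_nonneg F h1 x
  have r2 := R_nonneg F h2 y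
  have h0 : 0 ≤ dK (F.K t1) x y := Lp93.dK_nonneg _ _ _
  refine le_of_forall_pos_le_add fun ε hε => ?_
  set E := Real.exp (D ^ 2 / (t2 - t1)) with hE
  have hE0 : 0 < E := Real.exp_pos _
  have h3 := harn_δ F h1 h12 (div_pos hε hE0) x y
  have h4 : 4 * dK (F.K t1) x y ^ 2 / (4 * (t2 - t1)) ≤ D ^ 2 / (t2 - t1) := by
    rw [mul_div_mul_left _ _ (by norm_num : (4 : ℝ) ≠ 0)]
    exact div_le_div_of_nonneg_right (pow_le_pow_left₀ h0 hD 2) (by linarith)
  have h5 : Real.log (t1 * RK (F.K t1) x + ε / E) ≤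
      Real.log ((t2 * RK (F.K t2) y + ε / E) * E) := by
    rw [Real.log_mul (by positivity) hE0.ne', hE, Real.log_exp]
    linarith
  have h6 := (Real.log_le_log_iff (by positivity) (by positivity)).1 h5
  have h7 : (t2 * RK (F.K t2) y + ε / E) * E = t2 * RK (F.K t2) y * E + ε := by field_simp
  have h8 : 0 < ε / E := div_pos hε hE0
  linarith

theorem R_mono (x : M) : MonotoneOn (fun t => t * RK (F.K t) x) (Ioi 0) := by
  intro s hs t ht hst
  rcases hst.eq_or_lt with h | h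
  · rw [h]
  · have h1 := harn F hs h (D := 0) (x := x) (y := x) (dist_self (α := (ofKah (F.K s)).M) x).le
    simpa using h1

/-- `s ↦ LV s - c log s` grows from `t0` on, `c = t0 R(t0)` -/
theorem LV_log {t0 t : ℝ} (h0 : 0 < t0) (ht : t0 ≤ t) (x : M) :
    LV K0 (F.K t0) x + t0 * RK (F.K t0) x * (Real.log t - Real.log t0) ≤ LV K0 (F.K t) x := by
  set c := t0 * RK (F.K t0) x with hc
  have hd : ∀ s, t0 ≤ s → HasDerivAt (fun s => LV K0 (F.K s) x - c * Real.log s)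
      (RK (F.K s) x - c * s⁻¹) s := fun s hs =>
    (hasDerivAt_LV F (h0.trans_le hs) x).sub
      ((Real.hasDerivAt_log (h0.trans_le hs).ne').const_mul c)
  have h1 : MonotoneOn (fun s => LV K0 (F.K s) x - c * Real.log s) (Ici t0) := by
    refine monotoneOn_of_deriv_nonneg (convex_Ici t0)
      (fun s hs => (hd s hs).continuousAt.continuousWithinAt)
      (fun s hs => (hd s (interior_subset hs)).differentiableAt.differentiableWithinAt) ?_
    intro s hs
    have hs' : t0 ≤ s := interior_subset hs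
    have hs0 : 0 < s := h0.trans_le hs'
    rw [(hd s hs').deriv, sub_nonneg, ← div_eq_mul_inv, div_le_iff₀ hs0, mul_comm]
    exact R_mono F x (mem_Ioi.2 h0) (mem_Ioi.2 hs0) hs'
  have h2 := h1 (mem_Ici.2 le_rfl) (mem_Ici.2 ht) ht
  simp only at h2
  linarith

theorem R_le : ∃ C : ℝ, 0 < C ∧ ∀ t, 1 ≤ t → RK (F.K t) p ≤ C := by
  obtain ⟨C, hC⟩ := F.sig
  refine ⟨6 * |C| + 1, by positivity, fun t ht => ?_⟩
  have ht0 : 0 < t := by linarith
  have h1 := LV_log F ht0 (t := 2 * t) (by linarith) p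
  have h2 := hC (2 * t) (by linarith) _ (ch_mem A p)
  rw [LV_eq K0 _ (ch_mem A p)] at h2
  have h3 := LV_nonneg (F.le0 t ht0) p
  have h4 : Real.log (2 * t) - Real.log t = Real.log 2 := by
    rw [Real.log_mul two_ne_zero ht0.ne']; ring
  rw [h4] at h1
  have h5 : (1 / 2 : ℝ) ≤ Real.log 2 := by have := Real.log_two_gt_d9; linarith
  have h6 := R_nonneg F ht0 p
  have h7 : t * RK (F.K t) p * (1 / 2) ≤ t * RK (F.K t) p * Real.log 2 := by gcongr
  have h8 : C * (1 + 2 * t) ≤ |C| * (3 * t) :=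
    (mul_le_mul_of_nonneg_right (le_abs_self C) (by linarith)).trans
      (mul_le_mul_of_nonneg_left (by linarith) (abs_nonneg C))
  have h9 : t * RK (F.K t) p ≤ t * (6 * |C|) := by linarith
  have h10 := le_of_mul_le_mul_left h9 ht0
  linarith

/-- the volume ratio on a bounded set grows like the one at `p` -/
theorem LV_ge (D : ℝ) : ∃ θ C : ℝ, 0 < θ ∧ ∀ t, 1 ≤ t → ∀ x, dK K0 p x ≤ D →
    θ * LV K0 (F.K t) p - C ≤ LV K0 (F.K t) x := by
  obtain ⟨C, hC0, hC⟩ := R_le F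
  set θ := Real.exp (-D ^ 2) / 2 with hθ
  have hθ0 : 0 < θ := by positivity
  refine ⟨θ, θ * (C + LV K0 (F.K 2) p), hθ0, fun t ht x hx => ?_⟩
  have hx0 := LV_nonneg (F.le0 t (by linarith)) x
  rcases le_total t 2 with h2 | h2
  · have h3 := LV_mono F p (mem_Ioi.2 (by linarith : (0 : ℝ) < t)) (mem_Ioi.2 two_pos) h2
    simp only at h3
    nlinarith
  have hd : ∀ s, 2 ≤ s → HasDerivAt (fun s => LV K0 (F.K s) x - θ * LV K0 (F.K (s - 1)) p)
      (RK (F.K s) x - θ * RK (F.K (s - 1)) p) s := fun s hs => by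
    have h3 := (hasDerivAt_LV F (t := s - 1) (by linarith) p).comp_sub_const s 1
    exact (hasDerivAt_LV F (by linarith) x).sub (h3.const_mul θ)
  have h1 : MonotoneOn (fun s => LV K0 (F.K s) x - θ * LV K0 (F.K (s - 1)) p) (Ici 2) := by
    refine monotoneOn_of_deriv_nonneg (convex_Ici 2)
      (fun s hs => (hd s hs).continuousAt.continuousWithinAt)
      (fun s hs => (hd s (interior_subset hs)).differentiableAt.differentiableWithinAt) ?_
    intro s hs
    have hs' : (2 : ℝ) ≤ s := interior_subset hs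
    rw [(hd s hs').deriv, sub_nonneg]
    have h3 := harn F (t1 := s - 1) (t2 := s) (by linarith) (by linarith) (x := p) (y := x)
      ((dK_mono (F.le0 _ (by linarith)) p x).trans hx)
    rw [show s - (s - 1) = 1 by ring, div_one] at h3
    have r1 := R_nonneg F (t := s - 1) (by linarith) p
    have r2 := R_nonneg F (t := s) (by linarith) x
    have hE : Real.exp (D ^ 2) * Real.exp (-D ^ 2) = 1 := by rw [← Real.exp_add]; simp
    have hE0 : 0 < Real.exp (-D ^ 2) := Real.exp_pos _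
    have h4 : s * (RK (F.K (s - 1)) p / 2) ≤ s * (RK (F.K s) x * Real.exp (D ^ 2)) := by
      nlinarith
    have h5 := le_of_mul_le_mul_left h4 (by linarith)
    have h6 := mul_le_mul_of_nonneg_right h5 hE0.le
    rw [mul_assoc, hE, mul_one] at h6
    rw [hθ]
    linarith
  have h3 := h1 (mem_Ici.2 le_rfl) (mem_Ici.2 h2) h2
  simp only at h3
  have h4 := LV_nonneg (F.le0 2 two_pos) x
  have h5 := LV_mono F p (mem_Ioi.2 (by norm_num : (0 : ℝ) < 2 - 1)) (mem_Ioi.2 two_pos)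
    (by norm_num)
  simp only at h5
  -- `LV t p - LV (t-1) p ≤ C`
  have hd2 : ∀ s, 1 ≤ s → HasDerivAt (fun s => C * s - LV K0 (F.K s) p) (C * 1 - RK (F.K s) p) s :=
    fun s hs => ((hasDerivAt_id s).const_mul C).sub (hasDerivAt_LV F (by linarith) p)
  have h6 : MonotoneOn (fun s => C * s - LV K0 (F.K s) p) (Ici 1) := by
    refine monotoneOn_of_deriv_nonneg (convex_Ici 1)
      (fun s hs => (hd2 s hs).continuousAt.continuousWithinAt)
      (fun s hs => (hd2 s (interior_subset hs)).differentiableAt.differentiableWithinAt) ?_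
    intro s hs
    have hs' : (1 : ℝ) ≤ s := interior_subset hs
    rw [(hd2 s hs').deriv, mul_one, sub_nonneg]
    exact hC s hs'
  have h7 := h6 (mem_Ici.2 (by linarith : (1 : ℝ) ≤ t - 1)) (mem_Ici.2 ht) (by linarith)
  simp only at h7
  nlinarith

end

end Crest.Agent.T223.Hn38
end

-- ▼ part T223/Geo_38
section

/-!
# Row 223, HARN + PINCH (helper38): `geoStmt : QCStmt n → PinchStmt n → GeoStmt n` for `1 ≤ n`
-/

set_option autoImplicit false
set_option linter.unusedVariables false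
set_option linter.unusedSectionVars false

open Set Filter Topology Metric
open scoped ContDiff ComplexConjugate Matrix ComplexOrder

namespace Crest.Agent.T223.Hn38

open Crest.Agent.R275.Geo Crest.Agent.R273.Kah_333 Crest.Agent.R273.RMan4_798
open Crest.Agent.T223.Br Crest.Agent.T223.Tr Crest.Agent.T223.Hn

noncomputable section

variable {n : ℕ} {M : Type} [TopologicalSpace M] {A : Atl n M}

theorem nq_csmul (G : Mat n) (c : ℝ) (v : Cn n) : nq G ((c : ℂ) • v) = c ^ 2 * nq G v := by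
  unfold nq
  rw [← Complex.re_ofReal_mul]
  congr 1
  simp only [Finset.mul_sum, PiLp.smul_apply, smul_eq_mul, map_mul, Complex.conj_ofReal]
  refine Finset.sum_congr rfl fun a _ => Finset.sum_congr rfl fun b _ => ?_
  push_cast
  ring

theorem exists_unit {v : Cn n} (hv : v ≠ 0) :
    ∃ e : Cn n, ‖e‖ = 1 ∧ ∀ G : Mat n, nq G v = ‖v‖ ^ 2 * nq G e := by
  have h0 : 0 < ‖v‖ := norm_pos_iff.2 hv
  refine ⟨((‖v‖⁻¹ : ℝ) : ℂ) • v, ?_, fun G => ?_⟩
  · rw [norm_smul, Complex.norm_real, Real.norm_eq_abs, abs_of_pos (inv_pos.2 h0),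
      inv_mul_cancel₀ h0.ne']
  · rw [nq_csmul]
    field_simp

theorem nq_zero (G : Mat n) : nq G 0 = 0 := by simp [nq]

theorem continuous_nq (G : Mat n) : Continuous (nq G) := by
  unfold nq
  fun_prop

/-- a direction of (almost) maximal length -/
theorem exists_max (hn : 1 ≤ n) {G : Mat n} (hG : G.PosDef) :
    ∃ e : Cn n, ‖e‖ = 1 ∧ Real.log G.det.re ≤ n * Real.log (nq G e) := by
  have hne : (sphere (0 : Cn n) 1).Nonempty :=
    ⟨EuclideanSpace.single ⟨0, hn⟩ 1, by simp⟩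
  obtain ⟨e, he, hm⟩ := (isCompact_sphere (0 : Cn n) 1).exists_isMaxOn hne
    (continuous_nq G).continuousOn
  have he1 : ‖e‖ = 1 := by simpa using he
  have h1 : ∀ v, nq G v ≤ nq G e * nq 1 v := by
    intro v
    rw [nq_one]
    by_cases hv : v = 0
    · simp [hv, nq_zero]
    obtain ⟨e', h1, h2⟩ := exists_unit hv
    rw [h2, mul_comm]
    exact mul_le_mul_of_nonneg_right (hm (by simpa using h1)) (by positivity)
  have h2 : 0 < nq G e := by
    by_contra h
    have h3 : e ≠ 0 := by rintro rfl; simp at he1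
    have h4 := hG.dotProduct_mulVec_pos (x := fun a => conj (e a)) (by
      intro h5
      apply h3
      ext a
      simpa using congrFun h5 a)
    rw [nq_eq_dot] at h
    exact h (Complex.lt_def.1 h4).1
  refine ⟨e, he1, ?_⟩
  have h3 := Lo.logdet_le hG Matrix.PosDef.one h2 h1
  simpa using h3

theorem posDef_of_lower {G : Mat n} (hG : G.IsHermitian) {m : ℝ} (hm : 0 < m)
    (h : ∀ v, m * ‖v‖ ^ 2 ≤ nq G v) : G.PosDef :=
  posDef_of_nq hG fun v hv => lt_of_lt_of_le (by have := norm_pos_iff.2 hv; positivity) (h v)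

variable [T2Space M] [ConnectedSpace M]

/-- quasi-charts from a curvature bound on a ball -/
theorem qc_ball (hQ : QCStmt n) : ∃ ε0 N : ℝ, 0 < ε0 ∧ 0 < N ∧
    ∀ (K : Kah A) (x : M) (r : ℝ), 0 < r → ProperSpace (ofKah K).M →
      (∀ i, ∀ z ∈ (A.e i).target, BKge (gc K i) z 0 ∧ BKle (gc K i) z (scal (gc K i) z)) →
      (∀ y, dK K x y ≤ N * r → RK K y ≤ ε0 / r ^ 2) →
      ∃ ψ : Cn n → M, Imm A ψ (ball 0 1) ∧ ψ 0 = x ∧
        pbm K ψ 0 = ((r ^ 2 : ℝ) : ℂ) • (1 : Mat n) ∧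
        (∀ w ∈ ball (0 : Cn n) 1, ∀ v, r ^ 2 / 2 * ‖v‖ ^ 2 ≤ nq (pbm K ψ w) v) ∧
        ∀ w ∈ ball (0 : Cn n) 1, ∀ v, nq (pbm K ψ w) v ≤ 2 * r ^ 2 * ‖v‖ ^ 2 := by
  obtain ⟨ε0, N, h0, hN, H⟩ := hQ (1 / 2) (by norm_num)
  refine ⟨ε0, N, h0, hN, fun K x r hr hP hb hR => ?_⟩
  have hx : dK K x x = 0 := dist_self (α := (ofKah K).M) x
  obtain ⟨ψ, hψ⟩ := H M A (gc K) univ (dK K x) 1 r (N * r) isOpen_univ (kahOn_gc K univ) one_pos hr
    (U0.lipOn_dK K x) (by simpa using compact_dK K hP x (N * r)) (fun i y hy _ hd => by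
      have hz := (A.e i).map_source hy
      have hp := (kahAt_gc K i hz).posDef.posSemidef
      obtain ⟨b1, b2⟩ := hb i _ hz
      refine ⟨fun v w => le_trans ?_ (b1 v w), fun v w => (b2 v w).trans ?_⟩
      · have := nq_nonneg hp v
        have := nq_nonneg hp w
        rw [zero_mul, zero_mul, neg_zero, neg_nonpos]
        positivity
      · have := nq_nonneg hp v
        have := nq_nonneg hp w
        rw [RK_eq K hy]
        have := hR y hd
        gcongr) x (mem_univ _) (by rw [hx]; simp)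
  refine ⟨ψ, hψ.imm, hψ.zero, by rw [← pull_gc]; exact hψ.ctr, fun w hw v => ?_, fun w hw v => ?_⟩
  · have := hψ.lo w hw v
    rw [pull_gc] at this
    linarith
  · have := hψ.hi w hw v
    rw [pull_gc] at this
    have h1 : 0 ≤ r ^ 2 * ‖v‖ ^ 2 := by positivity
    linarith

variable {K0 : Kah A} {p : M} (F : Flow K0 p)

theorem bk_at {t : ℝ} (ht : 0 < t) : ∀ i, ∀ z ∈ (A.e i).target,
    BKge (gc (F.K t) i) z 0 ∧ BKle (gc (F.K t) i) z (scal (gc (F.K t) i) z) :=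
  fun i z hz => ⟨F.bk t ht i z hz, (tr_at F ht i hz).2.2.2.1⟩

/-- the flow is not flat -/
theorem R_pos (hn : 1 ≤ n) (hQ : QCStmt n) (hP : PinchStmt n) (H : Hyp K0) :
    ∃ t0, 1 ≤ t0 ∧ 0 < RK (F.K t0) p := by
  by_contra h
  push Not at h
  have h2 : RK (F.K 2) p = 0 := le_antisymm (h 2 (by norm_num)) (R_nonneg F two_pos p)
  have hflat : ∀ y, RK (F.K 1) y ≤ 0 := fun y => by
    have h3 := harn F one_pos one_lt_two (x := y) (y := p) le_rfl
    rw [h2] at h3
    simpa using h3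
  obtain ⟨ε0, N, h0, hN, HQ⟩ := qc_ball (A := A) hQ
  obtain ⟨c, c2, hc, hc2, HP⟩ := hP M A K0 H.bk {p} isCompact_singleton
  have hi := ch_mem A p
  set B := trg ((F.K 1).g (ch A p) p) (K0.g (ch A p) p) with hB
  have hBle : ∀ v, nq (K0.g (ch A p) p) v ≤ B * nq ((F.K 1).g (ch A p) p) v := fun v =>
    nq_le_trg_of_nq ((F.K 1).pos _ _ hi) (nq_nonneg (K0.pos _ _ hi).posSemidef) v
  -- a large radius
  obtain ⟨r, hr, hrc⟩ : ∃ r : ℝ, 0 < r ∧ Real.log (2 * B) < c * Real.log (c2 * (r ^ 2 / 2)) := by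
    refine ⟨Real.sqrt (2 * Real.exp (Real.log (2 * B) / c + 1) / c2), by positivity, ?_⟩
    rw [Real.sq_sqrt (by positivity), show c2 * (2 * Real.exp (Real.log (2 * B) / c + 1) / c2 / 2) =
      Real.exp (Real.log (2 * B) / c + 1) by field_simp, Real.log_exp, mul_add,
      mul_div_cancel₀ _ hc.ne']
    linarith
  obtain ⟨ψ, a1, a2, a3, a4, a5⟩ := HQ (F.K 1) p r hr (F.proper 1 one_pos) (bk_at F one_pos)
    fun y _ => (hflat y).trans (by positivity)
  have hm : 0 < r ^ 2 / 2 := by positivity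
  have hlo : ∀ w ∈ ball (0 : Cn n) 1, ∀ v, r ^ 2 / 2 * ‖v‖ ^ 2 ≤ nq (pbm K0 ψ w) v :=
    fun w hw v => (a4 w hw v).trans (by simpa using (F.le0 1 one_pos).pbm ψ w v)
  set e : Cn n := EuclideanSpace.single ⟨0, hn⟩ 1 with he
  have he1 : ‖e‖ = 1 := by simp [he]
  have h3 := HP ψ _ a1 hm hlo 0 (mem_ball_self (by norm_num)) (by simp [a2]) e e he1 he1
  have h4 := hlo 0 (mem_ball_self one_pos) e
  rw [he1, one_pow, mul_one] at h4
  have hi' : ψ 0 ∈ (A.e (ch A p)).source := by rwa [a2]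
  have h5 : nq (pbm K0 ψ 0) e ≤ B * r ^ 2 := by
    have h6 : nq (pbm (F.K 1) ψ 0) e = r ^ 2 := by rw [a3, nq_smul, nq_one, he1]; ring
    rw [← h6, nq_pbm K0 a1.1 (mem_ball_self one_pos) hi',
      nq_pbm (F.K 1) a1.1 (mem_ball_self one_pos) hi', a2]
    exact hBle _
  have hB0 : 0 < B := by
    by_contra h6
    have : B * r ^ 2 ≤ 0 := mul_nonpos_of_nonpos_of_nonneg (not_lt.1 h6) (by positivity)
    linarith
  have h6 : Real.log (nq (pbm K0 ψ 0) e) ≤ Real.log (r ^ 2 / 2) + Real.log (2 * B) := by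
    rw [← Real.log_mul hm.ne' (by positivity)]
    exact Real.log_le_log (hm.trans_le h4) (by linarith)
  have h7 : Real.log (c2 * (r ^ 2 / 2)) ≤ Real.log (c2 * nq (pbm K0 ψ 0) e) :=
    Real.log_le_log (by positivity) (by gcongr)
  have h8 := mul_le_mul_of_nonneg_left h7 hc.le
  linarith

theorem sg_top (hn : 1 ≤ n) (hQ : QCStmt n) (hP : PinchStmt n) (H : Hyp K0) :
    Tendsto (fun t => LV K0 (F.K t) p) atTop atTop := by
  obtain ⟨t0, h0, h1⟩ := R_pos F hn hQ hP H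
  have h2 : 0 < t0 := by linarith
  have h3 : Tendsto (fun t => LV K0 (F.K t0) p + t0 * RK (F.K t0) p * (Real.log t - Real.log t0))
      atTop atTop :=
    tendsto_atTop_add_const_left _ _ (Tendsto.const_mul_atTop (by positivity)
      (tendsto_atTop_add_const_right _ _ Real.tendsto_log_atTop))
  refine tendsto_atTop_mono' _ ?_ h3
  filter_upwards [eventually_ge_atTop t0] with t ht
  exact LV_log F h2 ht p

/-- unit scale charts -/
theorem charts (hQ : QCStmt n) : ∃ r : ℝ, 0 < r ∧ ∀ t, 1 ≤ t →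
    ∃ ψ : Cn n → M, Imm A ψ (ball 0 1) ∧ ψ 0 = p ∧
      pbm (F.K t) ψ 0 = ((r ^ 2 : ℝ) : ℂ) • (1 : Mat n) ∧
      (∀ w ∈ ball (0 : Cn n) 1, ∀ v, r ^ 2 / 2 * ‖v‖ ^ 2 ≤ nq (pbm (F.K t) ψ w) v) ∧
      ∀ w ∈ ball (0 : Cn n) 1, ∀ v, nq (pbm (F.K t) ψ w) v ≤ 2 * r ^ 2 * ‖v‖ ^ 2 := by
  obtain ⟨ε0, N, h0, hN, HQ⟩ := qc_ball (A := A) hQ
  obtain ⟨C, hC0, hC⟩ := R_le F
  set r := min N⁻¹ (Real.sqrt (ε0 / (2 * C * Real.exp 1))) with hr
  have hr0 : 0 < r := lt_min (inv_pos.2 hN) (by positivity)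
  have hr1 : N * r ≤ 1 := by
    have := min_le_left N⁻¹ (Real.sqrt (ε0 / (2 * C * Real.exp 1)))
    calc N * r ≤ N * N⁻¹ := by gcongr
      _ = 1 := mul_inv_cancel₀ hN.ne'
  have hr2 : r ^ 2 ≤ ε0 / (2 * C * Real.exp 1) := by
    rw [← Real.sq_sqrt (by positivity : 0 ≤ ε0 / (2 * C * Real.exp 1))]
    exact pow_le_pow_left₀ hr0.le (min_le_right _ _) 2
  refine ⟨r, hr0, fun t ht => HQ (F.K t) p r hr0 (F.proper t (by linarith))
    (bk_at F (by linarith)) fun y hy => ?_⟩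
  have ht0 : 0 < t := by linarith
  have h1 := harn F ht0 (t2 := t + 1) (by linarith) (x := y) (y := p) (D := 1)
    ((dist_comm (α := (ofKah (F.K t)).M) y p).le.trans (hy.trans hr1))
  rw [show t + 1 - t = 1 by ring, one_pow, div_one] at h1
  have h2 := hC (t + 1) (by linarith)
  have h3 := R_nonneg F (t := t + 1) (by linarith) p
  have h4 : t * RK (F.K t) y ≤ t * (2 * C * Real.exp 1) :=
    calc _ ≤ (t + 1) * RK (F.K (t + 1)) p * Real.exp 1 := h1
      _ ≤ (2 * t) * C * Real.exp 1 := by gcongr; linarith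
      _ = _ := by ring
  refine (le_of_mul_le_mul_left h4 ht0).trans ?_
  rw [le_div_iff₀ (by positivity)]
  rw [le_div_iff₀ (by positivity)] at hr2
  linarith

theorem pinch (hn : 1 ≤ n) (hP : PinchStmt n) (H : Hyp K0) {m : ℝ} (hm : 0 < m) (Q : Set M)
    (hQ : IsCompact Q) : ∃ ε C' : ℝ, 0 < ε ∧ ∀ t, 1 ≤ t → ∀ ψ : Cn n → M, Imm A ψ (ball 0 1) →
      (∀ w ∈ ball (0 : Cn n) 1, ∀ v, m * ‖v‖ ^ 2 ≤ nq (pbm (F.K t) ψ w) v) →
      ∀ w ∈ ball (0 : Cn n) (1 / 2), ψ w ∈ Q → ∀ v,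
        Real.exp (ε * LV K0 (F.K t) p - C') * ‖v‖ ^ 2 ≤ nq (pbm K0 ψ w) v := by
  obtain ⟨c, c2, hc, hc2, HP⟩ := hP M A K0 H.bk Q hQ
  obtain ⟨D, hD⟩ : ∃ D, ∀ x ∈ Q, dK K0 p x ≤ D := by
    have h1 : Continuous fun y : (ofKah K0).M => dist (α := (ofKah K0).M) p y :=
      continuous_const.dist continuous_id
    have h2 : Continuous fun y : M => dK K0 p y := h1
    obtain ⟨D, hD⟩ := hQ.bddAbove_image h2.continuousOn
    exact ⟨D, fun x hx => hD (mem_image_of_mem _ hx)⟩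
  obtain ⟨θ, C, hθ, hC⟩ := LV_ge F D
  have hn0 : (0 : ℝ) < n := by exact_mod_cast hn
  refine ⟨c * θ / n, c * C / n - Real.log m - c * Real.log c2 - c * Real.log m, by positivity,
    fun t ht ψ hψ hlo w hw hwQ v => ?_⟩
  have ht0 : 0 < t := by linarith
  have hw1 : w ∈ ball (0 : Cn n) 1 := ball_subset_ball (by norm_num) hw
  have hlo0 : ∀ w ∈ ball (0 : Cn n) 1, ∀ v, m * ‖v‖ ^ 2 ≤ nq (pbm K0 ψ w) v :=
    fun w hw v => (hlo w hw v).trans (by simpa using (F.le0 t ht0).pbm ψ w v)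
  by_cases hv : v = 0
  · simp [hv, nq_zero]
  obtain ⟨e0, he0, hv0⟩ := exists_unit hv
  have hpd : (pbm K0 ψ w).PosDef := posDef_of_lower (pbm_herm _ _ _) hm (hlo0 w hw1)
  obtain ⟨e, he, hdet⟩ := exists_max hn hpd
  have h1 := HP ψ m hψ hm hlo0 w hw hwQ e0 e he0 he
  have h2 := hlo0 w hw1 e0
  have h3 := hlo0 w hw1 e
  rw [he0, one_pow, mul_one] at h2
  rw [he, one_pow, mul_one] at h3
  -- the determinant
  have hi := ch_mem A (ψ w)
  have hJ : 0 < ‖(fderiv ℂ (rd A (ch A (ψ w)) ψ) w).det‖ ^ 2 := by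
    have := (det_ne_zero_iff _).2 (hψ.2 w hw1 _ hi)
    positivity
  have h4 : Real.log (pbm K0 ψ w).det.re =
      LV K0 (F.K t) (ψ w) + Real.log (pbm (F.K t) ψ w).det.re := by
    rw [det_pbm K0 hψ.1 hw1 hi, det_pbm (F.K t) hψ.1 hw1 hi, LV_eq' K0 _ hi,
      Real.log_mul hJ.ne' (det_re_pos (K0.pos _ _ hi)).ne',
      Real.log_mul hJ.ne' (det_re_pos ((F.K t).pos _ _ hi)).ne']
    ring
  have h5 : n * Real.log m ≤ Real.log (pbm (F.K t) ψ w).det.re := by
    have h6 := Lo.logdet_le (G := (1 : Mat n)) Matrix.PosDef.one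
      (posDef_of_lower (pbm_herm (F.K t) ψ w) hm (hlo w hw1)) (inv_pos.2 hm) fun v => by
        rw [nq_one, ← div_eq_inv_mul, le_div_iff₀ hm, mul_comm]
        exact hlo w hw1 v
    rw [Real.log_inv] at h6
    simp only [Matrix.det_one, Complex.one_re, Real.log_one] at h6
    linarith
  have h6 := hC t ht _ (hD _ hwQ)
  have h7 : (θ * LV K0 (F.K t) p - C) / n + Real.log m ≤ Real.log (nq (pbm K0 ψ w) e) := by
    rw [div_add' _ _ _ hn0.ne', div_le_iff₀ hn0]
    linarith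
  rw [Real.log_mul hc2.ne' (hm.trans_le h3).ne'] at h1
  have h8 := mul_le_mul_of_nonneg_left h7 hc.le
  rw [hv0, mul_comm]
  refine mul_le_mul_of_nonneg_left ?_ (by positivity)
  rw [← Real.le_log_iff_exp_le (hm.trans_le h2)]
  have h9 : c * θ / n * LV K0 (F.K t) p - c * C / n = c * ((θ * LV K0 (F.K t) p - C) / n) := by
    ring
  linarith

end

theorem geoStmt {n : ℕ} (hn : 1 ≤ n) (hQ : QCStmt n) (hP : PinchStmt n) : GeoStmt n := by
  intro M _ _ _ A K0 p H F
  obtain ⟨r, hr, hch⟩ := charts F hQ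
  have hch' : ∀ t : ℝ, ∃ ψ : Cn n → M, 1 ≤ t → Imm A ψ (ball 0 1) ∧ ψ 0 = p ∧
      pbm (F.K t) ψ 0 = ((r ^ 2 : ℝ) : ℂ) • (1 : Mat n) ∧
      (∀ w ∈ ball (0 : Cn n) 1, ∀ v, r ^ 2 / 2 * ‖v‖ ^ 2 ≤ nq (pbm (F.K t) ψ w) v) ∧
      ∀ w ∈ ball (0 : Cn n) 1, ∀ v, nq (pbm (F.K t) ψ w) v ≤ 2 * r ^ 2 * ‖v‖ ^ 2 := by
    intro t
    by_cases ht : 1 ≤ t
    · obtain ⟨ψ, hψ⟩ := hch t ht
      exact ⟨ψ, fun _ => hψ⟩
    · exact ⟨fun _ => p, fun h => absurd h ht⟩
  choose ψ hψ using hch'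
  obtain ⟨C, hC0, hC⟩ := R_le F
  have hr2 : 0 < r ^ 2 := by positivity
  have hΛ : (2 : ℝ) ≤ max 2 (r ^ 2)⁻¹ := le_max_left _ _
  refine ⟨
    { τ := r ^ 2
      Λ := max 2 (r ^ 2)⁻¹
      ψ := ψ
      sg := fun t => LV K0 (F.K t) p
      R := fun t => RK (F.K t) p
      C := C
      one_le := by linarith
      τ_lo := ?_
      qc := fun t ht => ⟨(hψ t ht).1, fun w hw v => ?_, fun w hw v => ?_⟩
      zero := fun t ht => (hψ t ht).2.1
      ctr := fun t ht => (hψ t ht).2.2.1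
      anti := fun s t hs hst => anti F hs hst
      sg_eq := fun t ht i hi => LV_eq K0 _ hi
      R_eq := fun t ht i hi => RK_eq _ hi
      sg_deriv := fun t ht => hasDerivAt_LV F ht p
      sg_nonneg := fun t ht => LV_nonneg (F.le0 t ht) p
      sg_top := sg_top F hn hQ hP H
      R_nonneg := fun t ht => R_nonneg F ht p
      R_mono := R_mono F p
      R_le := hC
      R_pos := R_pos F hn hQ hP H
      pinch := fun Q hQc => ?_
      ricpos := ricPos_of_BKpos H.bk }⟩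
  · calc (1 : ℝ) = (r ^ 2)⁻¹ * r ^ 2 := (inv_mul_cancel₀ hr2.ne').symm
      _ ≤ _ := by gcongr; exact le_max_right _ _
  · have h1 := (hψ t ht).2.2.2.1 w hw v
    have h2 := nq_pbm_nonneg (F.K t) (ψ t) w v
    nlinarith
  · refine ((hψ t ht).2.2.2.2 w hw v).trans ?_
    gcongr
  · obtain ⟨ε, C', hε, h⟩ := pinch F hn hP H (m := r ^ 2 / 2) (by positivity) Q hQc
    exact ⟨ε, C', hε, fun t ht w hw hwQ v => h t ht (ψ t) (hψ t ht).1 (hψ t ht).2.2.2.1 w hw hwQ v⟩

end Crest.Agent.T223.Hn38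
end

-- ▼ part T223/HnP1_76
section

/-!
# Row 223, PINCH, part 1 (helper76): second derivative test on complex lines, curvature barrier
-/

set_option autoImplicit false
set_option linter.unusedVariables false
set_option linter.unusedSectionVars false

open Set Filter Topology Metric
open scoped ContDiff ComplexConjugate Matrix ComplexOrder

namespace Crest.Agent.T223.Hn

open Crest.Agent.R275.Geo Crest.Agent.R275.EDR890 Crest.Agent.R273.Kah_333
open Crest.Agent.R273.Hess_333 Crest.Agent.R273.HessB_333 Crest.Agent.R273.Defs_333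
open Crest.Agent.T223.Br Crest.Agent.T223.Tr

noncomputable section

variable {n : ℕ}

theorem snd_nonpos_76 {E : Type*} [NormedAddCommGroup E] [NormedSpace ℝ E] {u : E → ℝ} {z v : E}
    (hu : ContDiffAt ℝ 2 u z) (hm : ∀ᶠ t in 𝓝 (0 : ℝ), u (z + t • v) ≤ u z) :
    fderiv ℝ (fderiv ℝ u) z v v ≤ 0 := by
  by_contra hcon
  push Not at hcon
  have hline : ∀ t : ℝ, HasDerivAt (fun s : ℝ => z + s • v) v t := fun t => by
    simpa using ((hasDerivAt_id t).smul_const v).const_add z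
  set g : ℝ → ℝ := fun t => u (z + t • v) with hg
  have hg0 : g 0 = u z := by simp [hg]
  have hmax : IsLocalMax g 0 := by
    filter_upwards [hm] with t ht
    rwa [hg0]
  have htend : Tendsto (fun t : ℝ => z + t • v) (𝓝 0) (𝓝 z) := by
    simpa using (hline 0).continuousAt.tendsto
  have hd1 : ∀ᶠ t in 𝓝 (0 : ℝ), HasDerivAt g (fderiv ℝ u (z + t • v) v) t := by
    have := (hu.of_le (m := 1) (by norm_num)).eventually (by simp)
    filter_upwards [htend.eventually this] with t ht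
    exact (ht.differentiableAt (by simp)).hasFDerivAt.comp_hasDerivAt t (hline t)
  have hdg : deriv g =ᶠ[𝓝 0] fun t => fderiv ℝ u (z + t • v) v := by
    filter_upwards [hd1] with t ht using ht.deriv
  have hd2 : HasDerivAt (fun t : ℝ => fderiv ℝ u (z + t • v) v)
      (fderiv ℝ (fderiv ℝ u) z v v) 0 := by
    have h2 : HasFDerivAt (fderiv ℝ u) (fderiv ℝ (fderiv ℝ u) z) (z + (0 : ℝ) • v) := by
      simpa using ((hu.fderiv_right (m := 1) (by norm_num)).differentiableAt (by simp)).hasFDerivAt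
    have h2' : HasDerivAt (fun t : ℝ => fderiv ℝ u (z + t • v)) (fderiv ℝ (fderiv ℝ u) z v) 0 :=
      HasFDerivAt.comp_hasDerivAt (f := fun t : ℝ => z + t • v) (0 : ℝ) h2 (hline 0)
    simpa using h2'.clm_apply (hasDerivAt_const (0 : ℝ) v)
  have h0 : deriv g 0 = 0 := hmax.deriv_eq_zero
  have hdd : deriv (deriv g) 0 = fderiv ℝ (fderiv ℝ u) z v v := by
    rw [hdg.deriv_eq]; exact hd2.deriv
  have hmin : IsLocalMin g 0 :=
    isLocalMin_of_deriv_deriv_pos (by rw [hdd]; exact hcon) h0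
      hd1.self_of_nhds.continuousAt
  have hconst : g =ᶠ[𝓝 0] fun _ => g 0 := by
    filter_upwards [hmax, hmin] with t h1 h2 using le_antisymm h1 h2
  have h3 : deriv g =ᶠ[𝓝 0] fun _ => 0 := by
    filter_upwards [hconst.eventually_nhds] with t ht
    rw [EventuallyEq.deriv_eq ht]; simp
  rw [h3.deriv_eq] at hdd
  simp at hdd
  linarith

/-- second derivative test along a complex line -/
theorem hess_nonpos_line {u : Cn n → ℝ} {z v : Cn n} (hu : ContDiffAt ℝ ∞ u z)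
    (hm : ∀ᶠ ζ in 𝓝 (0 : ℂ), u (z + ζ • v) ≤ u z) : nq (hess u z) v ≤ 0 := by
  have h2 : ContDiffAt ℝ 2 u z := hu.of_le (by norm_cast)
  have h0 : nq (hess u z) v = lev u z v / 4 := hq_re hu v
  have ha : fderiv ℝ (fderiv ℝ u) z v v ≤ 0 := by
    refine snd_nonpos_76 h2 ?_
    have ht : Tendsto (fun t : ℝ => (t : ℂ)) (𝓝 0) (𝓝 0) := by
      simpa using Complex.continuous_ofReal.tendsto 0
    filter_upwards [ht.eventually hm] with t h
    exact h
  have hb : fderiv ℝ (fderiv ℝ u) z (Complex.I • v) (Complex.I • v) ≤ 0 := by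
    refine snd_nonpos_76 h2 ?_
    have ht : Tendsto (fun t : ℝ => (t : ℂ) * Complex.I) (𝓝 0) (𝓝 0) := by
      have : Continuous (fun t : ℝ => (t : ℂ) * Complex.I) := by fun_prop
      simpa using this.tendsto 0
    filter_upwards [ht.eventually hm] with t h
    rw [mul_smul] at h
    exact h
  rw [h0]
  unfold lev
  rw [iteratedFDeriv_two_apply, iteratedFDeriv_two_apply]
  simp only [Matrix.cons_val_zero, Matrix.cons_val_one]
  linarith

/-- the affine holomorphic vector field with value `s0` at `z` and derivative `σ` -/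
def afv (z s0 : Cn n) (σ : Fin n → Fin n → ℂ) (w : Cn n) : Cn n :=
  WithLp.toLp 2 fun a => s0 a + ∑ k, (w k - z k) * σ k a

theorem afv_apply (z s0 : Cn n) (σ : Fin n → Fin n → ℂ) (w : Cn n) (a : Fin n) :
    afv z s0 σ w a = s0 a + ∑ k, (w k - z k) * σ k a := rfl

theorem afv_self (z s0 : Cn n) (σ : Fin n → Fin n → ℂ) : afv z s0 σ z = s0 := by
  ext a; simp [afv_apply]

theorem afv_hasFDerivAt (z s0 : Cn n) (σ : Fin n → Fin n → ℂ) (a : Fin n) (w : Cn n) :
    HasFDerivAt (fun w => afv z s0 σ w a)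
      (∑ k, σ k a • (EuclideanSpace.proj k : Cn n →L[ℂ] ℂ)) w := by
  simp only [afv_apply]
  refine HasFDerivAt.const_add _ (HasFDerivAt.fun_sum fun k _ => ?_)
  have h1 : HasFDerivAt (fun w : Cn n => w k - z k) (EuclideanSpace.proj k : Cn n →L[ℂ] ℂ) w :=
    (EuclideanSpace.proj k : Cn n →L[ℂ] ℂ).hasFDerivAt.sub_const _
  exact h1.mul_const _

theorem afv_diff (z s0 : Cn n) (σ : Fin n → Fin n → ℂ) : Differentiable ℂ (afv z s0 σ) :=
  differentiable_euclidean.2 fun a w => (afv_hasFDerivAt z s0 σ a w).differentiableAt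

theorem afv_contDiff (z s0 : Cn n) (σ : Fin n → Fin n → ℂ) (a : Fin n) (w : Cn n) :
    ContDiffAt ℝ ∞ (fun w => afv z s0 σ w a) w :=
  real_contDiffAt (Eventually.of_forall fun y => (afv_hasFDerivAt z s0 σ a y).differentiableAt)

theorem wd_afv (z s0 : Cn n) (σ : Fin n → Fin n → ℂ) (a k : Fin n) (w : Cn n) :
    wd (false, k) (fun w => afv z s0 σ w a) w = σ k a := by
  rw [wd_hol' (afv_hasFDerivAt z s0 σ a w).differentiableAt, (afv_hasFDerivAt z s0 σ a w).fderiv]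
  simp [PiLp.single_apply]

theorem wdb_afv (z s0 : Cn n) (σ : Fin n → Fin n → ℂ) (a k : Fin n) (w : Cn n) :
    wd (true, k) (fun w => afv z s0 σ w a) w = 0 :=
  wd_hol (afv_hasFDerivAt z s0 σ a w).differentiableAt k

theorem wd_cafv (z s0 : Cn n) (σ : Fin n → Fin n → ℂ) (a k : Fin n) (w : Cn n) :
    wd (false, k) (fun w => conj (afv z s0 σ w a)) w = 0 := by
  have h := conj_wd (true, k) ((afv_contDiff z s0 σ a w).differentiableAt (by simp))
  rw [wdb_afv] at h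
  simpa using h.symm

theorem wdb_cafv (z s0 : Cn n) (σ : Fin n → Fin n → ℂ) (a k : Fin n) (w : Cn n) :
    wd (true, k) (fun w => conj (afv z s0 σ w a)) w = conj (σ k a) := by
  have h := conj_wd (false, k) ((afv_contDiff z s0 σ a w).differentiableAt (by simp))
  rw [wd_afv] at h
  simpa using h.symm

theorem cafv_contDiff (z s0 : Cn n) (σ : Fin n → Fin n → ℂ) (a : Fin n) (w : Cn n) :
    ContDiffAt ℝ ∞ (fun w => conj (afv z s0 σ w a)) w :=
  Complex.conjCLE.contDiff.contDiffAt.comp w (afv_contDiff z s0 σ a w)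

theorem herm_sum_im {H : Mat n} (hH : H.IsHermitian) (v : Cn n) :
    (((∑ a, ∑ b, H a b * v a * conj (v b)).re : ℝ) : ℂ) = ∑ a, ∑ b, H a b * v a * conj (v b) := by
  rw [← Complex.conj_eq_iff_re, map_sum]
  simp only [map_sum, map_mul, Complex.conj_conj]
  rw [Finset.sum_comm]
  refine Finset.sum_congr rfl fun a _ => Finset.sum_congr rfl fun b _ => ?_
  have := hH.apply a b
  rw [RCLike.star_def] at this
  rw [this]; ring

theorem wd3 {f g h : Cn n → ℂ} {z : Cn n} (hf : DifferentiableAt ℝ f z)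
    (hg : DifferentiableAt ℝ g z) (hh : DifferentiableAt ℝ h z) (r : WI n) :
    wd r (fun w => f w * g w * h w) z =
      wd r f z * g z * h z + f z * wd r g z * h z + f z * g z * wd r h z := by
  rw [wd_mul (f := fun w => f w * g w) (hf.fun_mul hg) hh, wd_mul hf hg]; ring

theorem wd_sum2 {F : Fin n → Fin n → Cn n → ℂ} {z : Cn n}
    (hF : ∀ a b, DifferentiableAt ℝ (F a b) z) (r : WI n) :
    wd r (fun w => ∑ a, ∑ b, F a b w) z = ∑ a, ∑ b, wd r (F a b) z := by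
  rw [wd_sum (f := fun a w => ∑ b, F a b w) _ fun a _ => DifferentiableAt.fun_sum fun b _ => hF a b]
  exact Finset.sum_congr rfl fun a _ => wd_sum _ (fun b _ => hF a b) r

theorem sum4_comm (F : Fin n → Fin n → Fin n → Fin n → ℂ) :
    ∑ k, ∑ l, ∑ a, ∑ b, F k l a b = ∑ a, ∑ b, ∑ k, ∑ l, F k l a b :=
  calc ∑ k, ∑ l, ∑ a, ∑ b, F k l a b = ∑ k, ∑ a, ∑ l, ∑ b, F k l a b :=
        Finset.sum_congr rfl fun k _ => Finset.sum_comm
    _ = ∑ a, ∑ k, ∑ l, ∑ b, F k l a b := Finset.sum_comm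
    _ = ∑ a, ∑ k, ∑ b, ∑ l, F k l a b :=
        Finset.sum_congr rfl fun a _ => Finset.sum_congr rfl fun k _ => Finset.sum_comm
    _ = ∑ a, ∑ b, ∑ k, ∑ l, F k l a b := Finset.sum_congr rfl fun a _ => Finset.sum_comm

theorem hess_field {g : Cn n → Mat n} {z : Cn n} {s c : Fin n → Cn n → ℂ} {σ : Fin n → Fin n → ℂ}
    {N : Cn n → ℝ} (hsm : ∀ᶠ w in 𝓝 z, ∀ a b, ContDiffAt ℝ ∞ (fun y => g y a b) w)
    (hcu : cu N =ᶠ[𝓝 z] fun w => ∑ a, ∑ b, g w a b * s a w * c b w)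
    (hs1 : ∀ a w, DifferentiableAt ℝ (s a) w) (hs2 : ∀ a w, DifferentiableAt ℝ (c a) w)
    (d1 : ∀ a k w, wd (false, k) (s a) w = σ k a) (d2 : ∀ a k w, wd (true, k) (s a) w = 0)
    (d3 : ∀ a k w, wd (false, k) (c a) w = 0) (d4 : ∀ a k w, wd (true, k) (c a) w = conj (σ k a))
    (k l : Fin n) : hess N z k l =
      ∑ a, ∑ b, (wdM (false, k) (wdM (true, l) g) z a b * s a z * c b z +
        wdM (true, l) g z a b * σ k a * c b z +
        (wdM (false, k) g z a b * s a z + g z a b * σ k a) * conj (σ l b)) := by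
  have h1 : wd (true, l) (cu N) =ᶠ[𝓝 z] fun w =>
      ∑ a, ∑ b, (wd (true, l) (fun y => g y a b) w * s a w * c b w +
        g w a b * s a w * conj (σ l b)) := by
    filter_upwards [hcu.eventually_nhds, hsm] with w hw hw'
    have hg : ∀ a b, DifferentiableAt ℝ (fun y => g y a b) w := fun a b =>
      (hw' a b).differentiableAt (by simp)
    rw [wd_congr hw, wd_sum2 (F := fun a b y => g y a b * s a y * c b y)
      fun a b => ((hg a b).fun_mul (hs1 a w)).fun_mul (hs2 b w)]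
    refine Finset.sum_congr rfl fun a _ => Finset.sum_congr rfl fun b _ => ?_
    rw [wd3 (hg a b) (hs1 a w) (hs2 b w), d2, d4]
    ring
  have hz := hsm.self_of_nhds
  have hg : ∀ a b, DifferentiableAt ℝ (fun y => g y a b) z := fun a b =>
    (hz a b).differentiableAt (by simp)
  have hg' : ∀ a b, DifferentiableAt ℝ (wd (true, l) (fun y => g y a b)) z := fun a b =>
    (contDiffAt_wd (hz a b) _).differentiableAt (by simp)
  rw [hess_apply, wd_congr h1, wd_sum2 (F := fun a b w =>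
    wd (true, l) (fun y => g y a b) w * s a w * c b w + g w a b * s a w * conj (σ l b))
    fun a b => (((hg' a b).fun_mul (hs1 a z)).fun_mul (hs2 b z)).fun_add
      (((hg a b).fun_mul (hs1 a z)).mul_const _)]
  refine Finset.sum_congr rfl fun a _ => Finset.sum_congr rfl fun b _ => ?_
  rw [wd_add (((hg' a b).fun_mul (hs1 a z)).fun_mul (hs2 b z))
    (((hg a b).fun_mul (hs1 a z)).mul_const _), wd3 (hg' a b) (hs1 a z) (hs2 b z),
    wd3 (hg a b) (hs1 a z) (differentiableAt_const _), d1, d3, wd_const]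
  have e1 : wdM (false, k) (wdM (true, l) g) z a b =
      wd (false, k) (wd (true, l) fun y => g y a b) z := rfl
  have e2 : wdM (true, l) g z a b = wd (true, l) (fun y => g y a b) z := rfl
  have e3 : wdM (false, k) g z a b = wd (false, k) (fun y => g y a b) z := rfl
  rw [e1, e2, e3]
  ring

theorem field_alg {G P Q W : Mat n} (hdet : IsUnit G.det) (s0 c0 τ : Fin n → ℂ) :
    ∑ a, ∑ b, (W a b * s0 a * c0 b + Q a b * (-(s0 ᵥ* (P * G⁻¹))) a * c0 b +
        (P a b * s0 a + G a b * (-(s0 ᵥ* (P * G⁻¹))) a) * τ b) =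
      -∑ a, ∑ b, (-W + P * G⁻¹ * Q) a b * s0 a * c0 b := by
  set σ : Fin n → ℂ := -(s0 ᵥ* (P * G⁻¹)) with hσ
  have h3 : ∀ b, ∑ a, (P a b * s0 a + G a b * σ a) = 0 := by
    intro b
    have e1 : σ ᵥ* G = -(s0 ᵥ* P) := by
      rw [hσ]
      simp only [Matrix.neg_vecMul, Matrix.vecMul_vecMul, Matrix.mul_assoc,
        Matrix.nonsing_inv_mul _ hdet, Matrix.mul_one]
    have e2 : ∑ a, σ a * G a b = -∑ a, s0 a * P a b := congrFun e1 b
    rw [Finset.sum_add_distrib]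
    have e3 : ∑ a, G a b * σ a = ∑ a, σ a * G a b := Finset.sum_congr rfl fun a _ => mul_comm _ _
    have e4 : ∑ a, P a b * s0 a = ∑ a, s0 a * P a b := Finset.sum_congr rfl fun a _ => mul_comm _ _
    rw [e3, e4, e2]; ring
  have h4 : ∀ b, ∑ a, Q a b * σ a = -∑ a, (P * G⁻¹ * Q) a b * s0 a := by
    intro b
    have e1 : σ ᵥ* Q = -(s0 ᵥ* (P * G⁻¹ * Q)) := by
      rw [hσ]
      simp only [Matrix.neg_vecMul, Matrix.vecMul_vecMul]
    have e2 : ∑ a, σ a * Q a b = -∑ a, s0 a * (P * G⁻¹ * Q) a b := congrFun e1 b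
    have e3 : ∑ a, Q a b * σ a = ∑ a, σ a * Q a b := Finset.sum_congr rfl fun a _ => mul_comm _ _
    rw [e3, e2]
    congr 1
    exact Finset.sum_congr rfl fun a _ => mul_comm _ _
  clear_value σ
  rw [Finset.sum_comm, Finset.sum_comm (f := fun a b => (-W + P * G⁻¹ * Q) a b * s0 a * c0 b),
    ← Finset.sum_neg_distrib]
  refine Finset.sum_congr rfl fun b _ => ?_
  rw [Finset.sum_add_distrib, Finset.sum_add_distrib, ← Finset.sum_mul, ← Finset.sum_mul,
    ← Finset.sum_mul, h3, h4, zero_mul, add_zero, ← Finset.sum_mul, ← add_mul, ← neg_mul]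
  congr 1
  rw [← Finset.sum_neg_distrib, ← Finset.sum_neg_distrib, ← Finset.sum_add_distrib]
  refine Finset.sum_congr rfl fun a _ => ?_
  simp only [Matrix.add_apply, Matrix.neg_apply]
  ring

theorem contDiffAt_nq {g : Cn n → Mat n} {s : Cn n → Cn n} {z : Cn n}
    (hg : ∀ a b, ContDiffAt ℝ ∞ (fun y => g y a b) z)
    (hs : ∀ a, ContDiffAt ℝ ∞ (fun y => s y a) z) : ContDiffAt ℝ ∞ (fun w => nq (g w) (s w)) z := by
  have hc : ∀ a, ContDiffAt ℝ ∞ (fun y => conj (s y a)) z := fun a =>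
    Complex.conjCLE.contDiff.contDiffAt.comp z (hs a)
  have hHc : ContDiffAt ℝ ∞ (fun w => ∑ a, ∑ b, g w a b * s w a * conj (s w b)) z :=
    ContDiffAt.sum fun a _ => ContDiffAt.sum fun b _ => ((hg a b).mul (hs a)).mul (hc b)
  exact Complex.reCLM.contDiff.contDiffAt.comp z hHc

theorem nq_of_hess {H : Mat n} {g : Cn n → Mat n} {z s0 : Cn n}
    (h5 : ∀ k l, H k l = -∑ a, ∑ b, Rm g z k l a b * s0 a * conj (s0 b)) (v : Cn n) :
    nq H v = -bis g z s0 v := by
  unfold bis nq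
  generalize Rm g z = T at h5 ⊢
  rw [← Complex.neg_re]
  refine congrArg Complex.re ?_
  simp only [h5, neg_mul, Finset.sum_neg_distrib, Finset.sum_mul]
  exact congrArg Neg.neg
    (sum4_comm fun k l a b => T k l a b * s0 a * conj (s0 b) * v k * conj (v l))

theorem cu_nq {g : Cn n → Mat n} {s : Cn n → Cn n} {z : Cn n}
    (hH : ∀ᶠ w in 𝓝 z, (g w).IsHermitian) :
    cu (fun w => nq (g w) (s w)) =ᶠ[𝓝 z] fun w => ∑ a, ∑ b, g w a b * s w a * conj (s w b) := by
  filter_upwards [hH] with w hw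
  exact herm_sum_im hw (s w)

/-- **curvature barrier**: the Levi form of `|s|²_g` for the affine holomorphic field that is
parallel at `z` is minus the bisectional curvature -/
theorem exists_field {g : Cn n → Mat n} {z : Cn n}
    (hsm : ∀ᶠ w in 𝓝 z, ∀ a b, ContDiffAt ℝ ∞ (fun y => g y a b) w)
    (hH : ∀ᶠ w in 𝓝 z, (g w).IsHermitian) (hpos : (g z).PosDef) (s0 : Cn n) :
    ∃ s : Cn n → Cn n, Differentiable ℂ s ∧ s z = s0 ∧
      ContDiffAt ℝ ∞ (fun w => nq (g w) (s w)) z ∧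
      ∀ v, nq (hess (fun w => nq (g w) (s w)) z) v = -bis g z s0 v := by
  obtain ⟨σ, hσ⟩ : ∃ σ : Fin n → Fin n → ℂ, ∀ k, σ k =
    -((fun a => s0 a) ᵥ* (wdM (false, k) g z * (g z)⁻¹)) := ⟨_, fun _ => rfl⟩
  refine ⟨afv z s0 σ, afv_diff z s0 σ, afv_self z s0 σ,
    contDiffAt_nq hsm.self_of_nhds fun a => afv_contDiff z s0 σ a z, nq_of_hess fun k l => ?_⟩
  have hdet : IsUnit (g z).det := (Matrix.isUnit_iff_isUnit_det _).1 hpos.isUnit
  have h1 := hess_field (s := fun a w => afv z s0 σ w a) (c := fun a w => conj (afv z s0 σ w a))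
      hsm (cu_nq hH) (fun a w => (afv_contDiff z s0 σ a w).differentiableAt (by simp))
      (fun a w => (cafv_contDiff z s0 σ a w).differentiableAt (by simp))
      (wd_afv z s0 σ) (wdb_afv z s0 σ) (wd_cafv z s0 σ) (wdb_cafv z s0 σ) k l
  rw [h1]
  simp only [afv_self]
  rw [hσ k]
  exact field_alg hdet (fun a => s0 a) (fun b => conj (s0 b)) (fun b => conj (σ l b))

end

end Crest.Agent.T223.Hn
end

-- ▼ part T223/HnP2_76
section

/-!
# Row 223, PINCH, part 2 (helper76): auxiliary lemmas (Levi forms, compactness constants)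
-/

set_option autoImplicit false
set_option linter.unusedVariables false
set_option linter.unusedSectionVars false

open Set Filter Topology Metric
open scoped ContDiff ComplexConjugate Matrix ComplexOrder

namespace Crest.Agent.T223.Hn

open Crest.Agent.R275.Geo Crest.Agent.R275.EDR890 Crest.Agent.R273.Kah_333
open Crest.Agent.R273.Hess_333 Crest.Agent.R273.HessB_333 Crest.Agent.R273.Defs_333
open Crest.Agent.T223.Br Crest.Agent.T223.Tr

noncomputable section

variable {n : ℕ}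

theorem nq_add_76 (g g' : Mat n) (v : Cn n) : nq (g + g') v = nq g v + nq g' v := by
  simp only [nq, Matrix.add_apply, add_mul, Finset.sum_add_distrib, Complex.add_re]


theorem nq_zero_76 (v : Cn n) : nq (0 : Mat n) v = 0 := by simp [nq]

theorem nq_vsmul (g : Mat n) (a : ℝ) (v : Cn n) : nq g (a • v) = a ^ 2 * nq g v := by
  unfold nq
  rw [← Complex.re_ofReal_mul]
  refine congrArg Complex.re ?_
  simp only [PiLp.smul_apply, Complex.real_smul, map_mul, Complex.conj_ofReal, Finset.mul_sum]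
  refine Finset.sum_congr rfl fun a _ => Finset.sum_congr rfl fun b _ => ?_
  push_cast; ring

theorem nq_pos_76 {g : Mat n} (hg : g.PosDef) {v : Cn n} (hv : v ≠ 0) : 0 < nq g v := by
  rw [nq_eq_dot]
  refine (Complex.pos_iff.1 (hg.dotProduct_mulVec_pos ?_)).1
  intro h
  apply hv
  ext a
  simpa using congrFun h a

theorem bis_smul (g : Cn n → Mat n) (z : Cn n) (a b : ℝ) (s v : Cn n) :
    bis g z (a • s) (b • v) = a ^ 2 * b ^ 2 * bis g z s v := by
  unfold bis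
  generalize Rm g z = T
  rw [← Complex.re_ofReal_mul]
  refine congrArg Complex.re ?_
  simp only [PiLp.smul_apply, Complex.real_smul, map_mul, Complex.conj_ofReal, Finset.mul_sum]
  refine Finset.sum_congr rfl fun a _ => Finset.sum_congr rfl fun b _ =>
    Finset.sum_congr rfl fun c _ => Finset.sum_congr rfl fun d _ => ?_
  push_cast; ring

theorem bis_zero_left (g : Cn n → Mat n) (z v : Cn n) : bis g z 0 v = 0 := by
  have := bis_smul g z 0 1 0 v
  simpa using this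

theorem bis_zero_right (g : Cn n → Mat n) (z v : Cn n) : bis g z v 0 = 0 := by
  have := bis_smul g z 1 0 v 0
  simpa using this

theorem nq_hess_comp {u : Cn n → ℝ} {T : Cn n → Cn n} {z : Cn n} (hu : ContDiffAt ℝ ∞ u (T z))
    (hT : ∀ᶠ w in 𝓝 z, DifferentiableAt ℂ T w) (v : Cn n) :
    nq (hess (fun w => u (T w)) z) v = nq (hess u (T z)) (fderiv ℂ T z v) := by
  rw [← nq_pull]
  congr 1
  ext a b
  rw [hess_comp hu hT]
  simp only [Matrix.mul_apply, Matrix.transpose_apply, Matrix.map_apply, Finset.sum_mul, mat,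
    Matrix.of_apply]
  rw [Finset.sum_comm]

theorem hess_const_76 (c : ℝ) (z : Cn n) : hess (fun _ => c) z = 0 := by
  ext a b
  rw [hess_apply]
  have : wd (true, b) (cu fun _ : Cn n => c) = fun _ => 0 := by
    funext w; exact wd_const _ _ _
  rw [this, wd_const]; rfl

theorem nq_hess_normSq (z1 z v : Cn n) : nq (hess (fun w => ‖w - z1‖ ^ 2) z) v = ‖v‖ ^ 2 := by
  set σ : Fin n → Fin n → ℂ := fun k a => if k = a then 1 else 0 with hσ
  have h0 : ∀ w, afv z1 0 σ w = w - z1 := by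
    intro w; ext a; simp [afv_apply, hσ]
  have h1 : (fun w : Cn n => ‖w - z1‖ ^ 2) = fun w => nq ((fun _ => (1 : Mat n)) w) (afv z1 0 σ w) := by
    funext w; rw [h0, nq_one]
  have h2 : hess (fun w : Cn n => ‖w - z1‖ ^ 2) z = 1 := by
    ext k l
    rw [h1, hess_field (g := fun _ => (1 : Mat n)) (s := fun a w => afv z1 0 σ w a)
      (c := fun a w => conj (afv z1 0 σ w a))
      (Eventually.of_forall fun w a b => contDiffAt_const)
      (cu_nq (Eventually.of_forall fun w => Matrix.isHermitian_one))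
      (fun a w => (afv_contDiff z1 0 σ a w).differentiableAt (by simp))
      (fun a w => (cafv_contDiff z1 0 σ a w).differentiableAt (by simp))
      (wd_afv z1 0 σ) (wdb_afv z1 0 σ) (wd_cafv z1 0 σ) (wdb_cafv z1 0 σ) k l]
    have e1 : ∀ r : WI n, wdM r (fun _ => (1 : Mat n)) = fun _ => 0 := by
      intro r; funext w; ext a b; exact wd_const _ _ _
    have e2 : ∀ r : WI n, wdM r (fun _ => (0 : Mat n)) = fun _ => 0 := by
      intro r; funext w; ext a b; exact wd_const _ _ _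
    simp only [e1, e2]
    simp [hσ, Matrix.one_apply]
  rw [h2, nq_one]

theorem contDiffAt_normSq (z1 z : Cn n) : ContDiffAt ℝ ∞ (fun w : Cn n => ‖w - z1‖ ^ 2) z :=
  (contDiffAt_id.sub contDiffAt_const).norm_sq ℝ

theorem continuousAt_Rm {g : Cn n → Mat n} {z : Cn n}
    (hg : ∀ a b, ContDiffAt ℝ ∞ (fun y => g y a b) z) (hpos : (g z).PosDef) (c d a b : Fin n) :
    ContinuousAt (fun w => Rm g w c d a b) z := by
  have h1 : ∀ r : WI n, ContinuousAt (wdM r g) z := fun r =>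
    continuousAt_pi.2 fun a => continuousAt_pi.2 fun b => (contDiffAt_wd (hg a b) r).continuousAt
  have h2 : ContinuousAt (wdM (false, c) (wdM (true, d) g)) z :=
    continuousAt_pi.2 fun a => continuousAt_pi.2 fun b =>
      (contDiffAt_wd (contDiffAt_wd (hg a b) _) _).continuousAt
  have h3 : ContinuousAt g z :=
    continuousAt_pi.2 fun a => continuousAt_pi.2 fun b => (hg a b).continuousAt
  have h4 : ContinuousAt (fun w => (g w)⁻¹) z := by
    refine ContinuousAt.comp (f := g) (continuousAt_matrix_inv _ ?_) h3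
    rw [Ring.inverse_eq_inv']
    exact continuousAt_inv₀ hpos.det_pos.ne'
  have h5 : ContinuousAt (fun w => Rm g w c d) z :=
    h2.neg.add (((h1 _).mul h4).mul (h1 _))
  exact continuousAt_pi.1 (continuousAt_pi.1 h5 a) b

variable {M : Type} [TopologicalSpace M] {A : Atl n M}

theorem gc_sm (K : Kah A) (i : A.ι) {z : Cn n} (hz : z ∈ (A.e i).target) :
    ∀ᶠ w in 𝓝 z, ∀ a b, ContDiffAt ℝ ∞ (fun y => gc K i y a b) w := by
  filter_upwards [(A.e i).open_target.mem_nhds hz] with w hw a b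
  exact contDiffAt_g K i hw a b

theorem gc_pos (K : Kah A) (i : A.ι) {z : Cn n} (hz : z ∈ (A.e i).target) : (gc K i z).PosDef :=
  K.pos i _ ((A.e i).map_target hz)

theorem gc_herm (K : Kah A) (i : A.ι) {z : Cn n} (hz : z ∈ (A.e i).target) :
    ∀ᶠ w in 𝓝 z, (gc K i w).IsHermitian := by
  filter_upwards [(A.e i).open_target.mem_nhds hz] with w hw
  exact (gc_pos K i hw).isHermitian

theorem gc_e (K : Kah A) {i : A.ι} {x : M} (hx : x ∈ (A.e i).source) :
    gc K i (A.e i x) = K.g i x := by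
  unfold gc; rw [(A.e i).left_inv hx]

theorem bis_nonneg_of_pos {K : Kah A} (hB : BKpos K) (i : A.ι) {z : Cn n}
    (hz : z ∈ (A.e i).target) (s v : Cn n) : 0 ≤ bis (gc K i) z s v := by
  by_cases hs : s = 0
  · rw [hs, bis_zero_left]
  by_cases hv : v = 0
  · rw [hv, bis_zero_right]
  exact (hB i z hz s v hs hv).le

theorem exists_upper (K : Kah A) (i : A.ι) {S : Set (Cn n)} (hS : IsCompact S)
    (hsub : S ⊆ (A.e i).target) : ∃ C > 0, ∀ z ∈ S, ∀ v, nq (gc K i z) v ≤ C * ‖v‖ ^ 2 := by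
  have hc : ContinuousOn (fun q : Cn n × Cn n => nq (gc K i q.1) q.2) (S ×ˢ sphere 0 1) := by
    intro q hq
    refine ContinuousAt.continuousWithinAt ?_
    unfold nq
    refine Complex.continuous_re.continuousAt.comp ?_
    refine tendsto_finsetSum _ fun a _ => tendsto_finsetSum _ fun b _ => ?_
    have h1 : ContinuousAt (fun q : Cn n × Cn n => gc K i q.1 a b) q :=
      ((gc_sm K i (hsub hq.1)).self_of_nhds a b).continuousAt.comp continuousAt_fst
    have h2 : Continuous fun q : Cn n × Cn n => q.2 a := by fun_prop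
    have h3 : Continuous fun q : Cn n × Cn n => conj (q.2 b) := by fun_prop
    exact (h1.mul h2.continuousAt).mul h3.continuousAt
  obtain ⟨B, hB⟩ := (hS.prod (isCompact_sphere (0 : Cn n) 1)).bddAbove_image hc
  refine ⟨max B 1, by positivity, fun z hz v => ?_⟩
  by_cases hv : v = 0
  · subst hv
    have := nq_vsmul (gc K i z) 0 0
    simp at this
    simp [this]
  have hn : 0 < ‖v‖ := norm_pos_iff.2 hv
  have h1 : (‖v‖⁻¹ • v) ∈ sphere (0 : Cn n) 1 := by
    simp [norm_smul, hn.ne']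
  have h2 : nq (gc K i z) (‖v‖⁻¹ • v) ≤ B := hB ⟨(z, ‖v‖⁻¹ • v), ⟨hz, h1⟩, rfl⟩
  rw [nq_vsmul] at h2
  have h3 : nq (gc K i z) v = ‖v‖ ^ 2 * (‖v‖⁻¹ ^ 2 * nq (gc K i z) v) := by field_simp
  rw [h3, mul_comm (max B 1)]
  exact mul_le_mul_of_nonneg_left (h2.trans (le_max_left _ _)) (by positivity)

theorem exists_bis_lower {K : Kah A} (hB : BKpos K) (i : A.ι) {S : Set (Cn n)} (hS : IsCompact S)
    (hsub : S ⊆ (A.e i).target) :
    ∃ c > 0, ∀ z ∈ S, ∀ s v, c * nq (gc K i z) s * ‖v‖ ^ 2 ≤ bis (gc K i) z s v := by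
  have hc : ContinuousOn (fun q : Cn n × Cn n × Cn n => bis (gc K i) q.1 q.2.1 q.2.2)
      (S ×ˢ sphere 0 1 ×ˢ sphere 0 1) := by
    intro q hq
    refine ContinuousAt.continuousWithinAt ?_
    unfold bis
    refine Complex.continuous_re.continuousAt.comp ?_
    refine tendsto_finsetSum _ fun a _ => tendsto_finsetSum _ fun b _ =>
      tendsto_finsetSum _ fun c _ => tendsto_finsetSum _ fun d _ => ?_
    have h1 : ContinuousAt (fun q : Cn n × Cn n × Cn n => Rm (gc K i) q.1 c d a b) q :=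
      (continuousAt_Rm (gc_sm K i (hsub hq.1)).self_of_nhds (gc_pos K i (hsub hq.1))
        c d a b).comp continuousAt_fst
    have h2 : Continuous fun q : Cn n × Cn n × Cn n => q.2.1 a := by fun_prop
    have h3 : Continuous fun q : Cn n × Cn n × Cn n => conj (q.2.1 b) := by fun_prop
    have h4 : Continuous fun q : Cn n × Cn n × Cn n => q.2.2 c := by fun_prop
    have h5 : Continuous fun q : Cn n × Cn n × Cn n => conj (q.2.2 d) := by fun_prop
    exact (((h1.mul h2.continuousAt).mul h3.continuousAt).mul h4.continuousAt).mul h5.continuousAt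
  obtain ⟨m, hm, hle⟩ := (hS.prod ((isCompact_sphere (0 : Cn n) 1).prod
    (isCompact_sphere (0 : Cn n) 1))).exists_forall_le' hc (a := 0) (by
      rintro ⟨z, s, v⟩ ⟨hz, hs, hv⟩
      refine hB i z (hsub hz) s v ?_ ?_
      · rintro rfl; simp at hs
      · rintro rfl; simp at hv)
  obtain ⟨C, hC, hup⟩ := exists_upper K i hS hsub
  refine ⟨m / C, by positivity, fun z hz s v => ?_⟩
  have h0 : m / C * nq (gc K i z) s * ‖v‖ ^ 2 ≤ m * ‖s‖ ^ 2 * ‖v‖ ^ 2 := by
    refine mul_le_mul_of_nonneg_right ?_ (by positivity)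
    calc m / C * nq (gc K i z) s ≤ m / C * (C * ‖s‖ ^ 2) :=
          mul_le_mul_of_nonneg_left (hup z hz s) (by positivity)
      _ = m * ‖s‖ ^ 2 := by field_simp
  refine h0.trans ?_
  by_cases hs : s = 0
  · simp [hs, bis_zero_left]
  by_cases hv : v = 0
  · simp [hv, bis_zero_right]
  have hn : 0 < ‖s‖ := norm_pos_iff.2 hs
  have hn' : 0 < ‖v‖ := norm_pos_iff.2 hv
  have h1 : (‖s‖⁻¹ • s) ∈ sphere (0 : Cn n) 1 := by simp [norm_smul, hn.ne']
  have h1' : (‖v‖⁻¹ • v) ∈ sphere (0 : Cn n) 1 := by simp [norm_smul, hn'.ne']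
  have h2 : m ≤ bis (gc K i) z (‖s‖⁻¹ • s) (‖v‖⁻¹ • v) :=
    hle (z, ‖s‖⁻¹ • s, ‖v‖⁻¹ • v) ⟨hz, h1, h1'⟩
  rw [bis_smul] at h2
  have h3 : bis (gc K i) z s v =
      (‖s‖⁻¹ ^ 2 * ‖v‖⁻¹ ^ 2 * bis (gc K i) z s v) * ‖s‖ ^ 2 * ‖v‖ ^ 2 := by field_simp
  rw [h3]
  gcongr

end

end Crest.Agent.T223.Hn
end

-- ▼ part T223/HnP3_76
section

/-!
# Row 223, PINCH, part 3 (helper76): the logarithmic pole and its barriers
-/

set_option autoImplicit false
set_option linter.unusedVariables false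
set_option linter.unusedSectionVars false

open Set Filter Topology Metric
open scoped ContDiff ComplexConjugate Matrix ComplexOrder InnerProductSpace

namespace Crest.Agent.T223.Hn

open Crest.Agent.R275.Geo Crest.Agent.R275.EDR890 Crest.Agent.R273.Kah_333
open Crest.Agent.R273.Hess_333 Crest.Agent.R273.HessB_333 Crest.Agent.R273.Defs_333
open Crest.Agent.T223.Br Crest.Agent.T223.Tr

noncomputable section

variable {n : ℕ} {M : Type} [TopologicalSpace M] [T2Space M] {A : Atl n M}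

/-- the complex line -/
def lin (w0 e : Cn n) (ζ : ℂ) : Cn n := w0 + ζ • e

theorem lin_zero (w0 e : Cn n) : lin w0 e 0 = w0 := by simp [lin]

theorem lin_diff (w0 e : Cn n) : Differentiable ℂ (lin w0 e) := by
  unfold lin; fun_prop

theorem lin_mem {w0 e : Cn n} (hw : w0 ∈ ball (0 : Cn n) (1 / 2)) (he : ‖e‖ = 1) {ζ : ℂ}
    (hζ : ‖ζ‖ < 1 / 2) : lin w0 e ζ ∈ ball (0 : Cn n) 1 := by
  rw [mem_ball_zero_iff] at hw ⊢
  calc ‖lin w0 e ζ‖ ≤ ‖w0‖ + ‖ζ • e‖ := norm_add_le _ _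
    _ < 1 := by rw [norm_smul, he]; linarith

/-- the coordinate on the line -/
def lco (w0 e : Cn n) (w : Cn n) : ℂ := ⟪e, w - w0⟫_ℂ

theorem lco_lin {w0 e : Cn n} (he : ‖e‖ = 1) (ζ : ℂ) : lco w0 e (lin w0 e ζ) = ζ := by
  simp [lco, lin, inner_smul_right, inner_self_eq_norm_sq_to_K, he]

theorem lco_diff (w0 e : Cn n) : Differentiable ℂ (lco w0 e) := by
  have : lco w0 e = fun w => innerSL ℂ e (w - w0) := rfl
  rw [this]; fun_prop

/-- the chart image of the disc -/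
def dsc (A : Atl n M) (i : A.ι) (ψ : Cn n → M) (w0 e : Cn n) (ζ : ℂ) : Cn n :=
  rd A i ψ (lin w0 e ζ)

/-- the smooth branch of the pole -/
def plb (A : Atl n M) (i : A.ι) (ψ : Cn n → M) (w0 e : Cn n) (r : ℝ) (ζ : ℂ) : ℝ :=
  ‖dslope (dsc A i ψ w0 e) 0 ζ‖ ^ 2 / r ^ 2 *
    Real.exp (1 - ‖dsc A i ψ w0 e ζ - rd A i ψ w0‖ ^ 2 / r ^ 2)

open Classical in
/-- the pole function divided by `|ζ|²` -/
def plE (A : Atl n M) (i : A.ι) (ψ : Cn n → M) (w0 e : Cn n) (r : ℝ) (ζ : ℂ) : ℝ :=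
  if ψ (lin w0 e ζ) ∈ (A.e i).source ∧ ‖dsc A i ψ w0 e ζ - rd A i ψ w0‖ < r then
    plb A i ψ w0 e r ζ else 1 / ‖ζ‖ ^ 2

variable {i : A.ι} {ψ : Cn n → M} {w0 e : Cn n} {r : ℝ}

theorem dsc_zero : dsc A i ψ w0 e 0 = rd A i ψ w0 := by rw [dsc, lin_zero]

theorem plb_eq {ζ : ℂ} (hζ : ζ ≠ 0) : plb A i ψ w0 e r ζ =
    (‖dsc A i ψ w0 e ζ - rd A i ψ w0‖ ^ 2 / r ^ 2 *
      Real.exp (1 - ‖dsc A i ψ w0 e ζ - rd A i ψ w0‖ ^ 2 / r ^ 2)) * (1 / ‖ζ‖ ^ 2) := by
  rw [plb, dslope_of_ne _ hζ, slope, dsc_zero, norm_smul, vsub_eq_sub, sub_zero, norm_inv]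
  have : ‖ζ‖ ≠ 0 := norm_ne_zero_iff.2 hζ
  field_simp

theorem plb_le {ζ : ℂ} (hζ : ζ ≠ 0) : plb A i ψ w0 e r ζ ≤ 1 / ‖ζ‖ ^ 2 := by
  rw [plb_eq hζ]
  set t := ‖dsc A i ψ w0 e ζ - rd A i ψ w0‖ ^ 2 / r ^ 2
  have h1 : t * Real.exp (1 - t) ≤ 1 := by
    have h2 : t ≤ Real.exp (t - 1) := by linarith [Real.add_one_le_exp (t - 1)]
    calc t * Real.exp (1 - t) ≤ Real.exp (t - 1) * Real.exp (1 - t) :=
          mul_le_mul_of_nonneg_right h2 (Real.exp_pos _).le
      _ = 1 := by rw [← Real.exp_add]; simp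
  calc t * Real.exp (1 - t) * (1 / ‖ζ‖ ^ 2) ≤ 1 * (1 / ‖ζ‖ ^ 2) :=
        mul_le_mul_of_nonneg_right h1 (by positivity)
    _ = _ := one_mul _

theorem plE_le {ζ : ℂ} (hζ : ζ ≠ 0) : plE A i ψ w0 e r ζ ≤ 1 / ‖ζ‖ ^ 2 := by
  unfold plE
  split_ifs
  · exact plb_le hζ
  · exact le_rfl

theorem cond_zero (hr : 0 < r) (h0 : ψ w0 ∈ (A.e i).source) :
    ψ (lin w0 e 0) ∈ (A.e i).source ∧ ‖dsc A i ψ w0 e 0 - rd A i ψ w0‖ < r := by
  rw [dsc_zero, lin_zero]; simpa using ⟨h0, hr⟩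

theorem plb_le_plE (hr : 0 < r) (h0 : ψ w0 ∈ (A.e i).source) (ζ : ℂ) :
    plb A i ψ w0 e r ζ ≤ plE A i ψ w0 e r ζ := by
  unfold plE
  split_ifs with h
  · exact le_rfl
  · refine plb_le ?_
    rintro rfl
    exact h (cond_zero hr h0)

theorem dsc_diff (hψ : Hol A ψ (ball 0 1)) (hw : w0 ∈ ball (0 : Cn n) (1 / 2)) (he : ‖e‖ = 1)
    {ζ0 : ℂ} (hζ : ‖ζ0‖ < 1 / 2) (hs : ψ (lin w0 e ζ0) ∈ (A.e i).source) :
    ∀ᶠ ζ in 𝓝 ζ0, ψ (lin w0 e ζ) ∈ (A.e i).source ∧ DifferentiableAt ℂ (dsc A i ψ w0 e) ζ := by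
  have h1 := hψ.eventually isOpen_ball (lin_mem hw he hζ) hs
  filter_upwards [(lin_diff w0 e ζ0).continuousAt.eventually h1] with ζ h
  exact ⟨h.2.1, h.2.2.comp ζ (lin_diff w0 e ζ)⟩

theorem dsl_diff (hψ : Hol A ψ (ball 0 1)) (hw : w0 ∈ ball (0 : Cn n) (1 / 2)) (he : ‖e‖ = 1)
    {ζ0 : ℂ} (hζ : ‖ζ0‖ < 1 / 2) (hs : ψ (lin w0 e ζ0) ∈ (A.e i).source) :
    ∀ᶠ ζ in 𝓝 ζ0, DifferentiableAt ℂ (dslope (dsc A i ψ w0 e) 0) ζ := by
  have h1 := dsc_diff hψ hw he hζ hs
  by_cases h0 : ζ0 = 0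
  · subst h0
    obtain ⟨U, hU, hUo, hU0⟩ := _root_.eventually_nhds_iff.1 h1
    have h2 : DifferentiableOn ℂ (dsc A i ψ w0 e) U := fun ζ h =>
      (hU ζ h).2.differentiableWithinAt
    have h3 := (Complex.differentiableOn_dslope (hUo.mem_nhds hU0)).2 h2
    filter_upwards [hUo.mem_nhds hU0] with ζ h
    exact h3.differentiableAt (hUo.mem_nhds h)
  · filter_upwards [h1, isOpen_ne.mem_nhds h0] with ζ h h'
    exact (differentiableAt_dslope_of_ne h').2 h.2

/-- a continuous majorant touching at `ζ0` -/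
theorem plE_usc (hψ : Hol A ψ (ball 0 1)) (hw : w0 ∈ ball (0 : Cn n) (1 / 2)) (he : ‖e‖ = 1)
    (hr : 0 < r) (h0 : ψ w0 ∈ (A.e i).source) {ζ0 : ℂ} (hζ : ‖ζ0‖ < 1 / 2) :
    ∃ V : ℂ → ℝ, ContinuousAt V ζ0 ∧ V ζ0 = plE A i ψ w0 e r ζ0 ∧
      ∀ᶠ ζ in 𝓝 ζ0, plE A i ψ w0 e r ζ ≤ V ζ := by
  by_cases hc : ψ (lin w0 e ζ0) ∈ (A.e i).source ∧ ‖dsc A i ψ w0 e ζ0 - rd A i ψ w0‖ < r
  · have h1 := dsc_diff hψ hw he hζ hc.1
    have h2 := (dsl_diff hψ hw he hζ hc.1).self_of_nhds.continuousAt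
    have h3 := h1.self_of_nhds.2.continuousAt
    refine ⟨plb A i ψ w0 e r, ?_, by rw [plE, if_pos hc], ?_⟩
    · unfold plb
      exact ((h2.norm.pow 2).div_const _).mul
        (continuousAt_const.sub (((h3.sub continuousAt_const).norm.pow 2).div_const _)).rexp
    · have h4 : ∀ᶠ ζ in 𝓝 ζ0, ‖dsc A i ψ w0 e ζ - rd A i ψ w0‖ < r :=
        (h3.sub continuousAt_const).norm.eventually (gt_mem_nhds hc.2)
      filter_upwards [h1, h4] with ζ h h'
      rw [plE, if_pos ⟨h.1, h'⟩]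
  · have hne : ζ0 ≠ 0 := by
      rintro rfl
      exact hc (cond_zero hr h0)
    refine ⟨fun ζ => 1 / ‖ζ‖ ^ 2, ?_, by rw [plE, if_neg hc], ?_⟩
    · exact continuousAt_const.div (continuous_norm.continuousAt.pow 2)
        (pow_ne_zero _ (norm_ne_zero_iff.2 hne))
    · filter_upwards [isOpen_ne.mem_nhds hne] with ζ h using plE_le h

/-- barriers for the truncated pole -/
theorem pole_barrier {K0 : Kah A} (hB : BKpos K0) {c0 : ℝ} (hc0 : 0 < c0)
    (hψ : Hol A ψ (ball 0 1)) (hw : w0 ∈ ball (0 : Cn n) (1 / 2)) (he : ‖e‖ = 1)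
    (hr : 0 < r) (h0 : ψ w0 ∈ (A.e i).source)
    (hsub : closedBall (rd A i ψ w0) r ⊆ (A.e i).target)
    (hlow : ∀ z ∈ closedBall (rd A i ψ w0) r, ∀ s v,
      c0 * nq (gc K0 i z) s * ‖v‖ ^ 2 ≤ bis (gc K0 i) z s v)
    {ζ0 : ℂ} (hζ : ‖ζ0‖ < 1 / 2) :
    ∃ j, ψ (lin w0 e ζ0) ∈ (A.e j).source ∧ ∃ β : Cn n → ℝ, ContDiffAt ℝ ∞ β (lin w0 e ζ0) ∧
      β (lin w0 e ζ0) = Real.log (max (plE A i ψ w0 e r ζ0) 16) ∧
      (∀ᶠ ζ in 𝓝 ζ0, β (lin w0 e ζ) ≤ Real.log (max (plE A i ψ w0 e r ζ) 16)) ∧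
      ∀ s, 0 ≤ bis (gc K0 j) (rd A j ψ (lin w0 e ζ0)) s
          (fderiv ℂ (rd A j ψ) (lin w0 e ζ0) e) +
        c0 * r ^ 2 * nq (gc K0 j (rd A j ψ (lin w0 e ζ0))) s * nq (hess β (lin w0 e ζ0)) e := by
  obtain ⟨j, hj⟩ := A.cover (ψ (lin w0 e ζ0))
  have hjt : rd A j ψ (lin w0 e ζ0) ∈ (A.e j).target := (A.e j).map_source hj
  by_cases hE : plE A i ψ w0 e r ζ0 ≤ 16
  · refine ⟨j, hj, fun _ => Real.log 16, contDiffAt_const, by rw [max_eq_right hE],
      Eventually.of_forall fun ζ => Real.log_le_log (by norm_num) (le_max_right _ _), fun s => ?_⟩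
    rw [hess_const_76, nq_zero_76, mul_zero, add_zero]
    exact bis_nonneg_of_pos hB j hjt _ _
  push Not at hE
  have hlc : Tendsto (lco w0 e) (𝓝 (lin w0 e ζ0)) (𝓝 ζ0) := by
    have := (lco_diff w0 e (lin w0 e ζ0)).continuousAt.tendsto
    rwa [lco_lin he] at this
  by_cases hc : ψ (lin w0 e ζ0) ∈ (A.e i).source ∧ ‖dsc A i ψ w0 e ζ0 - rd A i ψ w0‖ ≤ r
  · -- the smooth branch
    have hEb : plE A i ψ w0 e r ζ0 = plb A i ψ w0 e r ζ0 := by
      rcases hc.2.lt_or_eq with h | h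
      · rw [plE, if_pos ⟨hc.1, h⟩]
      · have hne : ζ0 ≠ 0 := by
          rintro rfl
          rw [dsc_zero] at h
          simp at h
          exact hr.ne h
        rw [plE, if_neg (fun h' => h'.2.ne h), plb_eq hne, h, div_self (by positivity)]
        simp
    set F := dslope (dsc A i ψ w0 e) 0 with hF
    set a := F ζ0 with ha
    have ha0 : a ≠ 0 := by
      intro h
      rw [hEb, plb, ← hF, ← ha, h] at hE
      simp at hE
      linarith
    have hna : 0 < ‖a‖ := norm_pos_iff.2 ha0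
    have hFd := dsl_diff hψ hw he hζ hc.1
    have hT := (hψ.eventually isOpen_ball (lin_mem hw he hζ) hc.1).mono fun _ h => h.2.2
    set f : Cn n → ℂ := fun w => innerSL ℂ a (F (lco w0 e w)) with hf
    have hfd : ∀ᶠ w in 𝓝 (lin w0 e ζ0), DifferentiableAt ℂ f w := by
      filter_upwards [hlc.eventually hFd] with w h
      exact (innerSL ℂ a).differentiableAt.comp w (h.comp w (lco_diff w0 e w))
    have hfl : ∀ ζ, f (lin w0 e ζ) = ⟪a, F ζ⟫_ℂ := fun ζ => by
      simp only [hf, lco_lin he, innerSL_apply_apply]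
    have hf0 : ‖f (lin w0 e ζ0)‖ = ‖a‖ ^ 2 := by
      rw [hfl, ← ha, inner_self_eq_norm_sq_to_K]; simp
    have hfne : f (lin w0 e ζ0) ≠ 0 := by
      rw [← norm_ne_zero_iff, hf0]; positivity
    have hc1 : ContDiffAt ℝ ∞ (fun w => Real.log (‖f w‖ ^ 2)) (lin w0 e ζ0) :=
      ((real_contDiffAt hfd).norm_sq ℝ).log (pow_ne_zero _ (norm_ne_zero_iff.2 hfne))
    have hc2 : ContDiffAt ℝ ∞ (fun w => ‖rd A i ψ w - rd A i ψ w0‖ ^ 2) (lin w0 e ζ0) :=
      (contDiffAt_normSq _ _).comp _ (real_contDiffAt hT)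
    have hc3 : ContDiffAt ℝ ∞ (fun w => (-(1 / r ^ 2)) * ‖rd A i ψ w - rd A i ψ w0‖ ^ 2)
        (lin w0 e ζ0) := contDiffAt_const.mul hc2
    have hc4 : ContDiffAt ℝ ∞ (fun w => (1 - Real.log (‖a‖ ^ 2 * r ^ 2)) +
        (-(1 / r ^ 2)) * ‖rd A i ψ w - rd A i ψ w0‖ ^ 2) (lin w0 e ζ0) := contDiffAt_const.add hc3
    have hlog : ∀ ζ, F ζ ≠ 0 → Real.log (plb A i ψ w0 e r ζ) = Real.log (‖F ζ‖ ^ 2) -
        Real.log (r ^ 2) + (1 - ‖dsc A i ψ w0 e ζ - rd A i ψ w0‖ ^ 2 / r ^ 2) := by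
      intro ζ h
      have : 0 < ‖F ζ‖ := norm_pos_iff.2 h
      rw [plb, ← hF, Real.log_mul (by positivity) (Real.exp_pos _).ne', Real.log_exp,
        Real.log_div (by positivity) (by positivity)]
    refine ⟨i, hc.1, fun w => Real.log (‖f w‖ ^ 2) + ((1 - Real.log (‖a‖ ^ 2 * r ^ 2)) +
      (-(1 / r ^ 2)) * ‖rd A i ψ w - rd A i ψ w0‖ ^ 2), hc1.add hc4, ?_, ?_, fun s => ?_⟩
    · rw [max_eq_left hE.le, hEb, hlog ζ0 ha0, ← ha]
      simp only [hf0]
      rw [Real.log_mul (by positivity) (by positivity), show (‖a‖ ^ 2) ^ 2 = ‖a‖ ^ 2 * ‖a‖ ^ 2 by ring,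
        Real.log_mul (by positivity) (by positivity)]
      unfold dsc
      ring
    · have h5 : ∀ᶠ ζ in 𝓝 ζ0, f (lin w0 e ζ) ≠ 0 :=
        (hfd.self_of_nhds.continuousAt.comp (lin_diff w0 e ζ0).continuousAt).eventually_ne hfne
      filter_upwards [h5] with ζ h
      have hFζ : F ζ ≠ 0 := by
        intro h'
        rw [hfl, h', inner_zero_right] at h
        exact h rfl
      have hn : 0 < ‖F ζ‖ := norm_pos_iff.2 hFζ
      have h6 : ‖f (lin w0 e ζ)‖ ^ 2 ≤ ‖a‖ ^ 2 * ‖F ζ‖ ^ 2 := by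
        rw [hfl, ← mul_pow]
        exact pow_le_pow_left₀ (norm_nonneg _) (norm_inner_le_norm _ _) 2
      have h7 := Real.log_le_log (pow_pos (norm_pos_iff.2 h) 2) h6
      rw [Real.log_mul (by positivity) (by positivity)] at h7
      have hpos : 0 < plb A i ψ w0 e r ζ := by rw [plb, ← hF]; positivity
      have h8 : Real.log (plb A i ψ w0 e r ζ) ≤ Real.log (max (plE A i ψ w0 e r ζ) 16) :=
        Real.log_le_log hpos ((plb_le_plE hr h0 ζ).trans (le_max_left _ _))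
      rw [hlog ζ hFζ] at h8
      rw [Real.log_mul (by positivity) (by positivity)]
      have h9 : -(1 / r ^ 2) * ‖rd A i ψ (lin w0 e ζ) - rd A i ψ w0‖ ^ 2 =
          -(‖dsc A i ψ w0 e ζ - rd A i ψ w0‖ ^ 2 / r ^ 2) := by unfold dsc; ring
      rw [h9]
      linarith
    · rw [hess_add hc1 hc4, hess_add contDiffAt_const hc3, hess_log_norm hfd hfne, hess_const_76,
        hess_const_mul _ hc2, zero_add, zero_add, nq_smul,
        nq_hess_comp (u := fun z => ‖z - rd A i ψ w0‖ ^ 2) (contDiffAt_normSq _ _) hT,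
        nq_hess_normSq]
      have h1 := hlow (rd A i ψ (lin w0 e ζ0)) (by rw [mem_closedBall, dist_eq_norm]; exact hc.2) s
        (fderiv ℂ (rd A i ψ) (lin w0 e ζ0) e)
      have h2 : c0 * r ^ 2 * nq (gc K0 i (rd A i ψ (lin w0 e ζ0))) s *
          (-(1 / r ^ 2) * ‖fderiv ℂ (rd A i ψ) (lin w0 e ζ0) e‖ ^ 2) =
          -(c0 * nq (gc K0 i (rd A i ψ (lin w0 e ζ0))) s *
            ‖fderiv ℂ (rd A i ψ) (lin w0 e ζ0) e‖ ^ 2) := by field_simp
      rw [h2]; linarith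
  · -- outside
    have hne : ζ0 ≠ 0 := by
      rintro rfl
      exact hc ⟨(cond_zero (e := e) hr h0).1, (cond_zero (e := e) hr h0).2.le⟩
    have hZ : IsClosed ((A.e i).symm '' closedBall (rd A i ψ w0) r) :=
      ((isCompact_closedBall _ _).image_of_continuousOn
        ((A.e i).continuousOn_symm.mono hsub)).isClosed
    have hn0 : ψ (lin w0 e ζ0) ∉ (A.e i).symm '' closedBall (rd A i ψ w0) r := by
      rintro ⟨z, hz, hz'⟩
      refine hc ⟨hz' ▸ (A.e i).map_target (hsub hz), ?_⟩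
      have : dsc A i ψ w0 e ζ0 = z := by
        unfold dsc rd
        rw [← hz', (A.e i).right_inv (hsub hz)]
      rw [this, ← dist_eq_norm]
      exact hz
    have hcont : ContinuousAt (fun ζ => ψ (lin w0 e ζ)) ζ0 :=
      (hψ _ (lin_mem hw he hζ)).1.comp (lin_diff w0 e ζ0).continuousAt
    have h1 : ∀ᶠ ζ in 𝓝 ζ0, plE A i ψ w0 e r ζ = 1 / ‖ζ‖ ^ 2 := by
      filter_upwards [hcont.eventually (hZ.isOpen_compl.mem_nhds hn0)] with ζ h
      rw [plE, if_neg]
      rintro ⟨h2, h3⟩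
      refine h ⟨dsc A i ψ w0 e ζ, by rw [mem_closedBall, dist_eq_norm]; exact h3.le, ?_⟩
      unfold dsc rd
      rw [(A.e i).left_inv h2]
    have hl0 : lco w0 e (lin w0 e ζ0) ≠ 0 := by rwa [lco_lin he]
    have hld : ∀ᶠ w in 𝓝 (lin w0 e ζ0), DifferentiableAt ℂ (lco w0 e) w :=
      Eventually.of_forall (lco_diff w0 e)
    have hc1 : ContDiffAt ℝ ∞ (fun w => Real.log (‖lco w0 e w‖ ^ 2)) (lin w0 e ζ0) :=
      ((real_contDiffAt hld).norm_sq ℝ).log (pow_ne_zero _ (norm_ne_zero_iff.2 hl0))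
    refine ⟨j, hj, fun w => -Real.log (‖lco w0 e w‖ ^ 2), hc1.neg, ?_, ?_, fun s => ?_⟩
    · rw [max_eq_left hE.le, h1.self_of_nhds, one_div, Real.log_inv]
      simp only [lco_lin he]
    · filter_upwards [h1, isOpen_ne.mem_nhds hne] with ζ h h'
      simp only [lco_lin he]
      rw [← Real.log_inv, ← one_div, ← h]
      refine Real.log_le_log ?_ (le_max_left _ _)
      rw [h]
      have : 0 < ‖ζ‖ := norm_pos_iff.2 h'
      positivity
    · rw [hess_neg hc1, hess_log_norm hld hl0, neg_zero, nq_zero_76, mul_zero, add_zero]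
      exact bis_nonneg_of_pos hB j hjt _ _

end

end Crest.Agent.T223.Hn
end

-- ▼ part T223/HnP4_76

/-!
# Row 223, PINCH, part 4 (helper76): `pinchStmt : PinchStmt n`
-/

set_option autoImplicit false
set_option linter.unusedVariables false
set_option linter.unusedSectionVars false

open Set Filter Topology Metric
open scoped ContDiff ComplexConjugate Matrix ComplexOrder InnerProductSpace

namespace Crest.Agent.T223.Hn

open Crest.Agent.R275.Geo Crest.Agent.R275.EDR890 Crest.Agent.R273.Kah_333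
open Crest.Agent.R273.Hess_333 Crest.Agent.R273.HessB_333 Crest.Agent.R273.Defs_333
open Crest.Agent.T223.Br Crest.Agent.T223.Tr

noncomputable section

variable {n : ℕ} {M : Type} [TopologicalSpace M] [T2Space M] {A : Atl n M}

/-- lower barrier for `- log λ_min (ψ^* g₀)` -/
theorem metric_barrier (K0 : Kah A) {ψ : Cn n → M} (hψ : Imm A ψ (ball 0 1)) {w1 e1 : Cn n}
    (hw : w1 ∈ ball (0 : Cn n) 1) (he : ‖e1‖ = 1) {j : A.ι} (hj : ψ w1 ∈ (A.e j).source) :
    ∃ Φ : Cn n → ℝ, ContDiffAt ℝ ∞ Φ w1 ∧ Φ w1 = -Real.log (nq (pbm K0 ψ w1) e1) ∧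
      (∀ᶠ w in 𝓝 w1, ∃ e', ‖e'‖ = 1 ∧ Φ w ≤ -Real.log (nq (pbm K0 ψ w) e')) ∧
      ∃ s0, 0 < nq (gc K0 j (rd A j ψ w1)) s0 ∧ ∀ v, nq (hess Φ w1) v =
        bis (gc K0 j) (rd A j ψ w1) s0 (fderiv ℂ (rd A j ψ) w1 v) /
          nq (gc K0 j (rd A j ψ w1)) s0 := by
  set T := rd A j ψ with hT
  have hev := hψ.1.eventually isOpen_ball hw hj
  have hTd : ∀ᶠ w in 𝓝 w1, DifferentiableAt ℂ T w := hev.mono fun _ h => h.2.2
  have hz : T w1 ∈ (A.e j).target := (A.e j).map_source hj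
  have he0 : e1 ≠ 0 := by rintro rfl; simp at he
  set s0 := fderiv ℂ T w1 e1 with hs0
  have hs00 : s0 ≠ 0 := fun h => he0 (hψ.2 w1 hw j hj (by rw [map_zero]; exact h))
  obtain ⟨s, hsd, hs1, hNc, hNh⟩ := exists_field (gc_sm K0 j hz) (gc_herm K0 j hz) (gc_pos K0 j hz) s0
  set N : Cn n → ℝ := fun z => nq (gc K0 j z) (s z) with hN
  have hN0 : N (T w1) = nq (gc K0 j (T w1)) s0 := by simp only [hN, hs1]
  have hpos : 0 < nq (gc K0 j (T w1)) s0 := nq_pos_76 (gc_pos K0 j hz) hs00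
  set N0 := nq (gc K0 j (T w1)) s0 with hN0d
  -- the holomorphic section in the quasi-chart
  set st : Cn n → Cn n := fun w => (fderiv ℂ T w).inverse (s (T w)) with hst
  have hinv : ∀ᶠ w in 𝓝 w1, fderiv ℂ T w (st w) = s (T w) ∧ DifferentiableAt ℂ st w := by
    filter_upwards [hev, hTd.eventually_nhds] with w h h'
    have hi := hψ.2 w h.1 j h.2.1
    have e1 : fderiv ℂ T w = (eqvOf _ hi : Cn n ≃L[ℂ] Cn n) := (eqvOf_coe _ hi).symm
    constructor
    · simp only [hst]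
      conv_lhs => rw [e1]
      rw [ContinuousLinearMap.inverse_equiv]
      exact (eqvOf _ hi).apply_symm_apply _
    · have h1 : ContDiffAt ℂ 1 (fderiv ℂ T) w := (contDiffAt_of_eventually h').fderiv_right le_top
      have h2 : ContDiffAt ℂ 1 ContinuousLinearMap.inverse (fderiv ℂ T w) := by
        rw [e1]; exact contDiffAt_map_inverse _
      have h3 := (h2.comp w h1).differentiableAt (by simp)
      exact h3.clm_apply ((hsd _).comp w h'.self_of_nhds)
  have hst1 : st w1 = e1 := hψ.2 w1 hw j hj (by rw [hinv.self_of_nhds.1, hs1])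
  set f : Cn n → ℂ := fun w => innerSL ℂ e1 (st w) with hf
  have hfd : ∀ᶠ w in 𝓝 w1, DifferentiableAt ℂ f w := by
    filter_upwards [hinv] with w h
    exact (innerSL ℂ e1).differentiableAt.comp w h.2
  have hf1 : f w1 = 1 := by
    simp only [hf, hst1, innerSL_apply_apply, inner_self_eq_norm_sq_to_K, he]; simp
  have hfne : f w1 ≠ 0 := by rw [hf1]; exact one_ne_zero
  have hc1 : ContDiffAt ℝ ∞ (fun w => Real.log (‖f w‖ ^ 2)) w1 :=
    ((real_contDiffAt hfd).norm_sq ℝ).log (pow_ne_zero _ (norm_ne_zero_iff.2 hfne))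
  have hc2 : ContDiffAt ℝ ∞ (fun w => N (T w)) w1 := hNc.comp w1 (real_contDiffAt hTd)
  have hc3 : ContDiffAt ℝ ∞ (fun w => (-(1 / N0)) * N (T w)) w1 := contDiffAt_const.mul hc2
  have hc4 : ContDiffAt ℝ ∞ (fun w => (1 - Real.log N0) + (-(1 / N0)) * N (T w)) w1 :=
    contDiffAt_const.add hc3
  refine ⟨fun w => Real.log (‖f w‖ ^ 2) + ((1 - Real.log N0) + (-(1 / N0)) * N (T w)),
    hc1.add hc4, ?_, ?_, s0, hpos, fun v => ?_⟩
  · rw [nq_pbm K0 hψ.1 hw hj, ← gc_e K0 hj]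
    simp only [hf1, hN0]
    change _ = -Real.log N0
    have : -(1 / N0) * N0 = -1 := by field_simp
    rw [this]; simp; ring
  · have h5 : ∀ᶠ w in 𝓝 w1, f w ≠ 0 := hfd.self_of_nhds.continuousAt.eventually_ne hfne
    have h6 : ∀ᶠ w in 𝓝 w1, 0 < N (T w) :=
      hc2.continuousAt.eventually (lt_mem_nhds (show 0 < N (T w1) by rw [hN0]; exact hpos))
    filter_upwards [h5, h6, hinv, hev] with w h h' hi hw'
    have hs : st w ≠ 0 := by
      intro h0
      simp only [hf, h0, map_zero] at h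
      exact h rfl
    have hn : 0 < ‖st w‖ := norm_pos_iff.2 hs
    refine ⟨‖st w‖⁻¹ • st w, by simp [norm_smul, hn.ne'], ?_⟩
    rw [nq_vsmul, nq_pbm K0 hψ.1 hw'.1 hw'.2.1, ← gc_e K0 hw'.2.1]
    change _ ≤ -Real.log (‖st w‖⁻¹ ^ 2 * nq (gc K0 j (T w)) (fderiv ℂ T w (st w)))
    rw [hi.1]
    change _ ≤ -Real.log (‖st w‖⁻¹ ^ 2 * N (T w))
    have h7 : ‖f w‖ ^ 2 ≤ ‖st w‖ ^ 2 := by
      refine pow_le_pow_left₀ (norm_nonneg _) ?_ 2
      have := norm_inner_le_norm (𝕜 := ℂ) e1 (st w)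
      rw [he, one_mul] at this
      exact this
    have h8 := Real.log_le_log (pow_pos (norm_pos_iff.2 h) 2) h7
    have h9 := Real.log_le_sub_one_of_pos (div_pos h' hpos)
    rw [Real.log_div h'.ne' hpos.ne'] at h9
    rw [Real.log_mul (by positivity) h'.ne', inv_pow, Real.log_inv]
    have h10 : -(1 / N0) * N (T w) = -(N (T w) / N0) := by ring
    rw [h10]
    linarith
  · rw [hess_add hc1 hc4, hess_add contDiffAt_const hc3, hess_log_norm hfd hfne, hess_const_76,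
      hess_const_mul _ hc2, zero_add, zero_add, nq_smul, nq_hess_comp hNc hTd, hNh]
    ring

theorem continuousAt_nq_pbm (K0 : Kah A) {ψ : Cn n → M} (hψ : Hol A ψ (ball 0 1)) {w0 e : Cn n}
    {q : ℂ × Cn n} (hq : lin w0 e q.1 ∈ ball (0 : Cn n) 1) :
    ContinuousAt (fun q : ℂ × Cn n => nq (pbm K0 ψ (lin w0 e q.1)) q.2) q := by
  have h0 : ContinuousAt (fun q : ℂ × Cn n => pbm K0 ψ (lin w0 e q.1)) q :=
    (continuousAt_pbm K0 hψ isOpen_ball hq).comp (f := fun q : ℂ × Cn n => lin w0 e q.1)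
      ((lin_diff w0 e).continuous.comp continuous_fst).continuousAt
  unfold nq
  refine Complex.continuous_re.continuousAt.comp ?_
  refine tendsto_finsetSum _ fun a _ => tendsto_finsetSum _ fun b _ => ?_
  have h1 := continuousAt_pi.1 (continuousAt_pi.1 h0 a) b
  have h2 : Continuous fun q : ℂ × Cn n => q.2 a := by fun_prop
  have h3 : Continuous fun q : ℂ × Cn n => conj (q.2 b) := by fun_prop
  exact (h1.mul h2.continuousAt).mul h3.continuousAt

theorem pinch_max {K0 : Kah A} (hB : BKpos K0) {c0 r m : ℝ} (hc0 : 0 < c0) {ψ : Cn n → M}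
    (hψ : Imm A ψ (ball 0 1)) {w0 e e0 : Cn n} (hw : w0 ∈ ball (0 : Cn n) (1 / 2)) (he : ‖e‖ = 1)
    (he0 : ‖e0‖ = 1) (hr : 0 < r) {i : A.ι} (h0 : ψ w0 ∈ (A.e i).source)
    (hsub : closedBall (rd A i ψ w0) r ⊆ (A.e i).target)
    (hlow : ∀ z ∈ closedBall (rd A i ψ w0) r, ∀ s v,
      c0 * nq (gc K0 i z) s * ‖v‖ ^ 2 ≤ bis (gc K0 i) z s v) (hm : 0 < m)
    (hlo : ∀ w ∈ ball (0 : Cn n) 1, ∀ v, m * ‖v‖ ^ 2 ≤ nq (pbm K0 ψ w) v) {ε : ℝ} (hε : 0 < ε) :
    -Real.log (nq (pbm K0 ψ w0) e0) + c0 * r ^ 2 * Real.log (max (plE A i ψ w0 e r 0) 16) ≤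
      -Real.log m + c0 * r ^ 2 * Real.log 16 + ε := by
  set c := c0 * r ^ 2 with hc
  have hcp : 0 < c := by positivity
  set U : ℂ × Cn n → ℝ := fun q => -Real.log (nq (pbm K0 ψ (lin w0 e q.1)) q.2) +
    c * Real.log (max (plE A i ψ w0 e r q.1) 16) + ε * ‖q.1‖ ^ 2 with hU
  set S : Set (ℂ × Cn n) := closedBall 0 (1 / 4) ×ˢ sphere 0 1 with hS
  have hSc : IsCompact S := (isCompact_closedBall _ _).prod (isCompact_sphere _ _)
  have h0S : ((0 : ℂ), e0) ∈ S := ⟨by simp, by simpa using he0⟩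
  have hq1 : ∀ q ∈ S, ‖q.1‖ < 1 / 2 := fun q hq => by
    have := mem_closedBall_zero_iff.1 hq.1; linarith
  have hq2 : ∀ q ∈ S, m ≤ nq (pbm K0 ψ (lin w0 e q.1)) q.2 := fun q hq => by
    have h1 := hlo _ (lin_mem hw he (hq1 q hq)) q.2
    rw [mem_sphere_zero_iff_norm.1 hq.2] at h1
    simpa using h1
  have husc : UpperSemicontinuousOn U S := by
    intro q hq y hy
    obtain ⟨V, hVc, hV0, hVle⟩ := plE_usc hψ.1 hw he hr h0 (hq1 q hq)
    set U' : ℂ × Cn n → ℝ := fun q => -Real.log (nq (pbm K0 ψ (lin w0 e q.1)) q.2) +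
      c * Real.log (max (V q.1) 16) + ε * ‖q.1‖ ^ 2 with hU'
    have h1 : ContinuousAt U' q := by
      have a1 := (continuousAt_nq_pbm K0 hψ.1 (lin_mem hw he (hq1 q hq))).log
        (hm.trans_le (hq2 q hq)).ne'
      have a2 : ContinuousAt (fun q : ℂ × Cn n => max (V q.1) 16) q :=
        (hVc.comp continuousAt_fst).max continuousAt_const
      have a3 := a2.log (lt_of_lt_of_le (by norm_num) (le_max_right _ _)).ne'
      have a4 : Continuous fun q : ℂ × Cn n => ε * ‖q.1‖ ^ 2 := by fun_prop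
      exact (a1.neg.add (continuousAt_const.mul a3)).add a4.continuousAt
    have h2 : U' q < y := by simp only [hU', hV0]; exact hy
    refine Eventually.filter_mono nhdsWithin_le_nhds ?_
    filter_upwards [h1.eventually (gt_mem_nhds h2), continuousAt_fst.eventually hVle] with p hp hp'
    refine lt_of_le_of_lt ?_ hp
    simp only [hU, hU']
    have : Real.log (max (plE A i ψ w0 e r p.1) 16) ≤ Real.log (max (V p.1) 16) :=
      Real.log_le_log (lt_of_lt_of_le (by norm_num) (le_max_right _ _)) (max_le_max hp' le_rfl)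
    have := mul_le_mul_of_nonneg_left this hcp.le
    linarith
  obtain ⟨⟨ζ0, e1⟩, hqS, hmax⟩ := husc.exists_isMaxOn ⟨_, h0S⟩ hSc
  have hζ : ‖ζ0‖ < 1 / 2 := hq1 _ hqS
  have he1 : ‖e1‖ = 1 := mem_sphere_zero_iff_norm.1 hqS.2
  have hb : ‖ζ0‖ = 1 / 4 := by
    by_contra hne
    have hlt : ‖ζ0‖ < 1 / 4 := lt_of_le_of_ne (mem_closedBall_zero_iff.1 hqS.1) hne
    obtain ⟨j, hj, β, hβc, hβ0, hβle, hβh⟩ := pole_barrier hB hc0 hψ.1 hw he hr h0 hsub hlow hζ
    obtain ⟨Φ, hΦc, hΦ0, hΦle, s0, hs0, hΦh⟩ := metric_barrier K0 hψ (lin_mem hw he hζ) he1 hj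
    have hc2 : ContDiffAt ℝ ∞ (fun w => c * β w) (lin w0 e ζ0) := contDiffAt_const.mul hβc
    have hc3 : ContDiffAt ℝ ∞ (fun w : Cn n => ε * ‖w - w0‖ ^ 2) (lin w0 e ζ0) :=
      contDiffAt_const.mul (contDiffAt_normSq _ _)
    have hnl : ∀ ζ, ‖lin w0 e ζ - w0‖ = ‖ζ‖ := fun ζ => by simp [lin, norm_smul, he]
    have h1 : ∀ᶠ ζ in 𝓝 ζ0, Φ (lin w0 e ζ) + c * β (lin w0 e ζ) + ε * ‖lin w0 e ζ - w0‖ ^ 2 ≤
        Φ (lin w0 e ζ0) + c * β (lin w0 e ζ0) + ε * ‖lin w0 e ζ0 - w0‖ ^ 2 := by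
      filter_upwards [hβle, (lin_diff w0 e ζ0).continuousAt.eventually hΦle,
        continuous_norm.continuousAt.eventually (gt_mem_nhds hlt)] with ζ h h' h''
      obtain ⟨e', he', hle⟩ := h'
      have h3 : U (ζ, e') ≤ U (ζ0, e1) :=
        hmax (show (ζ, e') ∈ S from ⟨mem_closedBall_zero_iff.2 h''.le,
          mem_sphere_zero_iff_norm.2 he'⟩)
      simp only [hU] at h3
      rw [hΦ0, hβ0, hnl, hnl]
      have := mul_le_mul_of_nonneg_left h hcp.le
      linarith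
    have h2 := hess_nonpos_line (u := fun w => Φ w + c * β w + ε * ‖w - w0‖ ^ 2) (v := e)
      ((hΦc.add hc2).add hc3) (by
        have ht : Tendsto (fun ζ : ℂ => ζ0 + ζ) (𝓝 0) (𝓝 ζ0) := by
          simpa using (continuous_const_add ζ0).tendsto 0
        filter_upwards [ht.eventually h1] with ζ h
        have : lin w0 e ζ0 + ζ • e = lin w0 e (ζ0 + ζ) := by simp [lin, add_smul, add_assoc]
        rw [this]; exact h)
    rw [hess_add (hΦc.add hc2) hc3, hess_add hΦc hc2, hess_const_mul _ hβc,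
      hess_const_mul _ (contDiffAt_normSq _ _), nq_add_76, nq_add_76, nq_smul, nq_smul,
      nq_hess_normSq, hΦh, he] at h2
    have h4 := div_nonneg (hβh s0) hs0.le
    rw [add_div, mul_right_comm, mul_div_assoc, div_self hs0.ne'] at h4
    linarith
  have h5 : U (0, e0) ≤ U (ζ0, e1) := hmax h0S
  simp only [hU, lin_zero] at h5
  have hne : ζ0 ≠ 0 := by rintro rfl; simp at hb
  have h6 : plE A i ψ w0 e r ζ0 ≤ 16 := by
    refine (plE_le hne).trans ?_
    rw [hb]; norm_num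
  rw [max_eq_right h6, hb] at h5
  have h7 := Real.log_le_log hm (hq2 _ hqS)
  simp only [norm_zero] at h5
  simp only at h7
  nlinarith

theorem pinchStmt (n : ℕ) : PinchStmt n := by
  intro M _ _ A K0 hB Q hQ
  set P : Set M → Prop := fun S => ∃ c c2 : ℝ, 0 < c ∧ 0 < c2 ∧
      ∀ (ψ : Cn n → M) (m : ℝ), Imm A ψ (ball 0 1) → 0 < m →
        (∀ w ∈ ball (0 : Cn n) 1, ∀ v, m * ‖v‖ ^ 2 ≤ nq (pbm K0 ψ w) v) →
        ∀ w ∈ ball (0 : Cn n) (1 / 2), ψ w ∈ S → ∀ e0 e : Cn n, ‖e0‖ = 1 → ‖e‖ = 1 →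
          Real.log m + c * Real.log (c2 * nq (pbm K0 ψ w) e) ≤ Real.log (nq (pbm K0 ψ w) e0)
    with hP
  change P Q
  have hb : ball (0 : Cn n) (1 / 2) ⊆ ball 0 1 := ball_subset_ball (by norm_num)
  -- monotonicity in the constants
  have hmono : ∀ (ψ : Cn n → M) (m c c' c2 c2' : ℝ) (w e0 e : Cn n), 0 < m → 0 < c' → c' ≤ c →
      0 < c2' → c2' ≤ c2 → m ≤ nq (pbm K0 ψ w) e0 → m ≤ nq (pbm K0 ψ w) e →
      Real.log m + c * Real.log (c2 * nq (pbm K0 ψ w) e) ≤ Real.log (nq (pbm K0 ψ w) e0) →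
      Real.log m + c' * Real.log (c2' * nq (pbm K0 ψ w) e) ≤ Real.log (nq (pbm K0 ψ w) e0) := by
    intro ψ m c c' c2 c2' w e0 e hm hc' hcc hc2' hcc2 h1 h2 h3
    have h4 := Real.log_le_log hm h1
    have h5 : Real.log (c2' * nq (pbm K0 ψ w) e) ≤ Real.log (c2 * nq (pbm K0 ψ w) e) :=
      Real.log_le_log (mul_pos hc2' (hm.trans_le h2))
        (mul_le_mul_of_nonneg_right hcc2 (hm.trans_le h2).le)
    by_cases h6 : Real.log (c2' * nq (pbm K0 ψ w) e) ≤ 0
    · nlinarith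
    · push Not at h6
      nlinarith
  refine hQ.induction_on (p := P) ⟨1, 1, one_pos, one_pos, fun ψ m _ _ _ w _ h => h.elim⟩ ?_ ?_ ?_
  · rintro s t hst ⟨c, c2, h1, h2, h3⟩
    exact ⟨c, c2, h1, h2, fun ψ m a b d w hw hs => h3 ψ m a b d w hw (hst hs)⟩
  · rintro s t ⟨c, c2, h1, h2, h3⟩ ⟨c', c2', h1', h2', h3'⟩
    refine ⟨min c c', min c2 c2', lt_min h1 h1', lt_min h2 h2', ?_⟩
    intro ψ m a b d w hw hs e0 e he0 he
    have k1 : m ≤ nq (pbm K0 ψ w) e0 := by simpa [he0] using d w (hb hw) e0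
    have k2 : m ≤ nq (pbm K0 ψ w) e := by simpa [he] using d w (hb hw) e
    rcases hs with hs | hs
    · exact hmono ψ m c _ c2 _ w e0 e b (lt_min h1 h1') (min_le_left _ _) (lt_min h2 h2')
        (min_le_left _ _) k1 k2 (h3 ψ m a b d w hw hs e0 e he0 he)
    · exact hmono ψ m c' _ c2' _ w e0 e b (lt_min h1 h1') (min_le_right _ _) (lt_min h2 h2')
        (min_le_right _ _) k1 k2 (h3' ψ m a b d w hw hs e0 e he0 he)
  · intro x _
    obtain ⟨i, hi⟩ := A.cover x
    obtain ⟨ρ, hρ, hρs⟩ := Metric.isOpen_iff.1 (A.e i).open_target _ ((A.e i).map_source hi)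
    set r := ρ / 3 with hr
    have hrp : 0 < r := by positivity
    have hsub : closedBall (A.e i x) (2 * r) ⊆ (A.e i).target :=
      (closedBall_subset_ball (by linarith)).trans hρs
    obtain ⟨c0, hc0, hlow⟩ := exists_bis_lower hB i (isCompact_closedBall _ _) hsub
    obtain ⟨C, hC, hup⟩ := exists_upper K0 i (isCompact_closedBall _ _) hsub
    refine ⟨(A.e i).source ∩ A.e i ⁻¹' ball (A.e i x) r, mem_nhdsWithin_of_mem_nhds
      (((A.e i).isOpen_inter_preimage isOpen_ball).mem_nhds ⟨hi, mem_ball_self hrp⟩),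
      c0 * r ^ 2, 1 / (16 * C * r ^ 2), by positivity, by positivity, ?_⟩
    intro ψ m hψ hm hlo w hw hs e0 e he0 he
    have hss : closedBall (rd A i ψ w) r ⊆ closedBall (A.e i x) (2 * r) := by
      refine closedBall_subset_closedBall' ?_
      have : dist (rd A i ψ w) (A.e i x) < r := hs.2
      linarith
    have h1 : -Real.log (nq (pbm K0 ψ w) e0) +
        c0 * r ^ 2 * Real.log (max (plE A i ψ w e r 0) 16) ≤
        -Real.log m + c0 * r ^ 2 * Real.log 16 :=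
      le_of_forall_pos_le_add fun ε hε => pinch_max hB hc0 hψ hw he he0 hrp hs.1 (hss.trans hsub)
        (fun z hz => hlow z (hss hz)) hm hlo hε
    have k2 : m ≤ nq (pbm K0 ψ w) e := by simpa [he] using hlo w (hb hw) e
    have hd : HasDerivAt (dsc A i ψ w e) (fderiv ℂ (rd A i ψ) w e) 0 := by
      have a1 : HasDerivAt (lin w e) e 0 := by
        have := ((hasDerivAt_id (0 : ℂ)).smul_const e).const_add w
        rw [one_smul] at this
        exact this
      have a2 : HasFDerivAt (rd A i ψ) (fderiv ℂ (rd A i ψ) w) (lin w e 0) := by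
        rw [lin_zero]; exact ((hψ.1 w (hb hw)).2 i hs.1).hasFDerivAt
      exact a2.comp_hasDerivAt 0 a1
    have h2 : 16 * (1 / (16 * C * r ^ 2) * nq (pbm K0 ψ w) e) ≤ max (plE A i ψ w e r 0) 16 := by
      refine le_trans ?_ (le_max_left _ _)
      rw [plE, if_pos (cond_zero hrp hs.1), plb, dslope_same, hd.deriv, dsc_zero, sub_self,
        nq_pbm K0 hψ.1 (hb hw) hs.1, ← gc_e K0 hs.1]
      have a1 := hup (rd A i ψ w) (hss (mem_closedBall_self hrp.le)) (fderiv ℂ (rd A i ψ) w e)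
      have a2 : (1 : ℝ) ≤ Real.exp (1 - ‖(0 : Cn n)‖ ^ 2 / r ^ 2) := by simp
      calc 16 * (1 / (16 * C * r ^ 2) * nq (gc K0 i (A.e i (ψ w))) (fderiv ℂ (rd A i ψ) w e))
          ≤ 16 * (1 / (16 * C * r ^ 2) * (C * ‖fderiv ℂ (rd A i ψ) w e‖ ^ 2)) := by
            gcongr; exact a1
        _ = ‖fderiv ℂ (rd A i ψ) w e‖ ^ 2 / r ^ 2 * 1 := by field_simp
        _ ≤ _ := by gcongr
    have h3 := Real.log_le_log (by have := hm.trans_le k2; positivity) h2
    rw [Real.log_mul (by norm_num) (by have := hm.trans_le k2; positivity)] at h3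
    have h4 := mul_le_mul_of_nonneg_left h3 (by positivity : 0 ≤ c0 * r ^ 2)
    linarith

end

end Crest.Agent.T223.Hn
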