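import Crest.Agent.R266.Osgood

-- ▼ part T223/AndA_22
section

/-!
# Row 223, leaf AND (helper22), part A: orders of vanishing of holomorphic germs
-/

set_option autoImplicit false
set_option linter.unusedSectionVars false
set_option linter.unusedVariables false

open Set Filter Topology Metric Asymptotics

namespace Crest.Agent.T223.And

noncomputable section

variable {E F : Type*} [NormedAddCommGroup E] [NormedSpace ℂ E] [NormedAddCommGroup F]
  [NormedSpace ℂ F]

/-- `H = O(|z|^k)` at the origin -/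
def OO (k : ℕ) (H : E → F) : Prop := H =O[𝓝 0] fun z => ‖z‖ ^ k

theorem OO.bound {k : ℕ} {H : E → F} (h : OO k H) :
    ∃ K : ℝ, 0 < K ∧ ∀ᶠ z in 𝓝 (0 : E), ‖H z‖ ≤ K * ‖z‖ ^ k := by
  obtain ⟨K, hK, h⟩ := (IsBigO.exists_pos h)
  refine ⟨K, hK, ?_⟩
  filter_upwards [h.bound] with z hz
  simpa using hz

theorem oo_of_bound {k : ℕ} {H : E → F} {K : ℝ} (h : ∀ᶠ z in 𝓝 (0 : E), ‖H z‖ ≤ K * ‖z‖ ^ k) :
    OO k H := by
  refine IsBigO.of_bound K ?_
  filter_upwards [h] with z hz
  simpa using hz

theorem OO.zero {k : ℕ} {H : E → F} (h : OO (k + 1) H) : H 0 = 0 := by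
  obtain ⟨K, -, h⟩ := h.bound
  simpa using h.self_of_nhds

theorem OO.mono {k l : ℕ} {H : E → F} (h : OO k H) (hl : l ≤ k) : OO l H := by
  obtain ⟨K, hK, h⟩ := h.bound
  refine oo_of_bound (K := K) ?_
  filter_upwards [h, closedBall_mem_nhds (0 : E) one_pos] with z hz h1
  refine hz.trans (mul_le_mul_of_nonneg_left ?_ hK.le)
  exact pow_le_pow_of_le_one (norm_nonneg _) (by simpa using h1) hl

theorem OO.add {k : ℕ} {H G : E → F} (h : OO k H) (g : OO k G) : OO k (fun z => H z + G z) :=
  IsBigO.add h g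

theorem OO.sub {k : ℕ} {H G : E → F} (h : OO k H) (g : OO k G) : OO k (fun z => H z - G z) :=
  IsBigO.sub h g

theorem OO.neg {k : ℕ} {H : E → F} (h : OO k H) : OO k (fun z => - H z) :=
  IsBigO.neg_left h

theorem OO.smul {k : ℕ} {H : E → F} (h : OO k H) (c : ℂ) : OO k (fun z => c • H z) :=
  IsBigO.const_smul_left h c

theorem OO.congr {k : ℕ} {H G : E → F} (h : OO k H) (e : H =ᶠ[𝓝 0] G) : OO k G :=
  IsBigO.congr' h e EventuallyEq.rfl

theorem OO.of_le {F' : Type*} [NormedAddCommGroup F'] {k : ℕ} {H : E → F} {G : E → F'} {c : ℝ}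
    (h : OO k H) (e : ∀ᶠ z in 𝓝 (0 : E), ‖G z‖ ≤ c * ‖H z‖) : OO k G :=
  (IsBigO.of_bound c e).trans h

theorem oo_id : OO 1 (fun z : E => z) := oo_of_bound (K := 1) (by simp)

theorem OO.tendsto {k : ℕ} {H : E → F} (h : OO (k + 1) H) : Tendsto H (𝓝 0) (𝓝 0) := by
  refine IsBigO.trans_tendsto h ?_
  have : Continuous fun z : E => ‖z‖ ^ (k + 1) := by fun_prop
  simpa using this.tendsto 0

/-- composition with a germ of order one -/
theorem OO.comp {E' : Type*} [NormedAddCommGroup E'] [NormedSpace ℂ E'] {k : ℕ} {H : E → F} {G : E' → E}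
    (h : OO k H) (g : OO 1 G) : OO k (fun z => H (G z)) := by
  obtain ⟨K, hK, h⟩ := h.bound
  obtain ⟨L, hL, g'⟩ := g.bound
  refine oo_of_bound (K := K * L ^ k) ?_
  filter_upwards [g.tendsto.eventually h, g'] with z hz h2
  rw [pow_one] at h2
  refine hz.trans ?_
  rw [mul_assoc, ← mul_pow]
  gcongr

theorem OO.one_of_tan {G : E → E} (h : OO 2 (fun z => G z - z)) : OO 1 G := by
  have := (h.mono (by norm_num : 1 ≤ 2)).add oo_id
  simpa using this

theorem oo_one_of_diff {G : E → F} (h : DifferentiableAt ℂ G 0) (h0 : G 0 = 0) : OO 1 G := by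
  have := h.isBigO_sub
  simp only [h0, sub_zero] at this
  unfold OO
  simpa using this.norm_right

/-- Schwarz lemma of order `k + 1` -/
theorem OO.schwarz {k : ℕ} {H : E → F} (h : OO (k + 1) H) {R M : ℝ}
    (hd : DifferentiableOn ℂ H (ball 0 R)) (hM : ∀ z ∈ ball (0 : E) R, ‖H z‖ ≤ M) {z : E}
    (hz : z ∈ ball (0 : E) R) : ‖H z‖ ≤ M * (‖z‖ / R) ^ (k + 1) := by
  have h0 := h.zero
  have := Complex.dist_le_mul_div_pow_of_mapsTo_ball_of_isLittleO (n := k) (R₂ := M) hd
    (fun w hw => by simpa [h0] using hM w hw) ?_ hz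
  · simpa [h0] using this
  · simp only [h0, sub_zero]
    refine IsBigO.trans_isLittleO h ?_
    simp only [pow_succ]
    have h1 : (fun z : E => ‖z‖) =o[𝓝 0] fun _ => (1 : ℝ) := by
      rw [isLittleO_one_iff]
      simpa using (continuous_norm (E := E)).tendsto 0
    simpa using (isBigO_refl (fun z : E => ‖z‖ ^ k) (𝓝 0)).mul_isLittleO h1

/-- the derivative loses one order -/
theorem OO.fderiv {k : ℕ} {H : E → F} (h : OO (k + 1) H)
    (hd : ∀ᶠ z in 𝓝 (0 : E), DifferentiableAt ℂ H z) : OO k (fderiv ℂ H) := by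
  obtain ⟨K, hK, h⟩ := h.bound
  obtain ⟨δ, hδ, hb⟩ := Metric.eventually_nhds_iff_ball.1 (h.and hd)
  refine oo_of_bound (K := 4 * K * 2 ^ k) ?_
  filter_upwards [ball_mem_nhds (0 : E) (by positivity : 0 < δ / 3)] with z hz
  rw [mem_ball_zero_iff] at hz
  have key : ∀ ε : ℝ, 0 < ε → ε < δ / 3 → ‖_root_.fderiv ℂ H z‖ ≤ 4 * K * (2 * ‖z‖ + ε) ^ k := by
    intro ε hε hε'
    have hρ : 0 < ‖z‖ + ε := by positivity
    have hsub : ∀ w ∈ ball z (‖z‖ + ε), ‖w‖ ≤ 2 * ‖z‖ + ε := by
      intro w hw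
      rw [mem_ball_iff_norm] at hw
      have := norm_add_le (w - z) z
      rw [sub_add_cancel] at this
      linarith
    have hin : ∀ w ∈ ball z (‖z‖ + ε), w ∈ ball (0 : E) δ := by
      intro w hw
      rw [mem_ball_zero_iff]
      have := hsub w hw
      linarith
    have hbd : ∀ w ∈ ball z (‖z‖ + ε), ‖H w‖ ≤ K * (2 * ‖z‖ + ε) ^ (k + 1) := by
      intro w hw
      refine (hb w (hin w hw)).1.trans ?_
      have := hsub w hw
      gcongr
    have := Complex.norm_fderiv_le_div_of_mapsTo_ball (f := H) (c := z) (R₁ := ‖z‖ + ε)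
      (R₂ := 2 * (K * (2 * ‖z‖ + ε) ^ (k + 1)))
      (fun w hw => (hb w (hin w hw)).2.differentiableWithinAt) ?_ hρ
    · refine this.trans ?_
      rw [div_le_iff₀ hρ, pow_succ]
      have h1 : 0 ≤ K * (2 * ‖z‖ + ε) ^ k := by positivity
      nlinarith [norm_nonneg z]
    · intro w hw
      rw [mem_closedBall, dist_eq_norm]
      have h1 := hbd w hw
      have h2 := hbd z (mem_ball_self hρ)
      have := norm_sub_le (H w) (H z)
      linarith
  have ht : Tendsto (fun ε : ℝ => 4 * K * (2 * ‖z‖ + ε) ^ k) (𝓝[>] 0)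
      (𝓝 (4 * K * (2 * ‖z‖ + 0) ^ k)) := by
    refine Tendsto.mono_left ?_ nhdsWithin_le_nhds
    exact Continuous.tendsto (by fun_prop) 0
  have := ge_of_tendsto ht (by
    filter_upwards [Ioo_mem_nhdsGT (by positivity : (0 : ℝ) < δ / 3)] with ε hε
    exact key ε hε.1 hε.2)
  refine this.trans_eq ?_
  rw [add_zero, mul_pow]; ring

/-- `σ ∘ S - σ ∘ T` when `S - T` is small -/
theorem OO.comp_sub {E' : Type*} [NormedAddCommGroup E'] [NormedSpace ℂ E'] {k l : ℕ} {σ : E → F} {S T : E' → E}
    (h : OO k (_root_.fderiv ℂ σ)) (hd : ∀ᶠ z in 𝓝 (0 : E), DifferentiableAt ℂ σ z)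
    (hS : OO 1 S) (hT : OO 1 T) (hST : OO l (fun z => S z - T z)) :
    OO (k + l) (fun z => σ (S z) - σ (T z)) := by
  obtain ⟨K, hK, h⟩ := h.bound
  obtain ⟨δ, hδ, hb⟩ := Metric.eventually_nhds_iff_ball.1 (h.and hd)
  obtain ⟨A, hA, hS'⟩ := hS.bound
  obtain ⟨B, hB, hT'⟩ := hT.bound
  obtain ⟨L, hL, hST⟩ := hST.bound
  refine oo_of_bound (K := K * (A + B) ^ k * L) ?_
  have hsm : ∀ᶠ z in 𝓝 (0 : E'), (A + B) * ‖z‖ < δ := by
    have : Continuous fun z : E' => (A + B) * ‖z‖ := by fun_prop
    exact (this.tendsto 0).eventually (gt_mem_nhds (by simpa using hδ))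
  filter_upwards [hS', hT', hST, hsm] with z h1 h2 h3 h4
  rw [pow_one] at h1 h2
  have hin : ∀ w ∈ closedBall (0 : E) ((A + B) * ‖z‖), w ∈ ball (0 : E) δ :=
    fun w hw => closedBall_subset_ball h4 hw
  have := (convex_closedBall (0 : E) ((A + B) * ‖z‖)).norm_image_sub_le_of_norm_fderiv_le
    (f := σ) (𝕜 := ℂ) (C := K * ((A + B) * ‖z‖) ^ k) (x := T z) (y := S z)
    (fun w hw => (hb w (hin w hw)).2)
    (fun w hw => (hb w (hin w hw)).1.trans (by
      have : ‖w‖ ≤ (A + B) * ‖z‖ := by simpa using hw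
      gcongr))
    (by rw [mem_closedBall_zero_iff]; nlinarith [norm_nonneg z])
    (by rw [mem_closedBall_zero_iff]; nlinarith [norm_nonneg z])
  refine this.trans ?_
  calc K * ((A + B) * ‖z‖) ^ k * ‖S z - T z‖ ≤ K * ((A + B) * ‖z‖) ^ k * (L * ‖z‖ ^ l) := by gcongr
    _ = _ := by rw [mul_pow, pow_add]; ring

theorem oo_zero_fderiv [FiniteDimensional ℂ E] [CompleteSpace F] {σ : E → F}
    (hd : ∀ᶠ z in 𝓝 (0 : E), DifferentiableAt ℂ σ z) : OO 0 (fderiv ℂ σ) := by
  have := (Crest.Agent.R266.SCV.analyticAt_of_eventually_differentiableAt hd).fderiv.continuousAt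
  unfold OO
  simpa using this.isBigO_one (F := ℝ)

/-- leading homogeneous term -/
theorem OO.lead [FiniteDimensional ℂ E] [CompleteSpace F] {k : ℕ} {H : E → F} (h : OO k H)
    (hd : ∀ᶠ z in 𝓝 (0 : E), DifferentiableAt ℂ H z) :
    ∃ p : ContinuousMultilinearMap ℂ (fun _ : Fin k => E) F,
      OO (k + 1) (fun z => H z - p (fun _ => z)) := by
  obtain ⟨p, hp⟩ := Crest.Agent.R266.SCV.analyticAt_of_eventually_differentiableAt hd
  have hz : ∀ j, j < k → ∀ y : E, p j (fun _ => y) = 0 := by
    intro j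
    induction j using Nat.strong_induction_on with
    | _ j ih =>
      intro hj
      have h1 := hp.isBigO_sub_partialSum_pow (j + 1)
      have h2 : ∀ y : E, p.partialSum (j + 1) y = p j (fun _ => y) := by
        intro y
        rw [FormalMultilinearSeries.partialSum, Finset.sum_range_succ, Finset.sum_eq_zero, zero_add]
        intro i hi
        have hi' := Finset.mem_range.1 hi
        exact ih i hi' (by omega) y
      simp only [zero_add, h2] at h1
      have h3 : OO (j + 1) (fun y => H y - (H y - p j (fun _ => y))) :=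
        (h.mono (by omega)).sub h1
      simp only [sub_sub_cancel] at h3
      exact fun y => IsBigO.continuousMultilinearMap_apply_eq_zero h3 y
  refine ⟨p k, ?_⟩
  have h1 := hp.isBigO_sub_partialSum_pow (k + 1)
  have h2 : ∀ y : E, p.partialSum (k + 1) y = p k (fun _ => y) := by
    intro y
    rw [FormalMultilinearSeries.partialSum, Finset.sum_range_succ, Finset.sum_eq_zero, zero_add]
    intro i hi
    exact hz i (Finset.mem_range.1 hi) y
  simp only [zero_add, h2] at h1
  exact h1

/-- a homogeneous function of degree `k` inherits the bound of a function it approximates -/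
theorem hom_bound {k : ℕ} {X H : E → F} (hX : ∀ (t : ℝ) z, X ((t : ℂ) • z) = ((t : ℂ) ^ k) • X z)
    (h : OO (k + 1) (fun z => H z - X z)) {M : ℝ}
    (hM : ∀ᶠ z in 𝓝 (0 : E), ‖H z‖ ≤ M * ‖z‖ ^ k) (z : E) : ‖X z‖ ≤ M * ‖z‖ ^ k := by
  obtain ⟨K, hK, h⟩ := h.bound
  have ht : Tendsto (fun t : ℝ => (t : ℂ) • z) (𝓝[>] 0) (𝓝 0) := by
    refine Tendsto.mono_left ?_ nhdsWithin_le_nhds
    have : Continuous fun t : ℝ => (t : ℂ) • z := by fun_prop
    simpa using this.tendsto 0
  have hl : Tendsto (fun t : ℝ => M * ‖z‖ ^ k + K * ‖z‖ ^ (k + 1) * t) (𝓝[>] 0)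
      (𝓝 (M * ‖z‖ ^ k + K * ‖z‖ ^ (k + 1) * 0)) := by
    refine Tendsto.mono_left ?_ nhdsWithin_le_nhds
    exact Continuous.tendsto (by fun_prop) 0
  have := ge_of_tendsto hl (b := ‖X z‖) (by
    filter_upwards [ht.eventually h, ht.eventually hM, self_mem_nhdsWithin] with t h1 h2 h3
    have h3 : 0 < t := h3
    have e1 : ‖(t : ℂ) • z‖ = t * ‖z‖ := by rw [norm_smul]; simp [abs_of_pos h3]
    have e2 : ‖X ((t : ℂ) • z)‖ = t ^ k * ‖X z‖ := by
      rw [hX, norm_smul]; simp [abs_of_pos h3]
    have h4 := norm_sub_le (H ((t : ℂ) • z)) (H ((t : ℂ) • z) - X ((t : ℂ) • z))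
    rw [sub_sub_cancel, e2] at h4
    rw [e1] at h1 h2
    have h5 : t ^ k * ‖X z‖ ≤ t ^ k * (M * ‖z‖ ^ k + K * ‖z‖ ^ (k + 1) * t) := by
      calc t ^ k * ‖X z‖ ≤ M * (t * ‖z‖) ^ k + K * (t * ‖z‖) ^ (k + 1) := by linarith
        _ = _ := by rw [mul_pow, mul_pow]; ring
    exact le_of_mul_le_mul_left h5 (pow_pos h3 k))
  simpa using this

/-- a homogeneous function of degree `k` which is `O(|z|^(k+1))` vanishes -/
theorem hom_zero {k : ℕ} {X : E → F} (hX : ∀ (t : ℝ) z, X ((t : ℂ) • z) = ((t : ℂ) ^ k) • X z)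
    (h : OO (k + 1) X) (z : E) : X z = 0 := by
  have := hom_bound (H := fun _ => (0 : F)) (M := 0) hX (by simpa using h.neg) (by simp) z
  simpa using this

end

end Crest.Agent.T223.And
end

-- ▼ part T223/AndB_22
section

/-!
# Row 223, leaf AND (helper22), part B: divergence free homogeneous fields are sums of shears
-/

set_option autoImplicit false
set_option linter.unusedSectionVars false
set_option linter.unusedVariables false

open Set Filter Topology Metric Asymptotics MvPolynomial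

namespace Crest.Agent.T223.And

noncomputable section

abbrev En (n : ℕ) : Type := EuclideanSpace ℂ (Fin n)
abbrev Pl (n : ℕ) : Type := MvPolynomial (Fin n) ℂ

variable {n : ℕ}

/-- evaluation of a polynomial -/
def ev (p : Pl n) (z : En n) : ℂ := MvPolynomial.eval (fun j => z j) p

/-- unit vectors -/
def ee (i : Fin n) : En n := EuclideanSpace.single i 1

@[simp] theorem ev_add (p q : Pl n) (z : En n) : ev (p + q) z = ev p z + ev q z := by simp [ev]
@[simp] theorem ev_sub (p q : Pl n) (z : En n) : ev (p - q) z = ev p z - ev q z := by simp [ev]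
@[simp] theorem ev_mul (p q : Pl n) (z : En n) : ev (p * q) z = ev p z * ev q z := by simp [ev]
@[simp] theorem ev_pow (p : Pl n) (k : ℕ) (z : En n) : ev (p ^ k) z = ev p z ^ k := by simp [ev]
@[simp] theorem ev_C (c : ℂ) (z : En n) : ev (C c : Pl n) z = c := by simp [ev]
@[simp] theorem ev_X (i : Fin n) (z : En n) : ev (X i : Pl n) z = z i := by simp [ev]
@[simp] theorem ev_zero (z : En n) : ev (0 : Pl n) z = 0 := by simp [ev]
@[simp] theorem ev_one (z : En n) : ev (1 : Pl n) z = 1 := by simp [ev]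
@[simp] theorem ev_smul (c : ℂ) (p : Pl n) (z : En n) : ev (c • p) z = c * ev p z := by simp [ev]
theorem ev_sum {ι : Type*} (s : Finset ι) (p : ι → Pl n) (z : En n) :
    ev (∑ a ∈ s, p a) z = ∑ a ∈ s, ev (p a) z := by simp [ev]
theorem ev_prod {ι : Type*} (s : Finset ι) (p : ι → Pl n) (z : En n) :
    ev (∏ a ∈ s, p a) z = ∏ a ∈ s, ev (p a) z := by simp [ev]
theorem ev_monomial (I : Fin n →₀ ℕ) (r : ℂ) (z : En n) :
    ev (monomial I r) z = r * ∏ j, z j ^ I j := by
  simp [ev, eval_monomial, Finsupp.prod_fintype]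

theorem ev_ext {p : Pl n} (h : ∀ z, ev p z = 0) : p = 0 := by
  refine MvPolynomial.funext fun x => ?_
  simpa [ev] using h (WithLp.toLp 2 x)

theorem ev_monomial_inv (I : Fin n →₀ ℕ) (r : ℂ) (z w : En n) (h : ∀ j, I j ≠ 0 → w j = 0) :
    ev (monomial I r) (z + w) = ev (monomial I r) z := by
  rw [ev_monomial, ev_monomial]
  congr 1
  refine Finset.prod_congr rfl fun j _ => ?_
  by_cases hj : I j = 0
  · simp [hj]
  · simp [h j hj]

theorem deg_of_wt {d : Fin n →₀ ℕ} {k : ℕ} (h : Finsupp.weight (1 : Fin n → ℕ) d = k) :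
    d.degree = k := by
  rw [Finsupp.degree_eq_weight_one]; exact h

theorem ev_hom {p : Pl n} {k : ℕ} (hp : p.IsHomogeneous k) (t : ℂ) (z : En n) :
    ev p (t • z) = t ^ k * ev p z := by
  induction hp using IsWeightedHomogeneous.induction_on with
  | zero => simp
  | add p q hp hq h1 h2 => simp [h1, h2, mul_add]
  | monomial d r hr =>
    replace hr := deg_of_wt hr
    rw [ev_monomial, ev_monomial, ← hr, Finsupp.degree_eq_sum]
    simp [mul_pow, Finset.prod_mul_distrib, Finset.prod_pow_eq_pow_sum]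
    ring

theorem ev_bound {p : Pl n} {k : ℕ} (hp : p.IsHomogeneous k) :
    ∃ K : ℝ, 0 ≤ K ∧ ∀ z, ‖ev p z‖ ≤ K * ‖z‖ ^ k := by
  induction hp using IsWeightedHomogeneous.induction_on with
  | zero => exact ⟨0, le_rfl, by simp⟩
  | add p q hp hq h1 h2 =>
    obtain ⟨K, hK, h1⟩ := h1
    obtain ⟨L, hL, h2⟩ := h2
    refine ⟨K + L, by positivity, fun z => ?_⟩
    rw [ev_add, add_mul]
    exact (norm_add_le _ _).trans (add_le_add (h1 z) (h2 z))
  | monomial d r hr =>
    replace hr := deg_of_wt hr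
    refine ⟨‖r‖, norm_nonneg _, fun z => ?_⟩
    rw [ev_monomial, norm_mul, ← hr, Finsupp.degree_eq_sum, ← Finset.prod_pow_eq_pow_sum,
      norm_prod]
    gcongr with j
    rw [norm_pow]
    gcongr
    exact PiLp.norm_apply_le z j

/-- coordinate functionals -/
def pr (i : Fin n) : En n →L[ℂ] ℂ := EuclideanSpace.proj i

@[simp] theorem pr_apply (i : Fin n) (v : En n) : pr i v = v i := rfl

theorem ev_hasFDerivAt (p : Pl n) (z : En n) :
    HasFDerivAt (ev p) (∑ i, ev (pderiv i p) z • pr i) z := by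
  induction p using MvPolynomial.induction_on with
  | C a =>
    have : ev (C a : Pl n) = fun _ => a := by ext z; simp
    rw [this]
    refine (hasFDerivAt_const a z).congr_fderiv ?_
    ext v
    simp
  | add p q hp hq =>
    have : ev (p + q) = ev p + ev q := by ext z; simp
    rw [this]
    refine (hp.add hq).congr_fderiv ?_
    ext v
    simp [add_mul, Finset.sum_add_distrib]
  | mul_X p i hp =>
    have : ev (p * X i) = ev p * (pr i : En n → ℂ) := by
      ext z; simp
    rw [this]
    refine (hp.mul (pr i).hasFDerivAt).congr_fderiv ?_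
    ext v
    simp only [Derivation.leibniz, smul_eq_mul, ev_add, ev_mul, ev_X, pderiv_X,
      sum_apply, smul_apply, add_apply,
      add_mul, Finset.sum_add_distrib, Finset.mul_sum, pr_apply]
    congr 1
    · rw [Finset.sum_eq_single i]
      · simp
      · intro j _ hj
        simp [hj.symm]
      · simp
    · exact Finset.sum_congr rfl fun j _ => by ring

theorem ev_differentiable (p : Pl n) : Differentiable ℂ (ev p) :=
  fun z => (ev_hasFDerivAt p z).differentiableAt

/-- the field `p e_i` -/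
def fld (i : Fin n) : Pl n →ₗ[ℂ] (En n → En n) where
  toFun p := fun z => ev p z • ee i
  map_add' p q := by ext1 z; simp [add_smul]
  map_smul' c p := by ext1 z; simp [mul_smul]

theorem fld_apply (i : Fin n) (p : Pl n) (z : En n) : fld i p z = ev p z • ee i := rfl

/-- shear fields of degree `k` -/
def Sh (n k : ℕ) : Set (En n → En n) :=
  {σ | ∃ (p : Pl n) (v : En n), p.IsHomogeneous k ∧ (∀ z (t : ℂ), ev p (z + t • v) = ev p z) ∧
    σ = fun z => ev p z • v}

theorem coeff_extract {M : ℕ} {A B : ℕ → ℂ}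
    (h : ∀ l : ℂ, ∑ s ∈ Finset.range M, l ^ (s + 1) * A s - ∑ s ∈ Finset.range M, l ^ s * B s = 0)
    {b : ℕ} (hb : b + 1 < M) : A b = B (b + 1) := by
  have hp : (∑ s ∈ Finset.range M, Polynomial.monomial (s + 1) (A s) -
      ∑ s ∈ Finset.range M, Polynomial.monomial s (B s) : Polynomial ℂ) = 0 := by
    refine Polynomial.funext fun l => ?_
    simpa [Polynomial.eval_finsetSum, mul_comm] using h l
  have := congrArg (fun p => Polynomial.coeff p (b + 1)) hp
  simp only [Polynomial.coeff_sub, Polynomial.finsetSum_coeff, Polynomial.coeff_monomial,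
    Polynomial.coeff_zero, add_left_inj, Finset.sum_ite_eq', Finset.mem_range] at this
  rw [if_pos (by omega), if_pos hb] at this
  exact sub_eq_zero.1 this

section span

variable {k : ℕ} {φ : (En n → En n) →ₗ[ℂ] ℂ}

theorem phi_shear (hφ : ∀ σ ∈ Sh n k, φ σ = 0) {I : Fin n →₀ ℕ} {i : Fin n} (hI : I.degree = k)
    (hi : I i = 0) : φ (fld i (monomial I 1)) = 0 := by
  refine hφ _ ⟨monomial I 1, ee i, isHomogeneous_monomial _ hI, fun z t => ?_, rfl⟩
  refine ev_monomial_inv _ _ _ _ fun j hj => ?_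
  have : j ≠ i := fun e => hj (e ▸ hi)
  simp [ee, this]

theorem phi_ham (hφ : ∀ σ ∈ Sh n k, φ σ = 0) {J : Fin n →₀ ℕ} {i l : Fin n} (hil : i ≠ l)
    (hJ : J.degree + 1 = k) :
    φ (fld i (monomial (J + Finsupp.single i 1) 1)) * (J l + 1) =
      φ (fld l (monomial (J + Finsupp.single l 1) 1)) * (J i + 1) := by
  set a := J i with ha
  set b := J l with hb
  set J' := (J.erase i).erase l with hJ'
  have hJi : J' i = 0 := by simp [hJ', Finsupp.erase_apply]
  have hJl : J' l = 0 := by simp [hJ']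
  have hdec : J = J' + Finsupp.single i a + Finsupp.single l b := by
    ext j
    by_cases h1 : j = i
    · subst h1; simp [hJi, ha, hil.symm]
    · by_cases h2 : j = l
      · subst h2; simp [hJl, hb, hil]
      · simp [hJ', h1, h2]
  have hdeg : J'.degree + (a + b + 1) = k := by
    rw [← hJ]
    conv_rhs => rw [hdec]
    simp only [map_add, Finsupp.degree_single]
    ring
  set N := a + b + 1 with hN
  set m : ℕ → Pl n := fun s => monomial J' 1 * X l ^ s * X i ^ (N - s) with hm
  have hq : ∀ c : ℂ, monomial J' 1 * (C c * X l + X i : Pl n) ^ N =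
      ∑ s ∈ Finset.range (N + 1), (c ^ s * (N.choose s : ℂ)) • m s := by
    intro c
    rw [add_pow, Finset.mul_sum]
    refine Finset.sum_congr rfl fun s _ => ?_
    simp only [hm, smul_eq_C_mul, map_mul, map_pow, map_natCast, mul_pow]
    ring
  have key : ∀ c : ℂ,
      ∑ s ∈ Finset.range (N + 1), c ^ (s + 1) * ((N.choose s : ℂ) * φ (fld i (m s))) -
      ∑ s ∈ Finset.range (N + 1), c ^ s * ((N.choose s : ℂ) * φ (fld l (m s))) = 0 := by
    intro c
    have h1 := hφ _ ⟨monomial J' 1 * (C c * X l + X i : Pl n) ^ N, c • ee i - ee l, ?_, ?_, rfl⟩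
    · have h2 : (fun z => ev (monomial J' 1 * (C c * X l + X i : Pl n) ^ N) z • (c • ee i - ee l))
          = c • fld i (monomial J' 1 * (C c * X l + X i : Pl n) ^ N) -
            fld l (monomial J' 1 * (C c * X l + X i : Pl n) ^ N) := by
        ext1 z
        simp only [Pi.sub_apply, Pi.smul_apply, fld_apply, smul_sub]
        rw [smul_comm]
      rw [h2, hq] at h1
      simp only [map_sub, map_smul, map_sum, smul_eq_mul, Finset.mul_sum] at h1
      rw [← h1]
      congr 1
      · exact Finset.sum_congr rfl fun s _ => by ring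
      · exact Finset.sum_congr rfl fun s _ => by ring
    · rw [← hdeg]
      refine (isHomogeneous_monomial _ rfl).mul ?_
      simpa using ((isHomogeneous_C_mul_X c l).add (isHomogeneous_X ℂ i)).pow N
    · intro z t
      rw [ev_mul, ev_mul, ev_monomial_inv]
      · congr 1
        simp only [ev_pow, ev_add, ev_mul, ev_C, ev_X]
        congr 1
        simp [ee, hil, hil.symm]
        ring
      · intro j hj
        have h1 : j ≠ i := fun e => hj (e ▸ hJi)
        have h2 : j ≠ l := fun e => hj (e ▸ hJl)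
        simp [ee, h1, h2]
  have h3 := coeff_extract key (b := b) (by omega)
  have e1 : m b = monomial (J + Finsupp.single i 1) 1 := by
    simp only [hm, X_pow_eq_monomial, monomial_mul, mul_one]
    congr 2
    rw [hdec, show N - b = a + 1 by omega, Finsupp.single_add]
    abel
  have e2 : m (b + 1) = monomial (J + Finsupp.single l 1) 1 := by
    simp only [hm, X_pow_eq_monomial, monomial_mul, mul_one]
    congr 2
    rw [hdec, show N - (b + 1) = a by omega, Finsupp.single_add]
    abel
  rw [e1, e2] at h3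
  have h4 : (N.choose (b + 1) : ℂ) * (b + 1) = N.choose b * (a + 1) := by
    have := Nat.choose_succ_right_eq N b
    rw [show N - b = a + 1 by omega] at this
    exact_mod_cast this
  have h5 : (N.choose b : ℂ) ≠ 0 := by
    exact_mod_cast (Nat.choose_pos (by omega : b ≤ N)).ne'
  refine mul_left_cancel₀ h5 ?_
  linear_combination (b + 1) * h3 + φ (fld l (monomial (J + Finsupp.single l 1) 1)) * h4

/-- Andersén: divergence free homogeneous fields are combinations of shear fields -/
theorem mem_span_Sh {P : Fin n → Pl n} (hP : ∀ i, (P i).IsHomogeneous k)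
    (hdiv : ∑ i, pderiv i (P i) = 0) : ∑ i, fld i (P i) ∈ Submodule.span ℂ (Sh n k) := by
  by_contra hc
  obtain ⟨φ, h1, h2⟩ := Submodule.exists_le_ker_of_notMem hc
  have hφ : ∀ σ ∈ Sh n k, φ σ = 0 := fun σ hσ => h2 (Submodule.subset_span hσ)
  apply h1
  rcases isEmpty_or_nonempty (Fin n) with hn | ⟨⟨i0⟩⟩
  · simp
  set τ : (Fin n →₀ ℕ) → ℂ :=
    fun J => φ (fld i0 (monomial (J + Finsupp.single i0 1) 1)) / (J i0 + 1) with hτ
  set Λ : Pl n →ₗ[ℂ] ℂ := (basisMonomials (Fin n) ℂ).constr ℂ τ with hΛ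
  have hΛm : ∀ J r, Λ (monomial J r) = r * τ J := by
    intro J r
    have : (monomial J r : Pl n) = r • basisMonomials (Fin n) ℂ J := by
      simp [smul_monomial]
    rw [this, map_smul, hΛ, Module.Basis.constr_basis, smul_eq_mul]
  have key : ∀ i (p : Pl n), p.IsHomogeneous k → φ (fld i p) = Λ (pderiv i p) := by
    intro i p hp
    induction hp using IsWeightedHomogeneous.induction_on with
    | zero => simp
    | add p q hp hq h1 h2 => simp [h1, h2]
    | monomial I r hr =>
      replace hr := deg_of_wt hr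
      have e0 : (monomial I r : Pl n) = r • monomial I 1 := by simp [smul_monomial]
      rw [pderiv_monomial, hΛm, e0, map_smul, map_smul, smul_eq_mul]
      by_cases hi : I i = 0
      · rw [phi_shear hφ hr hi, hi]; simp
      · set J := I - Finsupp.single i 1 with hJ
        have hI : I = J + Finsupp.single i 1 := by
          rw [hJ, tsub_add_cancel_of_le]
          rw [Finsupp.single_le_iff]; omega
        have hIi : (I i : ℂ) = J i + 1 := by rw [hI]; simp
        have hd : J.degree + 1 = k := by rw [← hr, hI]; simp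
        have hne : ∀ j, (J j : ℂ) + 1 ≠ 0 := fun j => Nat.cast_add_one_ne_zero _
        rw [hIi, mul_assoc]
        congr 1
        rw [hτ]
        by_cases hii : i = i0
        · subst hii
          simp only [← hI]
          field_simp [hne i]
        · have := phi_ham hφ hii hd
          rw [← hI] at this
          simp only
          rw [mul_div_assoc', eq_div_iff (hne i0), this]
          ring
  rw [map_sum, Finset.sum_congr rfl fun i _ => key i (P i) (hP i), ← map_sum, hdiv, map_zero]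

theorem sum_ee (v : En n) : ∑ i, v i • ee i = v := by
  ext j
  simp [ee, Pi.single_apply]

theorem fg_Sh (n k : ℕ) : (Submodule.span ℂ (Sh n k)).FG := by
  have h1 : (⨆ i : Fin n, (homogeneousSubmodule (Fin n) ℂ k).map (fld i)).FG :=
    Submodule.fg_iSup _ fun i => (homogeneousSubmodule_fg (Fin n) ℂ k).map _
  have h2 : Submodule.span ℂ (Sh n k) ≤
      ⨆ i : Fin n, (homogeneousSubmodule (Fin n) ℂ k).map (fld i) := by
    rw [Submodule.span_le]
    rintro σ ⟨p, v, hp, -, rfl⟩
    have : (fun z => ev p z • v) = ∑ i, v i • fld i p := by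
      ext1 z
      conv_lhs => rw [← sum_ee v]
      simp only [Finset.smul_sum, Finset.sum_apply, Pi.smul_apply, fld_apply]
      exact Finset.sum_congr rfl fun i _ => smul_comm _ _ _
    rw [this]
    refine Submodule.sum_mem _ fun i _ => Submodule.smul_mem _ _ ?_
    exact Submodule.mem_iSup_of_mem i ⟨p, hp, rfl⟩
  have := (Submodule.fg_iff_finiteDimensional _).1 h1
  exact (Submodule.fg_iff_finiteDimensional _).2 (Submodule.finiteDimensional_of_le h2)

end span

end

end Crest.Agent.T223.And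
end

-- ▼ part T223/AndC_22

/-!
# Row 223, leaf AND (helper22), part C: determinant expansion, leading terms, coefficients
-/

set_option autoImplicit false
set_option linter.unusedSectionVars false
set_option linter.unusedVariables false

open Set Filter Topology Metric Asymptotics MvPolynomial

namespace Crest.Agent.T223.And

noncomputable section

variable {n : ℕ}

/-- trace -/
def trE : (En n →L[ℂ] En n) →L[ℂ] ℂ :=
  ∑ i, (pr i).comp (ContinuousLinearMap.apply ℂ (En n) (ee i))

theorem trE_apply (A : En n →L[ℂ] En n) : trE A = ∑ i, A (ee i) i := by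
  simp [trE]

/-- matrix of a linear map -/
def mt (A : En n →L[ℂ] En n) : Matrix (Fin n) (Fin n) ℂ := Matrix.of fun i j => A (ee j) i

theorem det_mt (A : En n →L[ℂ] En n) : A.det = (mt A).det := by
  rw [ContinuousLinearMap.det,
    ← LinearMap.det_toMatrix (EuclideanSpace.basisFun (Fin n) ℂ).toBasis]
  congr 1

theorem differentiable_det : Differentiable ℂ (fun A : En n →L[ℂ] En n => A.det) := by
  simp only [det_mt, Matrix.det_apply, mt, Matrix.of_apply]
  refine Differentiable.fun_sum fun σ _ => Differentiable.const_smul ?_ _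
  have h : ∀ i : Fin n, Differentiable ℂ (fun A : En n →L[ℂ] En n => A (ee i) (σ i)) := fun i =>
    ((pr (σ i)).comp (ContinuousLinearMap.apply ℂ (En n) (ee i))).differentiable
  intro A
  exact (HasFDerivAt.finsetProd (u := Finset.univ)
    (fun i _ => (h i A).hasFDerivAt)).differentiableAt

theorem oo_det : OO 2 (fun Y : En n →L[ℂ] En n => (1 + Y).det - 1 - trE Y) := by
  set H : (En n →L[ℂ] En n) → ℂ := fun Y => (1 + Y).det - 1 - trE Y with hH
  have hd : Differentiable ℂ H :=
    ((differentiable_det.comp (by fun_prop)).sub_const 1).sub trE.differentiable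
  have h0 : H 0 = 0 := by simp [hH, ContinuousLinearMap.det]
  have hD : fderiv ℂ H 0 = 0 := by
    ext1 Y
    have h1 : HasDerivAt (fun t : ℂ => H (t • Y)) (fderiv ℂ H 0 Y) 0 := by
      have a : HasDerivAt (fun t : ℂ => t • Y) Y 0 := by
        simpa using (hasDerivAt_id (0 : ℂ)).smul_const Y
      have b : HasFDerivAt H (fderiv ℂ H 0) ((0 : ℂ) • Y) := by
        have : (0 : ℂ) • Y = 0 := by ext; simp
        rw [this]; exact (hd 0).hasFDerivAt
      exact b.comp_hasDerivAt (0 : ℂ) a
    set q : Polynomial ℂ :=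
      (Matrix.det (1 + (Polynomial.X : Polynomial ℂ) • (mt Y).map Polynomial.C)).divX.divX
    have h2 : (fun t : ℂ => H (t • Y)) = fun t => q.eval t * t ^ 2 := by
      ext t
      have e : mt (1 + t • Y) = 1 + t • mt Y := by
        ext i j
        simp [mt, ee, Matrix.one_apply]
      have e2 : trE (t • Y) = (mt Y).trace * t := by
        simp [trE_apply, Matrix.trace, mt, mul_comm]
      simp only [hH, det_mt, e, e2]
      rw [Matrix.det_one_add_smul]
      ring
    have h3 : HasDerivAt (fun t : ℂ => q.eval t * t ^ 2) 0 0 := by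
      have := (q.hasDerivAt 0).fun_mul (hasDerivAt_pow 2 (0 : ℂ))
      simpa using this
    rw [h2] at h1
    simpa using h1.unique h3
  have h1 : OO 1 (fderiv ℂ H) := by
    refine oo_one_of_diff ?_ hD
    exact (Crest.Agent.R266.SCV.analyticAt_of_eventually_differentiableAt
      (Eventually.of_forall hd)).fderiv.differentiableAt
  have := OO.comp_sub (l := 1) (S := fun Y => Y) (T := fun _ => 0) h1 (Eventually.of_forall hd)
    oo_id (oo_of_bound (K := 0) (by simp)) (by simpa using oo_id)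
  simpa [h0] using this

theorem OO.comp_two {E F G : Type*} [NormedAddCommGroup E] [NormedSpace ℂ E]
    [NormedAddCommGroup F] [NormedSpace ℂ F] [NormedAddCommGroup G] [NormedSpace ℂ G] {d : ℕ}
    {H : F → G} {B : E → F} (h : OO 2 H) (b : OO (d + 1) B) : OO (d + 2) (fun z => H (B z)) := by
  obtain ⟨K, hK, h⟩ := h.bound
  obtain ⟨L, hL, b1⟩ := b.bound
  obtain ⟨L', hL', b2⟩ := (b.mono (by omega : 1 ≤ d + 1)).bound
  refine oo_of_bound (K := K * L * L') ?_
  filter_upwards [b.tendsto.eventually h, b1, b2] with z h1 h2 h3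
  calc ‖H (B z)‖ ≤ K * (‖B z‖ * ‖B z‖) := by rw [← pow_two]; exact h1
    _ ≤ K * (L * ‖z‖ ^ (d + 1) * (L' * ‖z‖ ^ 1)) := by gcongr
    _ = _ := by ring

/-- the diagonal of a multilinear map is a polynomial field -/
theorem diag_poly {k : ℕ} (p : ContinuousMultilinearMap ℂ (fun _ : Fin k => En n) (En n)) :
    ∃ P : Fin n → Pl n, (∀ i, (P i).IsHomogeneous k) ∧
      (fun z => p (fun _ => z)) = ∑ i, fld i (P i) := by
  refine ⟨fun i => ∑ f : Fin k → Fin n, C (p (fun j => ee (f j)) i) * ∏ j, X (f j), fun i => ?_, ?_⟩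
  · refine IsHomogeneous.sum _ _ _ fun f _ => IsHomogeneous.C_mul ?_ _
    have := IsHomogeneous.prod (Finset.univ : Finset (Fin k)) (fun j => (X (f j) : Pl n))
      (fun _ => 1) (fun j _ => isHomogeneous_X ℂ (f j))
    simpa using this
  · ext1 z
    have h1 : p (fun _ => z) = ∑ f : Fin k → Fin n, (∏ j, z (f j)) • p (fun j => ee (f j)) := by
      conv_lhs => rw [← sum_ee z]
      rw [p.map_sum (fun _ i => z i • ee i)]
      exact Finset.sum_congr rfl fun f _ => p.map_smul_univ _ _
    rw [← sum_ee (p fun _ => z), Finset.sum_apply]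
    refine Finset.sum_congr rfl fun i _ => ?_
    rw [fld_apply, h1, ev_sum]
    congr 1
    simp [ev_prod, mul_comm]

theorem fld_sum_hasFDerivAt (P : Fin n → Pl n) (z : En n) :
    HasFDerivAt (∑ i, fld i (P i))
      (∑ i, (∑ j, ev (pderiv j (P i)) z • pr j).smulRight (ee i)) z :=
  HasFDerivAt.sum fun i _ => (ev_hasFDerivAt (P i) z).smul_const (ee i)

theorem trE_fld (P : Fin n → Pl n) (z : En n) :
    trE (fderiv ℂ (∑ i, fld i (P i)) z) = ev (∑ i, pderiv i (P i)) z := by
  rw [(fld_sum_hasFDerivAt P z).fderiv, trE_apply, ev_sum]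
  refine Finset.sum_congr rfl fun a _ => ?_
  simp [ee, Pi.single_apply]

theorem fld_sum_hom {k : ℕ} {P : Fin n → Pl n} (hP : ∀ i, (P i).IsHomogeneous k) (t : ℂ)
    (z : En n) : (∑ i, fld i (P i)) (t • z) = t ^ k • (∑ i, fld i (P i)) z := by
  simp only [Finset.sum_apply, fld_apply, ev_hom (hP _), Finset.smul_sum, mul_smul]

theorem Sh.differentiable {k : ℕ} {σ : En n → En n} (h : σ ∈ Sh n k) : Differentiable ℂ σ := by
  obtain ⟨p, v, -, -, rfl⟩ := h
  exact (ev_differentiable p).smul_const v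

theorem exists_preimage {V W : Type*} [NormedAddCommGroup V] [NormedSpace ℂ V]
    [FiniteDimensional ℂ V] [NormedAddCommGroup W] [NormedSpace ℂ W] (T : V →ₗ[ℂ] W) :
    ∃ B : ℝ, 0 < B ∧ ∀ x, ∃ x', T x' = T x ∧ ‖x'‖ ≤ B * ‖T x‖ := by
  have : CompleteSpace (LinearMap.range T) := FiniteDimensional.complete ℂ _
  have : CompleteSpace V := FiniteDimensional.complete ℂ _
  obtain ⟨B, hB, hpre⟩ := ContinuousLinearMap.exists_preimage_norm_le
    (LinearMap.toContinuousLinearMap T.rangeRestrict) T.surjective_rangeRestrict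
  refine ⟨B, hB, fun x => ?_⟩
  obtain ⟨c, hc1, hc2⟩ := hpre (T.rangeRestrict x)
  exact ⟨c, congrArg Subtype.val hc1, hc2⟩

/-- bounded coefficients with respect to a finite family of shear fields -/
theorem coef_bound (n k : ℕ) : ∃ (s : Finset (En n → En n)) (B : ℝ), 0 ≤ B ∧ (∀ σ ∈ s, σ ∈ Sh n k) ∧
    ∀ Y ∈ Submodule.span ℂ (Sh n k), ∀ M : ℝ, 0 ≤ M → (∀ z : En n, ‖z‖ ≤ 1 → ‖Y z‖ ≤ M) →
      ∃ c : (En n → En n) → ℂ, (∀ σ, ‖c σ‖ ≤ B * M) ∧
        ∀ z : En n, ‖z‖ ≤ 1 → Y z = ∑ σ ∈ s, c σ • σ z := by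
  classical
  obtain ⟨s, hs, hsp⟩ := (Submodule.fg_span_iff_fg_span_finset_subset _).1 (fg_Sh n k)
  have : CompactSpace (closedBall (0 : En n) 1) :=
    isCompact_iff_compactSpace.1 (isCompact_closedBall _ _)
  let r : s → C(closedBall (0 : En n) 1, En n) := fun σ =>
    ⟨fun z => σ.1 z.1, (Sh.differentiable (hs σ.2)).continuous.comp continuous_subtype_val⟩
  let T : (s → ℂ) →ₗ[ℂ] C(closedBall (0 : En n) 1, En n) := Fintype.linearCombination ℂ r
  have hT : ∀ (c : s → ℂ) (z : closedBall (0 : En n) 1), T c z = ∑ σ : s, c σ • σ.1 z.1 := by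
    intro c z
    simp [T, r, Fintype.linearCombination_apply]
  obtain ⟨B, hB, hpre⟩ := exists_preimage (W := C(closedBall (0 : En n) 1, En n)) T
  refine ⟨s, B, hB.le, hs, fun Y hY M hM hYM => ?_⟩
  rw [hsp, Submodule.mem_span_finset] at hY
  obtain ⟨c0, -, rfl⟩ := hY
  obtain ⟨c, hc1', hc2⟩ := hpre (fun σ => c0 σ.1)
  have hY : ∀ z : closedBall (0 : En n) 1,
      T (fun σ => c0 σ.1) z = (∑ σ ∈ s, c0 σ • σ) z.1 := by
    intro z
    rw [hT, Finset.sum_apply, Finset.sum_coe_sort s (fun σ => c0 σ • σ z.1)]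
    rfl
  have hn : ‖T fun σ => c0 σ.1‖ ≤ M := by
    rw [ContinuousMap.norm_le _ hM]
    intro z
    rw [hY]
    exact hYM _ (mem_closedBall_zero_iff.1 z.2)
  refine ⟨fun σ => if h : σ ∈ s then c ⟨σ, h⟩ else 0, fun σ => ?_, fun z hz => ?_⟩
  · by_cases h : σ ∈ s
    · simp only [h, dif_pos]
      exact (norm_le_pi_norm c _).trans (hc2.trans (by gcongr))
    · simp only [h, dif_neg, not_false_iff, norm_zero]
      positivity
  · have := hY ⟨z, by simpa using hz⟩
    rw [← this, ← hc1', hT, ← Finset.sum_coe_sort s]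
    refine Finset.sum_congr rfl fun σ _ => ?_
    simp

end

end Crest.Agent.T223.And
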