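import Crest.Agent.T223.DynDef_20
import Crest.Agent.T223.AndDef_22

-- ▼ part T223/DynDiv_66
section

/-!
# Row 223, module DYN (helper66): the leaf DIV
-/

set_option autoImplicit false

open Set Filter Topology Metric Asymptotics

namespace Crest.Agent.T223.Dyn

noncomputable section

namespace Div66

variable {n : ℕ}

/-- the matrix of an operator -/
def mat (T : EE n →L[ℂ] EE n) : Matrix (Fin n) (Fin n) ℂ :=
  fun i j => T (EuclideanSpace.single j 1) i

theorem det_eq (T : EE n →L[ℂ] EE n) : T.det = (mat T).det := by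
  rw [ContinuousLinearMap.det, ← LinearMap.det_toMatrix (EuclideanSpace.basisFun (Fin n) ℂ).toBasis]
  rfl

theorem contDiff_det : ContDiff ℂ 1 fun T : EE n →L[ℂ] EE n => T.det := by
  simp only [det_eq, Matrix.det_apply', mat]
  refine ContDiff.sum fun σ _ => contDiff_const.mul (contDiff_prod fun i _ => ?_)
  exact ((EuclideanSpace.proj (σ i) : EE n →L[ℂ] ℂ).comp
    (ContinuousLinearMap.apply ℂ (EE n) (EuclideanSpace.single i (1 : ℂ)))).contDiff

theorem fderiv_det_one (M : EE n →L[ℂ] EE n) :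
    fderiv ℂ (fun T : EE n →L[ℂ] EE n => T.det) 1 M = ∑ l, M (EuclideanSpace.single l 1) l := by
  have h1 : HasDerivAt (fun r : ℂ => (1 + r • M : EE n →L[ℂ] EE n)) M 0 := by
    simpa using ((hasDerivAt_id (0 : ℂ)).smul_const M).const_add 1
  have h2 : HasFDerivAt (fun T : EE n →L[ℂ] EE n => T.det)
      (fderiv ℂ (fun T : EE n →L[ℂ] EE n => T.det) 1) (1 + (0 : ℂ) • M) := by
    rw [show (1 + (0 : ℂ) • M : EE n →L[ℂ] EE n) = 1 by ext; simp]
    exact (contDiff_det.differentiable one_ne_zero _).hasFDerivAt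
  have h3 := h2.comp_hasDerivAt 0 h1
  obtain ⟨p, hp⟩ : ∃ p : Polynomial ℂ, ∀ r : ℂ, (1 + r • mat M).det =
      1 + (mat M).trace * r + p.eval r * r ^ 2 := ⟨_, fun r => Matrix.det_one_add_smul r _⟩
  have h4 : ((fun T : EE n →L[ℂ] EE n => T.det) ∘ fun r : ℂ => (1 + r • M : EE n →L[ℂ] EE n)) =
      fun r => 1 + (mat M).trace * r + p.eval r * r ^ 2 := by
    funext r
    rw [Function.comp_apply, det_eq, ← hp]
    congr 1
    ext i j
    simp [mat, Matrix.one_apply]
  rw [h4] at h3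
  have h5 := (((hasDerivAt_id (0 : ℂ)).const_mul (mat M).trace).const_add 1).add
    ((p.hasDerivAt 0).mul (hasDerivAt_pow 2 (0 : ℂ)))
  have h6 := h3.unique h5
  simpa [Matrix.trace, mat] using h6

/-- Cauchy estimate near the origin -/
theorem cauchy {f : EE n → EE n} (hf : ∀ᶠ x in 𝓝 (0 : EE n), DifferentiableAt ℂ f x) {k : ℕ}
    {C : ℝ} (h : ∀ᶠ x in 𝓝 (0 : EE n), ‖f x‖ ≤ C * ‖x‖ ^ (k + 1)) (hC : 0 ≤ C) :
    ∀ᶠ x in 𝓝 (0 : EE n), x ≠ 0 → ‖fderiv ℂ f x‖ ≤ C * 2 ^ (k + 2) * ‖x‖ ^ k := by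
  obtain ⟨r, hr, h1⟩ := Metric.eventually_nhds_iff_ball.1 (hf.and h)
  filter_upwards [ball_mem_nhds (0 : EE n) (half_pos hr)] with x hx h0
  rw [mem_ball_zero_iff] at hx
  have hx0 : 0 < ‖x‖ := norm_pos_iff.2 h0
  have h2 : ∀ y ∈ ball x ‖x‖, ‖y‖ ≤ 2 * ‖x‖ := fun y hy => by
    have := norm_lt_of_mem_ball hy
    linarith
  have h3 : ∀ y, ‖y‖ ≤ 2 * ‖x‖ → y ∈ ball (0 : EE n) r := fun y hy =>
    mem_ball_zero_iff.2 (by linarith)
  have h4 : ∀ y, ‖y‖ ≤ 2 * ‖x‖ → ‖f y‖ ≤ C * (2 * ‖x‖) ^ (k + 1) := fun y hy =>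
    (h1 y (h3 y hy)).2.trans (by gcongr)
  refine (Complex.norm_fderiv_le_div_of_mapsTo_ball (R₂ := 2 * (C * (2 * ‖x‖) ^ (k + 1)))
    (fun y hy => (h1 y (h3 y (h2 y hy))).1.differentiableWithinAt) (fun y hy => ?_) hx0).trans
    (le_of_eq ?_)
  · rw [mem_closedBall, dist_eq_norm]
    exact (norm_sub_le _ _).trans (by linarith [h4 y (h2 y hy), h4 x (by linarith)])
  · field_simp
    ring

theorem differentiable_hev {d : ℕ} (c : Arr n d) : Differentiable ℂ (hev c) := by
  unfold hev mono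
  fun_prop

theorem hev_smul {d : ℕ} (c : Arr n d) (t : ℂ) (x : EE n) : hev c (t • x) = t ^ d • hev c x := by
  simp [hev, mono, Finset.prod_mul_distrib, Finset.smul_sum, mul_smul]

theorem fderiv_smul {H : EE n → EE n} (hH : Differentiable ℂ H) {k : ℕ}
    (h : ∀ (t : ℂ) x, H (t • x) = t ^ (k + 1) • H x) {t : ℂ} (ht : t ≠ 0) (x : EE n) :
    fderiv ℂ H (t • x) = t ^ k • fderiv ℂ H x := by
  have h1 : HasFDerivAt (fun y => H (t • y)) ((fderiv ℂ H (t • x)).comp (t • ContinuousLinearMap.id ℂ _)) x :=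
    (hH (t • x)).hasFDerivAt.comp x ((hasFDerivAt_id x).const_smul t)
  simp only [h] at h1
  have h2 := h1.unique ((hH x).hasFDerivAt.const_smul (t ^ (k + 1)))
  refine smul_right_injective _ ht ?_
  rw [ContinuousLinearMap.comp_smul, ContinuousLinearMap.comp_id, pow_succ', mul_smul] at h2
  exact h2

/-- the case `L = 1` -/
theorem key {A B H : EE n → EE n} {k : ℕ} (hk : 1 ≤ k) (hH : Differentiable ℂ H)
    (hh : ∀ (t : ℂ) x, H (t • x) = t ^ (k + 1) • H x)
    (hA : ∀ᶠ x in 𝓝 (0 : EE n), DifferentiableAt ℂ A x)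
    (hB : ∀ᶠ x in 𝓝 (0 : EE n), DifferentiableAt ℂ B x)
    (hB' : HasFDerivAt B (1 : EE n →L[ℂ] EE n) 0)
    (hdet : ∀ᶠ x in 𝓝 (0 : EE n), (fderiv ℂ A x).det = (fderiv ℂ B x).det)
    (hO : (fun x => A x - B x - H x) =O[𝓝 0] fun x => ‖x‖ ^ (k + 2)) (x : EE n) :
    divg H x = 0 := by
  by_cases hx : x = 0
  · have h1 := fderiv_smul hH hh two_ne_zero (0 : EE n)
    rw [smul_zero] at h1
    have h2 : ∀ v l, ((2 : ℂ) ^ k - 1) * fderiv ℂ H 0 v l = 0 := fun v l => by
      have h2 : fderiv ℂ H 0 v l = 2 ^ k * fderiv ℂ H 0 v l := congrArg (fun T => T v l) h1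
      rw [sub_mul, one_mul, ← h2, sub_self]
    have h3 : (2 : ℂ) ^ k - 1 ≠ 0 := by
      rw [sub_ne_zero]
      exact_mod_cast (Nat.one_lt_two_pow (by omega)).ne'
    rw [hx]
    exact Finset.sum_eq_zero fun l _ => (mul_eq_zero.1 (h2 _ l)).resolve_left h3
  set M := fderiv ℂ H x with hM
  have hl : Tendsto (fun t : ℂ => t • x) (𝓝[≠] 0) (𝓝 0) := by
    refine tendsto_nhdsWithin_of_tendsto_nhds ?_
    exact (show Continuous fun t : ℂ => t • x by fun_prop).tendsto' 0 0 (zero_smul _ _)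
  have hne : ∀ᶠ t : ℂ in 𝓝[≠] 0, t ≠ 0 := self_mem_nhdsWithin
  -- the remainder
  have hR : ∀ᶠ y in 𝓝 (0 : EE n), DifferentiableAt ℂ (fun x => A x - B x - H x) y := by
    filter_upwards [hA, hB] with y h1 h2 using (h1.sub h2).sub (hH y)
  obtain ⟨C, hC, hO⟩ := hO.exists_nonneg
  have hE : (fun t : ℂ => fderiv ℂ (fun x => A x - B x - H x) (t • x)) =o[𝓝[≠] 0]
      fun t => t ^ k := by
    have h1 := cauchy hR (k := k + 1) (C := C) (by simpa using hO.bound) hC
    have h2 : (fun t : ℂ => fderiv ℂ (fun x => A x - B x - H x) (t • x)) =O[𝓝[≠] 0]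
        fun t => t ^ (k + 1) := by
      refine IsBigO.of_bound (C * 2 ^ (k + 1 + 2) * ‖x‖ ^ (k + 1)) ?_
      filter_upwards [hl.eventually h1, hne] with t h3 h4
      refine (h3 (smul_ne_zero h4 hx)).trans (le_of_eq ?_)
      rw [norm_smul, norm_pow]
      ring
    exact h2.trans_isLittleO ((isLittleO_pow_pow (Nat.lt_succ_self k)).mono nhdsWithin_le_nhds)
  have hD : ∀ᶠ t : ℂ in 𝓝[≠] 0, fderiv ℂ A (t • x) - fderiv ℂ B (t • x) =
      t ^ k • M + fderiv ℂ (fun x => A x - B x - H x) (t • x) := by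
    filter_upwards [hl.eventually hA, hl.eventually hB, hne] with t h1 h2 h3
    rw [fderiv_fun_sub (h1.fun_sub h2) (hH _), fderiv_fun_sub h1 h2, fderiv_smul hH hh h3]
    abel
  have hO1 : (fun t : ℂ => fderiv ℂ A (t • x) - fderiv ℂ B (t • x)) =O[𝓝[≠] 0] fun t => t ^ k := by
    refine IsBigO.congr' ?_ (EventuallyEq.symm hD) EventuallyEq.rfl
    refine IsBigO.add (IsBigO.of_bound ‖M‖ (Eventually.of_forall fun t => ?_)) hE.isBigO
    rw [norm_smul, mul_comm]
  have hB1 : Tendsto (fun t : ℂ => fderiv ℂ B (t • x)) (𝓝[≠] 0) (𝓝 1) := by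
    rw [Metric.tendsto_nhds]
    intro ε hε
    have h1 : ∀ᶠ y in 𝓝 (0 : EE n), DifferentiableAt ℂ (fun y => B y - B 0 - y) y := by
      filter_upwards [hB] with y h1 using (h1.sub_const _).sub differentiableAt_id
    have h2 := cauchy h1 (k := 0) (C := ε / 8)
      (by simpa using hB'.isLittleO.def (by positivity : 0 < ε / 8)) (by positivity)
    filter_upwards [hl.eventually h2, hl.eventually hB, hne] with t h3 h4 h5
    have h6 := h3 (smul_ne_zero h5 hx)
    rw [fderiv_fun_sub (h4.sub_const _) differentiableAt_fun_id, fderiv_sub_const,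
      fderiv_fun_id] at h6
    rw [dist_eq_norm]
    exact lt_of_le_of_lt h6 (by linarith)
  have hA1 : Tendsto (fun t : ℂ => fderiv ℂ A (t • x)) (𝓝[≠] 0) (𝓝 1) := by
    have h1 : Tendsto (fun t : ℂ => t ^ k) (𝓝[≠] 0) (𝓝 0) := by
      refine tendsto_nhdsWithin_of_tendsto_nhds ?_
      simpa [zero_pow (by omega : k ≠ 0)] using (continuous_pow k).tendsto (0 : ℂ)
    simpa using (hO1.trans_tendsto h1).add hB1
  have hS := (contDiff_det (n := n)).contDiffAt.hasStrictFDerivAt (x := 1) one_ne_zero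
  set φ := fderiv ℂ (fun T : EE n →L[ℂ] EE n => T.det) 1 with hφ
  have h1 := (hS.isLittleO.comp_tendsto (hA1.prodMk_nhds hB1)).trans_isBigO hO1
  have h2 := (φ.isBigO_comp _ _).trans_isLittleO hE
  have h3 : (fun t : ℂ => t ^ k * φ M) =o[𝓝[≠] 0] fun t => t ^ k := by
    refine (h1.add h2).neg_left.congr' ?_ EventuallyEq.rfl
    filter_upwards [hD, hl.eventually hdet] with t h4 h5
    simp only [Function.comp_apply, h4, h5, map_add, map_smul, smul_eq_mul]
    ring
  rw [divg, ← hM, ← fderiv_det_one]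
  by_contra h4
  have h5 : (fun t : ℂ => t ^ k) =o[𝓝[≠] 0] fun t => t ^ k := by
    refine (h3.const_mul_left (φ M)⁻¹).congr_left fun t => ?_
    rw [mul_left_comm, inv_mul_cancel₀ h4, mul_one]
  exact isLittleO_irrefl (hne.mono fun t ht => pow_ne_zero k ht).frequently h5

end Div66

open Div66 in
theorem divStmt (n : ℕ) : DivStmt n := by
  intro d A B L c hd hA hB hB' hdet hO
  obtain ⟨k, rfl⟩ : ∃ k, d = k + 1 := ⟨d - 1, by omega⟩
  refine key (A := fun y => L.symm (A y)) (B := fun y => L.symm (B y)) (k := k) (by omega)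
    (L.symm.differentiable.comp (differentiable_hev c)) (fun t x => by rw [hev_smul, map_smul])
    (hA.mono fun y h => L.symm.differentiableAt.comp y h)
    (hB.mono fun y h => L.symm.differentiableAt.comp y h) ?_ ?_ ?_
  · have := L.symm.hasFDerivAt.comp 0 hB'
    rwa [show (L.symm : EE n →L[ℂ] EE n).comp (L : EE n →L[ℂ] EE n) = 1 by ext1 y; simp] at this
  · filter_upwards [hdet] with y h
    have e : ∀ f : EE n → EE n, (fderiv ℂ (fun y => L.symm (f y)) y).det =
        (L.symm : EE n →L[ℂ] EE n).det * (fderiv ℂ f y).det := fun f => by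
      rw [show (fun y => L.symm (f y)) = L.symm ∘ f from rfl, L.symm.comp_fderiv]
      exact LinearMap.det_comp _ _
    rw [e, e, h]
  · refine (((L.symm : EE n →L[ℂ] EE n).isBigO_comp (fun x => A x - B x - hev c x) _).trans
      hO).congr_left fun x => ?_
    simp

end

end Crest.Agent.T223.Dyn
end

-- ▼ part T223/DynHom_60
section

/-!
# Row 223, module DYN (helper60): the homological equation
-/

set_option autoImplicit false

open Set Filter Topology Metric

namespace Crest.Agent.T223.Dyn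

noncomputable section

namespace H60

variable {n d : ℕ}

/-- inverse limit of a sequence of continuous maps between compact sets -/
theorem invlim {α : Type*} [TopologicalSpace α] [T2Space α] (S : ℕ → Set α) (Φ : ℕ → α → α)
    (hS : ∀ i, IsCompact (S i)) (hne : ∀ i, (S i).Nonempty) (hΦ : ∀ i, Continuous (Φ i))
    (hm : ∀ i, MapsTo (Φ i) (S (i + 1)) (S i)) :
    ∃ q : ℕ → α, (∀ i, q i ∈ S i) ∧ ∀ i, q i = Φ i (q (i + 1)) := by
  let K : ℕ → Set (ℕ → α) := fun N => Set.pi univ S ∩ ⋂ i < N, {q | q i = Φ i (q (i + 1))}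
  have hc : ∀ N, IsClosed (⋂ i < N, {q : ℕ → α | q i = Φ i (q (i + 1))}) := fun N =>
    isClosed_biInter fun i _ => isClosed_eq (continuous_apply i)
      ((hΦ i).comp (continuous_apply _))
  have hK : ∀ N, IsCompact (K N) := fun N => (isCompact_univ_pi hS).inter_right (hc N)
  have hn : ∀ N, ∀ x ∈ S N, ∃ q ∈ K N, q N = x := by
    intro N
    induction N with
    | zero =>
      intro x hx
      classical
      refine ⟨Function.update (fun i => (hne i).some) 0 x, ⟨fun i _ => ?_, by simp⟩, by simp⟩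
      rcases eq_or_ne i 0 with rfl | h
      · simpa using hx
      · simpa [h] using (hne i).some_mem
    | succ N ih =>
      intro x hx
      obtain ⟨q, ⟨h1, h2⟩, h3⟩ := ih _ (hm N hx)
      simp only [mem_iInter, mem_ofPred_eq] at h2
      refine ⟨Function.update q (N + 1) x, ⟨fun i _ => ?_, ?_⟩, by simp⟩
      · rcases eq_or_ne i (N + 1) with rfl | h
        · simpa using hx
        · simpa [h] using h1 i trivial
      · simp only [mem_iInter, mem_ofPred_eq]
        intro i hi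
        rw [Function.update_of_ne (by omega)]
        rcases eq_or_ne i N with rfl | h
        · simpa using h3
        · rw [Function.update_of_ne (by omega)]; exact h2 i (by omega)
  obtain ⟨q, hq⟩ := IsCompact.nonempty_iInter_of_sequence_nonempty_isCompact_isClosed K
    (fun N => inter_subset_inter_right _ (biInter_subset_biInter_left fun i (hi : i < N) =>
      (by omega : i < N + 1)))
    (fun N => let ⟨x, hx⟩ := hne N; let ⟨q, hq, _⟩ := hn N x hx; ⟨q, hq⟩) (hK 0)
    fun N => (hK N).isClosed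
  rw [mem_iInter] at hq
  refine ⟨q, fun i => (hq 0).1 i trivial, fun i => ?_⟩
  have := (hq (i + 1)).2
  simp only [mem_iInter, mem_ofPred_eq] at this
  exact this i (by omega)

theorem norm_le_of_comp {x y : EE n} {t : ℝ} (ht : 0 ≤ t) (h : ∀ l, ‖x l‖ ≤ t * ‖y l‖) :
    ‖x‖ ≤ t * ‖y‖ := by
  refine (abs_le_of_sq_le_sq' ?_ (by positivity)).2
  rw [mul_pow, EuclideanSpace.norm_sq_eq, EuclideanSpace.norm_sq_eq, Finset.mul_sum]
  exact Finset.sum_le_sum fun l _ => by
    rw [← mul_pow]; exact pow_le_pow_left₀ (norm_nonneg _) (h l) 2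

theorem hev_add (c c' : Arr n d) (x : EE n) : hev (c + c') x = hev c x + hev c' x := by
  simp [hev, Finset.sum_add_distrib]


theorem mono_diff (w : Fin d → Fin n) : Differentiable ℂ (mono w) := by
  unfold mono; fun_prop

theorem hev_diff (c : Arr n d) : Differentiable ℂ (hev c) := by
  have := @mono_diff n d
  unfold hev; fun_prop

theorem divg_hev (c : Arr n d) (x : EE n) : divg (hev c) x =
    ∑ l, ∑ w, fderiv ℂ (mono w) x (EuclideanSpace.single l 1) * c w l := by
  have h : HasFDerivAt (hev c) (∑ w, (fderiv ℂ (mono w) x).smulRight (c w)) x :=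
    HasFDerivAt.fun_sum fun w _ => (mono_diff w x).hasFDerivAt.smul_const (c w)
  simp [divg, h.fderiv]

theorem divg_hev_add (c c' : Arr n d) (x : EE n) :
    divg (hev (c + c')) x = divg (hev c) x + divg (hev c') x := by
  simp [divg_hev, mul_add, Finset.sum_add_distrib]

theorem divg_hev_sub (c c' : Arr n d) (x : EE n) :
    divg (hev (c - c')) x = divg (hev c) x - divg (hev c') x := by
  simp [divg_hev, mul_sub]

theorem divg_eq_trace (g : EE n → EE n) (x : EE n) :
    divg g x = LinearMap.trace ℂ (EE n) (fderiv ℂ g x) := by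
  rw [LinearMap.trace_eq_matrix_trace ℂ (EuclideanSpace.basisFun (Fin n) ℂ).toBasis]
  simp [divg, Matrix.trace, LinearMap.toMatrix_apply]

theorem divg_conj (L : EE n ≃L[ℂ] EE n) {g : EE n → EE n} (hg : Differentiable ℂ g) (x : EE n) :
    divg (fun y => L.symm (g (L y))) x = divg g (L x) := by
  have h : HasFDerivAt (fun y => L.symm (g (L y))) ((L.symm : EE n →L[ℂ] EE n).comp
      ((fderiv ℂ g (L x)).comp (L : EE n →L[ℂ] EE n))) x :=
    L.symm.hasFDerivAt.comp x ((hg _).hasFDerivAt.comp x L.hasFDerivAt)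
  rw [divg_eq_trace, divg_eq_trace, h.fderiv,
    ← LinearMap.trace_conj' (fderiv ℂ g (L x) : EE n →ₗ[ℂ] EE n) L.symm.toLinearEquiv]
  congr 1

theorem divg_kept {wt : Fin n → ℝ} (hw : ∀ l, 0 < wt l) (hd : 2 ≤ d) {c : Arr n d}
    (hc : Kept wt c) (x : EE n) : divg (hev c) x = 0 := by
  rw [divg_hev]
  refine Finset.sum_eq_zero fun l _ => Finset.sum_eq_zero fun w _ => ?_
  by_cases h0 : c w l = 0
  · rw [h0, mul_zero]
  have hne : ∀ k, w k ≠ l := fun k hk => by
    have : Nontrivial (Fin d) := Fin.nontrivial_iff_two_le.2 hd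
    obtain ⟨k', hk'⟩ := exists_ne k
    have h1 := Finset.single_lt_sum (f := fun k => wt (w k)) hk' (Finset.mem_univ k)
      (Finset.mem_univ k') (hw _) fun _ _ _ => (hw _).le
    have h2 := hc w l h0
    rw [← hk] at h2
    exact absurd h1 (not_lt.2 h2)
  have h1 : HasLineDerivAt ℂ (mono w) 0 x (EuclideanSpace.single l 1) := by
    have : (fun t : ℂ => mono w (x + t • EuclideanSpace.single l 1)) = fun _ => mono w x := by
      funext t
      simp [mono, hne]
    rw [HasLineDerivAt, this]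
    exact hasDerivAt_const _ _
  rw [((mono_diff w x).hasFDerivAt.hasLineDerivAt _).unique h1, zero_mul]

/-- the array of `A ∘ hev c ∘ B` -/
def cj (A B : EE n →L[ℂ] EE n) (c : Arr n d) : Arr n d :=
  fun u => A (∑ w, (∏ k, B (EuclideanSpace.single (u k) 1) (w k)) • c w)

theorem hev_cj (A B : EE n →L[ℂ] EE n) (c : Arr n d) (x : EE n) :
    hev (cj A B c) x = A (hev c (B x)) := by
  have h1 : ∀ j, B x j = ∑ i, x i * B (EuclideanSpace.single i 1) j := fun j => by
    conv_lhs => rw [← (EuclideanSpace.basisFun (Fin n) ℂ).sum_repr x]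
    simp
  have h2 : ∀ w : Fin d → Fin n, mono w (B x) =
      ∑ u : Fin d → Fin n, mono u x * ∏ k, B (EuclideanSpace.single (u k) 1) (w k) := fun w => by
    simp only [mono, h1, Finset.prod_univ_sum, Fintype.piFinset_univ, Finset.prod_mul_distrib]
  simp only [hev, cj, h2, ← map_smul, ← map_sum, Finset.smul_sum, smul_smul, Finset.sum_smul]
  rw [Finset.sum_comm]

theorem cj_cont (A B : EE n →L[ℂ] EE n) : Continuous (cj A B : Arr n d → Arr n d) := by
  unfold cj; fun_prop

theorem norm_cj {A B : EE n →L[ℂ] EE n} {α β : ℝ} (hA : ∀ x, ‖A x‖ ≤ Real.exp α * ‖x‖)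
    (hB : ∀ x, ‖B x‖ ≤ Real.exp β * ‖x‖) (c : Arr n d) :
    ‖cj A B c‖ ≤ Real.exp (α + d * n + d * β) * ‖c‖ := by
  refine (pi_norm_le_iff_of_nonneg (by positivity)).2 fun u => (hA _).trans ?_
  rw [Real.exp_add, Real.exp_add, mul_assoc, mul_assoc]
  refine mul_le_mul_of_nonneg_left ((norm_sum_le _ _).trans ((Finset.sum_le_card_nsmul _ _
    (Real.exp (d * β) * ‖c‖) fun w _ => ?_).trans ?_)) (Real.exp_pos _).le
  · rw [norm_smul, norm_prod, Real.exp_nat_mul]
    refine mul_le_mul ((Finset.prod_le_prod (g := fun _ => Real.exp β) (fun _ _ => norm_nonneg _)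
      fun k _ => ?_).trans (by simp)) (norm_le_pi_norm c w) (norm_nonneg _) (by positivity)
    simpa using (PiLp.norm_apply_le _ (w k)).trans (hB (EuclideanSpace.single (u k) 1))
  · rw [nsmul_eq_mul]
    refine mul_le_mul_of_nonneg_right ?_ (by positivity)
    have h1 : (n : ℝ) ^ d ≤ Real.exp n ^ d :=
      pow_le_pow_left₀ (Nat.cast_nonneg _) (by linarith [Real.add_one_le_exp (n : ℝ)]) _
    rw [← Real.exp_nat_mul] at h1
    simpa using h1

theorem cj_dg {L J : EE n ≃L[ℂ] EE n} {ρ : Fin n → ℝ} (h : ∀ x, L x = J (dg ρ x)) (c : Arr n d)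
    (u : Fin d → Fin n) (l : Fin n) : cj (L.symm : EE n →L[ℂ] EE n) L c u l =
      (Real.exp (ρ l - ∑ k, ρ (u k)) : ℝ) * cj (J.symm : EE n →L[ℂ] EE n) J c u l := by
  have h1 : ∀ y, L.symm y l = (Real.exp (ρ l) : ℝ) * J.symm y l := fun y => by
    have : J.symm y = dg ρ (L.symm y) := by rw [J.symm_apply_eq, ← h, L.apply_symm_apply]
    rw [this, dg, ← mul_assoc, ← Complex.ofReal_mul, ← Real.exp_add]
    simp
  have h2 : ∀ j, L (EuclideanSpace.single j 1) =
      ((Real.exp (-ρ j) : ℝ) : ℂ) • J (EuclideanSpace.single j 1) := fun j => by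
    rw [h, ← map_smul]
    congr 1
    ext i
    rcases eq_or_ne i j with rfl | hij
    · simp [dg]
    · simp [dg, hij]
  simp only [cj, ContinuousLinearEquiv.coe_coe, h1, h2, PiLp.smul_apply, smul_eq_mul,
    Finset.prod_mul_distrib, mul_smul, ← Finset.smul_sum, map_smul, ← mul_assoc,
    ← Complex.ofReal_prod, ← Complex.ofReal_mul, ← Real.exp_sum, ← Real.exp_add]
  rw [Finset.sum_neg_distrib, neg_add_eq_sub]

open Classical in
/-- the part that is not kept -/
def nk (wt : Fin n → ℝ) (c : Arr n d) : Arr n d :=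
  fun w => WithLp.toLp 2 fun l => if ∑ k, wt (w k) ≤ wt l then 0 else c w l

theorem nk_cont (wt : Fin n → ℝ) : Continuous (nk wt : Arr n d → Arr n d) :=
  continuous_pi fun w => (PiLp.continuous_toLp _ _).comp (continuous_pi fun l => by
    split_ifs <;> fun_prop)

theorem nk_add (wt : Fin n → ℝ) (c c' : Arr n d) : nk wt (c + c') = nk wt c + nk wt c' := by
  ext w l
  simp only [nk, Pi.add_apply, PiLp.add_apply]
  split_ifs <;> simp

theorem kept_sub_nk (wt : Fin n → ℝ) (c : Arr n d) : Kept wt (c - nk wt c) := fun w l h => by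
  by_contra h'
  exact h (by simp [nk, h'])

theorem norm_nk_le {wt : Fin n → ℝ} {c c' : Arr n d} {t : ℝ} (ht : 0 ≤ t)
    (h : ∀ w l, wt l < ∑ k, wt (w k) → ‖c w l‖ ≤ t * ‖c' w l‖) : ‖nk wt c‖ ≤ t * ‖c'‖ :=
  (pi_norm_le_iff_of_nonneg (by positivity)).2 fun w => (norm_le_of_comp ht fun l => by
    simp only [nk]
    split_ifs with h'
    · rw [norm_zero]; positivity
    · exact h w l (not_le.1 h')).trans (mul_le_mul_of_nonneg_left (norm_le_pi_norm c' w) ht)

theorem norm_sub_nk (wt : Fin n → ℝ) (c : Arr n d) : ‖c - nk wt c‖ ≤ ‖c‖ :=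
  (pi_norm_le_iff_of_nonneg (norm_nonneg _)).2 fun w => le_trans (by
    simpa using norm_le_of_comp (x := (c - nk wt c) w) (y := c w) zero_le_one fun l => by
      simp only [nk, Pi.sub_apply, PiLp.sub_apply]
      split_ifs <;> simp) (norm_le_pi_norm c w)

theorem exp_add_le {x y z : ℝ} (hx : x + 1 ≤ z) (hy : y + 1 ≤ z) :
    Real.exp x + Real.exp y ≤ Real.exp z := by
  have h1 := Real.exp_le_exp.2 hx
  have h2 := Real.exp_le_exp.2 hy
  rw [Real.exp_add] at h1 h2
  nlinarith [Real.add_one_le_exp (1 : ℝ), Real.exp_pos x, Real.exp_pos y]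

end H60

open H60

theorem homStmt (n : ℕ) : HomStmt n := by
  intro d s hd hs
  classical
  have hd0 : (2 : ℝ) ≤ d := by exact_mod_cast hd
  have hdn : (0 : ℝ) ≤ d * n := by positivity
  refine ⟨d * n + d + 2 * (s + 2) + 2, by linarith, fun X c hX hc hdv => ?_⟩
  set a : ℝ := d * n + d + 2 * (s + 2) + 2 with ha
  let c' : ℕ → Arr n d := fun i u => (X.L i).symm (c i u)
  let G : ℕ → Arr n d → Arr n d := fun i q =>
    cj ((X.L i).symm : EE n →L[ℂ] EE n) (X.L i) q + c' i
  let Φ : ℕ → Arr n d → Arr n d := fun i q => if X.fine i then nk (X.wt i) (G i q) else 0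
  let S : ℕ → Set (Arr n d) := fun i => closedBall 0 (Real.exp ((s + 2) * X.b i)) ∩
    ({q | ∀ x, divg (hev q) x = 0} ∩ {q | ¬ X.fine i → q = 0})
  have hc' : ∀ i x, hev (c' i) x = (X.L i).symm (hev (c i) x) := fun i x => by
    simp [hev, c']
  have hc'n : ∀ i, ‖c' i‖ ≤ Real.exp ((s + 1) * X.b i) := fun i =>
    (pi_norm_le_iff_of_nonneg (by positivity)).2 fun u => (hX.L_inv i _).trans (by
      rw [add_mul, one_mul, add_comm, Real.exp_add]
      exact mul_le_mul_of_nonneg_left ((norm_le_pi_norm _ u).trans (hc i)) (Real.exp_pos _).le)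
  have hG : ∀ i q, (∀ x, divg (hev q) x = 0) → ∀ x, divg (hev (G i q)) x = 0 := fun i q hq x => by
    rw [divg_hev_add, funext (hev_cj _ _ q), funext (hc' i), hdv, add_zero]
    exact (divg_conj (X.L i) (hev_diff q) x).trans (hq _)
  have hp : ∀ i q, (∀ x, divg (hev q) x = 0) → ∀ x, divg (hev (G i q - Φ i q)) x = 0 :=
    fun i q hq x => by
      simp only [Φ]
      split_ifs with h
      · exact divg_kept (hX.wt_pos i h) hd (kept_sub_nk _ _) x
      · rw [sub_zero]; exact hG i q hq x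
  obtain ⟨q, hq, hΦ⟩ := invlim S Φ
    (fun i => (isCompact_closedBall _ _).inter_right (IsClosed.inter (by
      simp only [ofPred_forall, divg_hev]
      exact isClosed_iInter fun x => isClosed_eq (by fun_prop) continuous_const) (by
      simp only [ofPred_forall]
      exact isClosed_iInter fun _ => isClosed_eq continuous_id continuous_const)))
    (fun i => ⟨0, mem_closedBall_self (Real.exp_pos _).le, fun x => by simp [divg_hev],
      fun _ => rfl⟩)
    (fun i => by
      simp only [Φ]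
      split_ifs
      · exact (nk_cont _).comp ((cj_cont _ _).add continuous_const)
      · exact continuous_const)
    (fun i q ⟨h1, h2, h3⟩ => ⟨by
      rw [mem_closedBall_zero_iff] at h1 ⊢
      simp only [Φ]
      split_ifs with h
      swap
      · rw [norm_zero]; positivity
      have hb := hX.b_ge i
      have k1 : ‖nk (X.wt i) (c' i)‖ ≤ Real.exp ((s + 1) * X.b i) :=
        (norm_nk_le zero_le_one fun _ _ _ => (one_mul _).ge).trans ((one_mul _).le.trans (hc'n i))
      have k2 : ‖nk (X.wt i) (cj ((X.L i).symm : EE n →L[ℂ] EE n) (X.L i) q)‖ ≤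
          Real.exp ((s + 2) * X.b i - 1) := by
        refine (norm_nk_le (Real.exp_pos (-X.e i)).le (c' := cj ((X.J i).symm : EE n →L[ℂ] EE n)
          (X.J i) q) fun w l hl => ?_).trans ?_
        · rw [cj_dg (hX.L_eq i h), norm_mul, Complex.norm_real, Real.norm_of_nonneg
            (Real.exp_pos _).le]
          refine mul_le_mul_of_nonneg_right (Real.exp_le_exp.2 ?_) (norm_nonneg _)
          rw [Finset.sum_add_distrib, ← Finset.mul_sum, Finset.sum_const, Finset.card_univ,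
            Fintype.card_fin, nsmul_eq_mul]
          nlinarith [hX.len_pos i h, hX.e_ge i h]
        · refine (mul_le_mul_of_nonneg_left (norm_cj (A := ((X.J i).symm : EE n →L[ℂ] EE n))
            (B := X.J i) (hX.J_inv i h) (hX.J_le i h) q) (Real.exp_pos _).le).trans ?_
          by_cases h' : X.fine (i + 1)
          · refine (mul_le_mul_of_nonneg_left (mul_le_mul_of_nonneg_left h1 (Real.exp_pos _).le)
              (Real.exp_pos _).le).trans ?_
            rw [← Real.exp_add, ← Real.exp_add, Real.exp_le_exp]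
            have g1 := hX.gain i h h'
            have g2 := le_max_left (X.b (i + 1) - X.b i) 0
            have g3 := le_max_right (X.b (i + 1) - X.b i) 0
            have g4 := hX.cst_ge i
            have g5 : (d + 1) * X.cst i ≤ a * X.cst i := by gcongr; linarith
            have g6 : (s + 2) * (X.b (i + 1) - X.b i) ≤ a * max (X.b (i + 1) - X.b i) 0 :=
              (mul_le_mul_of_nonneg_left g2 (by linarith)).trans (by gcongr; linarith)
            linarith
          · rw [h3 h', norm_zero, mul_zero, mul_zero]; positivity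
      rw [nk_add]
      exact (norm_add_le _ _).trans ((add_le_add k2 k1).trans
        (exp_add_le (by linarith) (by linarith))), fun x => by
      rw [← sub_sub_cancel (G i q) (Φ i q), divg_hev_sub, hG i q h2, hp i q h2, sub_zero],
      fun h => if_neg h⟩)
  have hqn : ∀ i, ‖q i‖ ≤ Real.exp ((s + 2) * X.b i) := fun i => mem_closedBall_zero_iff.1 (hq i).1
  refine ⟨q, fun i => G i (q (i + 1)) - Φ i (q (i + 1)), fun i => (hqn i).trans ?_, fun i => ?_,
    fun i => (hq i).2.1, fun i => hp i _ (hq _).2.1, fun i => (hq i).2.2, fun i h => ?_,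
    fun i x => ?_⟩
  · have := hX.b_ge i
    gcongr; linarith
  · have hb := hX.b_ge i
    have k0 : ‖G i (q (i + 1)) - Φ i (q (i + 1))‖ ≤ ‖G i (q (i + 1))‖ := by
      simp only [Φ]
      split_ifs
      · exact norm_sub_nk _ _
      · rw [sub_zero]
    have k1 : ‖q (i + 1)‖ ≤ Real.exp ((s + 2) * (2 * X.b i)) := by
      by_cases h' : X.fine (i + 1)
      · have := hX.b_next i h'
        exact (hqn _).trans (by gcongr)
      · rw [(hq _).2.2 h', norm_zero]; positivity
    have k2 := (norm_cj (A := ((X.L i).symm : EE n →L[ℂ] EE n)) (B := X.L i) (hX.L_inv i)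
      (hX.L_le i) (q (i + 1))).trans (mul_le_mul_of_nonneg_left k1 (Real.exp_pos _).le)
    rw [← Real.exp_add] at k2
    refine k0.trans ((norm_add_le _ _).trans ((add_le_add k2 (hc'n i)).trans (exp_add_le ?_ ?_)))
    · rw [ha]; nlinarith
    · rw [ha]; nlinarith
  · simp only [Φ, if_pos h]
    exact kept_sub_nk _ _
  · rw [← hev_add, hΦ i, sub_add_cancel, hev_add, hev_cj, hc']
    simp

end

end Crest.Agent.T223.Dyn
end

-- ▼ part T223/DynReal_71
section

/-!
# Row 223, module DYN, leaves REALK and REAL (helper71)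

`realKStmt`: for a kept (triangular) array the map `id + hev c` is itself an automorphism.
`realStmt`: the Andersén lemma applied to `id + hev c`.
-/

set_option autoImplicit false

open Set Filter Topology Metric Asymptotics

namespace Crest.Agent.T223.Dyn

namespace R71

variable {n : ℕ}

theorem det_aux (f : MultilinearMap ℂ (fun _ : Fin n => Fin n → ℂ) ℂ) {B : ℝ} (hB : 0 ≤ B)
    (hf : ∀ m : Fin n → Fin n → ℂ, (∀ i j, ‖m i j‖ ≤ 1) → ‖f m‖ ≤ B)
    (I M : Fin n → Fin n → ℂ) (hI : ∀ i j, ‖I i j‖ ≤ 1) {ε : ℝ} (h : 0 < ε) (h1 : ε ≤ 1)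
    (hM : ∀ i j, ‖M i j‖ ≤ ε) :
    ‖f (I + M) - f I - ∑ i, f (Function.update I i (M i))‖ ≤ 2 ^ n * B * ε ^ 2 := by
  classical
  have key := f.map_add_eq_map_add_linearDeriv_add I M
  rw [MultilinearMap.linearDeriv_apply] at key
  have hε : ((ε : ℂ)) ≠ 0 := by exact_mod_cast h.ne'
  have hterm : ∀ s : Finset (Fin n), 2 ≤ s.card → ‖f (s.piecewise M I)‖ ≤ B * ε ^ 2 := by
    intro s hs
    set m : Fin n → Fin n → ℂ := s.piecewise (fun i => (ε : ℂ)⁻¹ • M i) I with hm
    have e1 : s.piecewise M I = s.piecewise (fun i => (ε : ℂ) • m i) m := by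
      funext i
      by_cases hi : i ∈ s
      · simp only [hm, hi, Finset.piecewise_eq_of_mem]
        rw [smul_inv_smul₀ hε]
      · simp [hm, hi]
    have hb : ∀ i j, ‖m i j‖ ≤ 1 := by
      intro i j
      by_cases hi : i ∈ s
      · simp only [hm, hi, Finset.piecewise_eq_of_mem, Pi.smul_apply, smul_eq_mul, norm_mul,
          norm_inv, Complex.norm_real, Real.norm_eq_abs, abs_of_pos h]
        rw [inv_mul_le_iff₀ h]; simpa using hM i j
      · simp only [hm, hi, Finset.piecewise_eq_of_notMem, not_false_eq_true]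
        exact hI i j
    rw [e1, f.map_piecewise_smul, norm_smul, Finset.prod_const, norm_pow, Complex.norm_real,
      Real.norm_eq_abs, abs_of_pos h, mul_comm]
    exact mul_le_mul (hf m hb) (pow_le_pow_of_le_one h.le h1 hs) (by positivity) hB
  have e2 : f (I + M) - f I - ∑ i, f (Function.update I i (M i)) =
      ∑ s : Finset (Fin n) with 2 ≤ s.card, f (s.piecewise M I) := by
    rw [key]; ring
  rw [e2]
  refine (norm_sum_le _ _).trans ?_
  refine (Finset.sum_le_card_nsmul _ _ (B * ε ^ 2) fun s hs =>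
    hterm s (Finset.mem_filter.1 hs).2).trans ?_
  rw [nsmul_eq_mul, mul_assoc]
  refine mul_le_mul_of_nonneg_right ?_ (by positivity)
  have := Finset.card_filter_le (Finset.univ : Finset (Finset (Fin n))) (fun s => 2 ≤ s.card)
  rw [Finset.card_univ, Fintype.card_finset, Fintype.card_fin] at this
  exact_mod_cast this

/-- second order expansion of the determinant -/
theorem det_one_add (n : ℕ) : ∃ K : ℝ, 0 ≤ K ∧ ∀ (M : Matrix (Fin n) (Fin n) ℂ) (ε : ℝ),
    0 ≤ ε → ε ≤ 1 → (∀ i j, ‖M i j‖ ≤ ε) → ‖(1 + M).det - 1 - M.trace‖ ≤ K * ε ^ 2 := by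
  classical
  refine ⟨2 ^ n * (n.factorial : ℝ), by positivity, fun M ε h0 h1 hM => ?_⟩
  rcases h0.eq_or_lt with h | h
  · subst h
    have : M = 0 := by
      ext i j; simpa using hM i j
    subst this; simp
  have key := det_aux (Matrix.detRowAlternating (n := Fin n) (R := ℂ)).toMultilinearMap
    (B := (n.factorial : ℝ)) (by positivity) (fun m hm => by
      have := Matrix.det_le (A := Matrix.of m) (abv := NormedField.toAbsoluteValue ℂ) (x := 1) hm
      simp only [Fintype.card_fin, one_pow, nsmul_eq_mul, mul_one] at this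
      exact this) (1 : Matrix (Fin n) (Fin n) ℂ) M (fun i j => by
        rw [Matrix.one_apply]; split_ifs <;> simp) h h1 hM
  have hlin : ∑ i, ((1 : Matrix (Fin n) (Fin n) ℂ).updateRow i (M i)).det = M.trace := by
    rw [Matrix.trace]
    refine Finset.sum_congr rfl fun i _ => ?_
    have h2 := Matrix.det_updateRow_sum (1 : Matrix (Fin n) (Fin n) ℂ) i (M i)
    have h3 : ∑ k, M i k • (1 : Matrix (Fin n) (Fin n) ℂ) k = M i := by
      ext j
      simp [Finset.sum_apply, Matrix.one_apply]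
    rw [h3] at h2
    simpa using h2
  have key' : ‖(1 + M).det - (1 : Matrix (Fin n) (Fin n) ℂ).det -
      ∑ i, ((1 : Matrix (Fin n) (Fin n) ℂ).updateRow i (M i)).det‖ ≤
      2 ^ n * (n.factorial : ℝ) * ε ^ 2 := key
  rwa [hlin, Matrix.det_one] at key'

/-- the matrix of a continuous linear map -/
noncomputable def mat (A : EE n →L[ℂ] EE n) : Matrix (Fin n) (Fin n) ℂ :=
  fun l k => A (EuclideanSpace.single k 1) l

theorem det_id_add (A : EE n →L[ℂ] EE n) :
    (ContinuousLinearMap.id ℂ (EE n) + A).det = (1 + mat A).det := by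
  classical
  rw [ContinuousLinearMap.det, ← LinearMap.det_toMatrix (EuclideanSpace.basisFun (Fin n) ℂ).toBasis]
  congr 1
  ext l k
  simp [LinearMap.toMatrix_apply, mat, Matrix.one_apply]

variable {d : ℕ}

theorem norm_mono_le (w : Fin d → Fin n) (x : EE n) : ‖mono w x‖ ≤ ‖x‖ ^ d := by
  rw [mono, norm_prod]
  calc ∏ k, ‖x (w k)‖ ≤ ∏ _k : Fin d, ‖x‖ :=
        Finset.prod_le_prod (fun _ _ => norm_nonneg _) fun k _ => PiLp.norm_apply_le x (w k)
    _ = ‖x‖ ^ d := by simp

theorem norm_hev_le (c : Arr n d) (x : EE n) : ‖hev c x‖ ≤ (n : ℝ) ^ d * ‖c‖ * ‖x‖ ^ d := by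
  rw [hev]
  refine (norm_sum_le _ _).trans ?_
  refine (Finset.sum_le_card_nsmul _ _ (‖c‖ * ‖x‖ ^ d) fun w _ => ?_).trans ?_
  · rw [norm_smul, mul_comm]
    exact mul_le_mul (norm_le_pi_norm c w) (norm_mono_le w x) (norm_nonneg _) (norm_nonneg _)
  · simp [mul_assoc]

theorem hev_apply (c : Arr n d) (x : EE n) (l : Fin n) : hev c x l = ∑ w, mono w x * c w l := by
  simp [hev]

/-- the derivative of a monomial -/
noncomputable def dmono (w : Fin d → Fin n) (x : EE n) : EE n →L[ℂ] ℂ :=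
  ∑ k, (∏ j ∈ Finset.univ.erase k, x (w j)) • EuclideanSpace.proj (𝕜 := ℂ) (w k)

theorem hasFDerivAt_mono (w : Fin d → Fin n) (x : EE n) : HasFDerivAt (mono w) (dmono w x) x := by
  have := HasFDerivAt.finsetProd (u := Finset.univ) (x := x)
    (g := fun (k : Fin d) (y : EE n) => y (w k))
    (g' := fun k => EuclideanSpace.proj (𝕜 := ℂ) (w k))
    fun k _ => (EuclideanSpace.proj (𝕜 := ℂ) (w k) : EE n →L[ℂ] ℂ).hasFDerivAt
  exact this

theorem norm_dmono_le (w : Fin d → Fin n) (x v : EE n) :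
    ‖dmono w x v‖ ≤ d * ‖x‖ ^ (d - 1) * ‖v‖ := by
  simp only [dmono, sum_apply, smul_apply, smul_eq_mul]
  refine (norm_sum_le _ _).trans ?_
  refine (Finset.sum_le_card_nsmul _ _ (‖x‖ ^ (d - 1) * ‖v‖) fun k _ => ?_).trans ?_
  · rw [norm_mul, norm_prod]
    refine mul_le_mul ?_ (PiLp.norm_apply_le v (w k)) (norm_nonneg _) (by positivity)
    calc ∏ j ∈ Finset.univ.erase k, ‖x (w j)‖ ≤ ∏ _j ∈ Finset.univ.erase k, ‖x‖ :=
          Finset.prod_le_prod (fun _ _ => norm_nonneg _) fun j _ => PiLp.norm_apply_le x (w j)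
      _ = ‖x‖ ^ (d - 1) := by simp
  · simp [mul_assoc]

/-- the derivative of `hev c` -/
noncomputable def dhev (c : Arr n d) (x : EE n) : EE n →L[ℂ] EE n :=
  ∑ w, (dmono w x).smulRight (c w)

theorem hasFDerivAt_hev (c : Arr n d) (x : EE n) : HasFDerivAt (hev c) (dhev c x) x := by
  have := HasFDerivAt.fun_sum (u := Finset.univ) (x := x)
    (A := fun (w : Fin d → Fin n) (y : EE n) => mono w y • c w)
    (A' := fun w => (dmono w x).smulRight (c w))
    fun w _ => (hasFDerivAt_mono w x).smul_const (c w)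
  exact this

theorem differentiable_hev (c : Arr n d) : Differentiable ℂ (hev c) := fun x =>
  (hasFDerivAt_hev c x).differentiableAt

theorem norm_dhev_le (c : Arr n d) (x v : EE n) :
    ‖dhev c x v‖ ≤ (n : ℝ) ^ d * d * ‖c‖ * ‖x‖ ^ (d - 1) * ‖v‖ := by
  simp only [dhev, sum_apply, ContinuousLinearMap.smulRight_apply]
  refine (norm_sum_le _ _).trans ?_
  refine (Finset.sum_le_card_nsmul _ _ (d * ‖x‖ ^ (d - 1) * ‖v‖ * ‖c‖) fun w _ => ?_).trans ?_
  · rw [norm_smul]
    exact mul_le_mul (norm_dmono_le w x v) (norm_le_pi_norm c w) (norm_nonneg _) (by positivity)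
  · simp only [Finset.card_univ, Fintype.card_fun, Fintype.card_fin, nsmul_eq_mul]
    push_cast
    exact le_of_eq (by ring)

theorem hasFDerivAt_id_add (c : Arr n d) (x : EE n) :
    HasFDerivAt (fun y => y + hev c y) (ContinuousLinearMap.id ℂ (EE n) + dhev c x) x :=
  (hasFDerivAt_id x).add (hasFDerivAt_hev c x)

theorem trace_mat (c : Arr n d) (x : EE n) : (mat (dhev c x)).trace = divg (hev c) x := by
  rw [divg, (hasFDerivAt_hev c x).fderiv]; rfl

/-! ### triangular arrays -/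

section Kept

variable {wt : Fin n → ℝ} {c : Arr n d}

theorem kept_lt (hd : 2 ≤ d) (hw : ∀ l, 0 < wt l) (hk : Kept wt c) {w : Fin d → Fin n}
    {l : Fin n} (h : c w l ≠ 0) (k : Fin d) : wt (w k) < wt l := by
  have h1 := hk w l h
  obtain ⟨j, hj⟩ : ∃ j : Fin d, j ≠ k := by
    by_cases h0 : k.val = 0
    · exact ⟨⟨1, by omega⟩, fun e => by rw [← e] at h0; simp at h0⟩
    · exact ⟨⟨0, by omega⟩, fun e => by rw [← e] at h0; simp at h0⟩
  have h2 : wt (w k) + wt (w j) ≤ ∑ i, wt (w i) := by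
    rw [← Finset.sum_pair (f := fun i => wt (w i)) hj.symm]
    exact Finset.sum_le_sum_of_subset_of_nonneg (Finset.subset_univ _) fun i _ _ => (hw _).le
  linarith [hw (w j)]

theorem hev_congr (hd : 2 ≤ d) (hw : ∀ l, 0 < wt l) (hk : Kept wt c) {x y : EE n} {l : Fin n}
    (h : ∀ k, wt k < wt l → x k = y k) : hev c x l = hev c y l := by
  rw [hev_apply, hev_apply]
  refine Finset.sum_congr rfl fun w _ => ?_
  by_cases h0 : c w l = 0
  · simp [h0]
  · congr 1
    exact Finset.prod_congr rfl fun k _ => h _ (kept_lt hd hw hk h0 k)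

theorem mat_eq_zero (hd : 2 ≤ d) (hw : ∀ l, 0 < wt l) (hk : Kept wt c) (x : EE n) {l k : Fin n}
    (h : ¬ wt k < wt l) : mat (dhev c x) l k = 0 := by
  simp only [mat, dhev, sum_apply, ContinuousLinearMap.smulRight_apply,
    WithLp.ofLp_sum, Finset.sum_apply, WithLp.ofLp_smul, Pi.smul_apply, smul_eq_mul]
  refine Finset.sum_eq_zero fun w _ => ?_
  by_cases h0 : c w l = 0
  · simp [h0]
  · have : dmono w x (EuclideanSpace.single k 1) = 0 := by
      simp only [dmono, sum_apply, smul_apply]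
      refine Finset.sum_eq_zero fun j _ => ?_
      have : w j ≠ k := fun e => h (e ▸ kept_lt hd hw hk h0 j)
      simp [this]
    simp [this]

theorem det_kept (hd : 2 ≤ d) (hw : ∀ l, 0 < wt l) (hk : Kept wt c) (x : EE n) :
    (1 + mat (dhev c x)).det = 1 := by
  classical
  have hb : Matrix.BlockTriangular (1 + mat (dhev c x)) fun l => -wt l := by
    intro i j hij
    have h1 : wt i < wt j := by simpa using hij
    have h2 : i ≠ j := fun e => by rw [e] at h1; exact lt_irrefl _ h1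
    rw [Matrix.add_apply, mat_eq_zero hd hw hk x h1.not_gt, Matrix.one_apply_ne h2, add_zero]
  rw [hb.det]
  refine Finset.prod_eq_one fun a _ => ?_
  have : (1 + mat (dhev c x)).toSquareBlock (fun l => -wt l) a = 1 := by
    ext i j
    have hij : wt j = wt i := by linarith [i.2, j.2]
    rw [Matrix.toSquareBlock_def, Matrix.of_apply, Matrix.add_apply,
      mat_eq_zero hd hw hk x (by rw [hij]; exact lt_irrefl _), add_zero, Matrix.one_apply,
      Matrix.one_apply]
    simp [Subtype.ext_iff]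
  rw [this, Matrix.det_one]

/-- rank of a coordinate -/
noncomputable def rk (wt : Fin n → ℝ) (l : Fin n) : ℕ :=
  (Finset.univ.filter fun k => wt k < wt l).card

theorem rk_lt {k l : Fin n} (h : wt k < wt l) : rk wt k < rk wt l := by
  refine Finset.card_lt_card ⟨fun j hj => ?_, fun hs => ?_⟩
  · simp only [Finset.mem_filter, Finset.mem_univ, true_and] at hj ⊢
    exact hj.trans h
  · have := hs (Finset.mem_filter.2 ⟨Finset.mem_univ k, h⟩)
    simp at this

theorem rk_lt_n (l : Fin n) : rk wt l < n := by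
  have : rk wt l < (Finset.univ : Finset (Fin n)).card := by
    refine Finset.card_lt_card ⟨Finset.filter_subset _ _, fun hs => ?_⟩
    have := hs (Finset.mem_univ l)
    simp at this
  simpa using this

/-- the iteration for the inverse -/
noncomputable def itv (c : Arr n d) : ℕ → EE n → EE n
  | 0 => fun x => x
  | j + 1 => fun x => x - hev c (itv c j x)

theorem itv_diff (c : Arr n d) : ∀ j, Differentiable ℂ (itv c j)
  | 0 => differentiable_id
  | j + 1 => differentiable_id.sub ((differentiable_hev c).comp (itv_diff c j))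

theorem itv_stab (hd : 2 ≤ d) (hw : ∀ l, 0 < wt l) (hk : Kept wt c) (x : EE n) :
    ∀ m : ℕ, ∀ l, rk wt l < m → ∀ j j', m ≤ j → m ≤ j' → itv c j x l = itv c j' x l := by
  intro m
  induction m with
  | zero => intro l hl; omega
  | succ m ih =>
    intro l hl j j' hj hj'
    obtain ⟨a, rfl⟩ : ∃ a, j = a + 1 := ⟨j - 1, by omega⟩
    obtain ⟨a', rfl⟩ : ∃ a, j' = a + 1 := ⟨j' - 1, by omega⟩
    simp only [itv, PiLp.sub_apply]
    rw [hev_congr hd hw hk (x := itv c a x) (y := itv c a' x) fun k hkl =>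
      ih k (by have := rk_lt hkl; omega) a a' (by omega) (by omega)]

theorem itv_right (hd : 2 ≤ d) (hw : ∀ l, 0 < wt l) (hk : Kept wt c) (x : EE n) :
    itv c n x + hev c (itv c n x) = x := by
  have : itv c n x = itv c (n + 1) x := by
    ext l
    exact itv_stab hd hw hk x n l (rk_lt_n l) n (n + 1) le_rfl (Nat.le_succ n)
  have h2 : itv c (n + 1) x = x - hev c (itv c n x) := rfl
  rw [h2] at this
  exact eq_sub_iff_add_eq.1 this

theorem inj_kept (hd : 2 ≤ d) (hw : ∀ l, 0 < wt l) (hk : Kept wt c) :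
    Function.Injective fun x => x + hev c x := by
  intro x y hxy
  have : ∀ m : ℕ, ∀ l, rk wt l < m → x l = y l := by
    intro m
    induction m with
    | zero => intro l hl; omega
    | succ m ih =>
      intro l hl
      have h1 : x l + hev c x l = y l + hev c y l := by
        simpa using congrArg (fun z : EE n => z l) hxy
      rw [hev_congr hd hw hk (x := x) (y := y) fun k hkl =>
        ih k (by have := rk_lt hkl; omega)] at h1
      exact add_right_cancel h1
  ext l
  exact this n l (rk_lt_n l)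

theorem itv_bound (hd : 2 ≤ d) (c : Arr n d) {B : ℝ} (hB : (n : ℝ) ^ d * ‖c‖ * 2 ^ d ≤ B)
    {x : EE n} (hx : ‖x‖ ≤ 1) (hx' : B * ‖x‖ ≤ 1) :
    ∀ j, ‖itv c j x - x‖ ≤ B * ‖x‖ ^ 2 := by
  have hB0 : 0 ≤ B := le_trans (by positivity) hB
  intro j
  induction j with
  | zero => simp only [itv, sub_self, norm_zero]; positivity
  | succ j ih =>
    have h1 : ‖itv c j x‖ ≤ 2 * ‖x‖ := by
      have := norm_add_le (itv c j x - x) x
      rw [sub_add_cancel] at this
      nlinarith [norm_nonneg x]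
    have h2 : itv c (j + 1) x - x = -hev c (itv c j x) := by simp [itv]
    rw [h2, norm_neg]
    calc ‖hev c (itv c j x)‖ ≤ (n : ℝ) ^ d * ‖c‖ * ‖itv c j x‖ ^ d := norm_hev_le _ _
      _ ≤ (n : ℝ) ^ d * ‖c‖ * (2 * ‖x‖) ^ d := by gcongr
      _ = (n : ℝ) ^ d * ‖c‖ * 2 ^ d * ‖x‖ ^ d := by rw [mul_pow]; ring
      _ ≤ B * ‖x‖ ^ 2 :=
        mul_le_mul hB (pow_le_pow_of_le_one (norm_nonneg _) hx hd) (by positivity) hB0

end Kept

theorem small {t : ℝ} {x : EE n} (ht : 0 ≤ t) (hx : ‖x‖ ≤ Real.exp (-t)) :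
    ‖x‖ ≤ 1 ∧ Real.exp t * ‖x‖ ≤ 1 := by
  refine ⟨hx.trans (Real.exp_le_one_iff.2 (by linarith)), ?_⟩
  calc Real.exp t * ‖x‖ ≤ Real.exp t * Real.exp (-t) := by gcongr
    _ = 1 := by rw [← Real.exp_add]; simp

end R71

open R71

/-- **leaf REALK** -/
theorem realKStmt (n : ℕ) : RealKStmt n := by
  intro d hd
  set N : ℝ := (n : ℝ) ^ d with hN
  have hN0 : 0 ≤ N := by positivity
  have h2d : (1 : ℝ) ≤ 2 ^ d := one_le_pow₀ (by norm_num)
  set C : ℝ := 1 + N * 2 ^ d with hC
  have hC1 : 1 ≤ C := by have : 0 ≤ N * 2 ^ d := by positivity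
                         linarith
  have hCe : C ≤ Real.exp C := by linarith [Real.add_one_le_exp C]
  have hNC : 1 + N ≤ C := by nlinarith
  have hd1 : (1 : ℝ) ≤ d := by exact_mod_cast (by omega : 1 ≤ d)
  refine ⟨C, d, hC1, hd1, fun c b wt hb hc hw hk => ?_⟩
  have hB : N * ‖c‖ * 2 ^ d ≤ Real.exp (b + C) := by
    rw [Real.exp_add]
    calc N * ‖c‖ * 2 ^ d = ‖c‖ * (N * 2 ^ d) := by ring
      _ ≤ Real.exp b * Real.exp C :=
        mul_le_mul hc (by linarith) (by positivity) (Real.exp_pos _).le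
  have hB' : N * ‖c‖ ≤ Real.exp (b + C) := by
    refine le_trans ?_ hB
    have : 0 ≤ N * ‖c‖ := by positivity
    nlinarith
  let σ : EE n ≃ EE n :=
    { toFun := fun x => x + hev c x
      invFun := itv c n
      left_inv := fun x => inj_kept hd hw hk (itv_right hd hw hk _)
      right_inv := fun x => itv_right hd hw hk x }
  have hσ : (σ : EE n → EE n) = fun x => x + hev c x := rfl
  have hσ' : (σ.symm : EE n → EE n) = itv c n := rfl
  refine ⟨σ, ⟨?_, ?_, ?_, ?_, ?_, ?_⟩, ?_, ?_⟩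
  · rw [hσ]; exact fun x => (hasFDerivAt_id_add c x).differentiableAt
  · rw [hσ']; exact itv_diff c n
  · intro x
    rw [hσ, (hasFDerivAt_id_add c x).fderiv, det_id_add, det_kept hd hw hk]
  · intro x hx
    obtain ⟨h1, -⟩ := small (by linarith) hx
    rw [hσ]
    simp only [add_sub_cancel_left]
    exact (norm_hev_le c x).trans (mul_le_mul hB' (pow_le_pow_of_le_one (norm_nonneg _) h1 hd)
      (by positivity) (Real.exp_pos _).le)
  · intro x hx
    obtain ⟨h1, h2⟩ := small (by linarith) hx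
    rw [hσ']
    exact itv_bound hd c hB h1 h2 n
  · intro Z x hZ hx
    rw [hσ]
    have e1 : ‖x‖ ≤ Real.exp (b + d * Z) :=
      hx.trans (Real.exp_le_exp.2 (by nlinarith))
    have e2 : ‖hev c x‖ ≤ N * Real.exp (b + d * Z) := by
      refine (norm_hev_le c x).trans ?_
      rw [Real.exp_add, Real.exp_nat_mul, mul_assoc]
      gcongr
    calc ‖x + hev c x‖ ≤ (1 + N) * Real.exp (b + d * Z) := by
          linarith [norm_add_le x (hev c x)]
      _ ≤ Real.exp C * Real.exp (b + d * Z) := by gcongr; linarith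
      _ ≤ Real.exp (d * (Z + (b + C))) := by
          rw [← Real.exp_add]
          exact Real.exp_le_exp.2 (by nlinarith)
  · intro Y C' hY hC' x hx l
    rw [hσ]
    have hterm : ∀ w, ‖mono w x * c w l‖ ≤ Real.exp (Y * wt l - C') := by
      intro w
      by_cases h0 : c w l = 0
      · rw [h0, mul_zero, norm_zero]; exact (Real.exp_pos _).le
      have h1 : ‖mono w x‖ ≤ Real.exp (Y * wt l - d * C') := by
        rw [mono, norm_prod]
        calc ∏ k, ‖x (w k)‖ ≤ ∏ k, Real.exp (Y * wt (w k) - C') :=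
              Finset.prod_le_prod (fun _ _ => norm_nonneg _) fun k _ => hx (w k)
          _ = Real.exp (Y * ∑ k, wt (w k) - d * C') := by
              rw [← Real.exp_sum, Finset.sum_sub_distrib, Finset.mul_sum]; simp
          _ ≤ _ := Real.exp_le_exp.2 (by nlinarith [hk w l h0])
      have h2 : ‖c w l‖ ≤ Real.exp b :=
        (PiLp.norm_apply_le (c w) l).trans ((norm_le_pi_norm c w).trans hc)
      have hd2 : (2 : ℝ) ≤ d := by exact_mod_cast hd
      rw [norm_mul]
      calc ‖mono w x‖ * ‖c w l‖ ≤ Real.exp (Y * wt l - d * C') * Real.exp b :=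
            mul_le_mul h1 h2 (norm_nonneg _) (Real.exp_pos _).le
        _ ≤ _ := by
            rw [← Real.exp_add]
            exact Real.exp_le_exp.2 (by nlinarith)
    have h3 : ‖hev c x l‖ ≤ N * Real.exp (Y * wt l - C') := by
      rw [hev_apply]
      refine (norm_sum_le _ _).trans ?_
      refine (Finset.sum_le_card_nsmul _ _ _ fun w _ => hterm w).trans ?_
      simp [hN]
    calc ‖(x + hev c x) l‖ ≤ (1 + N) * Real.exp (Y * wt l - C') := by
          rw [PiLp.add_apply]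
          linarith [norm_add_le (x l) (hev c x l), hx l]
      _ ≤ Real.exp C * Real.exp (Y * wt l - C') := by gcongr; linarith
      _ = Real.exp (Y * wt l - (C' - C)) := by rw [← Real.exp_add]; congr 1; ring
  · rw [hσ]
    simp only [add_sub_cancel_left, sub_self]
    exact isBigO_zero _ _

/-- **leaf REAL** from the Andersén lemma -/
theorem realStmt {n : ℕ} (h : And.AndStmt n) : RealStmt n := by
  intro d hd
  obtain ⟨D0, C0, hC0, H⟩ := h d
  obtain ⟨K, hK0, hK⟩ := det_one_add n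
  set N : ℝ := (n : ℝ) ^ d with hN
  have hN0 : 0 ≤ N := by positivity
  set C : ℝ := 2 * C0 * (N + 1) with hC
  have hC1 : 1 ≤ C := by nlinarith
  have hCe : C ≤ Real.exp C := by linarith [Real.add_one_le_exp C]
  have hD0 : (0 : ℝ) ≤ D0 := Nat.cast_nonneg _
  refine ⟨C, D0 + 1, hC1, by linarith, fun c b hb hc hdiv => ?_⟩
  have heb : 1 ≤ Real.exp b := Real.one_le_exp hb
  set β : ℝ := (N + 1) * Real.exp b with hβ
  have hβ1 : 1 ≤ β := by nlinarith
  have hβ0 : 0 < β := by linarith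
  have hβC : 2 * C0 * β ≤ Real.exp (b + C) := by
    rw [Real.exp_add]
    calc 2 * C0 * β = Real.exp b * C := by rw [hβ, hC]; ring
      _ ≤ _ := by gcongr
  have hball : ∀ z ∈ ball (0 : EE n) β⁻¹, ‖z‖ ≤ 1 := fun z hz =>
    (mem_ball_zero_iff.1 hz).le.trans (inv_le_one_of_one_le₀ hβ1)
  obtain ⟨Q, Q', hQ, hj⟩ := H β (fun x => x + hev c x) hβ0
    (fun x _ => (hasFDerivAt_id_add c x).differentiableAt.differentiableWithinAt)
    (fun z hz => by
      simp only [add_sub_cancel_left]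
      refine (norm_hev_le c z).trans (mul_le_mul ?_
        (pow_le_pow_of_le_one (norm_nonneg _) (hball z hz) hd) (by positivity) hβ0.le)
      rw [hβ]
      exact mul_le_mul (by linarith) hc (norm_nonneg _) (by linarith))
    (by
      set A : ℝ := N * d * ‖c‖ + 1 with hA
      have hA1 : 1 ≤ A := by have : 0 ≤ N * d * ‖c‖ := by positivity
                             linarith
      have hA0 : 0 < A := by linarith
      refine ⟨K * A ^ 2, ?_⟩
      filter_upwards [ball_mem_nhds (0 : EE n) (inv_pos.2 hA0)] with z hz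
      have hz1 : ‖z‖ < A⁻¹ := mem_ball_zero_iff.1 hz
      have hz2 : ‖z‖ ≤ 1 := hz1.le.trans (inv_le_one_of_one_le₀ hA1)
      have hz3 : A * ‖z‖ ≤ 1 := by
        rw [← le_div_iff₀' hA0, one_div]; exact hz1.le
      have hp : ‖z‖ ^ (d - 1) ≤ ‖z‖ := by
        simpa using pow_le_pow_of_le_one (norm_nonneg z) hz2 (by omega : 1 ≤ d - 1)
      have hent : ∀ i j, ‖mat (dhev c z) i j‖ ≤ A * ‖z‖ ^ (d - 1) := by
        intro i j
        refine (PiLp.norm_apply_le _ i).trans ((norm_dhev_le c z _).trans ?_)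
        simp only [PiLp.norm_single, norm_one, mul_one]
        gcongr
        linarith
      have := hK (mat (dhev c z)) (A * ‖z‖ ^ (d - 1)) (by positivity)
        (le_trans (by gcongr) hz3) hent
      rw [trace_mat, hdiv, sub_zero] at this
      rw [(hasFDerivAt_id_add c z).fderiv, det_id_add]
      refine this.trans ?_
      rw [mul_pow, ← pow_mul, mul_assoc]
      gcongr K * (A ^ 2 * ?_)
      exact pow_le_pow_of_le_one (norm_nonneg z) hz2 (by omega))
  let σ : EE n ≃ EE n := ⟨Q, Q', hQ.li, hQ.ri⟩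
  have hσ : (σ : EE n → EE n) = Q := rfl
  have hσ' : (σ.symm : EE n → EE n) = Q' := rfl
  have hβe : β ≤ Real.exp (b + C) := by nlinarith
  have hCβ : C0 * β ≤ Real.exp (b + C) := by nlinarith
  have hsm : ∀ x : EE n, ‖x‖ ≤ Real.exp (-(b + C)) → β * ‖x‖ ≤ 1 := fun x hx =>
    le_trans (by gcongr) (small (by linarith) hx).2
  refine ⟨σ, ⟨hQ.hol, hQ.hol', hQ.det, fun x hx => ?_, fun x hx => ?_, fun Z x hZ hx => ?_⟩, ?_⟩
  · exact (hQ.tan x (hsm x hx)).trans (by gcongr)
  · exact (hQ.tan' x (hsm x hx)).trans (by gcongr)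
  · have hZ1 : 1 ≤ Real.exp Z := Real.one_le_exp hZ
    have e1 : 1 + β * ‖x‖ ≤ Real.exp (Z + (b + C)) := by
      rw [Real.exp_add]
      have h1 : β * ‖x‖ ≤ β * Real.exp Z := by gcongr
      have h2 : 2 * β ≤ Real.exp (b + C) := by nlinarith
      nlinarith
    have e2 : C0 * ‖x‖ ≤ Real.exp (Z + (b + C)) := by
      rw [Real.exp_add, mul_comm]
      exact mul_le_mul hx (by nlinarith) (by linarith) (Real.exp_pos _).le
    calc ‖σ x‖ ≤ C0 * ‖x‖ * (1 + β * ‖x‖) ^ D0 := hQ.gr x
      _ ≤ Real.exp (Z + (b + C)) * Real.exp (Z + (b + C)) ^ D0 := by gcongr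
      _ = Real.exp ((D0 + 1) * (Z + (b + C))) := by
          rw [← Real.exp_nat_mul, ← Real.exp_add]; congr 1; ring
  · refine IsBigO.of_bound (C0 * β ^ d) ?_
    filter_upwards [ball_mem_nhds (0 : EE n) (inv_pos.2 hβ0)] with z hz
    have := (hj z hz).1
    rw [hσ, sub_sub, Real.norm_of_nonneg (by positivity)]
    exact this

end Crest.Agent.T223.Dyn
private theorem rz_fa4ade4a31 : type_of% @_root_.Crest.Agent.T223.Dyn.R71.itv.eq_def := @_root_.Crest.Agent.T223.Dyn.R71.itv.eq_def -- L258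
private theorem rz_3ab2edd6f6 : type_of% @_root_.Crest.Agent.T223.Dyn.R71.itv.eq_1 := @_root_.Crest.Agent.T223.Dyn.R71.itv.eq_1 -- L258
end

-- ▼ part T223/DynLy_45

/-!
# Row 223, module DYN (helper45): the Lyapunov hit `LyapStmt`
-/

set_option autoImplicit false

open Set Filter Topology Metric

namespace Crest.Agent.T223.Dyn

namespace Ly45

variable {n : ℕ}

theorem decomp (y : EE n) : y = ∑ l, y l • (EuclideanSpace.single l (1 : ℂ) : EE n) := by
  ext k
  simp [Finset.sum_apply, Pi.single_apply]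

theorem n_le_exp (n : ℕ) : (n : ℝ) ≤ Real.exp n := by
  have := Real.add_one_le_exp (n : ℝ)
  linarith

theorem norm_le {y : EE n} {M : ℝ} (hM : 0 ≤ M) (h : ∀ l, ‖y l‖ ≤ M) :
    ‖y‖ ≤ Real.exp n * M := by
  calc ‖y‖ = ‖∑ l, y l • (EuclideanSpace.single l (1 : ℂ) : EE n)‖ := by rw [← decomp]
    _ ≤ ∑ l, ‖y l • (EuclideanSpace.single l (1 : ℂ) : EE n)‖ := norm_sum_le _ _
    _ ≤ ∑ _l : Fin n, M := Finset.sum_le_sum fun l _ => by
        rw [norm_smul]; simpa using h l
    _ = n * M := by simp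
    _ ≤ _ := mul_le_mul_of_nonneg_right (n_le_exp n) hM


variable {X : LinD n} {σ : ℕ → EE n ≃ EE n} {a D : ℝ}

theorem dg_bound (hX : X.Ok a) {i : ℕ} (hf : X.fine i) (hL : Lya (X.wt i) a (a * X.b i) (σ i))
    {Y : ℝ} (hY : 0 ≤ Y) {x : EE n} (hx : x ∈ Box (X.wt i) Y (a * X.b i)) (l : Fin n) :
    ‖dg (fun l => X.len i * X.wt i l + X.e i) (σ i x) l‖ ≤
      Real.exp ((Y - X.len i) * X.wt i l - a * X.b i + a) := by
  have h1 := hL Y (a * X.b i) hY le_rfl hx l
  have h2 : ‖dg (fun l => X.len i * X.wt i l + X.e i) (σ i x) l‖ =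
      Real.exp (-(X.len i * X.wt i l + X.e i)) * ‖σ i x l‖ := by
    simp only [dg, norm_mul, Complex.norm_real, Real.norm_eq_abs, Real.abs_exp]
  rw [h2]
  refine le_trans (mul_le_mul_of_nonneg_left h1 (Real.exp_pos _).le) ?_
  rw [← Real.exp_add, Real.exp_le_exp]
  have := hX.e_ge i hf
  nlinarith

theorem fine_norm (hX : X.Ok a) {i : ℕ} (hf : X.fine i) (hL : Lya (X.wt i) a (a * X.b i) (σ i))
    (hj : a + X.cst i + n ≤ a * X.b i) {Y Z : ℝ} (hY : 0 ≤ Y)
    (hZ : ∀ l, (Y - X.len i) * X.wt i l ≤ Z) {x : EE n} (hx : x ∈ Box (X.wt i) Y (a * X.b i)) :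
    ‖X.L i (σ i x)‖ ≤ Real.exp Z := by
  rw [hX.L_eq i hf]
  refine le_trans (hX.J_le i hf _) ?_
  have h1 := norm_le (M := Real.exp (Z - a * X.b i + a)) (Real.exp_pos _).le fun l =>
    le_trans (dg_bound hX hf hL hY hx l) (Real.exp_le_exp.2 (by linarith [hZ l]))
  refine le_trans (mul_le_mul_of_nonneg_left h1 (Real.exp_pos _).le) ?_
  rw [← Real.exp_add, ← Real.exp_add, Real.exp_le_exp]
  linarith

theorem fine_next (hX : X.Ok a) (ha : 0 ≤ a) {i : ℕ} (hf : X.fine i)
    (hL : Lya (X.wt i) a (a * X.b i) (σ i)) {η : ℝ}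
    (hj : ∀ k, a * max (X.b (i + 1) - X.b i) 0 + a + X.cst i + n ≤ X.len i * X.wt (i + 1) k / 4 ∧
      ∀ l, X.J i (EuclideanSpace.single l 1) k ≠ 0 → X.wt i l ≤ (1 + η) * X.wt (i + 1) k)
    {Y : ℝ} (hY : X.len i ≤ Y) {x : EE n} (hx : x ∈ Box (X.wt i) Y (a * X.b i)) :
    X.L i (σ i x) ∈ Box (X.wt (i + 1)) ((1 + η) * (Y - X.len i) + X.len i / 4)
      (a * X.b (i + 1)) := by
  intro k
  have hY0 : 0 ≤ Y := le_trans (hX.len_pos i hf).le hY
  rw [hX.L_eq i hf]
  set y := dg (fun l => X.len i * X.wt i l + X.e i) (σ i x) with hy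
  have e : X.J i y k = ∑ l, y l * X.J i (EuclideanSpace.single l 1) k := by
    conv_lhs => rw [decomp y]
    simp [map_sum, Finset.sum_apply]
  set M := Real.exp ((Y - X.len i) * ((1 + η) * X.wt (i + 1) k) - a * X.b i + a + X.cst i) with hM
  have hb : ∀ l, ‖y l * X.J i (EuclideanSpace.single l 1) k‖ ≤ M := by
    intro l
    by_cases h0 : X.J i (EuclideanSpace.single l 1) k = 0
    · rw [h0, mul_zero, norm_zero]; exact (Real.exp_pos _).le
    · have h1 := (hj k).2 l h0
      have h2 := dg_bound hX hf hL hY0 hx l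
      have h3 : ‖X.J i (EuclideanSpace.single l 1) k‖ ≤ Real.exp (X.cst i) := by
        refine le_trans (PiLp.norm_apply_le _ k) ?_
        simpa using hX.J_le i hf (EuclideanSpace.single l 1)
      rw [norm_mul]
      refine le_trans (mul_le_mul h2 h3 (norm_nonneg _) (Real.exp_pos _).le) ?_
      rw [← Real.exp_add, hM, Real.exp_le_exp]
      have := mul_le_mul_of_nonneg_left h1 (sub_nonneg.2 hY)
      linarith
  rw [e]
  calc ‖∑ l, y l * X.J i (EuclideanSpace.single l 1) k‖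
      ≤ ∑ l, ‖y l * X.J i (EuclideanSpace.single l 1) k‖ := norm_sum_le _ _
    _ ≤ ∑ _l : Fin n, M := Finset.sum_le_sum fun l _ => hb l
    _ = n * M := by simp
    _ ≤ Real.exp n * M := mul_le_mul_of_nonneg_right (n_le_exp n) (Real.exp_pos _).le
    _ ≤ _ := by
        rw [hM, ← Real.exp_add, Real.exp_le_exp]
        have h1 := (hj k).1
        have h2 : a * (X.b (i + 1) - X.b i) ≤ a * max (X.b (i + 1) - X.b i) 0 :=
          mul_le_mul_of_nonneg_left (le_max_left _ _) ha
        nlinarith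

theorem crude (hX : X.Ok a) (ha : 1 ≤ a) (hD : 1 ≤ D) {i : ℕ} (hA : Aut D (a * X.b i) (σ i))
    {Z : ℝ} (hZ : 0 ≤ Z) {x : EE n} (hx : ‖x‖ ≤ Real.exp Z) :
    ‖X.L i (σ i x)‖ ≤ Real.exp (D * (Z + 2 * (a * X.b i))) := by
  refine le_trans (hX.L_le i _) ?_
  refine le_trans (mul_le_mul_of_nonneg_left (hA.grow Z x hZ hx) (Real.exp_pos _).le) ?_
  rw [← Real.exp_add, Real.exp_le_exp]
  have h1 := hX.b_ge i
  have h2 : X.b i ≤ a * X.b i := by nlinarith
  have h3 : a * X.b i ≤ D * (a * X.b i) := by nlinarith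
  nlinarith

theorem ball_box {wt : Fin n → ℝ} {Z C μ : ℝ} (hμ : 0 < μ) (hw : ∀ l, μ ≤ wt l) (h0 : 0 ≤ Z + C)
    {x : EE n} (hx : ‖x‖ ≤ Real.exp Z) : x ∈ Box wt ((Z + C) / μ) C := by
  intro l
  refine le_trans (PiLp.norm_apply_le _ l) (le_trans hx (Real.exp_le_exp.2 ?_))
  have h1 : (Z + C) / μ * μ ≤ (Z + C) / μ * wt l :=
    mul_le_mul_of_nonneg_left (hw l) (div_nonneg h0 hμ.le)
  rw [div_mul_cancel₀ _ hμ.ne'] at h1
  linarith

/-- the orbit of the ball is in the ball `exp Z` at node `i` -/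
def InB (X : LinD n) (σ : ℕ → EE n ≃ EE n) (R : ℝ) (i : ℕ) (Z : ℝ) : Prop :=
  ∀ x : EE n, ‖x‖ ≤ R → ‖orb (fun j y => X.L j (σ j y)) i x‖ ≤ Real.exp Z

/-- the orbit of the ball is in the Lyapunov box at node `i` -/
def InX (X : LinD n) (σ : ℕ → EE n ≃ EE n) (a R : ℝ) (i : ℕ) (Y : ℝ) : Prop :=
  ∀ x : EE n, ‖x‖ ≤ R → orb (fun j y => X.L j (σ j y)) i x ∈ Box (X.wt i) Y (a * X.b i)

theorem InB.mono {R : ℝ} {i : ℕ} {Z Z' : ℝ} (h : InB X σ R i Z) (hz : Z ≤ Z') : InB X σ R i Z' :=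
  fun x hx => le_trans (h x hx) (Real.exp_le_exp.2 hz)

theorem exists_inB (hX : X.Ok a) (ha : 1 ≤ a) (hD : 1 ≤ D) (hA : ∀ i, Aut D (a * X.b i) (σ i))
    (R : ℝ) (i : ℕ) : ∃ Z, 0 ≤ Z ∧ InB X σ R i Z := by
  induction i with
  | zero =>
    refine ⟨|R|, abs_nonneg _, fun x hx => ?_⟩
    have := Real.add_one_le_exp |R|
    have := le_abs_self R
    show ‖x‖ ≤ _
    linarith
  | succ i ih =>
    obtain ⟨Z, hZ, h⟩ := ih
    refine ⟨D * (Z + 2 * (a * X.b i)), ?_, fun x hx => crude hX ha hD (hA i) hZ (h x hx)⟩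
    have := hX.b_ge i
    positivity

/-- a run of at most `q` pieces treated crudely -/
theorem crude_run (hX : X.Ok a) (ha : 1 ≤ a) (hD : 1 ≤ D) (hA : ∀ i, Aut D (a * X.b i) (σ i))
    {R Z U : ℝ} {i : ℕ} (hZ : 0 ≤ Z) (hU : 0 ≤ U) (h : InB X σ R i Z) :
    ∀ j : ℕ, (∀ l, i ≤ l → l < i + j → X.b l ≤ U) →
      InB X σ R (i + j) (D ^ j * (Z + j * (2 * (a * U)))) := by
  intro j
  induction j with
  | zero => intro _; simpa using h
  | succ j ih =>
    intro hb x hx
    have h1 := ih (fun l h1 h2 => hb l h1 (by omega)) x hx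
    have hp : (1 : ℝ) ≤ D ^ j := one_le_pow₀ hD
    have haU : 0 ≤ a * U := by positivity
    have h2 := crude hX ha hD (hA (i + j)) (by positivity) h1
    refine le_trans h2 (Real.exp_le_exp.2 ?_)
    have h3 : a * X.b (i + j) ≤ a * U :=
      mul_le_mul_of_nonneg_left (hb _ (by omega) (by omega)) (by linarith)
    rw [pow_succ, mul_comm (D ^ j) D, mul_assoc]
    refine mul_le_mul_of_nonneg_left ?_ (by linarith)
    push_cast
    nlinarith

/-- a run of fine pieces without a hit -/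
theorem fine_run (hX : X.Ok a) (ha : 1 ≤ a) {η : ℕ → ℝ} (hη : ∀ i, 0 ≤ η i)
    (hL : ∀ i, X.fine i → Lya (X.wt i) a (a * X.b i) (σ i))
    (hj1 : ∀ i, X.fine i → a + X.cst i + n ≤ a * X.b i)
    (hj2 : ∀ i, X.fine i → X.fine (i + 1) → ∀ k,
      a * max (X.b (i + 1) - X.b i) 0 + a + X.cst i + n ≤ X.len i * X.wt (i + 1) k / 4 ∧
      ∀ l, X.J i (EuclideanSpace.single l 1) k ≠ 0 → X.wt i l ≤ (1 + η i) * X.wt (i + 1) k)
    {R Y : ℝ} {i : ℕ} (hno : ∀ l, i ≤ l → ¬ InB X σ R l 0) (hY : 0 ≤ Y) (h : InX X σ a R i Y) :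
    ∀ j, i ≤ j → (∀ l, i ≤ l → l ≤ j → X.fine l) → ∃ Y', X.len j ≤ Y' ∧ InX X σ a R j Y' ∧
      Y' ≤ Real.exp (∑ l ∈ Finset.Ico i j, η l) * Y - 3 / 4 * ∑ l ∈ Finset.Ico i j, X.len l := by
  have big : ∀ l, i ≤ l → X.fine l → ∀ Y', 0 ≤ Y' → InX X σ a R l Y' → X.len l ≤ Y' := by
    intro l hl hf Y' h0 hb
    by_contra hlt
    push Not at hlt
    refine hno (l + 1) (by omega) fun x hx => ?_
    exact fine_norm hX hf (hL l hf) (hj1 l hf) h0
      (fun k => by nlinarith [hX.wt_pos l hf k]) (hb x hx)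
  intro j hj
  induction j, hj using Nat.le_induction with
  | base => intro hf; exact ⟨Y, big i le_rfl (hf i le_rfl le_rfl) Y hY h, h, by simp⟩
  | succ j hj ih =>
    intro hf
    obtain ⟨Y', h1, h2, h3⟩ := ih fun l a1 a2 => hf l a1 (by omega)
    have f0 := hf j hj (by omega)
    have f1 := hf (j + 1) (by omega) le_rfl
    have hl := hX.len_pos j f0
    have hb : InX X σ a R (j + 1) ((1 + η j) * (Y' - X.len j) + X.len j / 4) := fun x hx =>
      fine_next hX (by linarith) f0 (hL j f0) (hj2 j f0 f1) h1 (h2 x hx)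
    have h0 : 0 ≤ (1 + η j) * (Y' - X.len j) + X.len j / 4 := by
      have := hη j
      have : 0 ≤ Y' - X.len j := by linarith
      positivity
    refine ⟨_, big (j + 1) (by omega) f1 _ h0 hb, hb, ?_⟩
    rw [Finset.sum_Ico_succ_top hj, Finset.sum_Ico_succ_top hj, Real.exp_add]
    set E := Real.exp (∑ l ∈ Finset.Ico i j, η l)
    set S := ∑ l ∈ Finset.Ico i j, X.len l
    have hS : 0 ≤ S := Finset.sum_nonneg fun l hl => by
      rw [Finset.mem_Ico] at hl
      exact (hX.len_pos l (hf l hl.1 (by omega))).le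
    have hE : 0 ≤ E * Y := mul_nonneg (Real.exp_pos _).le hY
    have e1 : 1 + η j ≤ Real.exp (η j) := by linarith [Real.add_one_le_exp (η j)]
    have e2 : (1 + η j) * (E * Y) ≤ Real.exp (η j) * (E * Y) := mul_le_mul_of_nonneg_right e1 hE
    have e3 : (1 + η j) * Y' ≤ (1 + η j) * (E * Y - 3 / 4 * S) :=
      mul_le_mul_of_nonneg_left h3 (by linarith [hη j])
    nlinarith [hη j, mul_nonneg (hη j) hS, mul_nonneg (hη j) hl.le]

/-- the sequence lemma -/
theorem seq {St : ℕ → ℝ → Prop} {T ℓ : ℕ → ℝ} {Tb κ : ℝ} (hκ : 0 < κ) (hT : ∀ k, T k ≤ Tb)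
    (hℓ : ∀ k, 0 ≤ ℓ k) {k0 : ℕ} {Φ0 : ℝ} (h0 : St k0 Φ0) (hpos : ∀ k Φ, St k Φ → 0 ≤ Φ)
    (hstep : ∀ k, k0 ≤ k → ∀ Φ, St k Φ →
      ∃ Φ', St (k + 1) Φ' ∧ Φ' ≤ Real.exp (T (k + 1) - T k) * Φ - κ * ℓ k) : Summable ℓ := by
  have key : ∀ N, ∃ Φ, St (k0 + N) Φ ∧ Φ * Real.exp (-T (k0 + N)) ≤
      Φ0 * Real.exp (-T k0) - κ * Real.exp (-Tb) * ∑ j ∈ Finset.range N, ℓ (j + k0) := by
    intro N
    induction N with
    | zero => exact ⟨Φ0, h0, by simp⟩
    | succ N ih =>
      obtain ⟨Φ, h1, h2⟩ := ih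
      obtain ⟨Φ', h3, h4⟩ := hstep (k0 + N) (by omega) Φ h1
      refine ⟨Φ', h3, ?_⟩
      rw [Finset.sum_range_succ, show k0 + (N + 1) = k0 + N + 1 from rfl, add_comm N k0]
      have e1 : Real.exp (T (k0 + N + 1) - T (k0 + N)) * Real.exp (-T (k0 + N + 1)) =
          Real.exp (-T (k0 + N)) := by rw [← Real.exp_add]; congr 1; ring
      have e2 : Real.exp (-Tb) ≤ Real.exp (-T (k0 + N + 1)) :=
        Real.exp_le_exp.2 (by linarith [hT (k0 + N + 1)])
      have e3 := mul_le_mul_of_nonneg_right h4 (Real.exp_pos (-T (k0 + N + 1))).le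
      have e4 := mul_le_mul_of_nonneg_left e2 (mul_nonneg hκ.le (hℓ (k0 + N)))
      have e5 : (Real.exp (T (k0 + N + 1) - T (k0 + N)) * Φ - κ * ℓ (k0 + N)) *
          Real.exp (-T (k0 + N + 1)) =
          Φ * Real.exp (-T (k0 + N)) - κ * ℓ (k0 + N) * Real.exp (-T (k0 + N + 1)) := by
        rw [← e1]; ring
      nlinarith
  rw [← summable_nat_add_iff k0]
  refine summable_of_sum_range_le (c := Φ0 * Real.exp (-T k0) / (κ * Real.exp (-Tb)))
    (fun j => hℓ _) fun N => ?_
  obtain ⟨Φ, h1, h2⟩ := key N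
  rw [le_div_iff₀ (by positivity)]
  have := mul_nonneg (hpos _ _ h1) (Real.exp_pos (-T (k0 + N))).le
  linarith

end Ly45

set_option maxHeartbeats 1600000 in
open Ly45 in
theorem lyapStmt (n : ℕ) : LyapStmt n := by
  intro a D Λ c B q ha hD hΛ hc hc1 hB
  obtain ⟨D1, hD1⟩ : ∃ x : ℝ, x = D ^ q := ⟨_, rfl⟩
  obtain ⟨C2, hC2⟩ : ∃ x : ℝ, x = q * (2 * (a * B)) := ⟨_, rfl⟩
  obtain ⟨H, hH⟩ : ∃ x : ℝ, x = D1 / c := ⟨_, rfl⟩
  obtain ⟨C3, hC3⟩ : ∃ x : ℝ, x = (D1 * C2 + a * B * Λ) / c := ⟨_, rfl⟩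
  obtain ⟨κ, hκ⟩ : ∃ x : ℝ, x = 1 / (8 * Λ) := ⟨_, rfl⟩
  obtain ⟨C4, hC4⟩ : ∃ x : ℝ, x = κ + C3 + 1 / 4 := ⟨_, rfl⟩
  have D1_ge : 1 ≤ D1 := hD1 ▸ one_le_pow₀ hD
  have C2_ge : 0 ≤ C2 := by rw [hC2]; positivity
  have H_ge : D1 ≤ H := by rw [hH, le_div_iff₀ hc]; nlinarith
  have H_pos : 0 < H := by linarith
  have κ_pos : 0 < κ := by rw [hκ]; positivity
  have κΛ : κ * Λ = 1 / 8 := by rw [hκ]; field_simp
  have κ_le : κ ≤ 1 / 8 := by nlinarith
  have C3_ge : D1 * C2 ≤ C3 := by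
    rw [hC3, le_div_iff₀ hc]
    have : 0 ≤ a * B * Λ := by positivity
    have : 0 ≤ D1 * C2 := by positivity
    nlinarith
  have C3_nn : 0 ≤ C3 := le_trans (by positivity) C3_ge
  have C4_nn : 2 * κ ≤ C4 := by rw [hC4]; linarith
  refine ⟨1 + H * D1 + (H * D1 * C2 + C4 * Λ) / κ, ?_, ?_⟩
  · have : 0 ≤ C4 := by linarith
    have : 0 ≤ (H * D1 * C2 + C4 * Λ) / κ := by positivity
    nlinarith
  intro K hK X σ I m ℓ η hX hA hL hI hm hmono hℓ hns hU hb hη hηs hcr hfi hj1 hj2 R i0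
  have hC4' : 0 ≤ C4 := by linarith
  have hq0 : 0 ≤ (H * D1 * C2 + C4 * Λ) / κ := by positivity
  have hHD : 0 ≤ H * D1 := by positivity
  have K_pos : 0 < K := by linarith
  have K1 : H * D1 ≤ K := by linarith
  have K2 : H * D1 * C2 + C4 * Λ ≤ κ * K := by
    have : (H * D1 * C2 + C4 * Λ) / κ ≤ K := by linarith
    rw [div_le_iff₀ κ_pos] at this
    linarith
  by_contra hcon
  push Not at hcon
  have hno : ∀ l, i0 ≤ l → ¬ InB X σ R l 0 := by
    intro l hl h
    obtain ⟨x, h1, h2⟩ := hcon l hl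
    have := h x h1
    rw [Real.exp_zero] at this
    linarith
  classical
  -- `N k` : no jump at `k`
  let N : ℕ → Prop := fun k => m (k + 1) ≤ K * m k
  let W : ℕ → ℝ := fun k =>
    if N (k + 1) then (if N k then 0 else C4 * ℓ (k + 1)) else 2 * κ * ℓ (k + 1)
  let S0 : ℕ → ℝ → Prop := fun k Ψ =>
    if N k then (if N (k + 1) then InX X σ a R (I (k + 1)) Ψ
      else InB X σ R (I (k + 1)) (Ψ * m (k + 1)))
    else InB X σ R (I (k + 1)) (Ψ * m (k + 1) / H)
  let St : ℕ → ℝ → Prop := fun k Φ => ∃ Ψ, 0 ≤ Ψ ∧ S0 k Ψ ∧ Φ = Ψ + W k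
  let T : ℕ → ℝ := fun k => ∑ l ∈ Finset.range (I (k + 1)), η l
  have W_nn : ∀ k, 0 ≤ W k := by
    intro k
    have := (hℓ (k + 1)).le
    simp only [W]
    split_ifs <;> positivity
  have ℓΛ : ∀ k, ℓ (k + 1) ≤ Λ * ℓ k := by
    intro k
    have h1 := hU k
    have h2 : m k * ℓ (k + 1) ≤ m (k + 1) * ℓ (k + 1) :=
      mul_le_mul_of_nonneg_right (hmono (Nat.le_succ k)) (hℓ _).le
    have h3 : m k * ℓ (k + 1) ≤ m k * (Λ * ℓ k) := by linarith
    exact le_of_mul_le_mul_left h3 (hm k)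
  have ℓJ : ∀ k, ¬ N k → K * ℓ (k + 1) ≤ Λ * ℓ k := by
    intro k hk
    have h1 := hU k
    have h2 : K * m k * ℓ (k + 1) ≤ m (k + 1) * ℓ (k + 1) :=
      mul_le_mul_of_nonneg_right (not_le.1 hk).le (hℓ _).le
    have h3 : m k * (K * ℓ (k + 1)) ≤ m k * (Λ * ℓ k) := by linarith
    exact le_of_mul_le_mul_left h3 (hm k)
  have Ilt : ∀ k, I k < I (k + 1) := fun k => hI (Nat.lt_succ_self k)
  have Tdiff : ∀ k, T (k + 1) - T k = ∑ l ∈ Finset.Ico (I (k + 1)) (I (k + 2)), η l := by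
    intro k
    rw [Finset.sum_Ico_eq_sub _ (Ilt (k + 1)).le]
  have Tnn : ∀ k, 0 ≤ T (k + 1) - T k := fun k => by
    rw [Tdiff]; exact Finset.sum_nonneg fun l _ => hη l
  -- entering a fine block from a ball
  have enter : ∀ k, N k → N (k + 1) → ∀ Z, 0 ≤ Z → InB X σ R (I (k + 1)) Z →
      InX X σ a R (I (k + 1)) ((Z + a * X.b (I (k + 1))) / (c * m k)) := by
    intro k h1 h2 Z hZ h x hx
    have := hX.b_ge (I (k + 1))
    exact ball_box (mul_pos hc (hm k))
      (fun l => (((hfi k ⟨h1, h2⟩).2 _ le_rfl (Ilt _)).2 l).1) (by positivity) (h x hx)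
  -- a crude block
  have crb : ∀ k, ¬ (N k ∧ N (k + 1)) → ∀ Z, 0 ≤ Z → InB X σ R (I (k + 1)) Z →
      InB X σ R (I (k + 2)) (D1 * (Z + C2 * (m (k + 1) * ℓ (k + 1)))) := by
    intro k hk Z hZ h
    have hU0 : 0 ≤ m (k + 1) * ℓ (k + 1) := (mul_pos (hm _) (hℓ _)).le
    obtain ⟨j, hj⟩ : ∃ j, I (k + 2) = I (k + 1) + j := Nat.exists_eq_add_of_le (Ilt (k + 1)).le
    have hjq : j ≤ q := by have := (hcr k hk).1; omega
    have h1 := crude_run hX ha hD hA hZ (U := B * (m (k + 1) * ℓ (k + 1))) (by positivity) h j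
      fun l a1 a2 => hb (k + 1) l a1 (by rw [show I (k + 1 + 1) = _ from hj]; exact a2)
    rw [hj]
    refine h1.mono ?_
    have h2 : D ^ j ≤ D1 := hD1 ▸ pow_le_pow_right₀ hD hjq
    have h3 : (j : ℝ) ≤ q := by exact_mod_cast hjq
    have h4 : (j : ℝ) * (2 * (a * (B * (m (k + 1) * ℓ (k + 1))))) ≤
        C2 * (m (k + 1) * ℓ (k + 1)) := by
      rw [hC2]
      have : 0 ≤ 2 * (a * (B * (m (k + 1) * ℓ (k + 1)))) := by positivity
      nlinarith
    exact mul_le_mul h2 (by linarith) (by positivity) (by linarith)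
  have hsum : Summable fun k => ℓ (k + 1) := by
    obtain ⟨Z0, hZ0, h0⟩ := exists_inB hX ha hD hA R (I (i0 + 1))
    have start : ∃ Φ0, St i0 Φ0 := by
      by_cases h1 : N i0
      · by_cases h2 : N (i0 + 1)
        · refine ⟨_, (Z0 + a * X.b (I (i0 + 1))) / (c * m i0), ?_, ?_, rfl⟩
          · have := hX.b_ge (I (i0 + 1))
            have := hm i0
            positivity
          · simp only [S0, if_pos h1, if_pos h2]; exact enter i0 h1 h2 Z0 hZ0 h0
        · refine ⟨_, Z0 / m (i0 + 1), div_nonneg hZ0 (hm _).le, ?_, rfl⟩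
          simp only [S0, if_pos h1, if_neg h2]
          rw [div_mul_cancel₀ _ (hm _).ne']; exact h0
      · refine ⟨_, Z0 * H / m (i0 + 1), div_nonneg (by positivity) (hm _).le, ?_, rfl⟩
        simp only [S0, if_neg h1]
        rw [div_mul_cancel₀ _ (hm _).ne', mul_div_cancel_right₀ _ H_pos.ne']; exact h0
    obtain ⟨Φ0, hΦ0⟩ := start
    refine seq (St := St) (T := T) (Tb := ∑' l, η l) κ_pos
      (fun k => hηs.sum_le_tsum _ fun l _ => hη l) (fun k => (hℓ _).le) hΦ0 ?_ ?_
    · rintro k Φ ⟨Ψ, h1, -, rfl⟩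
      exact add_nonneg h1 (W_nn k)
    rintro k hk Φ ⟨Ψ, hΨ, hS, rfl⟩
    have hE : 1 ≤ Real.exp (T (k + 1) - T k) := Real.one_le_exp (Tnn k)
    have hm1 := hm (k + 1)
    have hm2 := hm (k + 2)
    have hl1 := hℓ (k + 1)
    have hl2 := hℓ (k + 2)
    have hΛ1 := ℓΛ (k + 1)
    -- it suffices to give `Ψ'` with a bound
    suffices h : ∃ Ψ', 0 ≤ Ψ' ∧ S0 (k + 1) Ψ' ∧
        Ψ' + W (k + 1) ≤ Real.exp (T (k + 1) - T k) * Ψ + W k - κ * ℓ (k + 1) by
      obtain ⟨Ψ', h1, h2, h3⟩ := h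
      refine ⟨_, ⟨Ψ', h1, h2, rfl⟩, ?_⟩
      have := mul_le_mul_of_nonneg_right hE (W_nn k)
      linarith
    have hEΨ : Ψ ≤ Real.exp (T (k + 1) - T k) * Ψ := le_mul_of_one_le_left hΨ hE
    have hκℓ : κ * ℓ (k + 1) ≤ 1 / 8 * ℓ (k + 1) := mul_le_mul_of_nonneg_right κ_le hl1.le
    have hlt : I (k + 1) < I (k + 2) := Ilt (k + 1)
    by_cases n1 : N (k + 1)
    · by_cases n0 : N k
      · -- fine block
        simp only [S0, if_pos n0, if_pos n1] at hS
        obtain ⟨hlen, hfin⟩ := hfi k ⟨n0, n1⟩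
        have hno' : ∀ l, I (k + 1) ≤ l → ¬ InB X σ R l 0 := fun l hl =>
          hno l (le_trans (le_trans hk (Nat.le_succ k)) (le_trans (hI.le_apply) hl))
        have hW : W k = 0 := by simp only [W, if_pos n0, if_pos n1]
        by_cases n2 : N (k + 2)
        · obtain ⟨Y', h1, h2, h3⟩ := fine_run hX ha hη hL hj1 hj2 hno' hΨ hS (I (k + 2))
            (Ilt _).le fun l a1 a2 => by
              rcases a2.lt_or_eq with a2 | rfl
              · exact (hfin l a1 a2).1
              · exact ((hfi (k + 1) ⟨n1, n2⟩).2 _ le_rfl (Ilt _)).1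
          have f2 : X.fine (I (k + 2)) := ((hfi (k + 1) ⟨n1, n2⟩).2 _ le_rfl (Ilt _)).1
          refine ⟨Y', le_trans (hX.len_pos _ f2).le h1, ?_, ?_⟩
          · simp only [S0, if_pos n1, if_pos n2]; exact h2
          · have hW' : W (k + 1) = 0 := by simp only [W, if_pos n1, if_pos n2]
            rw [hW, hW', Tdiff]
            linarith
        · obtain ⟨j, hj⟩ : ∃ j, I (k + 2) = j + 1 := ⟨I (k + 2) - 1, by omega⟩
          have hj0 : I (k + 1) ≤ j := by omega
          obtain ⟨Y', h1, h2, h3⟩ := fine_run hX ha hη hL hj1 hj2 hno' hΨ hS j hj0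
            fun l a1 a2 => (hfin l a1 (by omega)).1
          have fj := hfin j hj0 (by omega)
          have lj := hX.len_pos j fj.1
          refine ⟨Y' - X.len j, by linarith, ?_, ?_⟩
          · simp only [S0, if_pos n1, if_neg n2]
            rw [show I (k + 1 + 1) = j + 1 from hj]
            intro x hx
            exact fine_norm hX fj.1 (hL j fj.1) (hj1 j fj.1) (by linarith)
              (fun l => mul_le_mul_of_nonneg_left (fj.2 l).2 (by linarith)) (h2 x hx)
          · have hW' : W (k + 1) = 2 * κ * ℓ (k + 2) := by simp only [W, if_neg n2]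
            rw [hW, hW', Tdiff, hj, Finset.sum_Ico_succ_top hj0, Real.exp_add]
            rw [hj, Finset.sum_Ico_succ_top hj0] at hlen
            have e1 : 1 ≤ Real.exp (η j) := Real.one_le_exp (hη j)
            have e2 : 0 ≤ Real.exp (∑ l ∈ Finset.Ico (I (k + 1)) j, η l) * Ψ :=
              mul_nonneg (Real.exp_pos _).le hΨ
            have e3 : 2 * κ * ℓ (k + 2) ≤ 2 * κ * (Λ * ℓ (k + 1)) :=
              mul_le_mul_of_nonneg_left hΛ1 (by linarith)
            have e4 : 2 * κ * (Λ * ℓ (k + 1)) = 1 / 4 * ℓ (k + 1) := by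
              linear_combination (2 * ℓ (k + 1)) * κΛ
            have e5 := mul_le_mul_of_nonneg_left e1 e2
            linarith
      · -- crude, jump at `k`, no jump at `k + 1`
        simp only [S0, if_neg n0] at hS
        have hZ : 0 ≤ Ψ * m (k + 1) / H := by positivity
        have h1 := crb k (fun h => n0 h.1) _ hZ hS
        have hW : W k = C4 * ℓ (k + 1) := by simp only [W, if_pos n1, if_neg n0]
        have eZ : D1 * (Ψ * m (k + 1) / H + C2 * (m (k + 1) * ℓ (k + 1))) =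
            (c * Ψ + D1 * C2 * ℓ (k + 1)) * m (k + 1) := by
          rw [hH]; field_simp
        rw [eZ] at h1
        have hZ' : 0 ≤ (c * Ψ + D1 * C2 * ℓ (k + 1)) * m (k + 1) := by positivity
        by_cases n2 : N (k + 2)
        · have h2 := enter (k + 1) n1 n2 _ hZ' h1
          have b0 := hX.b_ge (I (k + 1 + 1))
          refine ⟨((c * Ψ + D1 * C2 * ℓ (k + 1)) * m (k + 1) + a * X.b (I (k + 1 + 1))) /
            (c * m (k + 1)), by positivity,
            by simp only [S0, if_pos n1, if_pos n2]; exact h2, ?_⟩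
          have hW' : W (k + 1) = 0 := by simp only [W, if_pos n1, if_pos n2]
          have b1 : X.b (I (k + 1 + 1)) ≤ B * (Λ * (m (k + 1) * ℓ (k + 1))) :=
            le_trans (hb (k + 2) _ le_rfl (Ilt _))
              (mul_le_mul_of_nonneg_left (hU (k + 1)) (by linarith))
          have b2 : ((c * Ψ + D1 * C2 * ℓ (k + 1)) * m (k + 1) + a * X.b (I (k + 1 + 1))) /
              (c * m (k + 1)) ≤ Ψ + C3 * ℓ (k + 1) := by
            rw [div_le_iff₀ (by positivity)]
            have e : (Ψ + C3 * ℓ (k + 1)) * (c * m (k + 1)) =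
                (c * Ψ + D1 * C2 * ℓ (k + 1)) * m (k + 1) +
                  a * (B * (Λ * (m (k + 1) * ℓ (k + 1)))) := by
              rw [hC3]; field_simp; ring
            rw [e]
            have := mul_le_mul_of_nonneg_left b1 (by linarith : (0 : ℝ) ≤ a)
            linarith
          rw [hW, hW', hC4]
          linarith
        · refine ⟨c * Ψ + D1 * C2 * ℓ (k + 1), by positivity, ?_, ?_⟩
          · simp only [S0, if_pos n1, if_neg n2]
            exact h1.mono (mul_le_mul_of_nonneg_left (hmono (Nat.le_succ _)) (by positivity))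
          · have hW' : W (k + 1) = 2 * κ * ℓ (k + 2) := by simp only [W, if_neg n2]
            have e3 : 2 * κ * ℓ (k + 2) ≤ 2 * κ * (Λ * ℓ (k + 1)) :=
              mul_le_mul_of_nonneg_left hΛ1 (by linarith)
            have e4 : 2 * κ * (Λ * ℓ (k + 1)) = 1 / 4 * ℓ (k + 1) := by
              linear_combination (2 * ℓ (k + 1)) * κΛ
            have e5 : D1 * C2 * ℓ (k + 1) ≤ C3 * ℓ (k + 1) :=
              mul_le_mul_of_nonneg_right C3_ge hl1.le
            have e6 : c * Ψ ≤ Ψ := mul_le_of_le_one_left hΨ hc1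
            rw [hW, hW', hC4]
            linarith
    · -- crude, jump at `k + 1`
      have hS' : InB X σ R (I (k + 1)) (Ψ * m (k + 1)) := by
        by_cases n0 : N k
        · simpa only [S0, if_pos n0, if_neg n1] using hS
        · simp only [S0, if_neg n0] at hS
          refine hS.mono (div_le_self (by positivity) (by linarith))
      have h1 := crb k (fun h => n1 h.2) _ (by positivity) hS'
      have hW : W k = 2 * κ * ℓ (k + 1) := by simp only [W, if_neg n1]
      have hJ : K * m (k + 1) ≤ m (k + 2) := (not_le.1 n1).le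
      have hJ' := ℓJ (k + 1) n1
      have hW' : W (k + 1) ≤ C4 * ℓ (k + 2) := by
        simp only [W, if_neg n1]
        split_ifs
        · exact le_rfl
        · exact mul_le_mul_of_nonneg_right C4_nn hl2.le
      refine ⟨H * D1 / K * (Ψ + C2 * ℓ (k + 1)), by positivity, ?_, ?_⟩
      · simp only [S0, if_neg n1]
        refine h1.mono ?_
        have e : H * D1 / K * (Ψ + C2 * ℓ (k + 1)) * m (k + 1 + 1) / H =
            D1 * (Ψ + C2 * ℓ (k + 1)) * (m (k + 2) / K) := by field_simp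
        rw [e]
        have h2 : m (k + 1) ≤ m (k + 2) / K := by rw [le_div_iff₀ K_pos]; linarith
        have h3 := mul_le_mul_of_nonneg_left h2
          (by positivity : 0 ≤ D1 * (Ψ + C2 * ℓ (k + 1)))
        linarith
      · have e1 : H * D1 / K * Ψ ≤ Ψ := by
          have : H * D1 / K ≤ 1 := by rw [div_le_one K_pos]; exact K1
          exact mul_le_of_le_one_left hΨ this
        have e2 : H * D1 / K * (C2 * ℓ (k + 1)) + C4 * ℓ (k + 2) ≤ κ * ℓ (k + 1) := by
          have e3 : K * (H * D1 / K * (C2 * ℓ (k + 1)) + C4 * ℓ (k + 2)) =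
              H * D1 * C2 * ℓ (k + 1) + C4 * (K * ℓ (k + 2)) := by field_simp
          have e4 := mul_le_mul_of_nonneg_left hJ' hC4'
          have e5 := mul_le_mul_of_nonneg_right K2 hl1.le
          refine le_of_mul_le_mul_left ?_ K_pos
          rw [e3]
          linarith
        rw [hW]
        linarith
  exact hns ((summable_nat_add_iff 1).1 hsum)

end Crest.Agent.T223.Dyn

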