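import Crest.Agent.T223.TrEnd_90
import Crest.Agent.T223.GeoDef_76
import Crest.Agent.T223.NaDef_80
import Crest.Agent.T223.LmAsA_23
import Crest.Agent.T223.TrTr_90
import Crest.Agent.R273.HessB_333
import Crest.Agent.T223.CovTr_25
import Crest.Agent.T223.CovDef_25

-- ▼ part T223/FinA_95
section

/-!
# Row 223, FIN glue, part A (helper95): nodes and linear algebra
-/

set_option autoImplicit false
set_option linter.unusedVariables false

open Set Filter Topology Metric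
open scoped ContDiff ComplexConjugate Matrix ComplexOrder

namespace Crest.Agent.T223.Fin95

open Crest.Agent.R275.Geo Crest.Agent.R273.Kah_333
open Crest.Agent.T223.Br Crest.Agent.T223.Tr

noncomputable section

/-- nodes in logarithmic time -/
theorem nodes {sg R : ℝ → ℝ} {t0 : ℝ} (h1 : 1 ≤ t0) (hd : ∀ t, 0 < t → HasDerivAt sg (R t) t)
    (htop : Tendsto sg atTop atTop) (hmono : MonotoneOn (fun t => t * R t) (Ioi 0))
    (hpos : 0 < R t0) :
    ∃ σ : ℕ → ℝ, (∀ j, 0 ≤ σ j) ∧ StrictMono σ ∧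
      (∀ j : ℕ, sg (Real.exp (σ j)) = sg t0 + 2 * j) ∧ Tendsto σ atTop atTop ∧
      ∀ j, σ (j + 2) - σ (j + 1) ≤ σ (j + 1) - σ j := by
  set h : ℝ → ℝ := fun s => sg (Real.exp s) with hh
  have ht0 : 0 < t0 := by linarith
  have hD : ∀ s, HasDerivAt h (Real.exp s * R (Real.exp s)) s := fun s => by
    have := (hd _ (Real.exp_pos s)).comp s (Real.hasDerivAt_exp s)
    rwa [mul_comm] at this
  have hder : deriv h = fun s => Real.exp s * R (Real.exp s) := funext fun s => (hD s).deriv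
  have hm : Monotone (deriv h) := by
    rw [hder]
    intro a b hab
    exact hmono (Real.exp_pos a) (Real.exp_pos b) (Real.exp_le_exp.2 hab)
  have hdiff : Differentiable ℝ h := fun s => (hD s).differentiableAt
  have hcv : ConvexOn ℝ univ h := hm.convexOn_univ_of_deriv hdiff
  set s0 := Real.log t0 with hs0
  have he0 : Real.exp s0 = t0 := Real.exp_log ht0
  have hs00 : 0 ≤ s0 := Real.log_nonneg h1
  have hsm : StrictMonoOn h (Ici s0) := by
    refine strictMonoOn_of_deriv_pos (convex_Ici s0) hdiff.continuous.continuousOn fun x hx => ?_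
    rw [interior_Ici] at hx
    have h2 := hm (le_of_lt hx)
    have h3 : deriv h s0 = t0 * R t0 := by rw [hder]; simp only [he0]
    have h4 : 0 < t0 * R t0 := mul_pos ht0 hpos
    linarith
  have hT : Tendsto h atTop atTop := htop.comp Real.tendsto_exp_atTop
  have hex : ∀ j : ℕ, ∃ s, s0 ≤ s ∧ h s = h s0 + 2 * j := by
    intro j
    obtain ⟨b, hb1, hb2⟩ := ((hT.eventually_ge_atTop (h s0 + 2 * j)).and
      (eventually_ge_atTop s0)).exists
    have hj : (0 : ℝ) ≤ 2 * j := by positivity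
    obtain ⟨s, hs, hs'⟩ := intermediate_value_Icc hb2 hdiff.continuous.continuousOn
      (⟨by linarith, hb1⟩ : h s0 + 2 * j ∈ Icc (h s0) (h b))
    exact ⟨s, hs.1, hs'⟩
  choose σ hσ1 hσ2 using hex
  have hst : StrictMono σ := by
    intro i j hij
    rw [← hsm.lt_iff_lt (hσ1 i) (hσ1 j), hσ2, hσ2]
    have : (i : ℝ) < j := by exact_mod_cast hij
    linarith
  refine ⟨σ, fun j => hs00.trans (hσ1 j), hst, fun j => ?_, ?_, fun j => ?_⟩
  · have := hσ2 j
    simp only [hh, he0] at this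
    exact this
  · refine tendsto_atTop.2 fun B => ?_
    have h2 : Tendsto (fun j : ℕ => h s0 + 2 * (j : ℝ)) atTop atTop :=
      tendsto_atTop_add_const_left _ _
        (tendsto_natCast_atTop_atTop.const_mul_atTop two_pos)
    filter_upwards [h2.eventually_gt_atTop (h (max B s0))] with j hj
    rw [← hσ2 j, hsm.lt_iff_lt (mem_Ici.2 (le_max_right _ _)) (hσ1 j)] at hj
    exact (le_max_left _ _).trans hj.le
  · have a1 : σ j < σ (j + 1) := hst (by omega)
    have a2 : σ (j + 1) < σ (j + 2) := hst (by omega)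
    have h2 := hcv.slope_mono_adjacent (mem_univ _) (mem_univ _) a1 a2
    rw [hσ2, hσ2, hσ2, div_le_div_iff₀ (by linarith) (by linarith)] at h2
    push_cast at h2
    nlinarith

variable {n : ℕ}

/-- three point form of convexity -/
theorem three_pt {f : ℝ → ℝ} (hf : ConvexOn ℝ univ f) {a b c : ℝ} (hab : a < b) (hbc : b < c) :
    (c - a) * f b ≤ (c - b) * f a + (b - a) * f c := by
  have h2 := hf.slope_mono_adjacent (mem_univ _) (mem_univ _) hab hbc
  rw [div_le_div_iff₀ (by linarith) (by linarith)] at h2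
  nlinarith

theorem adjoint_apply (L : Cn n →L[ℂ] Cn n) (ζ : Cn n) (a : Fin n) :
    ContinuousLinearMap.adjoint L ζ a = ∑ b, conj (mat L b a) * ζ b := by
  have h1 : ContinuousLinearMap.adjoint L ζ a =
      inner ℂ (EuclideanSpace.single a (1 : ℂ) : Cn n) (ContinuousLinearMap.adjoint L ζ) := by
    rw [EuclideanSpace.inner_single_left]; simp
  rw [h1, ContinuousLinearMap.adjoint_inner_right, PiLp.inner_apply]
  refine Finset.sum_congr rfl fun b _ => ?_
  simp [mat, mul_comm]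

/-- the dual norm in a unitary frame -/
theorem dual_norm {g P : Mat n} {τ : ℝ} (hτ : 0 < τ)
    (h : Pᵀ * g * P.map conj = ((τ : ℝ) : ℂ) • (1 : Mat n)) (y : Fin n → ℂ) (w : Cn n)
    (hw : Pᵀ *ᵥ y = fun a => conj (w a)) :
    (star y ⬝ᵥ g⁻¹ *ᵥ y).re = τ⁻¹ * ‖w‖ ^ 2 := by
  have hτ' : (τ : ℂ) ≠ 0 := by exact_mod_cast hτ.ne'
  have h1 : (((τ : ℂ)⁻¹ • (Pᵀ * g)) * P.map conj) = 1 := by
    rw [Matrix.smul_mul, h, smul_smul, inv_mul_cancel₀ hτ', one_smul]
  have h2 : P.map conj * ((τ : ℂ)⁻¹ • (Pᵀ * g)) = 1 := mul_eq_one_comm.1 h1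
  have h3 : g⁻¹ = (τ : ℂ)⁻¹ • (P.map conj * Pᵀ) := by
    refine Matrix.inv_eq_left_inv ?_
    rw [← h2, Matrix.smul_mul, Matrix.mul_smul, Matrix.mul_assoc]
  have h4 : P.map conj = (Pᵀ)ᴴ := by ext a b; simp
  rw [h3, Matrix.smul_mulVec, dotProduct_smul, ← Matrix.mulVec_mulVec, h4,
    Matrix.dotProduct_mulVec, ← Matrix.star_mulVec, hw, smul_eq_mul, ← Complex.ofReal_inv,
    Complex.re_ofReal_mul, EuclideanSpace.norm_sq_eq]
  congr 1
  simp only [dotProduct, Pi.star_apply, RCLike.star_def, Complex.conj_conj, Complex.re_sum]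
  refine Finset.sum_congr rfl fun a _ => ?_
  rw [Complex.mul_conj, Complex.normSq_eq_norm_sq, Complex.ofReal_re]

theorem pull_vec (P : Mat n) (L : Cn n →L[ℂ] Cn n) (y : Fin n → ℂ) (ζ : Cn n)
    (h : Pᵀ *ᵥ y = fun a => conj (ζ a)) :
    (P * mat L)ᵀ *ᵥ y = fun a => conj (ContinuousLinearMap.adjoint L ζ a) := by
  rw [Matrix.transpose_mul, ← Matrix.mulVec_mulVec, h]
  funext a
  rw [adjoint_apply]
  simp [Matrix.mulVec, dotProduct]

theorem det_smul_one (τ : ℝ) : (((τ : ℝ) : ℂ) • (1 : Mat n)).det.re = τ ^ n := by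
  rw [Matrix.det_smul, Matrix.det_one, Fintype.card_fin, mul_one, ← Complex.ofReal_pow,
    Complex.ofReal_re]

/-- a contraction with `|det L| = e^{-a}` shrinks by at most `e^{-a}` -/
theorem inv_of_det (L : Cn n →L[ℂ] Cn n) (h1 : ∀ v, ‖L v‖ ≤ ‖v‖) {a : ℝ}
    (h2 : ‖L.det‖ ^ 2 = Real.exp (-(2 * a))) (v : Cn n) : ‖v‖ ≤ Real.exp a * ‖L v‖ := by
  set H : Mat n := (mat L)ᵀ * 1 * (mat L).map conj with hH
  have hq : ∀ v, nq H v = ‖L v‖ ^ 2 := fun v => by rw [hH, nq_pull, nq_one]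
  have hdet : H.det.re = Real.exp (-(2 * a)) := by
    rw [hH, det_pull, det_mat, h2]; simp
  have hL : L.det ≠ 0 := by
    intro h0
    rw [h0] at h2
    have := Real.exp_pos (-(2 * a))
    simp at h2
    linarith
  have hinj := (det_ne_zero_iff L).1 hL
  have hherm : H.IsHermitian := by
    have h3 : (mat L)ᵀ = ((mat L).map conj)ᴴ := by ext a b; simp
    rw [hH, h3]
    exact Matrix.isHermitian_conjTranspose_mul_mul _ Matrix.isHermitian_one
  have hpos : H.PosDef := by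
    refine Tr.posDef_of_nq hherm fun v hv => ?_
    rw [hq]
    have : L v ≠ 0 := fun h0 => hv (hinj (by rw [h0, map_zero]))
    positivity
  have h3 := Lm23.nq_ge_of_det hpos (le_refl (1 : ℝ)) (fun v => by
    rw [hq, one_mul]; exact pow_le_pow_left₀ (norm_nonneg _) (h1 v) 2) hdet.ge v
  rw [hq, one_pow, div_one] at h3
  refine (pow_le_pow_iff_left₀ (norm_nonneg _) (by positivity) two_ne_zero).1 ?_
  have h4 : Real.exp a ^ 2 * Real.exp (-(2 * a)) = 1 := by
    rw [← Real.exp_nat_mul, ← Real.exp_add]; simp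
  calc ‖v‖ ^ 2 = Real.exp a ^ 2 * (Real.exp (-(2 * a)) * ‖v‖ ^ 2) := by
        rw [← mul_assoc, h4, one_mul]
    _ ≤ Real.exp a ^ 2 * ‖L v‖ ^ 2 := by gcongr
    _ = _ := by ring

/-- polynomial against exponential -/
theorem ev_pow_le (m : ℕ) {ε δ b C : ℝ} (hε : 0 < ε) (hδ : 0 < δ) :
    ∀ᶠ j : ℕ in atTop, (1 + (b + 2 * j)) ^ m ≤ δ * Real.exp (ε * (b + 2 * j) - C) := by
  have h1 : Tendsto (fun j : ℕ => ε * (1 + (b + 2 * (j : ℝ)))) atTop atTop :=
    (tendsto_atTop_add_const_left _ _ (tendsto_atTop_add_const_left _ _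
      (tendsto_natCast_atTop_atTop.const_mul_atTop two_pos))).const_mul_atTop hε
  have h2 := (Real.tendsto_exp_div_pow_atTop m).comp h1
  filter_upwards [h2.eventually_ge_atTop (Real.exp (ε + C) / (δ * ε ^ m)),
    h1.eventually_gt_atTop 0] with j hj hj0
  simp only [Function.comp] at hj
  rw [div_le_div_iff₀ (by positivity) (by positivity), mul_pow] at hj
  have h3 : Real.exp (ε * (1 + (b + 2 * (j : ℝ)))) =
      Real.exp (ε + C) * Real.exp (ε * (b + 2 * j) - C) := by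
    rw [← Real.exp_add]; congr 1; ring
  rw [h3] at hj
  have h4 : 0 < Real.exp (ε + C) * ε ^ m := by positivity
  refine le_of_mul_le_mul_left ?_ h4
  nlinarith

end

end Crest.Agent.T223.Fin95
end

-- ▼ part T223/CovLift_25
section

/-!
# T223, module COVER (helper25): lifting of deck maps in one chart

`Ch ψ r Λ` : `ψ` is a map of the ball of radius `r` whose local deck maps exist, are unique,
holomorphic and `Λ`-Lipschitz.  `Ch.lift` : deck maps extend to balls of definite size.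
-/

set_option autoImplicit false

open Set Filter Topology Complex Metric
open scoped NNReal

namespace Crest.Agent.T223.Cov

open Crest.Agent.R275.Geo

variable {n : ℕ} {M : Type}

/-- holomorphic deck map on `U` -/
structure Deck (ψ : Cn n → M) (r : ℝ) (T : Cn n → Cn n) (U : Set (Cn n)) : Prop where
  diff : DifferentiableOn ℂ T U
  maps : MapsTo T U (ball 0 r)
  eq : ∀ w ∈ U, ψ (T w) = ψ w

/-- one chart -/
structure Ch [TopologicalSpace M] (ψ : Cn n → M) (r Λ : ℝ) : Prop where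
  one : 1 ≤ Λ
  cont : ContinuousOn ψ (ball 0 r)
  uniq : ∀ (S : Set (Cn n)) (θ θ' : Cn n → Cn n), IsPreconnected S → ContinuousOn θ S →
    ContinuousOn θ' S → MapsTo θ S (ball 0 r) → MapsTo θ' S (ball 0 r) →
    (∀ w ∈ S, ψ (θ w) = ψ (θ' w)) → ∀ a ∈ S, θ a = θ' a → EqOn θ θ' S
  germ : ∀ y ∈ ball (0 : Cn n) r, ∀ y' ∈ ball (0 : Cn n) r, ψ y = ψ y' →
    ∃ δ, 0 < δ ∧ ∃ T, Deck ψ r T (ball y δ) ∧ T y = y'
  lip : ∀ (U : Set (Cn n)) (T : Cn n → Cn n), IsOpen U → U ⊆ ball 0 r → Deck ψ r T U →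
    ∀ w ∈ U, ‖fderiv ℂ T w‖ ≤ Λ

theorem Deck.mono {ψ : Cn n → M} {r : ℝ} {T : Cn n → Cn n} {U V : Set (Cn n)}
    (h : Deck ψ r T U) (hV : V ⊆ U) : Deck ψ r T V :=
  ⟨h.diff.mono hV, h.maps.mono_left hV, fun w hw => h.eq w (hV hw)⟩

theorem Deck.comp {ψ : Cn n → M} {r : ℝ} {T S : Cn n → Cn n} {U V : Set (Cn n)}
    (hS : Deck ψ r S V) (hT : Deck ψ r T U) (h : MapsTo T U V) : Deck ψ r (S ∘ T) U :=
  ⟨hS.diff.comp hT.diff h, hS.maps.comp h, fun w hw => by
    rw [Function.comp_apply, hS.eq _ (h hw), hT.eq w hw]⟩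

theorem deck_id {ψ : Cn n → M} {r : ℝ} {U : Set (Cn n)} (hU : U ⊆ ball 0 r) :
    Deck ψ r id U :=
  ⟨differentiableOn_id, fun _ hw => hU hw, fun _ _ => rfl⟩

/-- gluing of deck maps -/
theorem deck_glue {ψ : Cn n → M} {r : ℝ} {ι : Type} (U : ι → Set (Cn n))
    (T : ι → Cn n → Cn n) (hU : ∀ i, IsOpen (U i)) (hT : ∀ i, Deck ψ r (T i) (U i))
    (hc : ∀ i j, ∀ w ∈ U i, w ∈ U j → T i w = T j w) :
    ∃ S, Deck ψ r S (⋃ i, U i) ∧ ∀ i, EqOn S (T i) (U i) := by
  classical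
  let S : Cn n → Cn n := fun w => if h : ∃ i, w ∈ U i then T h.choose w else w
  have hS : ∀ i, EqOn S (T i) (U i) := by
    intro i w hw
    have h : ∃ i, w ∈ U i := ⟨i, hw⟩
    simp only [S, dif_pos h]
    exact hc _ _ w h.choose_spec hw
  refine ⟨S, ⟨?_, ?_, ?_⟩, hS⟩
  · intro w hw
    obtain ⟨i, hi⟩ := mem_iUnion.1 hw
    have h1 : DifferentiableAt ℂ (T i) w := ((hT i).diff w hi).differentiableAt ((hU i).mem_nhds hi)
    have h2 : S =ᶠ[𝓝 w] T i := eventually_of_mem ((hU i).mem_nhds hi) (hS i)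
    exact (h1.congr_of_eventuallyEq h2).differentiableWithinAt
  · intro w hw
    obtain ⟨i, hi⟩ := mem_iUnion.1 hw
    rw [hS i hi]; exact (hT i).maps hi
  · intro w hw
    obtain ⟨i, hi⟩ := mem_iUnion.1 hw
    rw [hS i hi]; exact (hT i).eq w hi

variable [TopologicalSpace M]

theorem Ch.uniqD {ψ : Cn n → M} {r Λ : ℝ} (h : Ch ψ r Λ) {T S : Cn n → Cn n} {U : Set (Cn n)}
    (hU : IsPreconnected U) (hT : Deck ψ r T U) (hS : Deck ψ r S U) {a : Cn n} (ha : a ∈ U)
    (he : T a = S a) : EqOn T S U :=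
  h.uniq U T S hU hT.diff.continuousOn hS.diff.continuousOn hT.maps hS.maps
    (fun w hw => by rw [hT.eq w hw, hS.eq w hw]) a ha he

theorem Ch.lipD {ψ : Cn n → M} {r Λ : ℝ} (h : Ch ψ r Λ) {T : Cn n → Cn n} {U : Set (Cn n)}
    (hU : IsOpen U) (hc : Convex ℝ U) (hUr : U ⊆ ball 0 r) (hT : Deck ψ r T U) {a b : Cn n}
    (ha : a ∈ U) (hb : b ∈ U) : ‖T b - T a‖ ≤ Λ * ‖b - a‖ :=
  hc.norm_image_sub_le_of_norm_fderiv_le (𝕜 := ℂ)
    (fun x hx => (hT.diff x hx).differentiableAt (hU.mem_nhds hx)) (h.lip U T hU hUr hT) ha hb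

/-- a continuous deck map on a closed ball extends to a larger open ball -/
theorem Ch.ext {ψ : Cn n → M} {r Λ : ℝ} (h : Ch ψ r Λ) {y : Cn n} {ρ : ℝ} (hρ : 0 ≤ ρ)
    (hy : closedBall y ρ ⊆ ball 0 r) {θ : Cn n → Cn n} (hθ : ContinuousOn θ (closedBall y ρ))
    (hm : MapsTo θ (closedBall y ρ) (ball 0 r)) (he : ∀ w ∈ closedBall y ρ, ψ (θ w) = ψ w) :
    ∃ ρ', ρ < ρ' ∧ ∃ T, Deck ψ r T (ball y ρ') ∧ T y = θ y := by
  have hg : ∀ p : closedBall y ρ, ∃ δ, 0 < δ ∧ ∃ T, Deck ψ r T (ball p.1 δ) ∧ T p.1 = θ p.1 :=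
    fun p => h.germ p.1 (hy p.2) (θ p.1) (hm p.2) (he p.1 p.2).symm
  choose δ hδ T hT hTp using hg
  have h1 : ∀ p : closedBall y ρ, EqOn (T p) θ (ball p.1 (δ p) ∩ closedBall y ρ) := by
    intro p
    refine h.uniq _ _ _ ((convex_ball _ _).inter (convex_closedBall _ _)).isPreconnected
      ((hT p).diff.continuousOn.mono inter_subset_left) (hθ.mono inter_subset_right)
      ((hT p).maps.mono_left inter_subset_left) (hm.mono_left inter_subset_right) ?_ p.1
      ⟨mem_ball_self (hδ p), p.2⟩ (hTp p)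
    intro w hw
    rw [(hT p).eq w hw.1, he w hw.2]
  have h2 : ∀ p q : closedBall y ρ, ∀ w ∈ ball p.1 (δ p), w ∈ ball q.1 (δ q) → T p w = T q w := by
    intro p q w hwp hwq
    have hd : dist p.1 q.1 < δ p + δ q := by
      have := dist_triangle p.1 w q.1
      rw [mem_ball] at hwp hwq
      rw [dist_comm] at hwp
      linarith
    have hsum : 0 < δ p + δ q := by linarith [hδ p, hδ q]
    set t : ℝ := δ p / (δ p + δ q) with ht
    have ht0 : 0 < t := div_pos (hδ p) hsum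
    have ht1 : 1 - t = δ q / (δ p + δ q) := by rw [ht]; field_simp; ring
    have ht2 : 0 < 1 - t := by rw [ht1]; exact div_pos (hδ q) hsum
    set m : Cn n := AffineMap.lineMap p.1 q.1 t with hm'
    have hm1 : m ∈ ball p.1 (δ p) := by
      rw [mem_ball, hm', dist_lineMap_left, Real.norm_eq_abs, abs_of_pos ht0, ht,
        div_mul_eq_mul_div, div_lt_iff₀ hsum]
      exact mul_lt_mul_of_pos_left hd (hδ p)
    have hm2 : m ∈ ball q.1 (δ q) := by
      rw [mem_ball, hm', dist_lineMap_right, Real.norm_eq_abs, abs_of_pos ht2, ht1,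
        div_mul_eq_mul_div, div_lt_iff₀ hsum]
      exact mul_lt_mul_of_pos_left hd (hδ q)
    have hm3 : m ∈ closedBall y ρ :=
      (convex_closedBall y ρ).lineMap_mem p.2 q.2 ⟨ht0.le, by linarith⟩
    have := h.uniqD ((convex_ball p.1 (δ p)).inter (convex_ball q.1 (δ q))).isPreconnected
      ((hT p).mono inter_subset_left) ((hT q).mono inter_subset_right) (a := m) ⟨hm1, hm2⟩
      (by rw [h1 p ⟨hm1, hm3⟩, h1 q ⟨hm2, hm3⟩])
    exact this ⟨hwp, hwq⟩
  obtain ⟨S, hS, hSe⟩ := deck_glue (fun p : closedBall y ρ => ball p.1 (δ p)) T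
    (fun _ => isOpen_ball) hT h2
  have hsub : closedBall y ρ ⊆ ⋃ p : closedBall y ρ, ball p.1 (δ p) := fun w hw =>
    mem_iUnion.2 ⟨⟨w, hw⟩, mem_ball_self (hδ _)⟩
  obtain ⟨ε, hε, hεs⟩ := (isCompact_closedBall y ρ).exists_thickening_subset_open
    (isOpen_iUnion fun _ => isOpen_ball) hsub
  rw [thickening_closedBall hε hρ] at hεs
  refine ⟨ε + ρ, by linarith, S, hS.mono hεs, ?_⟩
  have hy0 : y ∈ closedBall y ρ := mem_closedBall_self hρ
  rw [hSe ⟨y, hy0⟩ (mem_ball_self (hδ _))]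
  exact hTp ⟨y, hy0⟩

/-- a deck map on an open ball extends continuously to the closed ball -/
theorem Ch.close [T2Space M] {ψ : Cn n → M} {r Λ : ℝ} (h : Ch ψ r Λ) {y : Cn n} {ρ : ℝ}
    (hρ : 0 < ρ) (hy : closedBall y ρ ⊆ ball 0 r) {T : Cn n → Cn n} (hT : Deck ψ r T (ball y ρ))
    (hy' : closedBall (T y) (Λ * ρ) ⊆ ball 0 r) :
    ∃ θ : Cn n → Cn n, ContinuousOn θ (closedBall y ρ) ∧ MapsTo θ (closedBall y ρ) (ball 0 r) ∧
      (∀ w ∈ closedBall y ρ, ψ (θ w) = ψ w) ∧ θ y = T y := by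
  have hΛ : 0 ≤ Λ := le_trans zero_le_one h.one
  have hb : ball y ρ ⊆ ball 0 r := ball_subset_closedBall.trans hy
  have hl : LipschitzOnWith (⟨Λ, hΛ⟩ : ℝ≥0) T (ball y ρ) := by
    refine LipschitzOnWith.of_dist_le_mul fun a ha b hb' => ?_
    rw [dist_eq_norm, dist_eq_norm]
    exact h.lipD isOpen_ball (convex_ball _ _) hb hT hb' ha
  obtain ⟨g, hg, hge⟩ := hl.extend_finite_dimension
  have hcl : closure (ball y ρ) = closedBall y ρ := closure_ball y hρ.ne'
  have hm : MapsTo g (closedBall y ρ) (closedBall (T y) (Λ * ρ)) := by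
    rw [← hcl, ← (isClosed_closedBall (x := T y) (ε := Λ * ρ)).closure_eq]
    refine MapsTo.closure ?_ hg.continuous
    intro w hw
    rw [← hge hw, mem_closedBall, dist_eq_norm]
    refine (h.lipD isOpen_ball (convex_ball _ _) hb hT (mem_ball_self hρ) hw).trans ?_
    rw [mem_ball, dist_eq_norm] at hw
    exact mul_le_mul_of_nonneg_left hw.le hΛ
  have hm' : MapsTo g (closedBall y ρ) (ball 0 r) := hm.mono_right hy'
  refine ⟨g, hg.continuous.continuousOn, hm', ?_, (hge (mem_ball_self hρ)).symm⟩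
  have h1 : ContinuousOn (ψ ∘ g) (closedBall y ρ) := h.cont.comp hg.continuous.continuousOn hm'
  have h2 : ContinuousOn ψ (closedBall y ρ) := h.cont.mono hy
  have h3 : EqOn (ψ ∘ g) ψ (ball y ρ) := fun w hw => by
    rw [Function.comp_apply, ← hge hw, hT.eq w hw]
  exact h3.of_subset_closure h1 h2 ball_subset_closedBall hcl.symm.subset

/-- LIFT: deck maps exist on balls of definite size -/
theorem Ch.lift [T2Space M] {ψ : Cn n → M} {r Λ : ℝ} (h : Ch ψ r Λ) {y y' : Cn n} {s : ℝ}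
    (hs : 0 < s) (hy : closedBall y s ⊆ ball 0 r) (hy' : closedBall y' (Λ * s) ⊆ ball 0 r)
    (he : ψ y = ψ y') : ∃ T, Deck ψ r T (ball y s) ∧ T y = y' := by
  have hΛ : 0 ≤ Λ := le_trans zero_le_one h.one
  let A : Set ℝ := {ρ | 0 < ρ ∧ ρ ≤ s ∧ ∃ T, Deck ψ r T (ball y ρ) ∧ T y = y'}
  have hAb : BddAbove A := ⟨s, fun ρ hρ => hρ.2.1⟩
  have hAn : A.Nonempty := by
    obtain ⟨δ, hδ, T, hT, hTy⟩ := h.germ y (hy (mem_closedBall_self hs.le)) y'
      (hy' (mem_closedBall_self (by positivity))) he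
    exact ⟨min δ s, lt_min hδ hs, min_le_right _ _, T,
      hT.mono (ball_subset_ball (min_le_left _ _)), hTy⟩
  have hpos : 0 < sSup A := by
    obtain ⟨ρ, hρ⟩ := hAn
    exact lt_of_lt_of_le hρ.1 (le_csSup hAb hρ)
  have hle : sSup A ≤ s := csSup_le hAn fun ρ hρ => hρ.2.1
  have hsup : ∃ T, Deck ψ r T (ball y (sSup A)) ∧ T y = y' := by
    have hg : ∀ ρ : A, ∃ T, Deck ψ r T (ball y ρ.1) ∧ T y = y' := fun ρ => ρ.2.2.2
    choose T hT hTy using hg
    obtain ⟨S, hS, hSe⟩ := deck_glue (fun ρ : A => ball y ρ.1) T (fun _ => isOpen_ball) hT (by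
      intro p q w hwp hwq
      have := h.uniqD ((convex_ball y p.1).inter (convex_ball y q.1)).isPreconnected
        ((hT p).mono inter_subset_left) ((hT q).mono inter_subset_right) (a := y)
        ⟨mem_ball_self p.2.1, mem_ball_self q.2.1⟩ (by rw [hTy, hTy])
      exact this ⟨hwp, hwq⟩)
    refine ⟨S, hS.mono ?_, ?_⟩
    · intro w hw
      obtain ⟨ρ, hρ, hlt⟩ := exists_lt_of_lt_csSup hAn (mem_ball.1 hw)
      exact mem_iUnion.2 ⟨⟨ρ, hρ⟩, hlt⟩
    · obtain ⟨ρ, hρ⟩ := hAn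
      rw [hSe ⟨ρ, hρ⟩ (mem_ball_self hρ.1), hTy]
  rcases hle.eq_or_lt with heq | hlt
  · rwa [heq] at hsup
  · exfalso
    obtain ⟨T, hT, hTy⟩ := hsup
    have hy1 : closedBall y (sSup A) ⊆ ball 0 r := (closedBall_subset_closedBall hle).trans hy
    obtain ⟨θ, h1, h2, h3, h4⟩ := h.close hpos hy1 hT (by
      rw [hTy]
      exact (closedBall_subset_closedBall (mul_le_mul_of_nonneg_left hle hΛ)).trans hy')
    obtain ⟨ρ', hρ', S, hS, hSy⟩ := h.ext hpos.le hy1 h1 h2 h3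
    have : min ρ' s ∈ A := ⟨lt_min (hpos.trans hρ') hs, min_le_right _ _, S,
      hS.mono (ball_subset_ball (min_le_left _ _)), by rw [hSy, h4, hTy]⟩
    have h5 := le_csSup hAb this
    have h6 : sSup A < min ρ' s := lt_min hρ' hlt
    linarith

end Crest.Agent.T223.Cov
end

-- ▼ part T223/CovFix_25
section

/-!
# T223, module COVER (helper25): a deck map with a small finite orbit is the identity

The function `∑ ‖T i w‖ ^ 2` is invariant and strictly midpoint convex on a small ball; its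
minimum point is a fixed point.
-/

set_option autoImplicit false

open Set Filter Topology Complex Metric Asymptotics

namespace Crest.Agent.T223.Cov

open Crest.Agent.R275.Geo

variable {n : ℕ} {M : Type}

/-- second order estimate at the midpoint -/
theorem mid_est {T : Cn n → Cn n} {r s : ℝ} (hs : 0 < s) (hT : DifferentiableOn ℂ T (ball 0 s))
    (hm : MapsTo T (ball 0 s) (ball 0 r)) {m v : Cn n} (hm0 : ‖m‖ ≤ s / 2) (hv : ‖v‖ < s / 2) :
    ‖T (m + v) + T (m - v) - (2 : ℝ) • T m‖ ≤ 16 * r / s ^ 2 * ‖v‖ ^ 2 := by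
  let g : Cn n → Cn n := fun x => T (m + x) + T (m - x) - (2 : ℝ) • T m
  have hp : MapsTo (fun x => m + x) (ball (0 : Cn n) (s / 2)) (ball 0 s) := by
    intro x hx
    rw [mem_ball_zero_iff] at hx ⊢
    linarith [norm_add_le m x]
  have hq : MapsTo (fun x => m - x) (ball (0 : Cn n) (s / 2)) (ball 0 s) := by
    intro x hx
    rw [mem_ball_zero_iff] at hx ⊢
    linarith [norm_sub_le m x]
  have hm1 : m ∈ ball (0 : Cn n) s := by rw [mem_ball_zero_iff]; linarith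
  have hg0 : g 0 = 0 := by simp [g, two_smul]
  have hgd : DifferentiableOn ℂ g (ball 0 (s / 2)) := by
    have h1 : DifferentiableOn ℂ (fun x => T (m + x)) (ball 0 (s / 2)) :=
      hT.comp (by fun_prop) hp
    have h2 : DifferentiableOn ℂ (fun x => T (m - x)) (ball 0 (s / 2)) :=
      hT.comp (by fun_prop) hq
    exact (h1.add h2).sub_const _
  have hgm : MapsTo g (ball 0 (s / 2)) (closedBall (g 0) (4 * r)) := by
    intro x hx
    rw [hg0, mem_closedBall_zero_iff]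
    have h1 := mem_ball_zero_iff.1 (hm (hp hx))
    have h2 := mem_ball_zero_iff.1 (hm (hq hx))
    have h3 := mem_ball_zero_iff.1 (hm hm1)
    have h4 : ‖g x‖ ≤ ‖T (m + x)‖ + ‖T (m - x)‖ + ‖(2 : ℝ) • T m‖ :=
      (norm_sub_le _ _).trans (by linarith [norm_add_le (T (m + x)) (T (m - x))])
    rw [norm_smul, Real.norm_ofNat] at h4
    linarith
  have hTd : HasFDerivAt T (fderiv ℂ T m) m :=
    ((hT m hm1).differentiableAt (isOpen_ball.mem_nhds hm1)).hasFDerivAt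
  have hgf : HasFDerivAt g (0 : Cn n →L[ℂ] Cn n) 0 := by
    have h1 : HasFDerivAt (fun x => T (m + x)) ((fderiv ℂ T m).comp (ContinuousLinearMap.id ℂ _))
        0 := by
      refine HasFDerivAt.comp (0 : Cn n) (g := T) (f := fun x => m + x) ?_ ?_
      · simpa using hTd
      · exact (hasFDerivAt_id (0 : Cn n)).const_add m
    have h2 : HasFDerivAt (fun x => T (m - x))
        ((fderiv ℂ T m).comp (-ContinuousLinearMap.id ℂ _)) 0 := by
      refine HasFDerivAt.comp (0 : Cn n) (g := T) (f := fun x => m - x) ?_ ?_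
      · simpa using hTd
      · exact (hasFDerivAt_id (0 : Cn n)).const_sub m
    have h3 := (h1.add h2).sub_const ((2 : ℝ) • T m)
    have h4 : (fderiv ℂ T m).comp (ContinuousLinearMap.id ℂ (Cn n)) +
        (fderiv ℂ T m).comp (-ContinuousLinearMap.id ℂ (Cn n)) = 0 := by
      ext x; simp
    rw [h4] at h3
    exact h3
  have ho : (fun x => g x - g 0) =o[𝓝 0] fun w : Cn n => ‖w - 0‖ ^ 1 := by
    have := hgf.isLittleO.norm_right
    simpa only [zero_apply, sub_zero, pow_one] using this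
  have key := dist_le_mul_div_pow_of_mapsTo_ball_of_isLittleO hgd hgm ho
    (mem_ball_zero_iff.2 hv)
  rw [hg0, dist_zero_right, dist_zero_right] at key
  refine key.trans_eq ?_
  have h2 : ‖v‖ / (s / 2) = 2 * ‖v‖ / s := by field_simp
  rw [h2, show 1 + 1 = 2 from rfl, div_pow]
  ring

variable [TopologicalSpace M]

/-- deck maps on the ball of radius `s` -/
theorem Ch.lift0 [T2Space M] {ψ : Cn n → M} {r Λ s : ℝ} (h : Ch ψ r Λ) (hs : 0 < s)
    (hsr : 4 * Λ * s ≤ r) {y y' : Cn n} (hy : ‖y‖ < s) (hy' : ‖y'‖ < s) (he : ψ y = ψ y') :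
    ∃ T, Deck ψ r T (ball 0 s) ∧ T y = y' := by
  have h1 := h.one
  have h2 : s ≤ Λ * s := by nlinarith
  obtain ⟨T, hT, hTy⟩ := h.lift (y := y) (y' := y') (s := 2 * s) (by linarith) (by
    intro w hw
    rw [mem_closedBall, dist_eq_norm] at hw
    rw [mem_ball_zero_iff]
    have := norm_add_le (w - y) y
    rw [sub_add_cancel] at this
    linarith) (by
    intro w hw
    rw [mem_closedBall, dist_eq_norm] at hw
    rw [mem_ball_zero_iff]
    have := norm_add_le (w - y') y'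
    rw [sub_add_cancel] at this
    linarith) he
  refine ⟨T, hT.mono ?_, hTy⟩
  intro w hw
  rw [mem_ball_zero_iff] at hw
  rw [mem_ball, dist_eq_norm]
  linarith [norm_sub_le w y]

/-- numerical side conditions -/
structure Sm (r Λ s η : ℝ) : Prop where
  hs : 0 < s
  hsr : 4 * Λ * s ≤ r
  hη : 0 < η
  small : 100 * Λ ^ 5 * r * η < s ^ 2

theorem Sm.sr {r Λ s η : ℝ} (h : Sm r Λ s η) (h1 : 1 ≤ Λ) : 4 * s ≤ r := by
  have := h.hs; have := h.hsr; nlinarith

theorem Sm.pow5 {r Λ s η : ℝ} (h : Sm r Λ s η) (h1 : 1 ≤ Λ) : 80 * Λ ^ 5 * η < s := by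
  have h2 := h.hs; have h3 := h.sr h1; have h4 := h.small; have h5 := h.hη
  have h6 : 0 < 80 * Λ ^ 5 * η := by positivity
  by_contra hc
  push Not at hc
  nlinarith

theorem Sm.pow {r Λ s η : ℝ} (h : Sm r Λ s η) (h1 : 1 ≤ Λ) {k : ℕ} (hk : k ≤ 5) :
    80 * (Λ ^ k * η) < s := by
  have h2 := h.pow5 h1
  have h3 : Λ ^ k ≤ Λ ^ 5 := pow_le_pow_right₀ h1 hk
  have := h.hη
  nlinarith

theorem Sm.mono {r Λ s η : ℝ} (h : Sm r Λ s η) (h1 : 1 ≤ Λ) {k l : ℕ} (hk : k ≤ l) :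
    Λ ^ k * η ≤ Λ ^ l * η :=
  mul_le_mul_of_nonneg_right (pow_le_pow_right₀ h1 hk) h.hη.le

theorem Ch.small {ψ : Cn n → M} {r Λ s η : ℝ} (h : Ch ψ r Λ) (hS : Sm r Λ s η)
    {T : Cn n → Cn n} (hT : Deck ψ r T (ball 0 s)) {α : Cn n} (hα : ‖α‖ ≤ η) (hy : ‖T α‖ ≤ η)
    {w : Cn n} (hw : ‖w‖ < 4 * (Λ ^ 2 * η)) : ‖T w‖ ≤ 6 * (Λ ^ 3 * η) := by
  have h1 := h.one
  have e0 := hS.pow h1 (k := 0) (by norm_num)
  have e2 := hS.pow h1 (k := 2) (by norm_num)
  have m03 := hS.mono h1 (k := 0) (l := 3) (by norm_num)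
  have m13 := hS.mono h1 (k := 1) (l := 3) (by norm_num)
  have hη := hS.hη
  have hs := hS.hs
  simp only [pow_zero, one_mul, pow_one] at e0 m03 m13
  have hl := h.lipD isOpen_ball (convex_ball 0 s) (ball_subset_ball (by linarith [hS.sr h1])) hT
    (a := α) (b := w) (mem_ball_zero_iff.2 (by linarith)) (mem_ball_zero_iff.2 (by linarith))
  have h2 : ‖w - α‖ ≤ 4 * (Λ ^ 2 * η) + η := by linarith [norm_sub_le w α]
  have h3 : Λ * ‖w - α‖ ≤ Λ * (4 * (Λ ^ 2 * η) + η) := mul_le_mul_of_nonneg_left h2 (by linarith)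
  have h4 := norm_add_le (T w - T α) (T α)
  rw [sub_add_cancel] at h4
  have h5 : Λ * (4 * (Λ ^ 2 * η) + η) = 4 * (Λ ^ 3 * η) + Λ * η := by ring
  linarith

/-- a left inverse deck map -/
theorem Ch.inv [T2Space M] {ψ : Cn n → M} {r Λ s η : ℝ} (h : Ch ψ r Λ) (hS : Sm r Λ s η)
    {T : Cn n → Cn n} (hT : Deck ψ r T (ball 0 s)) {α : Cn n} (hα : ‖α‖ ≤ η) (hy : ‖T α‖ ≤ η) :
    ∃ S, Deck ψ r S (ball 0 s) ∧ ∀ w : Cn n, ‖w‖ < 4 * (Λ ^ 2 * η) → S (T w) = w := by
  have h1 := h.one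
  have e0 := hS.pow h1 (k := 0) (by norm_num)
  have e2 := hS.pow h1 (k := 2) (by norm_num)
  have e3 := hS.pow h1 (k := 3) (by norm_num)
  have m02 := hS.mono h1 (k := 0) (l := 2) (by norm_num)
  have hη := hS.hη
  have hs := hS.hs
  simp only [pow_zero, one_mul] at e0 m02
  have hαs : α ∈ ball (0 : Cn n) s := mem_ball_zero_iff.2 (by linarith)
  obtain ⟨S, hS', hSy⟩ := h.lift0 hS.hs hS.hsr (y := T α) (y' := α) (by linarith) (by linarith)
    (hT.eq α hαs)
  refine ⟨S, hS', fun w hw => ?_⟩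
  have hsub : ball (0 : Cn n) (4 * (Λ ^ 2 * η)) ⊆ ball 0 s := ball_subset_ball (by linarith)
  have hm : MapsTo T (ball (0 : Cn n) (4 * (Λ ^ 2 * η))) (ball 0 s) := fun x hx =>
    mem_ball_zero_iff.2 (by
      have := h.small hS hT hα hy (mem_ball_zero_iff.1 hx)
      linarith)
  exact h.uniqD (convex_ball 0 _).isPreconnected (hS'.comp (hT.mono hsub) hm)
    (deck_id (hsub.trans (ball_subset_ball (by linarith [hS.sr h1])))) (a := α)
    (mem_ball_zero_iff.2 (by linarith)) hSy (mem_ball_zero_iff.2 hw)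

/-- lower Lipschitz bound -/
theorem Ch.low [T2Space M] {ψ : Cn n → M} {r Λ s η : ℝ} (h : Ch ψ r Λ) (hS : Sm r Λ s η)
    {T : Cn n → Cn n} (hT : Deck ψ r T (ball 0 s)) {α : Cn n} (hα : ‖α‖ ≤ η) (hy : ‖T α‖ ≤ η)
    {a b : Cn n} (ha : ‖a‖ < 4 * (Λ ^ 2 * η)) (hb : ‖b‖ < 4 * (Λ ^ 2 * η)) :
    ‖a - b‖ ≤ Λ * ‖T a - T b‖ := by
  have h1 := h.one
  have e3 := hS.pow h1 (k := 3) (by norm_num)
  have hs := hS.hs
  obtain ⟨S, hS', hSe⟩ := h.inv hS hT hα hy
  have h2 := h.small hS hT hα hy ha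
  have h3 := h.small hS hT hα hy hb
  have := h.lipD isOpen_ball (convex_ball 0 s) (ball_subset_ball (by linarith [hS.sr h1])) hS'
    (a := T b) (b := T a) (mem_ball_zero_iff.2 (by linarith)) (mem_ball_zero_iff.2 (by linarith))
  rwa [hSe a ha, hSe b hb] at this

/-- strict midpoint convexity of `‖T w‖ ^ 2` -/
theorem Ch.conv [T2Space M] {ψ : Cn n → M} {r Λ s η : ℝ} (h : Ch ψ r Λ) (hS : Sm r Λ s η)
    {T : Cn n → Cn n} (hT : Deck ψ r T (ball 0 s)) {α : Cn n} (hα : ‖α‖ ≤ η) (hy : ‖T α‖ ≤ η)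
    {m v : Cn n} (ha : ‖m + v‖ < 4 * (Λ ^ 2 * η)) (hb : ‖m - v‖ < 4 * (Λ ^ 2 * η)) (hv : v ≠ 0) :
    2 * ‖T m‖ ^ 2 < ‖T (m + v)‖ ^ 2 + ‖T (m - v)‖ ^ 2 := by
  have h1 := h.one
  have e2 := hS.pow h1 (k := 2) (by norm_num)
  have hs := hS.hs
  have hη := hS.hη
  have hr : 0 < r := by linarith [hS.sr h1]
  have hm : ‖m‖ < 4 * (Λ ^ 2 * η) := by
    have : (2 : ℝ) • m = (m + v) + (m - v) := by rw [two_smul]; abel
    have h2 := norm_add_le (m + v) (m - v)
    rw [← this, norm_smul, Real.norm_ofNat] at h2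
    linarith
  have hv2 : (m + v) - (m - v) = (2 : ℝ) • v := by rw [two_smul]; abel
  have hv1 : ‖v‖ < 4 * (Λ ^ 2 * η) := by
    have h2 := norm_sub_le (m + v) (m - v)
    rw [hv2, norm_smul, Real.norm_ofNat] at h2
    linarith
  have hmid := mid_est hs hT.diff hT.maps (m := m) (v := v) (by linarith) (by linarith)
  have hlow := h.low hS hT hα hy ha hb
  rw [hv2, norm_smul, Real.norm_ofNat] at hlow
  have hTm := h.small hS hT hα hy hm
  have hpar := parallelogram_law_with_norm ℂ (T (m + v)) (T (m - v))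
  set A := T (m + v)
  set B := T (m - v)
  set q := 16 * r / s ^ 2 * ‖v‖ ^ 2 with hq
  have hq0 : 0 ≤ q := by positivity
  have hv0 : 0 < ‖v‖ := norm_pos_iff.2 hv
  have h3 : 2 * ‖T m‖ - q ≤ ‖A + B‖ := by
    have h4 := norm_sub_le (A + B) (A + B - (2 : ℝ) • T m)
    rw [sub_sub_cancel, norm_smul, Real.norm_ofNat] at h4
    linarith
  have hp0 := norm_nonneg (T m)
  have h4 : 4 * ‖T m‖ ^ 2 - 4 * ‖T m‖ * q ≤ ‖A + B‖ ^ 2 := by
    by_cases hc : q ≤ 2 * ‖T m‖
    · have : (2 * ‖T m‖ - q) ^ 2 ≤ ‖A + B‖ ^ 2 := pow_le_pow_left₀ (by linarith) h3 2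
      nlinarith
    · push Not at hc
      have h5 : ‖T m‖ ≤ q := by linarith
      nlinarith [sq_nonneg ‖A + B‖]
  have h5 : 4 * ‖v‖ ^ 2 ≤ Λ ^ 2 * ‖A - B‖ ^ 2 := by
    have : (2 * ‖v‖) ^ 2 ≤ (Λ * ‖A - B‖) ^ 2 := pow_le_pow_left₀ (by positivity) hlow 2
    nlinarith
  have h6 : 4 * ‖T m‖ * q < ‖A - B‖ ^ 2 := by
    have hΛ : 0 < Λ ^ 2 := by positivity
    have h7 : 4 * ‖T m‖ * q ≤ 4 * (6 * (Λ ^ 3 * η)) * q := by gcongr
    have h8 : Λ ^ 2 * (4 * (6 * (Λ ^ 3 * η)) * q) < 4 * ‖v‖ ^ 2 := by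
      have h10 : Λ ^ 2 * (4 * (6 * (Λ ^ 3 * η)) * q)
          = (96 * Λ ^ 5 * r * η) / s ^ 2 * (4 * ‖v‖ ^ 2) := by rw [hq]; ring
      have h11 : (96 * Λ ^ 5 * r * η) / s ^ 2 < 1 := by
        rw [div_lt_one (by positivity)]
        have := hS.small
        have : 0 < Λ ^ 5 * r * η := by positivity
        nlinarith
      rw [h10]
      exact mul_lt_of_lt_one_left (by positivity) h11
    have h9 : Λ ^ 2 * (4 * ‖T m‖ * q) < Λ ^ 2 * ‖A - B‖ ^ 2 :=
      lt_of_le_of_lt (mul_le_mul_of_nonneg_left h7 hΛ.le) (lt_of_lt_of_le h8 h5)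
    exact lt_of_mul_lt_mul_left h9 hΛ.le
  nlinarith

/-- FIX: a small periodic orbit is trivial -/
theorem Ch.fix [T2Space M] {ψ : Cn n → M} {r Λ s η : ℝ} (h : Ch ψ r Λ) (hS : Sm r Λ s η)
    {α : Cn n} (hα : ‖α‖ ≤ η) {P : Cn n → Cn n} (hP : Deck ψ r P (ball 0 s)) (hβ : ‖P α‖ ≤ η)
    {T : ℕ → Cn n → Cn n} {k l : ℕ} (hkl : k < l) (hT : ∀ i ≤ l, Deck ψ r (T i) (ball 0 s))
    (hy : ∀ i ≤ l, ‖T i α‖ ≤ η) (hst : ∀ i < l, T (i + 1) α = T i (P α)) (he : T k α = T l α) :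
    P α = α := by
  have h1 := h.one
  have e0 := hS.pow h1 (k := 0) (by norm_num)
  have e2 := hS.pow h1 (k := 2) (by norm_num)
  have e3 := hS.pow h1 (k := 3) (by norm_num)
  have m02 := hS.mono h1 (k := 0) (l := 2) (by norm_num)
  have m12 := hS.mono h1 (k := 1) (l := 2) (by norm_num)
  have hη := hS.hη
  have hs := hS.hs
  have hsr := hS.sr h1
  simp only [pow_zero, one_mul, pow_one] at e0 m02 m12
  set ρ := Λ ^ 2 * η with hρ
  have hαs : α ∈ ball (0 : Cn n) s := mem_ball_zero_iff.2 (by linarith)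
  have hsub : ball (0 : Cn n) (4 * ρ) ⊆ ball 0 s := ball_subset_ball (by linarith)
  have hPm : MapsTo P (ball (0 : Cn n) (4 * ρ)) (ball 0 s) := fun x hx =>
    mem_ball_zero_iff.2 (by
      have := h.small hS hP hα hβ (mem_ball_zero_iff.1 hx)
      linarith)
  have hcomp : ∀ i < l, EqOn (T (i + 1)) (T i ∘ P) (ball 0 (4 * ρ)) := fun i hi =>
    h.uniqD (convex_ball 0 _).isPreconnected ((hT (i + 1) hi).mono hsub)
      ((hT i hi.le).comp (hP.mono hsub) hPm) (a := α) (mem_ball_zero_iff.2 (by linarith))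
      (hst i hi)
  have hkl' : EqOn (T k) (T l) (ball 0 s) :=
    h.uniqD (convex_ball 0 _).isPreconnected (hT k hkl.le) (hT l le_rfl) hαs he
  let f : Cn n → ℝ := fun w => ∑ i ∈ Finset.Ico k l, ‖T i w‖ ^ 2
  have hfP : ∀ w ∈ ball (0 : Cn n) (4 * ρ), f (P w) = f w := by
    intro w hw
    have h2 : f (P w) = ∑ i ∈ Finset.Ico k l, ‖T (i + 1) w‖ ^ 2 :=
      Finset.sum_congr rfl fun i hi => by rw [hcomp i (Finset.mem_Ico.1 hi).2 hw]; rfl
    have h3 := Finset.sum_Ico_add' (fun i => ‖T i w‖ ^ 2) k l 1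
    have h4 := Finset.sum_eq_sum_Ico_succ_bot (f := fun i => ‖T i w‖ ^ 2)
      (show k < l + 1 by omega)
    have h5 := Finset.sum_Ico_succ_top (f := fun i => ‖T i w‖ ^ 2) hkl.le
    have h6 : T k w = T l w := hkl' (hsub hw)
    rw [h2, h3]
    simp only [f]
    rw [h6] at h4
    linarith
  have hcb : closedBall (0 : Cn n) (3 * ρ) ⊆ ball 0 (4 * ρ) :=
    closedBall_subset_ball (by linarith)
  have hfc : ContinuousOn f (closedBall 0 (3 * ρ)) := by
    refine continuousOn_finsetSum _ fun i hi => ?_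
    exact (((hT i (Finset.mem_Ico.1 hi).2.le).diff.continuousOn.mono (hcb.trans hsub)).norm).pow 2
  have hα3 : α ∈ closedBall (0 : Cn n) (3 * ρ) := mem_closedBall_zero_iff.2 (by linarith)
  obtain ⟨a, ha, hmin⟩ := (isCompact_closedBall (0 : Cn n) (3 * ρ)).exists_isMinOn ⟨α, hα3⟩ hfc
  have ha4 : ‖a‖ < 4 * ρ := mem_ball_zero_iff.1 (hcb ha)
  have hne : (Finset.Ico k l).Nonempty := ⟨k, Finset.mem_Ico.2 ⟨le_rfl, hkl⟩⟩
  obtain ⟨i, hi, hia⟩ : ∃ i ∈ Finset.Ico k l, ‖T i a‖ ^ 2 ≤ ‖T i α‖ ^ 2 :=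
    Finset.exists_le_of_sum_le hne (hmin hα3)
  have hil : i ≤ l := (Finset.mem_Ico.1 hi).2.le
  have hia' : ‖T i a‖ ≤ η := ((sq_le_sq₀ (norm_nonneg _) (norm_nonneg _)).1 hia).trans (hy i hil)
  have haα : ‖a - α‖ ≤ 2 * (Λ * η) := by
    have h2 := h.low hS (hT i hil) hα (hy i hil) ha4 (b := α) (by linarith)
    have h3 : ‖T i a - T i α‖ ≤ 2 * η := by linarith [norm_sub_le (T i a) (T i α), hy i hil]
    have h4 : Λ * ‖T i a - T i α‖ ≤ Λ * (2 * η) := mul_le_mul_of_nonneg_left h3 (by linarith)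
    linarith
  have hb : P a ∈ closedBall (0 : Cn n) (3 * ρ) := by
    rw [mem_closedBall_zero_iff]
    have h2 := h.lipD isOpen_ball (convex_ball 0 s) (ball_subset_ball (by linarith)) hP
      (a := α) (b := a) hαs (hsub (hcb ha))
    have h3 : Λ * ‖a - α‖ ≤ Λ * (2 * (Λ * η)) := mul_le_mul_of_nonneg_left haα (by linarith)
    have h4 := norm_add_le (P a - P α) (P α)
    rw [sub_add_cancel] at h4
    have h5 : Λ * (2 * (Λ * η)) = 2 * ρ := by rw [hρ]; ring
    linarith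
  have hfix : P a = a := by
    by_contra hne'
    set m : Cn n := (1 / 2 : ℝ) • (a + P a) with hm
    set v : Cn n := (1 / 2 : ℝ) • (a - P a) with hv
    have e1 : m + v = a := by rw [hm, hv]; module
    have e2' : m - v = P a := by rw [hm, hv]; module
    have hv0 : v ≠ 0 := by
      intro h0
      rw [h0, add_zero] at e1
      rw [h0, sub_zero] at e2'
      exact hne' (e2'.symm.trans e1)
    have hm3 : m ∈ closedBall (0 : Cn n) (3 * ρ) := by
      rw [hm, smul_add]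
      exact convex_closedBall (0 : Cn n) (3 * ρ) ha hb (by norm_num) (by norm_num) (by norm_num)
    have h2 : ∑ i ∈ Finset.Ico k l, 2 * ‖T i m‖ ^ 2
        < ∑ i ∈ Finset.Ico k l, (‖T i a‖ ^ 2 + ‖T i (P a)‖ ^ 2) := by
      refine Finset.sum_lt_sum_of_nonempty hne fun i hi => ?_
      have hil : i ≤ l := (Finset.mem_Ico.1 hi).2.le
      have := h.conv hS (hT i hil) hα (hy i hil) (m := m) (v := v) (by rw [e1]; exact ha4)
        (by rw [e2']; exact mem_ball_zero_iff.1 (hcb hb)) hv0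
      rwa [e1, e2'] at this
    rw [← Finset.mul_sum, Finset.sum_add_distrib] at h2
    have h3 : f a ≤ f m := hmin hm3
    have h4 := hfP a (hcb ha)
    simp only [f] at h3 h4
    linarith
  exact h.uniqD (convex_ball 0 s).isPreconnected hP (deck_id (ball_subset_ball (by linarith)))
    (hsub (hcb ha)) hfix hαs

end Crest.Agent.T223.Cov
end

-- ▼ part T223/CovOne_25
section

/-!
# T223, module COVER (helper25): injectivity near the centre of one chart

The orbit of a point under the lifted deck map is finite since disjoint translates of `K` all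
carry the same Monge-Ampere mass, and the total mass is bounded.
-/

set_option autoImplicit false

open Set Filter Topology Complex MeasureTheory Metric
open scoped ContDiff Matrix ComplexConjugate ComplexOrder

namespace Crest.Agent.T223.Cov

open Crest.Agent.R275.Geo
open Crest.Agent.R273.Hess_333 Crest.Agent.R273.HessB_333

variable {n : ℕ} {M : Type} [TopologicalSpace M]

theorem det_mul_of_inv {S T : Cn n → Cn n} {w : Cn n} (hT : DifferentiableAt ℂ T w)
    (hS : DifferentiableAt ℂ S (T w)) (h : ∀ᶠ x in 𝓝 w, S (T x) = x) :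
    (fderiv ℂ S (T w)).det * (fderiv ℂ T w).det = 1 := by
  have h1 : HasFDerivAt (S ∘ T) ((fderiv ℂ S (T w)).comp (fderiv ℂ T w)) w :=
    hS.hasFDerivAt.comp w hT.hasFDerivAt
  have h2 : HasFDerivAt (S ∘ T) (ContinuousLinearMap.id ℂ (Cn n)) w :=
    (hasFDerivAt_id w).congr_of_eventuallyEq h
  have h3 := congrArg ContinuousLinearMap.det (h1.unique h2)
  simp only [ContinuousLinearMap.det, ContinuousLinearMap.coe_id, LinearMap.det_id] at h3
  exact (LinearMap.det_comp (fderiv ℂ S (T w) : Cn n →ₗ[ℂ] Cn n)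
    (fderiv ℂ T w : Cn n →ₗ[ℂ] Cn n)).symm.trans h3

theorem Ch.det_low [T2Space M] {ψ : Cn n → M} {r Λ s η D : ℝ} (h : Ch ψ r Λ) (hS : Sm r Λ s η)
    (hD : ∀ L : Cn n →L[ℂ] Cn n, ‖L‖ ≤ Λ → ‖L.det‖ ≤ D)
    {T : Cn n → Cn n} (hT : Deck ψ r T (ball 0 s)) {α : Cn n} (hα : ‖α‖ ≤ η) (hy : ‖T α‖ ≤ η)
    {w : Cn n} (hw : ‖w‖ < 4 * (Λ ^ 2 * η)) :
    (fderiv ℂ T w).det ≠ 0 ∧ -(2 * Real.log D) ≤ Real.log (‖(fderiv ℂ T w).det‖ ^ 2) := by
  have h1 := h.one
  have e2 := hS.pow h1 (k := 2) (by norm_num)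
  have e3 := hS.pow h1 (k := 3) (by norm_num)
  have hs := hS.hs
  obtain ⟨S, hS', hSe⟩ := h.inv hS hT hα hy
  have hw1 : w ∈ ball (0 : Cn n) s := mem_ball_zero_iff.2 (by linarith)
  have hw2 : T w ∈ ball (0 : Cn n) s := mem_ball_zero_iff.2 (by
    have := h.small hS hT hα hy hw
    linarith)
  have h2 := det_mul_of_inv ((hT.diff w hw1).differentiableAt (isOpen_ball.mem_nhds hw1))
    ((hS'.diff _ hw2).differentiableAt (isOpen_ball.mem_nhds hw2))
    (eventually_of_mem (isOpen_ball.mem_nhds (mem_ball_zero_iff.2 hw)) fun x hx =>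
      hSe x (mem_ball_zero_iff.1 hx))
  have h3 := hD _ (h.lip _ S isOpen_ball (ball_subset_ball (by linarith [hS.sr h1])) hS' _ hw2)
  have h4 := right_ne_zero_of_mul_eq_one h2
  have h5 := left_ne_zero_of_mul_eq_one h2
  refine ⟨h4, ?_⟩
  have h6 := congrArg (fun z : ℂ => Real.log ‖z‖) h2
  simp only [norm_mul, norm_one, Real.log_one] at h6
  rw [Real.log_mul (norm_ne_zero_iff.2 h5) (norm_ne_zero_iff.2 h4)] at h6
  have h7 := Real.log_le_log (norm_pos_iff.2 h5) h3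
  rw [Real.log_pow]
  push_cast
  linarith

/-- ONE: injectivity near the centre of one chart -/
theorem Ch.inj [T2Space M] (μ : Measure (Cn n)) [μ.IsAddHaarMeasure] {ψ : Cn n → M}
    {r Λ s η : ℝ} (h : Ch ψ r Λ) (hS : Sm r Λ s η) {v : Cn n → ℝ} {A B D ε : ℝ} {N : ℕ}
    {K : Set (Cn n)} (hv : ContDiffOn ℝ ∞ v (ball 0 r))
    (hp : ∀ w ∈ ball (0 : Cn n) r, (hess v w).PosSemidef) (hA : ∀ w ∈ ball (0 : Cn n) r, v w ≤ A)
    (hinv : ∀ T, Deck ψ r T (ball 0 s) → ∀ w ∈ ball (0 : Cn n) s,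
      v (T w) = v w + Real.log (‖(fderiv ℂ T w).det‖ ^ 2))
    (hK : IsCompact K) (hKε : ∀ w ∈ K, ‖w‖ ≤ ε) (hKi : InjOn ψ K) (hB : ∀ w ∈ K, -B ≤ v w)
    (hD : ∀ L : Cn n →L[ℂ] Cn n, ‖L‖ ≤ Λ → ‖L.det‖ ≤ D) (hAB : 0 ≤ A + (B + 2 * Real.log D))
    (hN : ENNReal.ofReal ((6 * (A + (B + 2 * Real.log D) + 2) / r ^ 2) ^ n) * μ (ball 0 r) <
      N * ∫⁻ w in K, ENNReal.ofReal (hess v w).det.re ∂μ)
    (hε : ε + 2 * Λ * ε * N ≤ η) {α β : Cn n} (hα : ‖α‖ ≤ ε) (hβ : ‖β‖ ≤ ε)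
    (he : ψ α = ψ β) : α = β := by
  classical
  have h1 := h.one
  have e0 := hS.pow h1 (k := 0) (by norm_num)
  have e3 := hS.pow h1 (k := 3) (by norm_num)
  have m02 := hS.mono h1 (k := 0) (l := 2) (by norm_num)
  have hη := hS.hη
  have hs := hS.hs
  have hsr := hS.sr h1
  simp only [pow_zero, one_mul] at e0 m02
  have hε0 : 0 ≤ ε := (norm_nonneg _).trans hα
  have hΛε : 0 ≤ 2 * Λ * ε := by positivity
  have hεη : ε ≤ η := by
    have : 0 ≤ 2 * Λ * ε * N := by positivity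
    linarith
  have hαs : α ∈ ball (0 : Cn n) s := mem_ball_zero_iff.2 (by linarith)
  have hβs : β ∈ ball (0 : Cn n) s := mem_ball_zero_iff.2 (by linarith)
  have hsub : ball (0 : Cn n) s ⊆ ball 0 r := ball_subset_ball (by linarith)
  have hG : ∀ y : Cn n, ∃ T : Cn n → Cn n, ‖y‖ ≤ η → ψ α = ψ y →
      Deck ψ r T (ball 0 s) ∧ T α = y := by
    intro y
    by_cases hy : ‖y‖ ≤ η ∧ ψ α = ψ y
    · obtain ⟨T, hT⟩ := h.lift0 hS.hs hS.hsr (y := α) (y' := y) (by linarith) (by linarith [hy.1])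
        hy.2
      exact ⟨T, fun _ _ => hT⟩
    · exact ⟨id, fun a b => absurd ⟨a, b⟩ hy⟩
  choose G hG using hG
  let y : ℕ → Cn n := fun i => (fun x => G x β)^[i] α
  have hys : ∀ i, y (i + 1) = G (y i) β := fun i => Function.iterate_succ_apply' _ _ _
  have hbd : ∀ i : ℕ, i ≤ N → ε + 2 * Λ * ε * i ≤ η := fun i hi => by
    have : 2 * Λ * ε * i ≤ 2 * Λ * ε * N := mul_le_mul_of_nonneg_left (by exact_mod_cast hi) hΛε
    linarith
  have hy : ∀ i : ℕ, i ≤ N → ‖y i‖ ≤ ε + 2 * Λ * ε * i ∧ ψ α = ψ (y i) := by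
    intro i
    induction i with
    | zero => intro _; exact ⟨by simpa [y] using hα, rfl⟩
    | succ i ih =>
      intro hi
      obtain ⟨h2, h3⟩ := ih (by omega)
      obtain ⟨h4, h5⟩ := hG (y i) (h2.trans (hbd i (by omega))) h3
      rw [hys]
      refine ⟨?_, by rw [h4.eq β hβs, he]⟩
      have h6 := h.lipD isOpen_ball (convex_ball 0 s) hsub h4 hαs hβs
      have h7 : Λ * ‖β - α‖ ≤ Λ * (2 * ε) :=
        mul_le_mul_of_nonneg_left (by linarith [norm_sub_le β α]) (by linarith)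
      have h8 := norm_add_le (G (y i) β - G (y i) α) (G (y i) α)
      rw [sub_add_cancel, h5] at h8
      rw [h5] at h6
      push_cast
      linarith
  have hyη : ∀ i ≤ N, ‖y i‖ ≤ η := fun i hi => (hy i hi).1.trans (hbd i hi)
  have hT : ∀ i ≤ N, Deck ψ r (G (y i)) (ball 0 s) ∧ G (y i) α = y i := fun i hi =>
    hG (y i) (hyη i hi) (hy i hi).2
  have hTη : ∀ i ≤ N, ‖G (y i) α‖ ≤ η := fun i hi => by rw [(hT i hi).2]; exact hyη i hi
  obtain ⟨hP, hPα⟩ := hG β (by linarith) he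
  by_cases hrep : ∃ k l, k < l ∧ l ≤ N ∧ y k = y l
  · obtain ⟨k, l, hkl, hl, hykl⟩ := hrep
    have := h.fix hS (α := α) (by linarith) hP (by rw [hPα]; linarith) (T := fun i => G (y i)) hkl
      (fun i hi => (hT i (hi.trans hl)).1) (fun i hi => hTη i (hi.trans hl))
      (fun i hi => by rw [(hT (i + 1) (by omega)).2, hPα, hys])
      (by rw [(hT k (by omega)).2, (hT l hl).2, hykl])
    rw [hPα] at this
    exact this.symm
  exfalso
  have hK4 : ∀ w ∈ K, ‖w‖ < 4 * (Λ ^ 2 * η) := fun w hw => by linarith [hKε w hw]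
  have hKs : K ⊆ ball 0 s := fun w hw => mem_ball_zero_iff.2 (by linarith [hKε w hw])
  let E : ℕ → Set (Cn n) := fun i => G (y i) '' K
  have hEm : ∀ i ∈ Finset.range N, MeasurableSet (E i) := fun i hi =>
    (hK.image_of_continuousOn ((hT i (Finset.mem_range.1 hi).le).1.diff.continuousOn.mono
      hKs)).measurableSet
  have hEd : Set.PairwiseDisjoint (↑(Finset.range N) : Set ℕ) E := by
    intro i hi j hj hij
    have hi' : i ≤ N := (Finset.mem_range.1 (Finset.mem_coe.1 hi)).le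
    have hj' : j ≤ N := (Finset.mem_range.1 (Finset.mem_coe.1 hj)).le
    refine Set.disjoint_left.2 ?_
    rintro _ ⟨a, ha, rfl⟩ ⟨b, hb, hab⟩
    have h2 : b = a := hKi hb ha (by
      rw [← (hT j hj').1.eq b (hKs hb), hab, (hT i hi').1.eq a (hKs ha)])
    subst h2
    have h3 := h.uniqD (convex_ball 0 s).isPreconnected (hT j hj').1 (hT i hi').1 (hKs hb) hab hαs
    rw [(hT j hj').2, (hT i hi').2] at h3
    rcases lt_or_gt_of_ne hij with h4 | h4
    · exact hrep ⟨i, j, h4, hj', h3.symm⟩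
    · exact hrep ⟨j, i, h4, hi', h3⟩
  have hEmass : ∀ i ∈ Finset.range N, ∫⁻ z in E i, ENNReal.ofReal (hess v z).det.re ∂μ =
      ∫⁻ w in K, ENNReal.ofReal (hess v w).det.re ∂μ := by
    intro i hi
    have hi' : i ≤ N := (Finset.mem_range.1 hi).le
    refine mass_tr μ isOpen_ball (hT i hi').1.diff hK.measurableSet hKs ?_ ?_ ?_ ?_
      (hinv _ (hT i hi').1)
    · intro a ha b hb hab
      exact hKi ha hb (by rw [← (hT i hi').1.eq a (hKs ha), hab, (hT i hi').1.eq b (hKs hb)])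
    · exact fun w hw => (h.det_low hS hD (hT i hi').1 (by linarith) (hTη i hi') (hK4 w hw)).1
    · exact fun w hw => hv.contDiffAt (isOpen_ball.mem_nhds ((hT i hi').1.maps (hKs hw)))
    · exact fun w hw => hv.contDiffAt (isOpen_ball.mem_nhds (hsub (hKs hw)))
  have hle := mass_le μ (A := A) (B := B + 2 * Real.log D) (by linarith) hv hp hA
    (E := ⋃ i ∈ Finset.range N, E i) (Finset.measurableSet_biUnion _ hEm) ?_ ?_ hAB
  · rw [lintegral_biUnion_finset hEd hEm, Finset.sum_congr rfl hEmass, Finset.sum_const,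
      Finset.card_range, nsmul_eq_mul] at hle
    exact absurd hN (not_lt.2 hle)
  · intro z hz
    obtain ⟨i, hi, w, hw, rfl⟩ := mem_iUnion₂.1 hz
    have hi' : i ≤ N := (Finset.mem_range.1 hi).le
    have := h.small hS (hT i hi').1 (α := α) (by linarith) (hTη i hi') (hK4 w hw)
    exact mem_ball_zero_iff.2 (by linarith)
  · intro z hz
    obtain ⟨i, hi, w, hw, rfl⟩ := mem_iUnion₂.1 hz
    have hi' : i ≤ N := (Finset.mem_range.1 hi).le
    have h2 := (h.det_low hS hD (hT i hi').1 (α := α) (by linarith) (hTη i hi') (hK4 w hw)).2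
    rw [hinv _ (hT i hi').1 w (hKs hw)]
    linarith [hB w hw]

end Crest.Agent.T223.Cov
end

-- ▼ part T223/CovAn_25
section

/-!
# T223, module COVER (helper25): Harnack bound, holomorphic inverses, the chart structure
-/

set_option autoImplicit false

open Set Filter Topology Complex MeasureTheory Metric
open scoped ContDiff Matrix ComplexConjugate ComplexOrder

namespace Crest.Agent.T223.Cov

open Crest.Agent.R275.Geo
open Crest.Agent.R273.Hess_333 Crest.Agent.R273.HessB_333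

variable {n : ℕ}

/-- Harnack bound in one variable -/
theorem harn1 {f : ℂ → ℂ} {D : ℝ} (hf : DifferentiableOn ℂ f (ball 0 2))
    (h0 : ∀ x ∈ ball (0 : ℂ) 2, f x ≠ 0) (hD : ∀ x ∈ ball (0 : ℂ) 2, ‖f x‖ ≤ D) :
    3 * Real.log ‖f 0‖ - 2 * Real.log D - 2 ≤ Real.log ‖f 1‖ := by
  have h00 : (0 : ℂ) ∈ ball (0 : ℂ) 2 := mem_ball_self (by norm_num)
  have h1 : (1 : ℂ) ∈ ball (0 : ℂ) 2 := by simp
  have hq : DifferentiableOn ℂ (fun x => deriv f x / f x) (ball 0 2) :=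
    (hf.deriv isOpen_ball).div hf h0
  obtain ⟨L, hL0, hL⟩ := hq.isExactOn_ball.with_val_at 0 0
  have hLd : DifferentiableOn ℂ L (ball 0 2) := fun x hx =>
    (hL x hx).differentiableAt.differentiableWithinAt
  have hG : ∀ x ∈ ball (0 : ℂ) 2, HasDerivAt (fun y => f y * exp (-L y)) 0 x := by
    intro x hx
    have h2 := ((hf x hx).differentiableAt (isOpen_ball.mem_nhds hx)).hasDerivAt
    have h3 := h2.mul (hL x hx).neg.cexp
    have h4 : deriv f x * cexp ((-L) x) + f x * (cexp ((-L) x) * -(deriv f x / f x)) = 0 := by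
      have := h0 x hx
      field_simp
      ring
    rw [h4] at h3
    exact h3
  have hc : ∀ x ∈ ball (0 : ℂ) 2, Real.log ‖f x‖ = Real.log ‖f 0‖ + (L x).re := by
    intro x hx
    have h2 := isOpen_ball.is_const_of_deriv_eq_zero (convex_ball (0 : ℂ) 2).isPreconnected
      (fun y hy => (hG y hy).differentiableAt.differentiableWithinAt)
      (fun y hy => (hG y hy).deriv) hx h00
    rw [hL0, neg_zero, Complex.exp_zero, mul_one] at h2
    rw [← h2, norm_mul, Real.log_mul (norm_ne_zero_iff.2 (h0 x hx))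
      (norm_ne_zero_iff.2 (Complex.exp_ne_zero _)), Complex.norm_exp, Real.log_exp, neg_re]
    ring
  have hle : ∀ x ∈ ball (0 : ℂ) 2, Real.log ‖f x‖ ≤ Real.log D := fun x hx =>
    Real.log_le_log (norm_pos_iff.2 (h0 x hx)) (hD x hx)
  have hM : 0 < Real.log D - Real.log ‖f 0‖ + 1 := by linarith [hle 0 h00]
  have hb := borelCaratheodory_zero hM hLd (fun x hx => by
    have := hc x hx
    have := hle x hx
    show (L x).re ≤ _
    linarith) (by norm_num) h1 hL0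
  rw [norm_one] at hb
  have h2 := hc 1 h1
  have h3 := neg_le_abs (L 1).re
  have h4 := abs_re_le_norm (L 1)
  norm_num at hb
  linarith

/-- Harnack bound -/
theorem harn {h : Cn n → ℂ} {D : ℝ} (hf : DifferentiableOn ℂ h (ball 0 2))
    (h0 : ∀ x ∈ ball (0 : Cn n) 2, h x ≠ 0) (hD : ∀ x ∈ ball (0 : Cn n) 2, ‖h x‖ ≤ D) {z : Cn n}
    (hz : ‖z‖ ≤ 1) : 3 * Real.log ‖h 0‖ - 2 * Real.log D - 2 ≤ Real.log ‖h z‖ := by
  have hm : MapsTo (fun ζ : ℂ => ζ • z) (ball 0 2) (ball 0 2) := by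
    intro ζ hζ
    rw [mem_ball_zero_iff] at hζ ⊢
    rw [norm_smul]
    nlinarith [norm_nonneg ζ, norm_nonneg z]
  have := harn1 (f := fun ζ : ℂ => h (ζ • z)) (D := D) (hf.comp (by fun_prop) hm)
    (fun x hx => h0 _ (hm hx)) (fun x hx => hD _ (hm hx))
  simpa using this

/-- holomorphic embeddings of the ball -/
structure Emb (χ : Cn n → Cn n) (r : ℝ) : Prop where
  diff : DifferentiableOn ℂ χ (ball 0 r)
  inj : InjOn χ (ball 0 r)
  det : ∀ w ∈ ball (0 : Cn n) r, (fderiv ℂ χ w).det ≠ 0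

/-- the inverse of the embedding -/
noncomputable def inv (χ : Cn n → Cn n) (r : ℝ) : Cn n → Cn n := Function.invFunOn χ (ball 0 r)

theorem Emb.strict {χ : Cn n → Cn n} {r : ℝ} (h : Emb χ r) {w : Cn n} (hw : w ∈ ball 0 r) :
    HasStrictFDerivAt χ ((fderiv ℂ χ w).toContinuousLinearEquivOfDetNeZero (h.det w hw) :
      Cn n →L[ℂ] Cn n) w := by
  rw [ContinuousLinearMap.coe_toContinuousLinearEquivOfDetNeZero]
  exact ((contDiffOn_hol isOpen_ball h.diff).contDiffAt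
    (isOpen_ball.mem_nhds hw)).hasStrictFDerivAt (by simp)

theorem Emb.isOpen {χ : Cn n → Cn n} {r : ℝ} (h : Emb χ r) {V : Set (Cn n)} (hV : IsOpen V)
    (hVr : V ⊆ ball 0 r) : IsOpen (χ '' V) := by
  refine isOpen_iff_mem_nhds.2 ?_
  rintro _ ⟨w, hw, rfl⟩
  rw [← (h.strict (hVr hw)).map_nhds_eq_of_equiv]
  exact image_mem_map (hV.mem_nhds hw)

theorem Emb.left {χ : Cn n → Cn n} {r : ℝ} (h : Emb χ r) {w : Cn n} (hw : w ∈ ball 0 r) :
    inv χ r (χ w) = w := h.inj.leftInvOn_invFunOn hw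

theorem inv_mem {χ : Cn n → Cn n} {r : ℝ} {z : Cn n} (hz : z ∈ χ '' ball 0 r) :
    inv χ r z ∈ ball 0 r := Function.invFunOn_mem hz

theorem inv_right {χ : Cn n → Cn n} {r : ℝ} {z : Cn n} (hz : z ∈ χ '' ball 0 r) :
    χ (inv χ r z) = z := Function.invFunOn_eq hz

theorem Emb.ev_left {χ : Cn n → Cn n} {r : ℝ} (h : Emb χ r) {w : Cn n} (hw : w ∈ ball 0 r) :
    ∀ᶠ x in 𝓝 w, inv χ r (χ x) = x :=
  eventually_of_mem (isOpen_ball.mem_nhds hw) fun _ hx => h.left hx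

theorem Emb.inv_diff {χ : Cn n → Cn n} {r : ℝ} (h : Emb χ r) :
    DifferentiableOn ℂ (inv χ r) (χ '' ball 0 r) := by
  rintro _ ⟨w, hw, rfl⟩
  exact ((h.strict hw).to_local_left_inverse
    (h.ev_left hw)).hasFDerivAt.differentiableAt.differentiableWithinAt

theorem Emb.det_inv {χ : Cn n → Cn n} {r : ℝ} (h : Emb χ r) {w : Cn n} (hw : w ∈ ball 0 r) :
    (fderiv ℂ (inv χ r) (χ w)).det * (fderiv ℂ χ w).det = 1 :=
  det_mul_of_inv ((h.diff w hw).differentiableAt (isOpen_ball.mem_nhds hw))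
    ((h.inv_diff _ (mem_image_of_mem χ hw)).differentiableAt
      ((h.isOpen isOpen_ball subset_rfl).mem_nhds (mem_image_of_mem χ hw))) (h.ev_left hw)

variable {M : Type} [TopologicalSpace M]

theorem Ch.det_ne {ψ : Cn n → M} {r Λ : ℝ} (h : Ch ψ r Λ) {T : Cn n → Cn n} {U : Set (Cn n)}
    (hU : IsOpen U) (hUr : U ⊆ ball 0 r) (hT : Deck ψ r T U) {w : Cn n} (hw : w ∈ U) :
    (fderiv ℂ T w).det ≠ 0 := by
  obtain ⟨δ, hδ, S, hS, hSw⟩ := h.germ (T w) (hT.maps hw) w (hUr hw) (hT.eq w hw)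
  have hTw : DifferentiableAt ℂ T w := (hT.diff w hw).differentiableAt (hU.mem_nhds hw)
  have h1 : U ∩ T ⁻¹' ball (T w) δ ∈ 𝓝 w :=
    inter_mem (hU.mem_nhds hw) (hTw.continuousAt (ball_mem_nhds _ hδ))
  obtain ⟨ε, hε, hεs⟩ := Metric.mem_nhds_iff.1 h1
  have h2 : EqOn (S ∘ T) id (ball w ε) :=
    h.uniqD (convex_ball w ε).isPreconnected
      (hS.comp (hT.mono fun x hx => (hεs hx).1) fun x hx => (hεs hx).2)
      (deck_id fun x hx => hUr (hεs hx).1) (mem_ball_self hε) hSw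
  exact right_ne_zero_of_mul_eq_one (det_mul_of_inv hTw
    ((hS.diff _ (mem_ball_self hδ)).differentiableAt (ball_mem_nhds _ hδ))
    (eventually_of_mem (ball_mem_nhds w hε) h2))

/-- the chart structure of `Ψ ∘ χ` -/
theorem ch_of [T2Space M] {Ψ : Cn n → M} {χ : Cn n → Cn n} {r Λ : ℝ} (hΨ : IsLocalHomeomorph Ψ)
    (hχ : Emb χ r)
    (hd : ∀ (U : Set (Cn n)) (θ : Cn n → Cn n), IsOpen U → ContinuousOn θ U →
      (∀ z ∈ U, Ψ (θ z) = Ψ z) → DifferentiableOn ℂ θ U)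
    (hl : ∀ (U : Set (Cn n)) (θ : Cn n → Cn n), IsOpen U → U ⊆ ball 0 r →
      MapsTo θ U (ball 0 r) → DifferentiableOn ℂ θ U →
      (∀ w ∈ U, Ψ (χ (θ w)) = Ψ (χ w)) → ∀ w ∈ U, ‖fderiv ℂ θ w‖ ≤ Λ) :
    Ch (fun w => Ψ (χ w)) r (max Λ 1) where
  one := le_max_right _ _
  cont := hΨ.continuous.comp_continuousOn hχ.diff.continuousOn
  uniq := by
    intro S θ θ' hS h1 h2 m1 m2 he a ha hea w hw
    have := (T2Space.isSeparatedMap Ψ).eqOn_of_comp_eqOn hΨ.isLocallyInjective hS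
      (g₁ := χ ∘ θ) (g₂ := χ ∘ θ') (hχ.diff.continuousOn.comp h1 m1)
      (hχ.diff.continuousOn.comp h2 m2) he ha (by simp [hea])
    exact hχ.inj (m1 hw) (m2 hw) (this hw)
  germ := by
    intro y hy y' hy' he
    obtain ⟨e, he1, he2⟩ := hΨ (χ y')
    let U : Set (Cn n) := Ψ ⁻¹' e.target
    have hU : IsOpen U := e.open_target.preimage hΨ.continuous
    let θ : Cn n → Cn n := fun z => e.symm (Ψ z)
    have hθc : ContinuousOn θ U :=
      e.continuousOn_symm.comp hΨ.continuous.continuousOn (mapsTo_preimage _ _)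
    have hθe : ∀ z ∈ U, Ψ (θ z) = Ψ z := fun z hz => by
      have := e.right_inv hz
      rwa [← he2] at this
    have hθd := hd U θ hU hθc hθe
    have hyU : χ y ∈ U := by
      show Ψ (χ y) ∈ e.target
      rw [he, he2]; exact e.map_source he1
    have hθy : θ (χ y) = χ y' := by
      show e.symm (Ψ (χ y)) = χ y'
      rw [he, he2]; exact e.left_inv he1
    have hO := hχ.isOpen isOpen_ball subset_rfl
    have hχy : ContinuousAt χ y := hχ.diff.continuousOn.continuousAt (isOpen_ball.mem_nhds hy)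
    have hθy' : ContinuousAt θ (χ y) := hθc.continuousAt (hU.mem_nhds hyU)
    have h1 : ball 0 r ∩ χ ⁻¹' (U ∩ θ ⁻¹' (χ '' ball 0 r)) ∈ 𝓝 y := by
      refine inter_mem (isOpen_ball.mem_nhds hy) (hχy (inter_mem (hU.mem_nhds hyU) (hθy' ?_)))
      rw [hθy]
      exact hO.mem_nhds (mem_image_of_mem χ hy')
    obtain ⟨δ, hδ, hδs⟩ := Metric.mem_nhds_iff.1 h1
    refine ⟨δ, hδ, inv χ r ∘ θ ∘ χ, ⟨?_, ?_, ?_⟩, ?_⟩
    · exact hχ.inv_diff.comp (hθd.comp (hχ.diff.mono fun x hx => (hδs hx).1)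
        fun x hx => (hδs hx).2.1) fun x hx => (hδs hx).2.2
    · exact fun x hx => inv_mem (hδs hx).2.2
    · intro x hx
      show Ψ (χ (inv χ r (θ (χ x)))) = Ψ (χ x)
      rw [inv_right (hδs hx).2.2, hθe _ (hδs hx).2.1]
    · show inv χ r (θ (χ y)) = y'
      rw [hθy, hχ.left hy']
  lip := fun U T hU hUr hT w hw => (hl U T hU hUr hT.maps hT.diff hT.eq w hw).trans
    (le_max_left _ _)

theorem det_comp_eq {F G F' G' : Cn n → Cn n} {w : Cn n} (hG : DifferentiableAt ℂ G w)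
    (hF : DifferentiableAt ℂ F (G w)) (hG' : DifferentiableAt ℂ G' w)
    (hF' : DifferentiableAt ℂ F' (G' w)) (h : ∀ᶠ x in 𝓝 w, F (G x) = F' (G' x)) :
    (fderiv ℂ F (G w)).det * (fderiv ℂ G w).det =
      (fderiv ℂ F' (G' w)).det * (fderiv ℂ G' w).det := by
  have h1 : HasFDerivAt (F ∘ G) ((fderiv ℂ F (G w)).comp (fderiv ℂ G w)) w :=
    hF.hasFDerivAt.comp w hG.hasFDerivAt
  have h2 : HasFDerivAt (F ∘ G) ((fderiv ℂ F' (G' w)).comp (fderiv ℂ G' w)) w :=
    (hF'.hasFDerivAt.comp w hG'.hasFDerivAt).congr_of_eventuallyEq h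
  have h3 := congrArg ContinuousLinearMap.det (h1.unique h2)
  exact (LinearMap.det_comp (fderiv ℂ F (G w) : Cn n →ₗ[ℂ] Cn n)
    (fderiv ℂ G w : Cn n →ₗ[ℂ] Cn n)).symm.trans (h3.trans
      (LinearMap.det_comp (fderiv ℂ F' (G' w) : Cn n →ₗ[ℂ] Cn n)
        (fderiv ℂ G' w : Cn n →ₗ[ℂ] Cn n)))

/-- invariance of the potential in the chart -/
theorem inv_pot {Ψ : Cn n → M} {χ : Cn n → Cn n} {u : Cn n → ℝ} {r Λ : ℝ} (hχ : Emb χ r)
    (hc : Ch (fun w => Ψ (χ w)) r Λ)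
    (hd : ∀ (U : Set (Cn n)) (θ : Cn n → Cn n), IsOpen U → ContinuousOn θ U →
      (∀ z ∈ U, Ψ (θ z) = Ψ z) → DifferentiableOn ℂ θ U ∧
        ∀ z ∈ U, u (θ z) = u z + Real.log (‖(fderiv ℂ θ z).det‖ ^ 2))
    {V : Set (Cn n)} (hV : IsOpen V) (hVr : V ⊆ ball 0 r) {T : Cn n → Cn n}
    (hT : Deck (fun w => Ψ (χ w)) r T V) {w : Cn n} (hw : w ∈ V) :
    u (χ (T w)) - Real.log (‖(fderiv ℂ χ (T w)).det‖ ^ 2) =
      u (χ w) - Real.log (‖(fderiv ℂ χ w).det‖ ^ 2) + Real.log (‖(fderiv ℂ T w).det‖ ^ 2) := by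
  have hU := hχ.isOpen hV hVr
  have hm : MapsTo (inv χ r) (χ '' V) V := by
    rintro _ ⟨x, hx, rfl⟩
    rw [hχ.left (hVr hx)]; exact hx
  let θ : Cn n → Cn n := χ ∘ T ∘ inv χ r
  have hθc : ContinuousOn θ (χ '' V) :=
    hχ.diff.continuousOn.comp (hT.diff.continuousOn.comp
      (hχ.inv_diff.continuousOn.mono (image_mono hVr)) hm) (hT.maps.comp hm)
  have hθχ : ∀ x ∈ V, θ (χ x) = χ (T x) := fun x hx => by
    show χ (T (inv χ r (χ x))) = _
    rw [hχ.left (hVr hx)]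
  obtain ⟨h1, h2⟩ := hd _ θ hU hθc (by
    rintro _ ⟨x, hx, rfl⟩
    rw [hθχ x hx]; exact hT.eq x hx)
  have hwU : χ w ∈ χ '' V := mem_image_of_mem χ hw
  have h3 := h2 _ hwU
  rw [hθχ w hw] at h3
  have h4 := det_comp_eq (F := θ) (G := χ) (F' := χ) (G' := T) (w := w)
    ((hχ.diff w (hVr hw)).differentiableAt (isOpen_ball.mem_nhds (hVr hw)))
    ((h1 _ hwU).differentiableAt (hU.mem_nhds hwU))
    ((hT.diff w hw).differentiableAt (hV.mem_nhds hw))
    ((hχ.diff _ (hT.maps hw)).differentiableAt (isOpen_ball.mem_nhds (hT.maps hw)))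
    (eventually_of_mem (hV.mem_nhds hw) hθχ)
  have a1 := hχ.det w (hVr hw)
  have a2 := hχ.det _ (hT.maps hw)
  have a3 := hc.det_ne hV hVr hT hw
  have a4 : (fderiv ℂ θ (χ w)).det ≠ 0 := left_ne_zero_of_mul (h4 ▸ mul_ne_zero a2 a3)
  have h5 := congrArg (fun z : ℂ => Real.log ‖z‖) h4
  simp only [norm_mul] at h5
  rw [Real.log_mul (norm_ne_zero_iff.2 a4) (norm_ne_zero_iff.2 a1),
    Real.log_mul (norm_ne_zero_iff.2 a2) (norm_ne_zero_iff.2 a3)] at h5
  simp only [Real.log_pow] at h3 ⊢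
  push_cast at h3 ⊢
  linarith

end Crest.Agent.T223.Cov
end

-- ▼ part T223/Cov_25
section

/-!
# T223, module COVER (helper25): the covering statement
-/

set_option autoImplicit false

open Set Filter Topology Complex MeasureTheory Metric
open scoped ContDiff Matrix ComplexConjugate ComplexOrder

namespace Crest.Agent.T223.Cov

open Crest.Agent.R275.Geo
open Crest.Agent.R273.Hess_333 Crest.Agent.R273.HessB_333

variable {n : ℕ}

/-- a small ball with positive mass on which `Ψ` is injective -/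
theorem exists_ball (μ : Measure (Cn n)) [μ.IsAddHaarMeasure] {M : Type} [TopologicalSpace M]
    {Ψ : Cn n → M} (hΨ : IsLocalHomeomorph Ψ) {u : Cn n → ℝ} (hu : ContDiff ℝ ∞ u)
    (hp : (hess u 0).PosSemidef) (hd : (hess u 0).det ≠ 0) :
    ∃ ρ m : ℝ, 0 < ρ ∧ ρ ≤ 1 ∧ 0 < m ∧ InjOn Ψ (closedBall 0 ρ) ∧
      ENNReal.ofReal m ≤ ∫⁻ z in closedBall 0 ρ, ENNReal.ofReal (hess u z).det.re ∂μ := by
  have h1 : 0 < (hess u 0).det := lt_of_le_of_ne hp.det_nonneg hd.symm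
  have h2 : 0 < (hess u 0).det.re := (Complex.pos_iff.1 h1).1
  have hc : Continuous fun z => (hess u z).det.re :=
    Complex.continuous_re.comp (contDiff_det (fun a b => contDiff_hess hu a b)).continuous
  obtain ⟨V, hV, hVi⟩ := isLocallyInjective_iff_nhds.1 hΨ.isLocallyInjective 0
  have h3 : ∀ᶠ z in 𝓝 (0 : Cn n), (hess u 0).det.re / 2 < (hess u z).det.re :=
    hc.continuousAt.eventually (lt_mem_nhds (by linarith))
  obtain ⟨ε, hε, hεs⟩ := Metric.nhds_basis_closedBall.mem_iff.1 (inter_mem hV h3)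
  have hρ : 0 < min ε 1 := lt_min hε one_pos
  have hsub : closedBall (0 : Cn n) (min ε 1) ⊆ closedBall 0 ε :=
    closedBall_subset_closedBall (min_le_left _ _)
  have hv0 : 0 < μ (closedBall 0 (min ε 1)) := measure_closedBall_pos μ _ hρ
  have hv1 : μ (closedBall 0 (min ε 1)) ≠ ⊤ := measure_closedBall_lt_top.ne
  refine ⟨min ε 1, (hess u 0).det.re / 2 * (μ (closedBall 0 (min ε 1))).toReal, hρ,
    min_le_right _ _, mul_pos (by linarith) (ENNReal.toReal_pos hv0.ne' hv1),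
    hVi.mono fun z hz => (hεs (hsub hz)).1, ?_⟩
  rw [ENNReal.ofReal_mul (by linarith), ENNReal.ofReal_toReal hv1, ← setLIntegral_const]
  exact setLIntegral_mono' measurableSet_closedBall fun z hz =>
    ENNReal.ofReal_le_ofReal (le_of_lt (hεs (hsub hz)).2)

/-- lower bound for the Jacobian of the inverse chart -/
theorem Emb.jac_low {χ : Cn n → Cn n} {r D c : ℝ} (h : Emb χ r) (hr : 0 < r) (h0 : χ 0 = 0)
    (hR : closedBall (0 : Cn n) 4 ⊆ χ '' ball 0 r)
    (hD : ∀ L : Cn n →L[ℂ] Cn n, ‖L‖ ≤ r → ‖L.det‖ ≤ D)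
    (hc : Real.log ‖(fderiv ℂ χ 0).det‖ ≤ c) {z : Cn n} (hz : ‖z‖ ≤ 1) :
    Real.log (‖(fderiv ℂ χ (inv χ r z)).det‖ ^ 2) ≤ 6 * c + 4 * Real.log D + 4 := by
  have hs2 : ball (0 : Cn n) 2 ⊆ χ '' ball 0 r :=
    (ball_subset_closedBall.trans (closedBall_subset_closedBall (by norm_num))).trans hR
  have hdet : ∀ x ∈ ball (0 : Cn n) 2,
      (fderiv ℂ (inv χ r) x).det * (fderiv ℂ χ (inv χ r x)).det = 1 := fun x hx => by
    have := h.det_inv (inv_mem (hs2 hx))
    rwa [inv_right (hs2 hx)] at this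
  have hlog : ∀ x ∈ ball (0 : Cn n) 2, Real.log ‖(fderiv ℂ (inv χ r) x).det‖ =
      -Real.log ‖(fderiv ℂ χ (inv χ r x)).det‖ := fun x hx => by
    have h6 := congrArg (fun z : ℂ => Real.log ‖z‖) (hdet x hx)
    simp only [norm_mul, norm_one, Real.log_one] at h6
    rw [Real.log_mul (norm_ne_zero_iff.2 (left_ne_zero_of_mul_eq_one (hdet x hx)))
      (norm_ne_zero_iff.2 (right_ne_zero_of_mul_eq_one (hdet x hx)))] at h6
    linarith
  have key := harn (h := fun x => (fderiv ℂ (inv χ r) x).det) (D := D)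
    (diff_det isOpen_ball (h.inv_diff.mono hs2))
    (fun x hx => left_ne_zero_of_mul_eq_one (hdet x hx)) (fun x hx => hD _ (by
      have hs : ball x 2 ⊆ χ '' ball 0 r := by
        refine Subset.trans ?_ hR
        intro y hy
        rw [mem_ball_zero_iff] at hx
        rw [mem_ball, dist_eq_norm] at hy
        rw [mem_closedBall_zero_iff]
        have := norm_add_le (y - x) x
        rw [sub_add_cancel] at this
        linarith
      have := norm_fderiv_le_div_of_mapsTo_ball (R₂ := 2 * r) (h.inv_diff.mono hs) (by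
        intro y hy
        rw [mem_closedBall, dist_eq_norm]
        have h1 := mem_ball_zero_iff.1 (inv_mem (hs hy))
        have h2 := mem_ball_zero_iff.1 (inv_mem (hs2 hx))
        linarith [norm_sub_le (inv χ r y) (inv χ r x)]) (by norm_num)
      linarith)) hz
  have hi0 : inv χ r 0 = 0 := by
    have := h.left (mem_ball_self hr)
    rwa [h0] at this
  rw [hlog 0 (mem_ball_self (by norm_num)), hlog z (mem_ball_zero_iff.2 (by linarith)), hi0] at key
  rw [Real.log_pow]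
  push_cast
  linarith

/-- **COVER** -/
theorem covStmt (n : ℕ) : CovStmt n := by
  intro M _ _ Ψ χ u μ r Λ C hr hΨ hχd hχi hχdet hχ0 hμ hshr hdeck hlip hu hpsd hu0 hup hcen
    α' β' he
  let ν : Measure (Cn n) := Measure.addHaar
  have hE : ∀ j, Emb (χ j) r := fun j => ⟨hχd j, hχi j, hχdet j⟩
  set Λ' := max Λ 1 with hΛ'
  have hΛ1 : 1 ≤ Λ' := le_max_right _ _
  have hCh : ∀ j, Ch (fun w => Ψ (χ j w)) r Λ' := fun j =>
    ch_of hΨ (hE j) (fun U θ a b c => (hdeck U θ a b c).1) (hlip j)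
  set s := r / (4 * Λ') with hs
  have hs0 : 0 < s := by positivity
  set η := s ^ 2 / (200 * Λ' ^ 5 * r) with hη
  have hη0 : 0 < η := by positivity
  have hS : Sm r Λ' s η := ⟨hs0, by rw [hs]; field_simp; exact le_rfl, hη0, by
    have : 100 * Λ' ^ 5 * r * η = s ^ 2 / 2 := by rw [hη]; field_simp; norm_num
    rw [this]
    have : 0 < s ^ 2 := by positivity
    linarith⟩
  obtain ⟨ρ, m0, hρ, hρ1, hm0, hinj, hmass⟩ := exists_ball ν hΨ hu (hpsd 0) hu0
  obtain ⟨D, hD1, hD⟩ := det_bound n Λ'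
  obtain ⟨D', hD1', hD'⟩ := det_bound n r
  have hlD : 0 ≤ Real.log D := Real.log_nonneg hD1
  have hlD' : 0 ≤ Real.log D' := Real.log_nonneg hD1'
  obtain ⟨U0, hU0⟩ := (isCompact_closedBall (0 : Cn n) 1).exists_bound_of_continuousOn
    hu.continuous.continuousOn
  have hU00 : 0 ≤ U0 := (norm_nonneg _).trans (hU0 0 (mem_closedBall_self zero_le_one))
  set C0 := max C 0 with hC0
  have hC00 : 0 ≤ C0 := le_max_right _ _
  set C1 := 7 * C0 + (U0 + 4 * Real.log D' + 4 + 2 * Real.log D + 2) with hC1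
  have hC10 : 0 ≤ C1 := by positivity
  have hv1 : ν (ball 0 r) ≠ ⊤ := measure_ball_lt_top.ne
  set C2 := (6 * C1 / r ^ 2) ^ n * (ν (ball 0 r)).toReal with hC2
  have hC20 : 0 ≤ C2 := by positivity
  set δ := η / (1 + 2 * Λ' * (C2 / m0 + 1)) with hδ
  have hδ0 : 0 < δ := by positivity
  obtain ⟨j, hj⟩ := hshr (max 4 (max ‖α'‖ ‖β'‖)) δ hδ0
  set m := μ j with hm
  have hm1 : 1 ≤ m := hμ j
  have hmn : 1 ≤ m ^ n := one_le_pow₀ hm1
  have hCm : C * m ≤ C0 * m := mul_le_mul_of_nonneg_right (le_max_left _ _) (by linarith)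
  have hjr : closedBall (0 : Cn n) (max 4 (max ‖α'‖ ‖β'‖)) ⊆ χ j '' ball 0 r :=
    hj.trans (image_mono (ball_subset_ball (min_le_left _ _)))
  have hsm : ∀ z ∈ closedBall (0 : Cn n) (max 4 (max ‖α'‖ ‖β'‖)), ‖inv (χ j) r z‖ ≤ δ / m ^ n := by
    intro z hz
    obtain ⟨w, hw, rfl⟩ := hj hz
    rw [(hE j).left (ball_subset_ball (min_le_left _ _) hw)]
    exact ((mem_ball_zero_iff.1 hw).trans_le (min_le_right _ _)).le
  have h4 : closedBall (0 : Cn n) 4 ⊆ closedBall 0 (max 4 (max ‖α'‖ ‖β'‖)) :=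
    closedBall_subset_closedBall (le_max_left _ _)
  have hK0 : closedBall (0 : Cn n) ρ ⊆ closedBall 0 (max 4 (max ‖α'‖ ‖β'‖)) :=
    (closedBall_subset_closedBall (by linarith)).trans h4
  have hα' : α' ∈ closedBall (0 : Cn n) (max 4 (max ‖α'‖ ‖β'‖)) :=
    mem_closedBall_zero_iff.2 ((le_max_left _ _).trans (le_max_right _ _))
  have hβ' : β' ∈ closedBall (0 : Cn n) (max 4 (max ‖α'‖ ‖β'‖)) :=
    mem_closedBall_zero_iff.2 ((le_max_right _ _).trans (le_max_right _ _))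
  let v : Cn n → ℝ := fun w => u (χ j w) - Real.log (‖(fderiv ℂ (χ j) w).det‖ ^ 2)
  have hvs : ∀ w ∈ ball (0 : Cn n) r, ContDiffAt ℝ ∞ v w := fun w hw =>
    (hu.contDiffAt.comp w (contDiffAt_hol isOpen_ball (hχd j) hw)).sub
      (contDiffAt_logdet isOpen_ball (hχd j) hw (hχdet j w hw))
  have hrel : ∀ x ∈ ball (0 : Cn n) r,
      u (χ j x) = v x + Real.log (‖(fderiv ℂ (χ j) x).det‖ ^ 2) := fun x _ => by
    simp only [v]; ring
  let K : Set (Cn n) := inv (χ j) r '' closedBall 0 ρ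
  have hKc : IsCompact K := (isCompact_closedBall _ _).image_of_continuousOn
    ((hE j).inv_diff.continuousOn.mono (hK0.trans hjr))
  have hKr : K ⊆ ball 0 r := by
    rintro _ ⟨z, hz, rfl⟩
    exact inv_mem (hjr (hK0 hz))
  have hKim : χ j '' K = closedBall 0 ρ := by
    rw [image_image]
    exact (image_congr fun z hz => inv_right (hjr (hK0 hz))).trans (image_id' _)
  have hKm := mass_tr ν isOpen_ball (hχd j) (a := u) (b := v) hKc.measurableSet hKr
    ((hχi j).mono hKr) (fun w hw => hχdet j w (hKr hw)) (fun w _ => hu.contDiffAt)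
    (fun w hw => hvs w (hKr hw)) hrel
  rw [hKim] at hKm
  set N : ℕ := ⌊C2 * m ^ n / m0⌋₊ + 1 with hN
  have hN1 : C2 * m ^ n / m0 < N := by rw [hN]; push_cast; exact Nat.lt_floor_add_one _
  have hN2 : (N : ℝ) ≤ (C2 / m0 + 1) * m ^ n := by
    rw [hN]; push_cast
    have h1 : (⌊C2 * m ^ n / m0⌋₊ : ℝ) ≤ C2 * m ^ n / m0 := Nat.floor_le (by positivity)
    have h2 : (C2 / m0 + 1) * m ^ n = C2 * m ^ n / m0 + m ^ n := by ring
    linarith
  have key := (hCh j).inj ν hS (v := v) (A := C0 * m)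
    (B := U0 + (6 * (C0 * m) + 4 * Real.log D' + 4)) (D := D) (ε := δ / m ^ n) (N := N) (K := K)
    (fun w hw => (hvs w hw).contDiffWithinAt) ?_ (fun w hw => (hup j w hw).trans hCm) ?_ hKc ?_ ?_
    ?_ hD (by positivity) ?_ ?_ (hsm α' hα') (hsm β' hβ')
    (by simp only [inv_right (hjr hα'), inv_right (hjr hβ'), he])
  · rw [← inv_right (hjr hα'), key, inv_right (hjr hβ')]
  · intro w hw
    rw [← hess_rel isOpen_ball (hχd j) hw (hχdet j w hw) (hvs w hw) hrel]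
    exact psd_hess_comp hu.contDiffAt (ev_diff isOpen_ball (hχd j) hw) (hpsd _)
  · intro T hT w hw
    exact inv_pot (hE j) (hCh j) hdeck isOpen_ball
      (ball_subset_ball (by linarith [hS.sr hΛ1])) hT hw
  · rintro _ ⟨z, hz, rfl⟩
    exact hsm z (hK0 hz)
  · rintro _ ⟨a, ha, rfl⟩ _ ⟨b, hb, rfl⟩ hab
    simp only [inv_right (hjr (hK0 ha)), inv_right (hjr (hK0 hb))] at hab
    rw [hinj ha hb hab]
  · rintro _ ⟨z, hz, rfl⟩
    have hz1 : ‖z‖ ≤ 1 := (mem_closedBall_zero_iff.1 hz).trans hρ1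
    have h1 := (hE j).jac_low hr (hχ0 j) (h4.trans hjr) hD' ((hcen j).trans hCm) hz1
    have h2 := hU0 z (mem_closedBall_zero_iff.2 hz1)
    have h3 := neg_abs_le (u z)
    rw [Real.norm_eq_abs] at h2
    simp only [v, inv_right (hjr (hK0 hz))]
    linarith
  · rw [← hKm]
    have h1 : C0 * m + (U0 + (6 * (C0 * m) + 4 * Real.log D' + 4) + 2 * Real.log D) + 2
        ≤ C1 * m := by
      have : U0 + 4 * Real.log D' + 4 + 2 * Real.log D + 2 ≤
          (U0 + 4 * Real.log D' + 4 + 2 * Real.log D + 2) * m :=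
        le_mul_of_one_le_right (by positivity) hm1
      rw [hC1]; linarith
    have h2 : (6 * (C0 * m + (U0 + (6 * (C0 * m) + 4 * Real.log D' + 4) + 2 * Real.log D) + 2)
        / r ^ 2) ^ n ≤ (6 * C1 / r ^ 2) ^ n * m ^ n := by
      rw [← mul_pow]
      refine pow_le_pow_left₀ (by positivity) ?_ n
      rw [div_mul_eq_mul_div, mul_assoc]
      gcongr
    calc _ ≤ ENNReal.ofReal ((6 * C1 / r ^ 2) ^ n * m ^ n) * ν (ball 0 r) := by gcongr
      _ = ENNReal.ofReal (C2 * m ^ n) := by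
        rw [hC2, mul_right_comm, ENNReal.ofReal_mul' ENNReal.toReal_nonneg,
          ENNReal.ofReal_toReal hv1]
      _ < ENNReal.ofReal (N * m0) := by
        rw [div_lt_iff₀ hm0] at hN1
        exact (ENNReal.ofReal_lt_ofReal_iff (lt_of_le_of_lt (by positivity) hN1)).2 hN1
      _ = N * ENNReal.ofReal m0 := by
        rw [ENNReal.ofReal_mul (Nat.cast_nonneg _), ENNReal.ofReal_natCast]
      _ ≤ _ := by gcongr
  · have h1 : δ / m ^ n ≤ δ := div_le_self hδ0.le hmn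
    have h2 : δ / m ^ n * N ≤ δ * (C2 / m0 + 1) := by
      calc δ / m ^ n * N ≤ δ / m ^ n * ((C2 / m0 + 1) * m ^ n) := by gcongr
        _ = δ * (C2 / m0 + 1) := by field_simp
    have h3 : δ * (1 + 2 * Λ' * (C2 / m0 + 1)) = η := by rw [hδ]; field_simp
    have h5 : 2 * Λ' * (δ / m ^ n * N) ≤ 2 * Λ' * (δ * (C2 / m0 + 1)) := by gcongr
    nlinarith

end Crest.Agent.T223.Cov
end

-- ▼ part T223/FinB_95
section

/-!
# Row 223, FIN glue, part B (helper95): `finStmt_of : CvxPath → GeoStmt → NAStmt → FinStmt`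
-/

set_option autoImplicit false
set_option linter.unusedVariables false
set_option linter.unusedSectionVars false

open Set Filter Topology Metric
open scoped ContDiff ComplexConjugate Matrix ComplexOrder

namespace Crest.Agent.T223.Fin95

open Crest.Agent.R275.Geo Crest.Agent.R273.Kah_333
open Crest.Agent.T223.Br Crest.Agent.T223.Tr

noncomputable section

/-- logarithmic convexity of the dual metric along the flow -/
def CvxPath (n : ℕ) : Prop :=
  ∀ (g r rT : ℝ → Mat n), Hn.PathLYH g r rT → ∀ y : Fin n → ℂ, y ≠ 0 →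
    ConvexOn ℝ univ (fun s : ℝ => Real.log (star y ⬝ᵥ (g (Real.exp s))⁻¹ *ᵥ y).re)

variable {n : ℕ} {M : Type} [TopologicalSpace M] {A : Atl n M} [T2Space M] [ConnectedSpace M]
  {K0 : Kah A} {p : M} {F : Flow K0 p} (G : Hn.Geo K0 p F)

theorem τ_pos : 0 < G.τ := by
  have h1 := G.τ_lo
  have h2 := G.one_le
  by_contra h
  nlinarith

theorem mem01 : (0 : Cn n) ∈ ball (0 : Cn n) 1 := mem_ball_self one_pos

theorem det_flow {t : ℝ} (ht : 0 < t) {i : A.ι} (hi : p ∈ (A.e i).source) :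
    ((F.K t).g i p).det.re = (K0.g i p).det.re * Real.exp (-G.sg t) := by
  have h1 := G.sg_eq t ht i hi
  simp only [lvol, ldet, gc, (A.e i).left_inv hi] at h1
  have h2 := det_re_pos (K0.pos i p hi)
  have h3 := det_re_pos ((F.K t).pos i p hi)
  rw [← h1, neg_sub, Real.exp_sub, Real.exp_log h2, Real.exp_log h3]
  field_simp

theorem det_ctr {t : ℝ} (ht : 1 ≤ t) {i : A.ι} (hi : p ∈ (A.e i).source) (K' : Kah A) :
    (pbm K' (G.ψ t) 0).det.re * ((F.K t).g i p).det.re = G.τ ^ n * (K'.g i p).det.re := by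
  have hi' : G.ψ t 0 ∈ (A.e i).source := by rwa [G.zero t ht]
  have h1 := det_pbm K' (G.qc t ht).imm.1 mem01 hi'
  have h2 := det_pbm (F.K t) (G.qc t ht).imm.1 mem01 hi'
  rw [G.ctr t ht, det_smul_one] at h2
  rw [G.zero t ht] at h1 h2
  rw [h1, h2]; ring

variable {σ : ℕ → ℝ} {b : ℝ}

theorem qch (h0 : ∀ j, 0 ≤ σ j) (hm : StrictMono σ) :
    QCh K0 p (fun j => F.K (Real.exp (σ j))) (fun _ => G.τ) G.Λ
      (fun j => G.ψ (Real.exp (σ j))) where
  one_le := G.one_le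
  τ_lo := fun _ => G.τ_lo
  τ_mono := fun _ _ _ => le_mul_of_one_le_left (τ_pos G).le G.one_le
  qc := fun j => G.qc _ (Real.one_le_exp (h0 j))
  zero := fun j => G.zero _ (Real.one_le_exp (h0 j))
  anti := fun j k hjk => G.anti _ _ (Real.exp_pos _) (Real.exp_le_exp.2 (hm.monotone hjk))
  anti0 := fun j => F.le0 _ (Real.exp_pos _)

theorem shrink (h0 : ∀ j, 0 ≤ σ j) (hs : ∀ j : ℕ, G.sg (Real.exp (σ j)) = b + 2 * j) :
    Shrink K0 (fun j => G.ψ (Real.exp (σ j))) := by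
  obtain ⟨i, hi⟩ := A.cover p
  have hτ := τ_pos G
  have hn : ∀ j : ℕ, 0 ≤ b + 2 * j := fun j => by
    rw [← hs]; exact G.sg_nonneg _ (Real.exp_pos _)
  refine ⟨fun j => 1 + (b + 2 * j), 1 + |Real.log (G.τ ^ n)|, fun j => by linarith [hn j],
    fun j => ?_, fun Q hQ δ hδ => ?_⟩
  · have h1 := det_ctr G (Real.one_le_exp (h0 j)) hi K0
    have h2 := det_re_pos (K0.pos i p hi)
    rw [det_flow G (Real.exp_pos _) hi, hs] at h1
    have h3 : (pbm K0 (G.ψ (Real.exp (σ j))) 0).det.re = G.τ ^ n * Real.exp (b + 2 * j) := by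
      have h4 : Real.exp (-(b + 2 * j)) * Real.exp (b + 2 * j) = 1 := by
        rw [← Real.exp_add]; simp
      refine mul_right_cancel₀ h2.ne' ?_
      linear_combination Real.exp (b + 2 * j) * h1 -
        (pbm K0 (G.ψ (Real.exp (σ j))) 0).det.re * (K0.g i p).det.re * h4
    simp only
    rw [h3, Real.log_mul (by positivity) (by positivity), Real.log_exp]
    have h5 := le_abs_self (Real.log (G.τ ^ n))
    have h6 := abs_nonneg (Real.log (G.τ ^ n))
    nlinarith [hn j]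
  · obtain ⟨ε, C', hε, hp⟩ := G.pinch Q hQ
    filter_upwards [ev_pow_le (b := b) (C := C') (2 * n) hε hδ] with j hj w hw hwQ v
    have h1 := hp _ (Real.one_le_exp (h0 j)) w hw hwQ v
    rw [hs] at h1
    calc _ ≤ δ * Real.exp (ε * (b + 2 * j) - C') * ‖v‖ ^ 2 := by gcongr
      _ = δ * (Real.exp (ε * (b + 2 * j) - C') * ‖v‖ ^ 2) := by ring
      _ ≤ _ := by gcongr

theorem naHyp (hC : CvxPath n) (h0 : ∀ j, 0 ≤ σ j) (hm : StrictMono σ)
    (hs : ∀ j : ℕ, G.sg (Real.exp (σ j)) = b + 2 * j) (htop : Tendsto σ atTop atTop)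
    (hcc : ∀ j, σ (j + 2) - σ (j + 1) ≤ σ (j + 1) - σ j)
    {Φ : ℕ → ℕ → Cn n → Cn n} {r κ : ℝ} (hc : Coc Φ r κ)
    (ht : IsTr (fun j => G.ψ (Real.exp (σ j))) Φ r) : Na.NAHyp Φ r σ := by
  obtain ⟨i, hi⟩ := A.cover p
  have hτ := τ_pos G
  have hq := qch G h0 hm
  have h1 : ∀ j, 1 ≤ Real.exp (σ j) := fun j => Real.one_le_exp (h0 j)
  have hr0 : (0 : Cn n) ∈ ball (0 : Cn n) r := mem_ball_self hc.r_pos
  have hd : ∀ j k, j ≤ k → DifferentiableAt ℂ (Φ j k) 0 := fun j k hjk =>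
    (hc.hol j k hjk).differentiableAt (isOpen_ball.mem_nhds hr0)
  have hz : ∀ j k, j ≤ k → Φ j k 0 ∈ ball (0 : Cn n) 1 := fun j k hjk => by
    rw [hc.zero j k hjk]; exact mem01
  have he : ∀ j k, j ≤ k → ∀ᶠ w in 𝓝 (0 : Cn n),
      G.ψ (Real.exp (σ k)) (Φ j k w) = G.ψ (Real.exp (σ j)) w := fun j k hjk => by
    filter_upwards [isOpen_ball.mem_nhds hr0] with y hy using (ht.2 j k hjk y hy).2
  have hnrm : ∀ j k, j ≤ k → ∀ v, ‖Na.Lm Φ j k v‖ ≤ ‖v‖ := by
    intro j k hjk v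
    have h2 := nq_pbm_comp (F.K (Real.exp (σ k))) (hq.qc k).imm.1 (hd j k hjk) (hz j k hjk)
      (he j k hjk) v
    have h3 := (hq.anti j k hjk).pbm (G.ψ (Real.exp (σ j))) 0 v
    rw [hc.zero j k hjk, G.ctr _ (h1 k), nq_smul, nq_one] at h2
    rw [G.ctr _ (h1 j), nq_smul, nq_one, one_mul, h2] at h3
    exact (pow_le_pow_iff_left₀ (norm_nonneg _) (norm_nonneg _) two_ne_zero).1
      (le_of_mul_le_mul_left h3 hτ)
  refine ⟨hm, htop, hcc, hnrm, fun j k hjk => ?_, ?_, fun j => ?_⟩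
  · refine inv_of_det _ (hnrm j k hjk) ?_
    have h2 := det_pbm_comp (F.K (Real.exp (σ k))) (hq.qc k).imm.1 (hd j k hjk) (hz j k hjk)
      (he j k hjk)
    rw [hc.zero j k hjk, G.ctr _ (h1 k), det_smul_one] at h2
    have h3 := det_ctr G (h1 j) hi (F.K (Real.exp (σ k)))
    rw [h2, det_flow G (Real.exp_pos _) hi, det_flow G (Real.exp_pos _) hi, hs, hs] at h3
    have h4 := det_re_pos (K0.pos i p hi)
    have h5 : Real.exp (-(b + 2 * k)) =
        Real.exp (-(2 * ((k : ℝ) - j))) * Real.exp (-(b + 2 * j)) := by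
      rw [← Real.exp_add]; congr 1; ring
    rw [h5] at h3
    have h6 : 0 < G.τ ^ n * ((K0.g i p).det.re * Real.exp (-(b + 2 * j))) := by positivity
    refine mul_right_cancel₀ h6.ne' ?_
    unfold Na.Lm
    linear_combination h3
  · intro a j k haj hjk ζ hζ
    have hi' : ∀ j, G.ψ (Real.exp (σ j)) 0 ∈ (A.e i).source := fun j => by
      rwa [G.zero _ (h1 j)]
    set P : ℕ → Mat n := fun j => jac (rd A i (G.ψ (Real.exp (σ j)))) 0 with hP
    set g : ℝ → Mat n := fun t => gc (F.K t) i (A.e i p) with hg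
    have hPg : ∀ j, (P j)ᵀ * g (Real.exp (σ j)) * (P j).map conj =
        ((G.τ : ℝ) : ℂ) • (1 : Mat n) := fun j => by
      rw [← G.ctr _ (h1 j), pbm_eq _ (hq.qc j).imm.1 mem01 (hi' j), pbi, G.zero _ (h1 j)]
      simp only [hg, gc, (A.e i).left_inv hi, hP]
    have hPL : ∀ j, j ≤ k → P j = P k * mat (Na.Lm Φ j k) := fun j hjk => by
      have h2 := ((Hol.comp_at (hq.qc k).imm.1 (hd j k hjk) (hz j k hjk) (he j k hjk)).2 i
        (hi' j)).2
      simp only [hP, jac_eq]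
      rw [h2, mat_comp, hc.zero j k hjk]
      rfl
    have hu : IsUnit (P k)ᵀ.det := by
      rw [Matrix.det_transpose, isUnit_iff_ne_zero]
      simp only [hP, jac_eq, det_mat]
      exact (det_ne_zero_iff _).2 ((hq.qc k).imm.2 0 mem01 i (hi' k))
    set y : Fin n → ℂ := ((P k)ᵀ)⁻¹ *ᵥ fun a => conj (ζ a) with hy
    have hy1 : (P k)ᵀ *ᵥ y = fun a => conj (ζ a) := by
      rw [hy, Matrix.mulVec_mulVec, Matrix.mul_nonsing_inv _ hu, Matrix.one_mulVec]
    have hy0 : y ≠ 0 := by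
      intro h
      rw [h, Matrix.mulVec_zero] at hy1
      refine hζ (PiLp.ext fun a => ?_)
      have := congrFun hy1 a
      simpa using this.symm
    have hL := pathStmt n M A K0 p F i _ ((A.e i).map_source hi)
    have hcv := three_pt (hC _ _ _ hL y hy0) (hm haj) (hm hjk)
    have key : ∀ (j : ℕ) (w : Cn n), ((P j)ᵀ *ᵥ y = fun a => conj (w a)) →
        Real.log (star y ⬝ᵥ (g (Real.exp (σ j)))⁻¹ *ᵥ y).re =
          Real.log G.τ⁻¹ + 2 * Real.log ‖w‖ := by
      intro j w hw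
      have h2 := dual_norm hτ (hPg j) y w hw
      have h3 : 0 < (star y ⬝ᵥ (g (Real.exp (σ j)))⁻¹ *ᵥ y).re :=
        (hL.pos _ (Real.exp_pos (σ j))).inv.re_dotProduct_pos hy0
      have h4 : ‖w‖ ≠ 0 := by
        intro h
        rw [h2, h] at h3
        simp at h3
      rw [h2, Real.log_mul (by positivity) (by positivity), Real.log_pow]
      norm_num
    have k1 := key k ζ hy1
    have k2 := key j _ (by rw [hPL j hjk.le]; exact pull_vec _ _ _ _ hy1)
    have k3 := key a _ (by rw [hPL a (haj.trans hjk).le]; exact pull_vec _ _ _ _ hy1)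
    simp only [hg] at k1 k2 k3
    rw [k1, k2, k3] at hcv
    linarith
  · have hsub : closedBall (0 : Cn n) r ⊆ ball 0 1 := closedBall_subset_ball (by linarith [ht.1])
    obtain ⟨B, hB, hBb⟩ := exists_bound_pbm K0 (hq.qc j).imm.1 isOpen_ball
      (isCompact_closedBall 0 r) hsub
    have hQ : IsCompact (G.ψ (Real.exp (σ j)) '' closedBall 0 r) :=
      (isCompact_closedBall 0 r).image_of_continuousOn
        ((hq.qc j).imm.1.continuousOn.mono hsub)
    obtain ⟨ε, C', hε, hp⟩ := G.pinch _ hQ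
    refine ⟨ε, Real.sqrt B * Real.exp ((C' - ε * b) / 2) * r, hε, fun k hjk w hw => ?_⟩
    have h2 := lip_of_lower hq hc ht hjk K0 (a := Real.exp (ε * (b + 2 * k) - C')) (b := B)
      (η := Real.sqrt B * Real.exp ((C' - ε * b) / 2) * Real.exp (-(ε * k))) (Real.exp_pos _)
      (by positivity) (le_of_eq ?_) (fun w hw v => hBb w (ball_subset_closedBall hw) v)
      (fun w hw v => by
        have h3 := hp _ (h1 k) (Φ j k w) (ht.2 j k hjk w hw).1
          ⟨w, ball_subset_closedBall hw, (ht.2 j k hjk w hw).2.symm⟩ v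
        rwa [hs] at h3) w hw
    · have h3 : ‖w‖ ≤ r := (mem_ball_zero_iff.1 hw).le
      calc _ ≤ _ := h2.2
        _ ≤ Real.sqrt B * Real.exp ((C' - ε * b) / 2) * Real.exp (-(ε * k)) * r := by gcongr
        _ = _ := by ring
    · have h3 : Real.exp (ε * (b + 2 * k) - C') * (Real.exp ((C' - ε * b) / 2) ^ 2 *
          Real.exp (-(ε * k)) ^ 2) = 1 := by
        rw [← Real.exp_nat_mul, ← Real.exp_nat_mul, ← Real.exp_add, ← Real.exp_add,
          ← Real.exp_zero]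
        congr 1; push_cast; ring
      rw [mul_pow, mul_pow, Real.sq_sqrt hB.le]
      linear_combination (-B) * h3

end

theorem finStmt_of {n : ℕ} (hC : CvxPath n) (hG : Hn.GeoStmt n) (hN : Na.NAStmt n) :
    FinStmt n := by
  intro M _ _ _ _ _ A K0 p H F
  obtain ⟨G⟩ := hG M A K0 p H F
  obtain ⟨t0, h1, h2⟩ := G.R_pos
  obtain ⟨σ, h0, hm, hs, htop, hcc⟩ := nodes h1 G.sg_deriv G.sg_top G.R_mono h2
  have hq := qch G h0 hm
  obtain ⟨Φ, hc, ht⟩ := transStmt n M A K0 p _ _ _ _ hq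
  exact endImm n (Cov.covStmt n) M A K0 p _ _ _ _ Φ _ _ hq G.ricpos (shrink G h0 hs) hc ht
    (hN Φ _ _ σ hc (naHyp G hC h0 hm hs htop hcc hc ht))

end Crest.Agent.T223.Fin95
end

-- ▼ part T223/FinCvx_85

/-!
# Row 223, FIN-CVX (helper85): `s ↦ log (y* g(eˢ)⁻¹ y)` is convex along a `PathLYH`
-/

set_option autoImplicit false

open Set Filter Topology
open scoped ContDiff Matrix ComplexOrder

namespace Crest.Agent.T223

namespace Cvx85

variable {n : ℕ}

/-- the quadratic form -/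
noncomputable def qf (y : Fin n → ℂ) (B : Mat n) : ℝ := (star y ⬝ᵥ B *ᵥ y).re

variable {y : Fin n → ℂ}

theorem qf_add (B C : Mat n) : qf y (B + C) = qf y B + qf y C := by
  simp [qf, Matrix.add_mulVec, dotProduct_add]

theorem qf_smul (c : ℝ) (B : Mat n) : qf y ((c : ℂ) • B) = c * qf y B := by
  simp [qf, Matrix.smul_mulVec, dotProduct_smul]

theorem qf_nonneg {B : Mat n} (h : B.PosSemidef) : 0 ≤ qf y B :=
  (Complex.nonneg_iff.1 (h.dotProduct_mulVec_nonneg y)).1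

theorem qf_pos {B : Mat n} (h : B.PosDef) (hy : y ≠ 0) : 0 < qf y B :=
  (Complex.pos_iff.1 (h.dotProduct_mulVec_pos hy)).1

theorem hasDerivAt_qf {P : ℝ → Mat n} {P' : Mat n} {t : ℝ}
    (h : ∀ a b, HasDerivAt (fun s => P s a b) (P' a b) t) :
    HasDerivAt (fun s => qf y (P s)) (qf y P') t := by
  have h1 : HasDerivAt (fun s => star y ⬝ᵥ P s *ᵥ y) (star y ⬝ᵥ P' *ᵥ y) t := by
    simp only [dotProduct, Matrix.mulVec]
    exact HasDerivAt.fun_sum fun a _ =>
      (HasDerivAt.fun_sum fun b _ => (h a b).mul_const _).const_mul _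
  exact Complex.reCLM.hasFDerivAt.comp_hasDerivAt t h1

theorem cs {G R : Mat n} (hG : G.PosDef) (hR : R.IsHermitian) :
    qf y (G * R * G) ^ 2 ≤ qf y G * qf y (G * R * G * R * G) := by
  have h : ∀ x : ℝ, 0 ≤ qf y G * (x * x) + 2 * qf y (G * R * G) * x +
      qf y (G * R * G * R * G) := by
    intro x
    have h1 := qf_nonneg (y := y)
      (hG.posSemidef.conjTranspose_mul_mul_same ((x : ℂ) • (1 : Mat n) + R * G))
    have h2 : ((x : ℂ) • (1 : Mat n) + R * G)ᴴ * G * ((x : ℂ) • (1 : Mat n) + R * G) =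
        ((x * x : ℝ) : ℂ) • G + ((2 * x : ℝ) : ℂ) • (G * R * G) + G * R * G * R * G := by
      rw [Matrix.conjTranspose_add, Matrix.conjTranspose_smul, Matrix.conjTranspose_mul, hR.eq,
        hG.isHermitian.eq, Matrix.conjTranspose_one, Complex.star_def, Complex.conj_ofReal]
      simp only [add_mul, mul_add, smul_mul_assoc, mul_smul_comm, one_mul, mul_one, mul_assoc]
      push_cast
      module
    rw [h2, qf_add, qf_add, qf_smul, qf_smul] at h1
    linarith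
  have := discrim_le_zero h
  rw [discrim] at this
  nlinarith

variable {g r rT : ℝ → Mat n}

theorem hasDerivAt_inv (h : Hn.PathLYH g r rT) {t : ℝ} (ht : 0 < t) (a b : Fin n) :
    HasDerivAt (fun s => (g s)⁻¹ a b) (((g t)⁻¹ * r t * (g t)⁻¹) a b) t := by
  have h0 : (g t).det ≠ 0 := (h.pos t ht).det_pos.ne'
  have hs : ∀ a b, ContDiffAt ℝ ∞ (fun s => g s a b) t := fun a b =>
    (h.sm a b).contDiffAt (Ioi_mem_nhds ht)
  set D : Mat n := Matrix.of fun a b => deriv (fun s => (g s)⁻¹ a b) t with hD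
  have hd : ∀ a b, HasDerivAt (fun s => (g s)⁻¹ a b) (D a b) t := fun a b =>
    ((Tr.cdAt_inv hs h0 a b).differentiableAt (by simp)).hasDerivAt
  have h1 : D * g t + (g t)⁻¹ * (-r t) = 0 := by
    ext a b
    have h2 := Tr.hasDerivAt_mul (P := fun s => (g s)⁻¹) (Q := g) (Q' := -r t) hd
      (h.dg t ht) a b
    have h3 : (fun s => ((g s)⁻¹ * g s) a b) =ᶠ[𝓝 t] fun _ => (1 : Mat n) a b := by
      filter_upwards [Ioi_mem_nhds ht] with s hs
      rw [Matrix.nonsing_inv_mul _ (isUnit_iff_ne_zero.2 (h.pos s hs).det_pos.ne')]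
    exact h2.unique ((hasDerivAt_const t _).congr_of_eventuallyEq h3)
  have h4 : D = (g t)⁻¹ * r t * (g t)⁻¹ := by
    have h5 : D * g t = (g t)⁻¹ * r t := by
      rw [mul_neg] at h1; exact add_neg_eq_zero.1 h1
    rw [← h5, mul_assoc, Matrix.mul_nonsing_inv _ (isUnit_iff_ne_zero.2 h0), mul_one]
  rw [← h4]; exact hd a b

theorem key (h : Hn.PathLYH g r rT) {t : ℝ} (ht : 0 < t) :
    (qf y ((g t)⁻¹ * r t * (g t)⁻¹) * t) ^ 2 ≤
      (qf y (((g t)⁻¹ * r t * (g t)⁻¹ * r t + (g t)⁻¹ * rT t) * (g t)⁻¹ +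
        (g t)⁻¹ * r t * ((g t)⁻¹ * r t * (g t)⁻¹)) * t * t +
        qf y ((g t)⁻¹ * r t * (g t)⁻¹) * t) * qf y (g t)⁻¹ := by
  have hG := (h.pos t ht).inv
  have hl := h.lyh t ht
  have h1 := cs (y := y) hG (h.psd t ht).isHermitian
  generalize (g t)⁻¹ = G at hG hl h1 ⊢
  have h2 := qf_nonneg (y := y) (hl.conjTranspose_mul_mul_same G)
  have h3 : (G * r t * G * r t + G * rT t) * G + G * r t * (G * r t * G) +
      ((t⁻¹ : ℝ) : ℂ) • (G * r t * G) =
      Gᴴ * (rT t + r t * G * r t + ((t⁻¹ : ℝ) : ℂ) • r t) * G + G * r t * G * r t * G := by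
    rw [hG.isHermitian.eq]
    simp only [add_mul, mul_add, smul_mul_assoc, mul_smul_comm, mul_assoc]
    abel
  have h4 := congrArg (qf y) h3
  rw [qf_add _ (((t⁻¹ : ℝ) : ℂ) • (G * r t * G)), qf_smul, qf_add _ (G * r t * G * r t * G)] at h4
  have h5 := qf_nonneg (y := y) hG.posSemidef
  generalize qf y ((G * r t * G * r t + G * rT t) * G + G * r t * (G * r t * G)) = f2 at h4 ⊢
  generalize qf y (Gᴴ * (rT t + r t * G * r t + ((t⁻¹ : ℝ) : ℂ) • r t) * G) = w at h2 h4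
  generalize qf y (G * r t * G * r t * G) = u at h1 h4
  generalize qf y (G * r t * G) = f1 at h1 h4 ⊢
  generalize qf y G = f at h1 h5 ⊢
  have h6 : f2 * t * t + f1 * t = (w + u) * t ^ 2 := by
    rw [← h4]; field_simp
  rw [h6, mul_pow]
  have h7 : f1 ^ 2 ≤ (w + u) * f := by nlinarith [mul_nonneg h2 h5]
  nlinarith [mul_le_mul_of_nonneg_right h7 (sq_nonneg t)]

end Cvx85

open Cvx85 in
theorem Fin95.cvxPath {n : ℕ} {g r rT : ℝ → Mat n} (h : Hn.PathLYH g r rT) (y : Fin n → ℂ)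
    (hy : y ≠ 0) :
    ConvexOn ℝ Set.univ (fun s : ℝ => Real.log (star y ⬝ᵥ (g (Real.exp s))⁻¹ *ᵥ y).re) := by
  have hp : ∀ s, 0 < qf y (g (Real.exp s))⁻¹ := fun s =>
    qf_pos (h.pos _ (Real.exp_pos s)).inv hy
  have hf : ∀ s, HasDerivAt (fun s => qf y (g (Real.exp s))⁻¹)
      (qf y ((g (Real.exp s))⁻¹ * r (Real.exp s) * (g (Real.exp s))⁻¹) * Real.exp s) s :=
    fun s => (hasDerivAt_qf (P := fun t => (g t)⁻¹) (hasDerivAt_inv h (Real.exp_pos s))).comp s
      (Real.hasDerivAt_exp s)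
  have hf1 := fun s => (((hasDerivAt_qf (y := y) (P := fun t => (g t)⁻¹ * r t * (g t)⁻¹)
    (Tr.hasDerivAt_mul (P := fun t => (g t)⁻¹ * r t) (Q := fun t => (g t)⁻¹)
      (Tr.hasDerivAt_mul (P := fun t => (g t)⁻¹) (Q := r) (hasDerivAt_inv h (Real.exp_pos s))
        (h.dr _ (Real.exp_pos s))) (hasDerivAt_inv h (Real.exp_pos s)))).comp s
      (Real.hasDerivAt_exp s)).mul (Real.hasDerivAt_exp s)).div (hf s) (hp s).ne'
  have hF := fun s => (hf s).log (hp s).ne'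
  refine Monotone.convexOn_univ_of_deriv (fun s => (hF s).differentiableAt) ?_
  have hd : deriv (fun s => Real.log (qf y (g (Real.exp s))⁻¹)) = _ := funext fun s => (hF s).deriv
  change Monotone (deriv (fun s => Real.log (qf y (g (Real.exp s))⁻¹)))
  rw [hd]
  refine monotone_of_hasDerivAt_nonneg hf1 fun s => ?_
  refine div_nonneg ?_ (sq_nonneg _)
  have := key (y := y) h (Real.exp_pos s)
  simp only [Function.comp, Pi.mul_apply]
  nlinarith

end Crest.Agent.T223
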