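import Crest.Agent.N207.P.U
import Crest.Agent.N207.P.Yl2
import Crest.Agent.T223.Gr3_44
import Crest.Agent.T223.LmDef_19
import Crest.Agent.T223.LmAsA_23

-- ▼ part T223/LmA_19
section

/-!
# Row 223, module LIMIT (helper19), part A: the a priori estimate with small perturbation
-/

set_option autoImplicit false
set_option linter.unusedSectionVars false
set_option linter.unusedVariables false

open Set Filter Topology Metric
open scoped ContDiff

noncomputable section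

namespace Crest.Agent.T223.Lm

open Crest.Agent.N207.P

variable {E : Type} [NormedAddCommGroup E] [NormedSpace ℝ E] {m : ℕ}

/-- directional derivative of a space-time function -/
def Dv (ξ : ℝ × E) (F : ℝ × E → ℂ) : ℝ × E → ℂ := fun q => fderiv ℝ F q ξ

/-- the basis vector -/
def bv (e : E ≃ₗᵢ[ℝ] En m) (p : Fin m) : E := e.symm (EuclideanSpace.single p 1)

/-- spatial partial derivative -/
def Dp (e : E ≃ₗᵢ[ℝ] En m) (p : Fin m) (F : ℝ × E → ℂ) : ℝ × E → ℂ := Dv ((0 : ℝ), bv e p) F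

/-- time derivative -/
def Dt (F : ℝ × E → ℂ) : ℝ × E → ℂ := Dv ((1 : ℝ), (0 : E)) F

/-- Hoelder bounds on the slab `[s, s + τ] × E` -/
def Yx (s τ A c : ℝ) (F : ℝ × E → ℂ) : Prop := Yb dist τ A c (fun σ x => F (s + σ, x))

theorem two_le : (2 : WithTop ℕ∞) ≤ ∞ := by
  have : ∀ k : ℕ, (k : WithTop ℕ∞) ≤ ∞ := fun k => by exact_mod_cast le_top
  exact this 2

theorem contDiffAt_Dv {F : ℝ × E → ℂ} {q : ℝ × E} (h : ContDiffAt ℝ ∞ F q) (ξ : ℝ × E) :
    ContDiffAt ℝ ∞ (Dv ξ F) q :=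
  (h.fderiv_right (m := ∞) (by simp)).clm_apply contDiffAt_const

theorem Dv_congr {F G : ℝ × E → ℂ} {q : ℝ × E} (h : F =ᶠ[𝓝 q] G) (ξ : ℝ × E) :
    Dv ξ F q = Dv ξ G q := by
  simp only [Dv, h.fderiv_eq]

theorem Dv_congr_ev {F G : ℝ × E → ℂ} {q : ℝ × E} (h : F =ᶠ[𝓝 q] G) (ξ : ℝ × E) :
    Dv ξ F =ᶠ[𝓝 q] Dv ξ G := h.eventually_nhds.mono fun _ hr => Dv_congr hr ξ

theorem ev_diff {F : ℝ × E → ℂ} {q : ℝ × E} (h : ContDiffAt ℝ ∞ F q) :
    ∀ᶠ r in 𝓝 q, DifferentiableAt ℝ F r :=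
  ((h.of_le (m := 1) (by simp)).eventually (by simp)).mono fun _ hr =>
    hr.differentiableAt one_ne_zero

theorem Dv_add {F G : ℝ × E → ℂ} {q : ℝ × E} (hF : DifferentiableAt ℝ F q)
    (hG : DifferentiableAt ℝ G q) (ξ : ℝ × E) :
    Dv ξ (fun r => F r + G r) q = Dv ξ F q + Dv ξ G q := by
  simp only [Dv, fderiv_fun_add hF hG, _root_.add_apply]

theorem Dv_mul {F G : ℝ × E → ℂ} {q : ℝ × E} (hF : DifferentiableAt ℝ F q)
    (hG : DifferentiableAt ℝ G q) (ξ : ℝ × E) :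
    Dv ξ (fun r => F r * G r) q = Dv ξ F q * G q + F q * Dv ξ G q := by
  simp only [Dv, fderiv_fun_mul hF hG, _root_.add_apply,
    _root_.smul_apply, smul_eq_mul]
  ring

theorem Dv_const (c : ℂ) (q ξ : ℝ × E) : Dv ξ (fun _ => c) q = 0 := by simp [Dv]

theorem Dv_sum {κ : Type*} (s : Finset κ) {F : κ → ℝ × E → ℂ} {q : ℝ × E}
    (hF : ∀ i ∈ s, DifferentiableAt ℝ (F i) q) (ξ : ℝ × E) :
    Dv ξ (fun r => ∑ i ∈ s, F i r) q = ∑ i ∈ s, Dv ξ (F i) q := by
  simp only [Dv, fderiv_fun_sum hF, _root_.sum_apply]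

theorem Dv_comm {F : ℝ × E → ℂ} {q : ℝ × E} (h : ContDiffAt ℝ ∞ F q) (ξ η : ℝ × E) :
    Dv ξ (Dv η F) q = Dv η (Dv ξ F) q := by
  have h2 : DifferentiableAt ℝ (fderiv ℝ F) q :=
    (h.fderiv_right (m := 1) two_le).differentiableAt one_ne_zero
  have e : ∀ ξ η : ℝ × E, Dv ξ (Dv η F) q = fderiv ℝ (fderiv ℝ F) q ξ η := fun ξ η => by
    have := (h2.hasFDerivAt.clm_apply (hasFDerivAt_const η q)).fderiv
    simp only [Dv]
    change fderiv ℝ (fun r => fderiv ℝ F r η) q ξ = _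
    rw [this]
    simp
  rw [e, e]
  exact (h.isSymmSndFDerivAt (by simpa using two_le)).eq ξ η

theorem hasFDerivAt_slice {F : ℝ × E → ℂ} {t : ℝ} {x : E} (h : DifferentiableAt ℝ F (t, x)) :
    HasFDerivAt (fun y => F (t, y)) ((fderiv ℝ F (t, x)).comp (ContinuousLinearMap.inr ℝ ℝ E)) x :=
  h.hasFDerivAt.comp x (hasFDerivAt_prodMk_right t x)

theorem hasDerivAt_time {F : ℝ × E → ℂ} {t : ℝ} {x : E} (h : DifferentiableAt ℝ F (t, x)) :
    HasDerivAt (fun s => F (s, x)) (Dt F (t, x)) t := by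
  have h1 : HasDerivAt (fun s : ℝ => (s, x)) ((1 : ℝ), (0 : E)) t :=
    (hasDerivAt_id t).prodMk (hasDerivAt_const t x)
  exact h.hasFDerivAt.comp_hasDerivAt t h1

theorem pd_slice (e : E ≃ₗᵢ[ℝ] En m) {F : ℝ × E → ℂ} {t : ℝ}
    (h : ∀ x, DifferentiableAt ℝ F (t, x)) (p : Fin m) :
    pd p (fun y => F (t, e.symm y)) = fun y => Dp e p F (t, e.symm y) := by
  funext y
  have h1 : HasFDerivAt (fun y => F (t, e.symm y)) _ y :=
    (hasFDerivAt_slice (h (e.symm y))).comp y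
      (e.symm.toContinuousLinearEquiv : En m →L[ℝ] E).hasFDerivAt
  simp only [pd, h1.fderiv]
  rfl

theorem yb_iso (e : E ≃ₗᵢ[ℝ] En m) {τ A c : ℝ} {f : ℝ → E → ℂ} (h : Yb dist τ A c f) :
    Yb dist τ A c (fun t y => f t (e.symm y)) :=
  ⟨h.cont.comp (f := fun p : ℝ × En m => (p.1, e.symm p.2)) (by fun_prop)
      fun p hp => ⟨hp.1, mem_univ _⟩,
    fun t ht y => h.sup t ht _, fun t ht y y' => by
      simpa using h.hol t ht (e.symm y) (e.symm y')⟩

theorem yb_iso' (e : E ≃ₗᵢ[ℝ] En m) {τ A c : ℝ} {f : ℝ → E → ℂ}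
    (h : Yb dist τ A c (fun t y => f t (e.symm y))) : Yb dist τ A c f := by
  refine ⟨?_, fun t ht y => by simpa using h.sup t ht (e y), fun t ht y y' => by
      simpa using h.hol t ht (e y) (e y')⟩
  have := h.cont.comp (f := fun p : ℝ × E => (p.1, e p.2)) (s := Icc 0 τ ×ˢ univ) (by fun_prop)
      fun p hp => ⟨hp.1, mem_univ _⟩
  simpa [Function.comp_def] using this

theorem yb_mul {X : Type*} [TopologicalSpace X] {d : X → X → ℝ} {τ A c A' c' : ℝ}
    {a g : ℝ → X → ℂ} (h : Yb d τ A c a) (h' : Yb d τ A' c' g) (hc : 0 ≤ c) :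
    Yb d τ (A * A') (A * c' + c * A') (fun t x => a t x * g t x) := by
  refine ⟨h.cont.mul h'.cont, fun t ht x => ?_, fun t ht x y => ?_⟩
  · rw [norm_mul]
    exact mul_le_mul (h.sup t ht x) (h'.sup t ht x) (norm_nonneg _)
      ((norm_nonneg _).trans (h.sup t ht x))
  · have e : a t x * g t x - a t y * g t y =
        a t x * (g t x - g t y) + (a t x - a t y) * g t y := by ring
    have hA : 0 ≤ A := (norm_nonneg _).trans (h.sup t ht x)
    rw [e]
    refine (norm_add_le _ _).trans ?_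
    rw [norm_mul, norm_mul]
    have a1 := mul_le_mul (h.sup t ht x) (h'.hol t ht x y) (norm_nonneg _) hA
    have a2 := mul_le_mul (h.hol t ht x y) (h'.sup t ht y) (norm_nonneg _) (by positivity)
    nlinarith

/-- the a priori estimate for space-time functions -/
theorem aprX (e : E ≃ₗᵢ[ℝ] En m) {a0 : Matrix (Fin m) (Fin m) ℝ} (ha : a0.PosDef) :
    ∃ C : ℝ, 1 ≤ C ∧ ∀ τ ∈ Ioc (0 : ℝ) 1, ∀ (s A c B : ℝ) (G W : ℝ × E → ℂ), 0 ≤ c →
      Yx s τ A c G → (∀ σ ∈ Icc 0 τ, ∀ x, ContDiffAt ℝ ∞ W (s + σ, x)) → (∀ x, W (s, x) = 0) →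
      (∀ σ ∈ Icc 0 τ, ∀ x, ‖W (s + σ, x)‖ ≤ B) →
      (∀ σ ∈ Icc 0 τ, ∀ x, Dt W (s + σ, x) =
        ∑ p, ∑ q, (a0 p q : ℂ) * Dp e p (Dp e q W) (s + σ, x) + G (s + σ, x)) →
      ∀ p q, Yx s τ (C * τ ^ (1 / 4 : ℝ) * (A + c)) (C * c) (Dp e p (Dp e q W)) := by
  obtain ⟨C, hC1, hC⟩ := apr m ℂ a0 ha
  refine ⟨C, hC1, fun τ hτ s A c B G W hc hG hW h0 hB he p q => ?_⟩
  have d1 : ∀ σ ∈ Icc 0 τ, ∀ x, DifferentiableAt ℝ W (s + σ, x) := fun σ hσ x =>
    (hW σ hσ x).differentiableAt (by simp)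
  have d2 : ∀ q, ∀ σ ∈ Icc 0 τ, ∀ x, DifferentiableAt ℝ (Dp e q W) (s + σ, x) := fun q σ hσ x =>
    (contDiffAt_Dv (hW σ hσ x) _).differentiableAt (by simp)
  have e2 : ∀ p q, ∀ σ ∈ Icc 0 τ, pd p (pd q (fun y => W (s + σ, e.symm y))) =
      fun y => Dp e p (Dp e q W) (s + σ, e.symm y) := fun p q σ hσ => by
    rw [pd_slice e (d1 σ hσ), pd_slice e (d2 q σ hσ)]
  have hS : Solves a0 τ (fun σ y => G (s + σ, e.symm y)) (fun σ y => W (s + σ, e.symm y)) := by
    refine ⟨fun x => by simp [h0], fun σ hσ => ?_, fun σ hσ y => ?_⟩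
    · refine contDiff_iff_contDiffAt.2 fun y => ?_
      have h1 : ContDiffAt ℝ 2 (fun y : En m => (s + σ, e.symm y)) y :=
        contDiffAt_const.prodMk e.symm.contDiff.contDiffAt
      exact ((hW σ hσ (e.symm y)).of_le two_le).comp y h1
    · have h1 := (hasDerivAt_time (d1 σ hσ (e.symm y))).comp_const_add s σ
      refine (h1.congr_deriv ?_).hasDerivWithinAt
      rw [he σ hσ]
      simp only [Lop, e2 _ _ σ hσ, Complex.real_smul]
  have hcont : ContinuousOn (fun r : ℝ × En m => W (s + r.1, e.symm r.2)) (Icc 0 τ ×ˢ univ) :=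
    fun r hr => (ContinuousAt.comp (f := fun r : ℝ × En m => (s + r.1, e.symm r.2))
      (hW r.1 hr.1 _).continuousAt (by fun_prop)).continuousWithinAt
  have := (hC τ hτ A c B _ _ hc (yb_iso e hG) hS hcont fun σ hσ y => hB σ hσ _).y2 p q
  exact yb_iso' e (yb_congr this fun σ hσ y => by rw [e2 p q σ hσ])

/-- small perturbations of the constant coefficient operator -/
theorem core (e : E ≃ₗᵢ[ℝ] En m) {a0 : Matrix (Fin m) (Fin m) ℝ} (ha : a0.PosDef) :
    ∃ ε K : ℝ, 0 < ε ∧ 0 < K ∧ ∀ Lc : ℝ, 0 ≤ Lc → ∃ τ0 : ℝ, 0 < τ0 ∧ ∀ τ ∈ Ioc 0 τ0,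
      ∀ (s A B M : ℝ) (c : Fin m → Fin m → ℝ × E → ℂ) (F W : ℝ × E → ℂ), 0 ≤ A → 0 ≤ M →
      (∀ p q, Yx s τ ε Lc (c p q)) → Yx s τ A A F →
      (∀ σ ∈ Icc 0 τ, ∀ x, ContDiffAt ℝ ∞ W (s + σ, x)) → (∀ x, W (s, x) = 0) →
      (∀ σ ∈ Icc 0 τ, ∀ x, ‖W (s + σ, x)‖ ≤ B) → (∀ p q, Yx s τ M M (Dp e p (Dp e q W))) →
      (∀ σ ∈ Icc 0 τ, ∀ x, Dt W (s + σ, x) =
        ∑ p, ∑ q, (a0 p q : ℂ) * Dp e p (Dp e q W) (s + σ, x) +
          (∑ p, ∑ q, c p q (s + σ, x) * Dp e p (Dp e q W) (s + σ, x) + F (s + σ, x))) →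
      ∀ p q, Yx s τ (K * A) (K * A) (Dp e p (Dp e q W)) := by
  obtain ⟨C, hC1, hC⟩ := aprX e ha
  have hC0 : 0 < C := by linarith
  set N : ℝ := (m : ℝ) * m with hN
  have hN0 : 0 ≤ N := by positivity
  refine ⟨1 / (4 * C * (N + 1)), 2 * C, by positivity, by positivity, fun Lc hLc => ?_⟩
  set ε : ℝ := 1 / (4 * C * (N + 1)) with hε
  have hε0 : 0 < ε := by positivity
  have hε1 : C * (N * ε) ≤ 1 / 4 := by
    rw [hε, mul_one_div, ← mul_div_assoc, div_le_iff₀ (by positivity)]; nlinarith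
  set μ : ℝ := 1 / (4 * (C * N * Lc + 1)) with hμ
  have hμ0 : 0 < μ := by positivity
  have hμ1 : C * N * Lc * μ ≤ 1 / 4 := by
    rw [hμ, mul_one_div, div_le_iff₀ (by positivity)]; nlinarith
  have hμ2 : μ ≤ 1 := by
    rw [hμ, div_le_iff₀ (by positivity)]
    have : 0 ≤ C * N * Lc := by positivity
    linarith
  refine ⟨min 1 ((μ / 2) ^ 4), by positivity, ?_⟩
  intro τ hτ s A B M c F W hA hM hc hF hW h0 hB hM' he
  have hτ1 : τ ∈ Ioc (0 : ℝ) 1 := ⟨hτ.1, hτ.2.trans (min_le_left _ _)⟩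
  have hlam : τ ^ (1 / 4 : ℝ) ≤ μ / 2 := by
    calc τ ^ (1 / 4 : ℝ) ≤ ((μ / 2) ^ 4) ^ (1 / 4 : ℝ) :=
          Real.rpow_le_rpow hτ.1.le (hτ.2.trans (min_le_right _ _)) (by norm_num)
      _ = μ / 2 := by
          rw [← Real.rpow_natCast, ← Real.rpow_mul (by positivity)]; norm_num
  have hlam0 : 0 ≤ τ ^ (1 / 4 : ℝ) := Real.rpow_nonneg hτ.1.le _
  have step : ∀ X : ℝ, 0 ≤ X → (∀ p q, Yx s τ (μ * X) X (Dp e p (Dp e q W))) →
      ∀ p q, Yx s τ (μ * (X / 2 + C * A)) (X / 2 + C * A) (Dp e p (Dp e q W)) := by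
    intro X hX hP p q
    have g2 := yb_add (yb_sum Finset.univ fun k _ => yb_sum Finset.univ fun l _ =>
      yb_mul (hc k l) (hP k l) hLc) hF
    simp only [Finset.sum_const, Finset.card_univ, Fintype.card_fin, nsmul_eq_mul] at g2
    have g3 : Yx s τ (N * ε * (μ * X) + A) (N * ε * X + N * Lc * (μ * X) + A)
        (fun r => ∑ p, ∑ q, c p q r * Dp e p (Dp e q W) r + F r) :=
      yb_mono g2 (le_of_eq (by rw [hN]; ring)) (le_of_eq (by rw [hN]; ring))
    have g4 := hC τ hτ1 s _ _ B _ W (by positivity) g3 hW h0 hB he p q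
    have a1 : C * (N * ε * X + N * Lc * (μ * X) + A) ≤ X / 2 + C * A := by
      nlinarith [mul_le_mul_of_nonneg_right hε1 hX, mul_le_mul_of_nonneg_right hμ1 hX]
    have a2 : C * (N * ε * (μ * X) + A) ≤ X / 2 + C * A := by
      have : μ * X ≤ X := by nlinarith
      nlinarith [mul_le_mul hε1 this (by positivity) (by norm_num)]
    refine yb_mono g4 ?_ a1
    have : 0 ≤ X / 2 + C * A := by positivity
    calc _ = τ ^ (1 / 4 : ℝ) * (C * (N * ε * (μ * X) + A) +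
          C * (N * ε * X + N * Lc * (μ * X) + A)) := by ring
      _ ≤ μ / 2 * ((X / 2 + C * A) + (X / 2 + C * A)) :=
          mul_le_mul hlam (add_le_add a2 a1) (by positivity) (by positivity)
      _ = _ := by ring
  have iter : ∀ k : ℕ, ∀ p q, Yx s τ (μ * (M / μ * (1 / 2) ^ k + 2 * C * A))
      (M / μ * (1 / 2) ^ k + 2 * C * A) (Dp e p (Dp e q W)) := by
    intro k
    induction k with
    | zero =>
      intro p q
      have h1 : 0 ≤ 2 * C * A := by positivity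
      have h2 : μ * (M / μ) = M := mul_div_cancel₀ _ hμ0.ne'
      have h3 : 0 ≤ M / μ := by positivity
      refine yb_mono (hM' p q) ?_ ?_ <;> simp only [pow_zero, mul_one] <;> nlinarith
    | succ k ih =>
      intro p q
      have e1 : M / μ * (1 / 2) ^ (k + 1) + 2 * C * A =
          (M / μ * (1 / 2) ^ k + 2 * C * A) / 2 + C * A := by ring
      rw [e1]
      exact step _ (by positivity) ih p q
  intro p q
  have hl : Tendsto (fun k : ℕ => M / μ * (1 / 2) ^ k + 2 * C * A) atTop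
      (𝓝 (M / μ * 0 + 2 * C * A)) :=
    ((tendsto_pow_atTop_nhds_zero_of_lt_one (by norm_num) (by norm_num)).const_mul _).add_const _
  rw [mul_zero, zero_add] at hl
  refine ⟨(hM' p q).cont, fun t ht y => ge_of_tendsto' hl fun k => ((iter k p q).sup t ht y).trans ?_,
    fun t ht y y' => ge_of_tendsto' (hl.mul_const _) fun k => (iter k p q).hol t ht y y'⟩
  have : 0 ≤ M / μ * (1 / 2) ^ k + 2 * C * A := by positivity
  nlinarith

end Crest.Agent.T223.Lm
end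
end

-- ▼ part T223/LmB_19
section

/-!
# Row 223, module LIMIT (helper19), part B: interior Schauder estimate for families
-/

set_option autoImplicit false
set_option linter.unusedSectionVars false
set_option linter.unusedVariables false

open Set Filter Topology Metric
open scoped ContDiff

noncomputable section

namespace Crest.Agent.T223.Lm

open Crest.Agent.N207.P

variable {E : Type} [NormedAddCommGroup E] [NormedSpace ℝ E] {m : ℕ} {ι : Type}

/-- eventually smooth on `O` -/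
def Sm (l : Filter ι) (O : Set (ℝ × E)) (F : ι → ℝ × E → ℂ) : Prop :=
  ∀ᶠ j in l, ∀ q ∈ O, ContDiffAt ℝ ∞ (F j) q

/-- bounded and Hoelder (for the pairs in the relation `R`) on a ball -/
def HB (R : ℝ × E → ℝ × E → Prop) (q0 : ℝ × E) (r C : ℝ) (f : ℝ × E → ℂ) : Prop :=
  ∀ q ∈ ball q0 r, ‖f q‖ ≤ C ∧ ∀ q' ∈ ball q0 r, R q q' → ‖f q - f q'‖ ≤ C * √(dist q q')

/-- locally uniformly bounded and Hoelder -/
def YB (R : ℝ × E → ℝ × E → Prop) (l : Filter ι) (O : Set (ℝ × E)) (F : ι → ℝ × E → ℂ) : Prop :=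
  ∀ q0 ∈ O, ∃ r C : ℝ, 0 < r ∧ 0 ≤ C ∧ ∀ᶠ j in l, HB R q0 r C (F j)

/-- same time -/
def ST (q q' : ℝ × E) : Prop := q'.1 = q.1

variable {R : ℝ × E → ℝ × E → Prop} {l : Filter ι} {O : Set (ℝ × E)}

theorem HB.mono {q0 : ℝ × E} {r C r' C' : ℝ} {f : ℝ × E → ℂ} (h : HB R q0 r C f) (hr : r' ≤ r)
    (hC : C ≤ C') : HB R q0 r' C' f := fun q hq =>
  ⟨(h q (ball_subset_ball hr hq)).1.trans hC, fun q' hq' hR =>
    ((h q (ball_subset_ball hr hq)).2 q' (ball_subset_ball hr hq') hR).trans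
      (mul_le_mul_of_nonneg_right hC (Real.sqrt_nonneg _))⟩

theorem HB.add {q0 : ℝ × E} {r C C' : ℝ} {f g : ℝ × E → ℂ} (h : HB R q0 r C f)
    (h' : HB R q0 r C' g) : HB R q0 r (C + C') (fun q => f q + g q) := fun q hq => by
  refine ⟨(norm_add_le _ _).trans (add_le_add (h q hq).1 (h' q hq).1), fun q' hq' hR => ?_⟩
  have e : f q + g q - (f q' + g q') = (f q - f q') + (g q - g q') := by ring
  rw [e, add_mul]
  exact (norm_add_le _ _).trans (add_le_add ((h q hq).2 q' hq' hR) ((h' q hq).2 q' hq' hR))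

theorem HB.mul {q0 : ℝ × E} {r C C' : ℝ} {f g : ℝ × E → ℂ} (h : HB R q0 r C f)
    (h' : HB R q0 r C' g) (hC : 0 ≤ C) (hC' : 0 ≤ C') :
    HB R q0 r (2 * C * C') (fun q => f q * g q) := fun q hq => by
  have b1 := mul_le_mul (h q hq).1 (h' q hq).1 (norm_nonneg _) hC
  refine ⟨by rw [norm_mul]; nlinarith [mul_nonneg hC hC'], fun q' hq' hR => ?_⟩
  have e : f q * g q - f q' * g q' = f q * (g q - g q') + (f q - f q') * g q' := by ring
  rw [e]
  refine (norm_add_le _ _).trans ?_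
  rw [norm_mul, norm_mul]
  have a1 := mul_le_mul (h q hq).1 ((h' q hq).2 q' hq' hR) (norm_nonneg _) hC
  have a2 := mul_le_mul ((h q hq).2 q' hq' hR) (h' q' hq').1 (norm_nonneg _) (by positivity)
  nlinarith

theorem YB.ev {F : ι → ℝ × E → ℂ} (h : YB R l O F) {q0 : ℝ × E} (hq : q0 ∈ O) :
    ∀ᶠ rc : ℝ × ℝ in (𝓝[>] (0 : ℝ)) ×ˢ atTop, ∀ᶠ j in l, HB R q0 rc.1 rc.2 (F j) := by
  obtain ⟨r, C, hr, hC, hj⟩ := h q0 hq
  filter_upwards [(tendsto_fst.eventually (Ioo_mem_nhdsGT hr)),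
    tendsto_snd.eventually (eventually_ge_atTop C)] with rc h1 h2
  exact hj.mono fun j hj => hj.mono h1.2.le h2

theorem ev_pos : ∀ᶠ rc : ℝ × ℝ in (𝓝[>] (0 : ℝ)) ×ˢ atTop, 0 < rc.1 ∧ 0 ≤ rc.2 :=
  (tendsto_fst.eventually self_mem_nhdsWithin).and (tendsto_snd.eventually (eventually_ge_atTop 0))

theorem YB.add {F G : ι → ℝ × E → ℂ} (h : YB R l O F) (h' : YB R l O G) :
    YB R l O (fun j q => F j q + G j q) := fun q0 hq => by
  obtain ⟨rc, ⟨h1, h2⟩, h3, h4⟩ := (((h.ev hq).and (h'.ev hq)).and ev_pos).exists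
  exact ⟨rc.1, rc.2 + rc.2, h3, by positivity, (h1.and h2).mono fun j hj => hj.1.add hj.2⟩

theorem YB.mul {F G : ι → ℝ × E → ℂ} (h : YB R l O F) (h' : YB R l O G) :
    YB R l O (fun j q => F j q * G j q) := fun q0 hq => by
  obtain ⟨rc, ⟨h1, h2⟩, h3, h4⟩ := (((h.ev hq).and (h'.ev hq)).and ev_pos).exists
  exact ⟨rc.1, 2 * rc.2 * rc.2, h3, by positivity,
    (h1.and h2).mono fun j hj => hj.1.mul hj.2 h4 h4⟩

theorem YB.const (c : ℂ) : YB R l O (fun _ _ => c) := fun q0 _ =>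
  ⟨1, ‖c‖, one_pos, norm_nonneg _, Eventually.of_forall fun _ q _ =>
    ⟨le_rfl, fun q' _ _ => by simp; positivity⟩⟩

theorem YB.congr (hO : IsOpen O) {F G : ι → ℝ × E → ℂ} (h : YB R l O F)
    (e : ∀ᶠ j in l, ∀ q ∈ O, G j q = F j q) : YB R l O G := fun q0 hq => by
  obtain ⟨r, C, hr, hC, hj⟩ := h q0 hq
  obtain ⟨ρ, hρ, hb⟩ := Metric.isOpen_iff.1 hO q0 hq
  refine ⟨min r ρ, C, by positivity, hC, ?_⟩
  filter_upwards [hj, e] with j h1 h2 q hq1
  have h3 := h1.mono (min_le_left r ρ) le_rfl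
  have hs : ball q0 (min r ρ) ⊆ O := (ball_subset_ball (min_le_right _ _)).trans hb
  rw [h2 q (hs hq1)]
  exact ⟨(h3 q hq1).1, fun q' hq' hR => by rw [h2 q' (hs hq')]; exact (h3 q hq1).2 q' hq' hR⟩

theorem YB.sum {κ : Type*} (s : Finset κ) {F : κ → ι → ℝ × E → ℂ} (h : ∀ i ∈ s, YB R l O (F i)) :
    YB R l O (fun j q => ∑ i ∈ s, F i j q) := by
  classical
  induction s using Finset.induction_on with
  | empty => simpa using YB.const 0
  | insert i s hi ih =>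
    simp only [Finset.sum_insert hi]
    exact (h i (Finset.mem_insert_self _ _)).add (ih fun j hj => h j (Finset.mem_insert_of_mem hj))

theorem YB.weaken {R' : ℝ × E → ℝ × E → Prop} (hR : ∀ q q', R' q q' → R q q')
    {F : ι → ℝ × E → ℂ} (h : YB R l O F) : YB R' l O F := fun q0 hq => by
  obtain ⟨r, C, hr, hC, hj⟩ := h q0 hq
  exact ⟨r, C, hr, hC, hj.mono fun j hj q hq => ⟨(hj q hq).1, fun q' hq' h => (hj q hq).2 q' hq'
    (hR _ _ h)⟩⟩

/-! ### cut-off -/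

theorem Dv_zero_off {θ : ℝ × E → ℂ} {S : Set E} (hS : IsClosed S) (h : ∀ q, q.2 ∉ S → θ q = 0)
    (ξ : ℝ × E) (q : ℝ × E) (hq : q.2 ∉ S) : Dv ξ θ q = 0 := by
  have : θ =ᶠ[𝓝 q] fun _ => 0 := by
    filter_upwards [continuous_snd.continuousAt.eventually (hS.isOpen_compl.mem_nhds hq)] with r hr
    exact h r hr
  rw [Dv_congr this, Dv_const]

theorem yx_fin [ProperSpace E] {h : ℝ × E → ℂ} {s τ ρ : ℝ} {x0 : E}
    (hs : ∀ σ ∈ Icc 0 τ, ∀ x, ContDiffAt ℝ ∞ h (s + σ, x))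
    (h0 : ∀ q, q.2 ∉ closedBall x0 ρ → h q = 0) : ∃ M : ℝ, 0 ≤ M ∧ Yx s τ M M h := by
  have hK : IsCompact (Icc s (s + τ) ×ˢ closedBall x0 ρ) :=
    isCompact_Icc.prod (isCompact_closedBall _ _)
  have hs' : ∀ q ∈ Icc s (s + τ) ×ˢ closedBall x0 ρ, ContDiffAt ℝ ∞ h q := fun q hq => by
    have := hs (q.1 - s) ⟨by linarith [hq.1.1], by linarith [hq.1.2]⟩ q.2
    simpa using this
  obtain ⟨M0, hM0⟩ := hK.exists_bound_of_continuousOn (f := h)
    fun q hq => (hs' q hq).continuousAt.continuousWithinAt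
  obtain ⟨L, hL⟩ := hK.exists_bound_of_continuousOn (f := fderiv ℝ h)
    fun q hq => ((hs' q hq).fderiv_right (m := 0) (by simp)).continuousAt.continuousWithinAt
  have b0 : ∀ σ ∈ Icc 0 τ, ∀ x, ‖h (s + σ, x)‖ ≤ |M0| := fun σ hσ x => by
    by_cases hx : x ∈ closedBall x0 ρ
    · exact (hM0 (s + σ, x) ⟨⟨by linarith [hσ.1], by linarith [hσ.2]⟩, hx⟩).trans (le_abs_self _)
    · rw [h0 (s + σ, x) hx]; simp
  have b1 : ∀ σ ∈ Icc 0 τ, ∀ x y, ‖h (s + σ, x) - h (s + σ, y)‖ ≤ |L| * dist x y := by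
    intro σ hσ x y
    have d := fun z => hasFDerivAt_slice ((hs σ hσ z).differentiableAt (by simp))
    have := convex_univ.norm_image_sub_le_of_norm_fderiv_le (𝕜 := ℝ)
      (f := fun y => h (s + σ, y)) (C := |L|) (fun z _ => (d z).differentiableAt)
      (fun z _ => ?_) (mem_univ y) (mem_univ x)
    · rwa [dist_eq_norm]
    · by_cases hz : z ∈ closedBall x0 ρ
      · rw [(d z).fderiv]
        refine ContinuousLinearMap.opNorm_le_bound _ (abs_nonneg _) fun v => ?_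
        have h1 := (fderiv ℝ h (s + σ, z)).le_opNorm ((0 : ℝ), v)
        have h2 := (hL (s + σ, z) ⟨⟨by linarith [hσ.1], by linarith [hσ.2]⟩, hz⟩).trans
          (le_abs_self _)
        have h3 : ‖((0 : ℝ), v)‖ = ‖v‖ := by simp
        rw [h3] at h1
        exact h1.trans (mul_le_mul_of_nonneg_right h2 (norm_nonneg _))
      · have : (fun y => h (s + σ, y)) =ᶠ[𝓝 z] fun _ => 0 := by
          filter_upwards [isClosed_closedBall.isOpen_compl.mem_nhds hz] with w hw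
          exact h0 _ hw
        rw [this.fderiv_eq]; simp
  refine ⟨2 * |M0| + |L|, by positivity, ?_, fun σ hσ x => ?_, fun σ hσ x y => ?_⟩
  · exact fun r hr => (ContinuousAt.comp (f := fun r : ℝ × E => (s + r.1, r.2))
      (hs r.1 hr.1 _).continuousAt (by fun_prop)).continuousWithinAt
  · have := b0 σ hσ x
    have h2 := abs_nonneg M0
    have h3 := abs_nonneg L
    change ‖h (s + σ, x)‖ ≤ _
    linarith
  · exact le_sqrt_of_min (abs_nonneg _) (abs_nonneg _) dist_nonneg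
      ((norm_sub_le _ _).trans (by linarith [b0 σ hσ x, b0 σ hσ y])) (b1 σ hσ x y)

theorem mem_ball_pr {t0 t r : ℝ} {x0 x : E} (ht : |t - t0| < r) (hx : x ∈ ball x0 r) :
    (t, x) ∈ ball (t0, x0) r := by
  rw [mem_ball, Prod.dist_eq, max_lt_iff]
  exact ⟨ht, hx⟩

theorem dist_st (t : ℝ) (x y : E) : dist (t, x) (t, y) = dist x y := by
  simp [Prod.dist_eq]

theorem yx_cut {κ F : ℝ × E → ℂ} {s τ ρ r K0 K1 A c t0 : ℝ} {x0 : E} (hκ : Yx s τ K0 K1 κ)
    (hK0 : 0 ≤ K0) (hK1 : 0 ≤ K1) (hA : 0 ≤ A) (hc : 0 ≤ c)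
    (h0 : ∀ q, q.2 ∉ closedBall x0 ρ → κ q = 0) (hρ : ρ < r)
    (ht : ∀ σ ∈ Icc 0 τ, |s + σ - t0| < r) (hF : ∀ q ∈ ball (t0, x0) r, ContinuousAt F q)
    (h1 : ∀ q ∈ ball (t0, x0) r, ‖F q‖ ≤ A)
    (h2 : ∀ q ∈ ball (t0, x0) r, ∀ q' ∈ ball (t0, x0) r, ST q q' → ‖F q - F q'‖ ≤ c * √(dist q q')) :
    Yx s τ (K0 * A) (K0 * c + K1 * A) (fun q => κ q * F q) := by
  have hz : ∀ σ x, x ∉ ball x0 r → κ (s + σ, x) = 0 := fun σ x hx =>
    h0 _ fun h => hx (closedBall_subset_ball hρ h)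
  have one : ∀ σ ∈ Icc 0 τ, ∀ x y, y ∉ ball x0 r →
      ‖κ (s + σ, x) * F (s + σ, x)‖ ≤ (K0 * c + K1 * A) * √(dist x y) := fun σ hσ x y hy => by
    by_cases hx : x ∈ ball x0 r
    · have a1 := hκ.hol σ hσ x y
      simp only [hz σ y hy, sub_zero] at a1
      rw [norm_mul]
      have a2 := mul_le_mul a1 (h1 _ (mem_ball_pr (ht σ hσ) hx)) (norm_nonneg _) (by positivity)
      have : 0 ≤ K0 * c * √(dist x y) := by positivity
      nlinarith
    · rw [hz σ x hx]; simp; positivity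
  refine ⟨fun q hq => ?_, fun σ hσ x => ?_, fun σ hσ x y => ?_⟩
  · by_cases hx : q.2 ∈ ball x0 r
    · exact (hκ.cont q hq).mul (ContinuousAt.comp (f := fun r : ℝ × E => (s + r.1, r.2))
        (hF _ (mem_ball_pr (ht _ hq.1) hx)) (by fun_prop)).continuousWithinAt
    · have hx' : q.2 ∉ closedBall x0 ρ := fun h => hx (closedBall_subset_ball hρ h)
      refine (continuousAt_const (y := (0 : ℂ))).congr ?_ |>.continuousWithinAt
      filter_upwards [continuous_snd.continuousAt.eventually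
        (isClosed_closedBall.isOpen_compl.mem_nhds hx')] with w hw
      simp [h0 (s + w.1, w.2) hw]
  · by_cases hx : x ∈ ball x0 r
    · change ‖κ (s + σ, x) * F (s + σ, x)‖ ≤ _
      rw [norm_mul]
      exact mul_le_mul (hκ.sup σ hσ x) (h1 _ (mem_ball_pr (ht σ hσ) hx)) (norm_nonneg _) hK0
    · change ‖κ (s + σ, x) * F (s + σ, x)‖ ≤ _
      rw [hz σ x hx]; simp; positivity
  · change ‖κ (s + σ, x) * F (s + σ, x) - κ (s + σ, y) * F (s + σ, y)‖ ≤ _
    by_cases hy : y ∈ ball x0 r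
    · by_cases hx : x ∈ ball x0 r
      · have e : κ (s + σ, x) * F (s + σ, x) - κ (s + σ, y) * F (s + σ, y) =
            κ (s + σ, x) * (F (s + σ, x) - F (s + σ, y)) +
              (κ (s + σ, x) - κ (s + σ, y)) * F (s + σ, y) := by ring
        rw [e]
        refine (norm_add_le _ _).trans ?_
        rw [norm_mul, norm_mul]
        have a0 := h2 _ (mem_ball_pr (ht σ hσ) hx) _ (mem_ball_pr (ht σ hσ) hy) rfl
        rw [dist_st] at a0
        have a1 := mul_le_mul (hκ.sup σ hσ x) a0 (norm_nonneg _) hK0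
        have a2 := mul_le_mul (hκ.hol σ hσ x y) (h1 _ (mem_ball_pr (ht σ hσ) hy)) (norm_nonneg _)
          (by positivity)
        nlinarith
      · rw [hz σ x hx, zero_mul, zero_sub, norm_neg, dist_comm]
        exact one σ hσ y x hx
    · rw [hz σ y hy, zero_mul, sub_zero]
      exact one σ hσ x y hy

/-- uniform bounds on a slab -/
def UY (l : Filter ι) (s τ : ℝ) (F : ι → ℝ × E → ℂ) : Prop :=
  ∃ A : ℝ, 0 ≤ A ∧ ∀ᶠ j in l, Yx s τ A A (F j)

theorem UY.add {s τ : ℝ} {F G : ι → ℝ × E → ℂ} (h : UY l s τ F) (h' : UY l s τ G) :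
    UY l s τ (fun j q => F j q + G j q) := by
  obtain ⟨A, hA, h1⟩ := h
  obtain ⟨B, hB, h2⟩ := h'
  exact ⟨A + B, by positivity, (h1.and h2).mono fun j hj => yb_add hj.1 hj.2⟩

theorem UY.sum {κ : Type*} {s τ : ℝ} (S : Finset κ) {F : κ → ι → ℝ × E → ℂ}
    (h : ∀ i ∈ S, UY l s τ (F i)) : UY l s τ (fun j q => ∑ i ∈ S, F i j q) := by
  classical
  induction S using Finset.induction_on with
  | empty => exact ⟨0, le_rfl, Eventually.of_forall fun j => by simpa [Yx] using yb_zero⟩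
  | insert i S hi ih =>
    simp only [Finset.sum_insert hi]
    exact (h i (Finset.mem_insert_self _ _)).add (ih fun j hj => h j (Finset.mem_insert_of_mem hj))

theorem UY.cut [ProperSpace E] {κ : ℝ × E → ℂ} {F : ι → ℝ × E → ℂ} {s τ ρ r C t0 : ℝ} {x0 : E}
    (hκ : ContDiff ℝ ∞ κ) (h0 : ∀ q, q.2 ∉ closedBall x0 ρ → κ q = 0) (hρ : ρ < r)
    (ht : ∀ σ ∈ Icc 0 τ, |s + σ - t0| < r) (hC : 0 ≤ C)
    (hF : ∀ᶠ j in l, (∀ q ∈ ball (t0, x0) r, ContinuousAt (F j) q) ∧ HB ST (t0, x0) r C (F j)) :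
    UY l s τ (fun j q => κ q * F j q) := by
  obtain ⟨M, hM, hY⟩ := yx_fin (s := s) (τ := τ) (fun σ _ x => hκ.contDiffAt) h0
  refine ⟨M * C + M * C, by positivity, hF.mono fun j hj => yb_mono
    (yx_cut hY hM hM hC hC h0 hρ ht hj.1 (fun q hq => (hj.2 q hq).1) fun q hq => (hj.2 q hq).2)
    (by nlinarith [mul_nonneg hM hC]) le_rfl⟩

theorem Dp2_mul (e : E ≃ₗᵢ[ℝ] En m) {θ u : ℝ × E → ℂ} {q : ℝ × E} (hθ : ContDiffAt ℝ ∞ θ q)
    (hu : ContDiffAt ℝ ∞ u q) (p p' : Fin m) :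
    Dp e p (Dp e p' fun r => θ r * u r) q = Dp e p (Dp e p' θ) q * u q + Dp e p' θ q * Dp e p u q
      + (Dp e p θ q * Dp e p' u q + θ q * Dp e p (Dp e p' u) q) := by
  have h1 : (Dp e p' fun r => θ r * u r) =ᶠ[𝓝 q] fun r => Dp e p' θ r * u r + θ r * Dp e p' u r := by
    filter_upwards [ev_diff hθ, ev_diff hu] with r a b
    exact Dv_mul a b _
  have d := fun {f : ℝ × E → ℂ} (h : ContDiffAt ℝ ∞ f q) => h.differentiableAt (by simp)
  have d1 : ContDiffAt ℝ ∞ (Dp e p' θ) q := contDiffAt_Dv hθ _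
  have d2 : ContDiffAt ℝ ∞ (Dp e p' u) q := contDiffAt_Dv hu _
  unfold Dp at *
  rw [Dv_congr h1, Dv_add (d (d1.mul hu)) (d (hθ.mul d2)), Dv_mul (d d1) (d hu),
    Dv_mul (d hθ) (d d2)]

/-- **interior Schauder estimate for families** -/
theorem linq [FiniteDimensional ℝ E] (e : E ≃ₗᵢ[ℝ] En m) (hO : IsOpen O) {u f : ι → ℝ × E → ℂ}
    {c : Fin m → Fin m → ι → ℝ × E → ℂ} (su : Sm l O u) (sf : Sm l O f)
    (sc : ∀ p q, Sm l O (c p q)) (hu : YB ST l O u) (hu1 : ∀ p, YB ST l O fun j => Dp e p (u j))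
    (hf : YB ST l O f) (hc : ∀ p q, YB ST l O (c p q))
    (ell : ∀ q0 ∈ O, ∃ (a0 : Matrix (Fin m) (Fin m) ℝ) (c0 : Fin m → Fin m → ℂ), a0.PosDef ∧
      (∀ S : Fin m → Fin m → ℂ, (∀ p q, S p q = S q p) →
        ∑ p, ∑ q, c0 p q * S p q = ∑ p, ∑ q, (a0 p q : ℂ) * S p q) ∧
      ∀ δ : ℝ, 0 < δ → ∃ r : ℝ, 0 < r ∧ ∀ᶠ j in l, ∀ q ∈ ball q0 r, ∀ p p',
        ‖c p p' j q - c0 p p'‖ ≤ δ)
    (he : ∀ᶠ j in l, ∀ q ∈ O,
      Dt (u j) q = ∑ p, ∑ p', c p p' j q * Dp e p (Dp e p' (u j)) q + f j q) (p1 p2 : Fin m) :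
    YB ST l O fun j => Dp e p1 (Dp e p2 (u j)) := by
  have : ProperSpace E := FiniteDimensional.proper_real E
  rintro ⟨t0, x0⟩ hq0
  obtain ⟨a0, c0, ha, hsym, hclose⟩ := ell _ hq0
  obtain ⟨ε, K, hε, hK, hcore⟩ := core e ha
  obtain ⟨r1, hr1, hcl⟩ := hclose ε hε
  obtain ⟨r2, hr2, hb⟩ := Metric.isOpen_iff.1 hO _ hq0
  have hev : ∀ᶠ rc : ℝ × ℝ in (𝓝[>] (0 : ℝ)) ×ˢ atTop, rc.1 ≤ r1 ∧ rc.1 ≤ r2 := by
    filter_upwards [tendsto_fst.eventually (Ioo_mem_nhdsGT hr1),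
      tendsto_fst.eventually (Ioo_mem_nhdsGT hr2)] with rc h1 h2
    exact ⟨h1.2.le, h2.2.le⟩
  obtain ⟨⟨r, C⟩, ⟨⟨⟨⟨y1, y2⟩, y3⟩, y4⟩, hr, hC⟩, hrr1, hrr2⟩ := ((((((hu.ev hq0).and
    (eventually_all.2 fun p => (hu1 p).ev hq0)).and (hf.ev hq0)).and
    (eventually_all.2 fun p => eventually_all.2 fun q => (hc p q).ev hq0)).and ev_pos).and
    hev).exists
  simp only at y1 y2 y3 y4 hr hC hrr1 hrr2
  have hbO : ball (t0, x0) r ⊆ O := (ball_subset_ball hrr2).trans hb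
  let η : ContDiffBump x0 := ⟨r / 2, 3 * r / 4, by positivity, by linarith⟩
  let χ : ContDiffBump x0 := ⟨r / 4, r / 2, by positivity, by linarith⟩
  set ηc : ℝ × E → ℂ := fun q => (η q.2 : ℂ) with hηc
  have hηs : ContDiff ℝ ∞ ηc :=
    Complex.ofRealCLM.contDiff.comp (η.contDiff.comp contDiff_snd)
  have hη0 : ∀ q : ℝ × E, q.2 ∉ closedBall x0 (3 * r / 4) → ηc q = 0 := fun q hq => by
    simp only [hηc]
    rw [η.zero_of_le_dist (le_of_lt (by simpa using hq))]; simp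
  obtain ⟨Kη, hKη, hYη⟩ := yx_fin (s := 0) (τ := 1) (fun σ _ x => hηs.contDiffAt) hη0
  have hYη' : ∀ s τ, Yx s τ 1 Kη ηc := fun s τ =>
    ⟨(hηs.continuous.comp (f := fun r : ℝ × E => (s + r.1, r.2)) (by fun_prop)).continuousOn,
      fun σ _ x => by
        simp only [hηc, Complex.norm_real, Real.norm_eq_abs, abs_of_nonneg η.nonneg]
        exact η.le_one,
      fun σ _ x y => hYη.hol 0 ⟨le_rfl, zero_le_one⟩ x y⟩
  obtain ⟨τ0, hτ0, hcore⟩ := hcore (1 * C + Kη * ε) (by positivity)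
  set τ : ℝ := min τ0 r with hτ
  have hτ1 : 0 < τ := by positivity
  have hτ2 : τ ≤ r := min_le_right _ _
  set s : ℝ := t0 - τ / 2 with hs
  have ht : ∀ σ ∈ Icc 0 τ, |s + σ - t0| < r := fun σ hσ =>
    abs_lt.2 ⟨by linarith [hσ.1], by linarith [hσ.2]⟩
  set θ : ℝ × E → ℂ := fun q => ((q.1 - s : ℝ) : ℂ) * (χ q.2 : ℂ) with hθ
  have hθs : ContDiff ℝ ∞ θ :=
    (Complex.ofRealCLM.contDiff.comp (contDiff_fst.sub contDiff_const)).mul
      (Complex.ofRealCLM.contDiff.comp (χ.contDiff.comp contDiff_snd))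
  have hθ0 : ∀ q : ℝ × E, q.2 ∉ closedBall x0 (r / 2) → θ q = 0 := fun q hq => by
    simp only [hθ]
    rw [χ.zero_of_le_dist (le_of_lt (by simpa using hq))]; simp
  have sD : ∀ {κ : ℝ × E → ℂ}, ContDiff ℝ ∞ κ → ∀ ξ, ContDiff ℝ ∞ (Dv ξ κ) := fun h ξ =>
    contDiff_iff_contDiffAt.2 fun q => contDiffAt_Dv h.contDiffAt ξ
  have zD := fun {κ : ℝ × E → ℂ} (h : ∀ q, q.2 ∉ closedBall x0 (r / 2) → κ q = 0) ξ =>
    Dv_zero_off isClosed_closedBall h ξ
  have hr2' : r / 2 < r := by linarith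
  have cs : ∀ {F : ι → ℝ × E → ℂ}, Sm l O F → ∀ᶠ j in l, ∀ q ∈ ball (t0, x0) r,
      ContinuousAt (F j) q := fun h => h.mono fun j hj q hq => (hj q (hbO hq)).continuousAt
  have su1 : ∀ p, Sm l O fun j => Dp e p (u j) := fun p =>
    su.mono fun j hj q hq => contDiffAt_Dv (hj q hq) _
  set F : ι → ℝ × E → ℂ := fun j q => Dt θ q * u j q + θ q * f j q + ∑ p, ∑ p',
    ((-Dp e p (Dp e p' θ) q) * (c p p' j q * u j q) + (-Dp e p' θ q) * (c p p' j q * Dp e p (u j) q)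
      + (-Dp e p θ q) * (c p p' j q * Dp e p' (u j) q)) with hF
  have hUF : UY l s τ F := by
    refine ((UY.cut (sD hθs _) (zD hθ0 _) hr2' ht hC ((cs su).and y1)).add
      (UY.cut hθs hθ0 hr2' ht hC ((cs sf).and y3))).add
      (UY.sum _ fun p _ => UY.sum _ fun p' _ => UY.add (UY.add ?_ ?_) ?_)
    · refine UY.cut (sD (sD hθs _) _).neg (fun q hq => by rw [neg_eq_zero]; exact zD (zD hθ0 _) _ q hq)
        hr2' ht (C := 2 * C * C) (by positivity) ?_
      filter_upwards [cs su, cs (sc p p'), y1, y4 p p'] with j a1 a2 a3 a4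
      exact ⟨fun q hq => (a2 q hq).mul (a1 q hq), a4.mul a3 hC hC⟩
    · refine UY.cut (sD hθs _).neg (fun q hq => by rw [neg_eq_zero]; exact zD hθ0 _ q hq)
        hr2' ht (C := 2 * C * C) (by positivity) ?_
      filter_upwards [cs (su1 p), cs (sc p p'), y2 p, y4 p p'] with j a1 a2 a3 a4
      exact ⟨fun q hq => (a2 q hq).mul (a1 q hq), a4.mul a3 hC hC⟩
    · refine UY.cut (sD hθs _).neg (fun q hq => by rw [neg_eq_zero]; exact zD hθ0 _ q hq)
        hr2' ht (C := 2 * C * C) (by positivity) ?_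
      filter_upwards [cs (su1 p'), cs (sc p p'), y2 p', y4 p p'] with j a1 a2 a3 a4
      exact ⟨fun q hq => (a2 q hq).mul (a1 q hq), a4.mul a3 hC hC⟩
  obtain ⟨A, hA, hFA⟩ := hUF
  refine ⟨min (r / 4) (τ / 4), 4 / τ * (K * A), by positivity, by positivity, ?_⟩
  filter_upwards [hFA, su, he, hcl, eventually_all.2 fun p => eventually_all.2 fun p' => y4 p p',
    eventually_all.2 fun p => eventually_all.2 fun p' => cs (sc p p')] with j b1 b2 b3 b4 b5 b6
  set W : ℝ × E → ℂ := fun q => θ q * u j q with hW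
  have hW0 : ∀ q : ℝ × E, q.2 ∉ closedBall x0 (r / 2) → W q = 0 := fun q hq => by
    simp [hW, hθ0 q hq]
  have hin : ∀ σ ∈ Icc 0 τ, ∀ x ∈ closedBall x0 (r / 2), (s + σ, x) ∈ ball (t0, x0) r :=
    fun σ hσ x hx => mem_ball_pr (ht σ hσ) (closedBall_subset_ball hr2' hx)
  have hWs : ∀ σ ∈ Icc 0 τ, ∀ x, ContDiffAt ℝ ∞ W (s + σ, x) := fun σ hσ x => by
    by_cases hx : x ∈ closedBall x0 (r / 2)
    · exact hθs.contDiffAt.mul (b2 _ (hbO (hin σ hσ x hx)))
    · refine (contDiffAt_const (c := (0 : ℂ))).congr_of_eventuallyEq ?_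
      filter_upwards [continuous_snd.continuousAt.eventually
        (isClosed_closedBall.isOpen_compl.mem_nhds (x := ((s + σ, x) : ℝ × E).2) hx)] with w hw
      exact hW0 w hw
  obtain ⟨B, -, hB⟩ := yx_fin hWs hW0
  choose M hM0 hM using fun pp : Fin m × Fin m => yx_fin (h := Dp e pp.1 (Dp e pp.2 W))
    (fun σ hσ x => contDiffAt_Dv (contDiffAt_Dv (hWs σ hσ x) _) _) (zD (zD hW0 _) _)
  have hMs : ∀ pp, M pp ≤ ∑ pp, M pp := fun pp =>
    Finset.single_le_sum (fun i _ => hM0 i) (Finset.mem_univ pp)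
  have key := hcore τ ⟨hτ1, min_le_left _ _⟩ s A B (∑ pp, M pp)
    (fun p p' q => ηc q * (c p p' j q - c0 p p')) (F j) W hA
    (Finset.sum_nonneg fun i _ => hM0 i) (fun p p' => ?_) b1 hWs (fun x => by simp [hW, hθ])
    hB.sup (fun p p' => yb_mono (hM (p, p')) (hMs _) (hMs _)) (fun σ hσ x => ?_) p1 p2
  rotate_left
  · have := yx_cut (F := fun q => c p p' j q - c0 p p') (hYη' s τ) zero_le_one hKη hε.le hC hη0
      (by linarith : 3 * r / 4 < r) ht (fun q hq => (b6 p p' q hq).sub continuousAt_const)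
      (fun q hq => b4 q (ball_subset_ball hrr1 hq) p p')
      (fun q hq q' hq' hR => by simpa using (b5 p p' q hq).2 q' hq' hR)
    simpa only [one_mul] using this
  · by_cases hx : x ∈ closedBall x0 (r / 2)
    · have hq := hbO (hin σ hσ x hx)
      have e1 : ηc (s + σ, x) = 1 := by
        simp only [hηc]; rw [η.one_of_mem_closedBall hx]; simp
      have e2 := hsym (fun p p' => Dp e p (Dp e p' W) (s + σ, x)) fun p p' =>
        Dv_comm (hWs σ hσ x) _ _
      have e3 : Dt W (s + σ, x) = Dt θ (s + σ, x) * u j (s + σ, x) +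
          θ (s + σ, x) * Dt (u j) (s + σ, x) :=
        Dv_mul (hθs.contDiffAt.differentiableAt (by simp)) ((b2 _ hq).differentiableAt (by simp)) _
      have e4 := fun p p' => Dp2_mul e (hθs.contDiffAt (x := (s + σ, x))) (b2 _ hq) p p'
      rw [← e2, e3, b3 _ hq, ← add_assoc, ← Finset.sum_add_distrib]
      simp only [← Finset.sum_add_distrib, e1, hF]
      have e5 : ∀ p p', c0 p p' * Dp e p (Dp e p' W) (s + σ, x) +
          1 * (c p p' j (s + σ, x) - c0 p p') * Dp e p (Dp e p' W) (s + σ, x) =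
          θ (s + σ, x) * (c p p' j (s + σ, x) * Dp e p (Dp e p' (u j)) (s + σ, x)) -
          ((-Dp e p (Dp e p' θ) (s + σ, x)) * (c p p' j (s + σ, x) * u j (s + σ, x)) +
            (-Dp e p' θ (s + σ, x)) * (c p p' j (s + σ, x) * Dp e p (u j) (s + σ, x)) +
            (-Dp e p θ (s + σ, x)) * (c p p' j (s + σ, x) * Dp e p' (u j) (s + σ, x))) := by
        intro p p'
        rw [hW, e4]; ring
      simp only [e5, Finset.sum_sub_distrib, ← Finset.mul_sum]
      ring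
    · have z1 := fun ξ => zD hW0 ξ (s + σ, x) hx
      have z2 := fun ξ ξ' => zD (zD hW0 ξ) ξ' (s + σ, x) hx
      have z3 := fun ξ => zD hθ0 ξ (s + σ, x) hx
      have z4 := fun ξ ξ' => zD (zD hθ0 ξ) ξ' (s + σ, x) hx
      simp only [hF, Dt, Dp, z1, z2, z3, z4, hθ0 (s + σ, x) hx]
      simp
  · have e5 : ∀ q ∈ ball (t0, x0) (min (r / 4) (τ / 4)), τ / 4 ≤ q.1 - s ∧ q.1 - s ∈ Icc 0 τ ∧
        Dp e p1 (Dp e p2 (u j)) q = (((q.1 - s)⁻¹ : ℝ) : ℂ) * Dp e p1 (Dp e p2 W) q := by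
      intro q hq
      rw [mem_ball, Prod.dist_eq, max_lt_iff, lt_min_iff, lt_min_iff, Real.dist_eq, abs_lt,
        abs_lt] at hq
      obtain ⟨⟨⟨q1, q2⟩, q3, q4⟩, q5, q6⟩ := hq
      simp only at q1 q2 q3 q4 q5 q6
      have q7 : τ / 4 ≤ q.1 - s := by linarith
      refine ⟨q7, ⟨by linarith, by linarith⟩, ?_⟩
      have hqO : q ∈ O := hbO (mem_ball_pr (x := q.2) (t := q.1) (abs_lt.2 ⟨by linarith, by linarith⟩)
        (mem_ball.2 (by linarith)))
      have hθ1 : θ =ᶠ[𝓝 q] fun w => ((w.1 - s : ℝ) : ℂ) := by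
        filter_upwards [continuous_snd.continuousAt.eventually
          (isOpen_ball.mem_nhds (x := q.2) (mem_ball.2 q5))] with w hw
        simp only [hθ]
        rw [χ.one_of_mem_closedBall (ball_subset_closedBall hw)]; simp
      have hD : ∀ p, Dp e p (fun w : ℝ × E => ((w.1 - s : ℝ) : ℂ)) = fun _ => 0 := fun p => by
        funext w
        have h1 : HasFDerivAt (fun w : ℝ × E => ((w.1 - s : ℝ) : ℂ)) _ w :=
          Complex.ofRealCLM.hasFDerivAt.comp w ((hasFDerivAt_fst (𝕜 := ℝ)).sub_const s)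
        simp only [Dp, Dv, h1.fderiv]
        simp
      have hD1 : ∀ p, Dp e p θ =ᶠ[𝓝 q] fun _ => 0 := fun p => by
        rw [← hD p]; exact Dv_congr_ev hθ1 _
      have hD2 : Dp e p1 (Dp e p2 θ) q = 0 := by
        unfold Dp at *
        rw [Dv_congr (hD1 p2), Dv_const]
      rw [hW, Dp2_mul e hθs.contDiffAt (b2 _ hqO), hD2, (hD1 p1).eq_of_nhds, (hD1 p2).eq_of_nhds,
        hθ1.eq_of_nhds]
      have : ((q.1 - s : ℝ) : ℂ) ≠ 0 := Complex.ofReal_ne_zero.2 (by linarith)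
      rw [Complex.ofReal_inv]
      field_simp
      simp
    have n1 : ∀ x : ℝ, τ / 4 ≤ x → ‖((x⁻¹ : ℝ) : ℂ)‖ ≤ 4 / τ := fun x hx => by
      have : 0 < x := by linarith
      rw [Complex.norm_real, Real.norm_eq_abs, abs_of_pos (by positivity), inv_eq_one_div,
        div_le_div_iff₀ this hτ1]
      linarith
    intro q hq
    obtain ⟨f1, f2, f3⟩ := e5 q hq
    refine ⟨?_, fun q' hq' hR => ?_⟩
    · rw [f3, norm_mul]
      have := key.sup _ f2 q.2
      simp only [add_sub_cancel] at this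
      exact mul_le_mul (n1 _ f1) this (norm_nonneg _) (by positivity)
    · obtain ⟨-, -, f4⟩ := e5 q' hq'
      have hR' : q'.1 = q.1 := hR
      rw [f3, f4, hR', ← mul_sub, norm_mul, mul_assoc]
      have := key.hol _ f2 q.2 q'.2
      simp only [add_sub_cancel] at this
      have e6 : q' = (q.1, q'.2) := by rw [← hR']
      have e7 : dist q q' = dist q.2 q'.2 := by
        conv_lhs => rw [e6]
        exact dist_st q.1 q.2 q'.2
      rw [e7]
      conv_lhs => rw [e6]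
      exact mul_le_mul (n1 _ f1) this (norm_nonneg _) (by positivity)

end Crest.Agent.T223.Lm
end
end

-- ▼ part T223/LmC_19
section

/-!
# Row 223, module LIMIT (helper19), part C: towers of function classes and the bootstrap
-/

set_option autoImplicit false
set_option linter.unusedSectionVars false
set_option linter.unusedVariables false

open Set Filter Topology Metric
open scoped ContDiff

noncomputable section

namespace Crest.Agent.T223.Lm

open Crest.Agent.N207.P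

variable {E : Type} [NormedAddCommGroup E] [NormedSpace ℝ E] {m : ℕ} {ι : Type}
  {l : Filter ι} {O : Set (ℝ × E)}

/-- an algebra of families of smooth functions on `O` -/
structure Good (l : Filter ι) (O : Set (ℝ × E)) (𝒞 : (ι → ℝ × E → ℂ) → Prop) : Prop where
  sm : ∀ {F}, 𝒞 F → Sm l O F
  add : ∀ {F G}, 𝒞 F → 𝒞 G → 𝒞 fun j q => F j q + G j q
  mul : ∀ {F G}, 𝒞 F → 𝒞 G → 𝒞 fun j q => F j q * G j q
  const : ∀ c : ℂ, 𝒞 fun _ _ => c
  congr : ∀ {F G}, 𝒞 F → (∀ᶠ j in l, ∀ q ∈ O, G j q = F j q) → 𝒞 G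

variable {𝒞 : (ι → ℝ × E → ℂ) → Prop} {D : Set (ℝ × E)}

theorem Good.sum (h : Good l O 𝒞) {κ : Type*} (s : Finset κ) {F : κ → ι → ℝ × E → ℂ}
    (hF : ∀ i ∈ s, 𝒞 (F i)) : 𝒞 fun j q => ∑ i ∈ s, F i j q := by
  classical
  induction s using Finset.induction_on with
  | empty => simpa using h.const 0
  | insert i s hi ih =>
    simp only [Finset.sum_insert hi]
    exact h.add (hF i (Finset.mem_insert_self _ _)) (ih fun j hj => hF j (Finset.mem_insert_of_mem hj))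

theorem Good.neg (h : Good l O 𝒞) {F : ι → ℝ × E → ℂ} (hF : 𝒞 F) : 𝒞 fun j q => -F j q :=
  h.congr (h.mul (h.const (-1)) hF) (Eventually.of_forall fun _ _ _ => by ring)

theorem good_all {κ : Type*} [Nonempty κ] {𝒟 : κ → (ι → ℝ × E → ℂ) → Prop}
    (h : ∀ k, Good l O (𝒟 k)) : Good l O fun F => ∀ k, 𝒟 k F :=
  ⟨fun hF => (h (Classical.arbitrary κ)).sm (hF _), fun hF hG k => (h k).add (hF k) (hG k),
    fun hF hG k => (h k).mul (hF k) (hG k), fun c k => (h k).const c,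
    fun hF e k => (h k).congr (hF k) e⟩

theorem ev_O (hO : IsOpen O) {F G : ℝ × E → ℂ} (e : ∀ q ∈ O, G q = F q) {q : ℝ × E} (hq : q ∈ O) :
    G =ᶠ[𝓝 q] F := Filter.mem_of_superset (hO.mem_nhds hq) e

/-- smooth and locally uniformly Hoelder -/
def C0 (R : ℝ × E → ℝ × E → Prop) (l : Filter ι) (O : Set (ℝ × E)) (F : ι → ℝ × E → ℂ) : Prop :=
  Sm l O F ∧ YB R l O F

theorem good_C0 (hO : IsOpen O) (R : ℝ × E → ℝ × E → Prop) : Good l O (C0 R l O) :=
  ⟨fun h => h.1, fun h h' => ⟨(h.1.and h'.1).mono fun j hj q hq => (hj.1 q hq).add (hj.2 q hq),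
      h.2.add h'.2⟩,
    fun h h' => ⟨(h.1.and h'.1).mono fun j hj q hq => (hj.1 q hq).mul (hj.2 q hq), h.2.mul h'.2⟩,
    fun c => ⟨Eventually.of_forall fun _ _ _ => contDiffAt_const, YB.const c⟩,
    fun h e => ⟨(h.1.and e).mono fun j hj q hq =>
      (hj.1 q hq).congr_of_eventuallyEq (ev_O hO hj.2 hq), h.2.congr hO e⟩⟩

theorem Sm.dv {F : ι → ℝ × E → ℂ} (h : Sm l O F) (ξ : ℝ × E) : Sm l O fun j => Dv ξ (F j) :=
  h.mono fun j hj q hq => contDiffAt_Dv (hj q hq) ξ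

/-- all derivatives of order `≤ k` in the directions of `D` are in the class -/
def Tw (𝒞 : (ι → ℝ × E → ℂ) → Prop) (D : Set (ℝ × E)) : ℕ → (ι → ℝ × E → ℂ) → Prop
  | 0, F => 𝒞 F
  | k + 1, F => 𝒞 F ∧ ∀ ξ ∈ D, Tw 𝒞 D k fun j => Dv ξ (F j)

theorem Tw.base {k : ℕ} {F : ι → ℝ × E → ℂ} (h : Tw 𝒞 D k F) : 𝒞 F := by
  cases k
  · exact h
  · exact h.1

theorem Tw.mono : ∀ {k : ℕ} {F : ι → ℝ × E → ℂ}, Tw 𝒞 D (k + 1) F → Tw 𝒞 D k F
  | 0, _, h => h.1
  | _ + 1, _, h => ⟨h.1, fun ξ hξ => Tw.mono (h.2 ξ hξ)⟩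

theorem good_tw (hO : IsOpen O) (h : Good l O 𝒞) (D : Set (ℝ × E)) (k : ℕ) :
    Good l O (Tw 𝒞 D k) := by
  have d := fun {f : ℝ × E → ℂ} {q : ℝ × E} (h : ContDiffAt ℝ ∞ f q) => h.differentiableAt (by simp)
  induction k with
  | zero => exact h
  | succ k ih =>
    refine ⟨fun hF => h.sm hF.1, fun hF hG => ⟨h.add hF.1 hG.1, fun ξ hξ =>
        ih.congr (ih.add (hF.2 ξ hξ) (hG.2 ξ hξ)) ?_⟩, fun hF hG => ⟨h.mul hF.1 hG.1, fun ξ hξ =>
        ih.congr (ih.add (ih.mul (hF.2 ξ hξ) hG.mono) (ih.mul hF.mono (hG.2 ξ hξ))) ?_⟩,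
      fun c => ⟨h.const c, fun ξ hξ => ih.congr (ih.const 0) ?_⟩,
      fun hF e => ⟨h.congr hF.1 e, fun ξ hξ => ih.congr (hF.2 ξ hξ) ?_⟩⟩
    · filter_upwards [h.sm hF.1, h.sm hG.1] with j h1 h2 q hq
      exact Dv_add (d (h1 q hq)) (d (h2 q hq)) ξ
    · filter_upwards [h.sm hF.1, h.sm hG.1] with j h1 h2 q hq
      exact Dv_mul (d (h1 q hq)) (d (h2 q hq)) ξ
    · exact Eventually.of_forall fun j q _ => Dv_const c q ξ
    · exact e.mono fun j hj q hq => Dv_congr (ev_O hO hj hq) ξ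

theorem tw_Dv (hO : IsOpen O) (h : Good l O 𝒞) {η : ℝ × E}
    (hcl : ∀ F, 𝒞 F → 𝒞 fun j => Dv η (F j)) (k : ℕ) :
    ∀ F, Tw 𝒞 D k F → Tw 𝒞 D k fun j => Dv η (F j) := by
  induction k with
  | zero => exact hcl
  | succ k ih =>
    exact fun F hF => ⟨hcl F hF.1, fun ξ hξ => (good_tw hO h D k).congr (ih _ (hF.2 ξ hξ))
      ((h.sm hF.1).mono fun j hj q hq => Dv_comm (hj q hq) ξ η)⟩

variable {σ : Type} [Fintype σ] [DecidableEq σ]

theorem Dv_inv {G H : ℝ × E → Matrix σ σ ℂ} {q : ℝ × E}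
    (hG : ∀ a b, DifferentiableAt ℝ (fun r => G r a b) q)
    (hH : ∀ a b, DifferentiableAt ℝ (fun r => H r a b) q) (e : ∀ᶠ r in 𝓝 q, H r * G r = 1)
    (ξ : ℝ × E) (a b : σ) : Dv ξ (fun r => H r a b) q =
      -∑ k, (∑ i, H q a i * Dv ξ (fun r => G r i k) q) * H q k b := by
  set X : Matrix σ σ ℂ := Matrix.of fun a b => Dv ξ (fun r => H r a b) q with hX
  set Y : Matrix σ σ ℂ := Matrix.of fun a b => Dv ξ (fun r => G r a b) q with hY
  have h1 : X * G q + H q * Y = 0 := by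
    ext a b
    have h2 : (fun r => ∑ k, H r a k * G r k b) =ᶠ[𝓝 q] fun _ => (1 : Matrix σ σ ℂ) a b :=
      e.mono fun r hr => by rw [← hr]; rfl
    have h3 := Dv_congr h2 ξ
    rw [Dv_const, Dv_sum _ fun k _ => (hH a k).fun_mul (hG k b)] at h3
    simp only [Dv_mul (hH a _) (hG _ b), Finset.sum_add_distrib] at h3
    exact h3
  have h4 : G q * H q = 1 := mul_eq_one_comm.1 e.self_of_nhds
  have h5 : X = -(H q * Y * H q) := by
    calc X = X * G q * H q := by rw [Matrix.mul_assoc, h4, Matrix.mul_one]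
      _ = _ := by rw [eq_neg_of_add_eq_zero_left h1, Matrix.neg_mul]
  exact congrFun (congrFun h5 a) b

theorem tw_inv (hO : IsOpen O) (h : Good l O 𝒞) {g gi : ι → ℝ × E → Matrix σ σ ℂ}
    (e : ∀ᶠ j in l, ∀ q ∈ O, gi j q * g j q = 1) (hi : ∀ a b, 𝒞 fun j q => gi j q a b) (k : ℕ)
    (hg : ∀ a b, Tw 𝒞 D k fun j q => g j q a b) (a b : σ) : Tw 𝒞 D k fun j q => gi j q a b := by
  induction k generalizing a b with
  | zero => exact hi a b
  | succ k ih =>
    have G := good_tw hO h D k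
    have ih' := ih fun a b => (hg a b).mono
    refine ⟨hi a b, fun ξ hξ => G.congr (G.neg (G.sum Finset.univ fun c _ => G.mul
      (G.sum Finset.univ fun i _ => G.mul (ih' a i) ((hg i c).2 ξ hξ)) (ih' c b))) ?_⟩
    filter_upwards [e, eventually_all.2 fun a => eventually_all.2 fun b => h.sm (hi a b),
      eventually_all.2 fun a => eventually_all.2 fun b => h.sm (hg a b).1] with j h1 h2 h3 q hq
    exact Dv_inv (fun a b => (h3 a b q hq).differentiableAt (by simp))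
      (fun a b => (h2 a b q hq).differentiableAt (by simp))
      (Filter.mem_of_superset (hO.mem_nhds hq) h1) ξ a b

/-- the spatial directions -/
def DS (e : E ≃ₗᵢ[ℝ] En m) : Set (ℝ × E) := range fun p => ((0 : ℝ), bv e p)

/-- `C^{k, 1/2}` in space, locally uniformly -/
def PK (e : E ≃ₗᵢ[ℝ] En m) (l : Filter ι) (O : Set (ℝ × E)) (k : ℕ) : (ι → ℝ × E → ℂ) → Prop :=
  Tw (C0 ST l O) (DS e) k

theorem pk_succ (e : E ≃ₗᵢ[ℝ] En m) {k : ℕ} {F : ι → ℝ × E → ℂ} :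
    PK e l O (k + 1) F ↔ C0 ST l O F ∧ ∀ p, PK e l O k fun j => Dp e p (F j) :=
  and_congr_right' forall_mem_range

/-- ellipticity -/
def Ell (l : Filter ι) (O : Set (ℝ × E)) (c : Fin m → Fin m → ι → ℝ × E → ℂ) : Prop :=
  ∀ q0 ∈ O, ∃ (a0 : Matrix (Fin m) (Fin m) ℝ) (c0 : Fin m → Fin m → ℂ), a0.PosDef ∧
    (∀ S : Fin m → Fin m → ℂ, (∀ p q, S p q = S q p) →
      ∑ p, ∑ q, c0 p q * S p q = ∑ p, ∑ q, (a0 p q : ℂ) * S p q) ∧
    ∀ δ : ℝ, 0 < δ → ∃ r : ℝ, 0 < r ∧ ∀ᶠ j in l, ∀ q ∈ ball q0 r, ∀ p p',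
      ‖c p p' j q - c0 p p'‖ ≤ δ

/-- interior Schauder estimates of all orders -/
theorem linqk [FiniteDimensional ℝ E] (e : E ≃ₗᵢ[ℝ] En m) (hO : IsOpen O)
    {c : Fin m → Fin m → ι → ℝ × E → ℂ} (ell : Ell l O c) (k : ℕ)
    (hc : ∀ p q, PK e l O k (c p q)) : ∀ u f : ι → ℝ × E → ℂ, PK e l O k f → PK e l O (k + 1) u →
    (∀ᶠ j in l, ∀ q ∈ O,
      Dt (u j) q = ∑ p, ∑ p', c p p' j q * Dp e p (Dp e p' (u j)) q + f j q) →
    PK e l O (k + 2) u := by
  induction k with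
  | zero =>
    intro u f hf hu he
    obtain ⟨h0, h1⟩ := (pk_succ e).1 hu
    refine (pk_succ e).2 ⟨h0, fun p => (pk_succ e).2 ⟨h1 p, fun p' => ⟨(h0.1.dv _).dv _, ?_⟩⟩⟩
    exact linq e hO h0.1 hf.1 (fun p q => (hc p q).1) h0.2 (fun p => (h1 p).2) hf.2
      (fun p q => (hc p q).2) ell he p' p
  | succ k ih =>
    intro u f hf hu he
    obtain ⟨h0, h1⟩ := (pk_succ e).1 hu
    have G : Good l O (PK e l O k) := good_tw hO (good_C0 hO ST) _ k
    refine (pk_succ e).2 ⟨h0, fun r => ih (fun p q => (hc p q).mono) _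
      (fun j q => ∑ p, ∑ p', Dp e r (c p p' j) q * Dp e p (Dp e p' (u j)) q + Dp e r (f j) q)
      (G.add (G.sum _ fun p _ => G.sum _ fun p' _ => G.mul (((pk_succ e).1 (hc p p')).2 r)
        (((pk_succ e).1 (h1 p')).2 p)) (((pk_succ e).1 hf).2 r)) (h1 r) ?_⟩
    filter_upwards [he, h0.1, hf.1.1,
      eventually_all.2 fun p => eventually_all.2 fun p' => (hc p p').1.1] with j a1 a2 a3 a4 q hq
    have d := fun {f : ℝ × E → ℂ} (h : ContDiffAt ℝ ∞ f q) => h.differentiableAt (by simp)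
    have s2 : ∀ p p', ContDiffAt ℝ ∞ (Dp e p (Dp e p' (u j))) q := fun p p' =>
      contDiffAt_Dv (contDiffAt_Dv (a2 q hq) _) _
    have e1 : ∀ p p', Dp e r (Dp e p (Dp e p' (u j))) q = Dp e p (Dp e p' (Dp e r (u j))) q := by
      intro p p'
      unfold Dp
      rw [Dv_comm (contDiffAt_Dv (a2 q hq) _)]
      exact Dv_congr (ev_O hO (fun w hw => Dv_comm (a2 w hw) _ _) hq) _
    have e2 : Dt (Dp e r (u j)) q = Dp e r (Dt (u j)) q := Dv_comm (a2 q hq) _ _
    rw [e2]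
    unfold Dp at *
    rw [Dv_congr (ev_O hO a1 hq), Dv_add (d (ContDiffAt.sum fun p _ => ContDiffAt.sum fun p' _ =>
      (a4 p p' q hq).mul (s2 p p'))) (d (a3 q hq)), Dv_sum _ fun p _ => d (ContDiffAt.sum fun p' _ =>
      (a4 p p' q hq).mul (s2 p p')), ← add_assoc, ← Finset.sum_add_distrib]
    congr 1
    refine Finset.sum_congr rfl fun p _ => ?_
    rw [Dv_sum _ fun p' _ => d ((a4 p p' q hq).mul (s2 p p')), ← Finset.sum_add_distrib]
    refine Finset.sum_congr rfl fun p' _ => ?_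
    rw [Dv_mul (d (a4 p p' q hq)) (d (s2 p p')), e1, add_comm]

theorem sum_bv (e : E ≃ₗᵢ[ℝ] En m) (x : E) : x = ∑ p, e x p • bv e p := by
  apply e.injective
  simp only [map_sum, map_smul, bv, e.apply_symm_apply]
  ext i
  simp [Finset.sum_apply, Pi.single_apply]

theorem norm_le_dir (e : E ≃ₗᵢ[ℝ] En m) (L : ℝ × E →L[ℝ] ℂ) :
    ‖L‖ ≤ ‖L (1, 0)‖ + ∑ p, ‖L (0, bv e p)‖ := by
  refine L.opNorm_le_bound (by positivity) fun ξ => ?_
  have h1 : ξ = ξ.1 • ((1 : ℝ), (0 : E)) + ∑ p, e ξ.2 p • ((0 : ℝ), bv e p) := by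
    ext
    · simp [Prod.fst_sum]
    · simpa [Prod.snd_sum] using sum_bv e ξ.2
  have h2 : ∀ p, ‖e ξ.2 p‖ ≤ ‖ξ‖ := fun p =>
    (PiLp.norm_apply_le _ p).trans ((e.norm_map _).le.trans (norm_snd_le ξ))
  conv_lhs => rw [h1]
  rw [map_add, map_sum, add_mul, Finset.sum_mul]
  refine (norm_add_le _ _).trans (add_le_add ?_ ((norm_sum_le _ _).trans
    (Finset.sum_le_sum fun p _ => ?_)))
  · rw [map_smul, norm_smul, mul_comm]
    exact mul_le_mul_of_nonneg_left (norm_fst_le ξ) (norm_nonneg _)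
  · rw [map_smul, norm_smul, mul_comm]
    exact mul_le_mul_of_nonneg_left (h2 p) (norm_nonneg _)

/-- no Hoelder condition -/
def NR (q q' : ℝ × E) : Prop := False

/-- all pairs -/
def AR (q q' : ℝ × E) : Prop := True

theorem yb_of_deriv (e : E ≃ₗᵢ[ℝ] En m) (hO : IsOpen O) {F : ι → ℝ × E → ℂ} (h : C0 NR l O F)
    (ht : YB NR l O fun j => Dt (F j)) (hp : ∀ p, YB NR l O fun j => Dp e p (F j)) :
    YB AR l O F := fun q0 hq0 => by
  obtain ⟨ρ, hρ, hb⟩ := Metric.isOpen_iff.1 hO q0 hq0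
  obtain ⟨⟨r, C⟩, ⟨⟨⟨y1, y2⟩, y3⟩, hr, hC⟩, hrρ⟩ := (((((h.2.ev hq0).and (ht.ev hq0)).and
    (eventually_all.2 fun p => (hp p).ev hq0)).and ev_pos).and
    (tendsto_fst.eventually (Ioo_mem_nhdsGT hρ))).exists
  simp only at y1 y2 y3 hr hC hrρ
  have hs : ball q0 r ⊆ O := (ball_subset_ball hrρ.2.le).trans hb
  have hm : 0 ≤ (m : ℝ) * C := by positivity
  refine ⟨r, 2 * C + (C + m * C), hr, by positivity, ?_⟩
  filter_upwards [h.1, y1, y2, eventually_all.2 y3] with j a0 a1 a2 a3 q hq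
  refine ⟨by linarith [(a1 q hq).1], fun q' hq' _ => ?_⟩
  have := (convex_ball q0 r).norm_image_sub_le_of_norm_fderiv_le (𝕜 := ℝ) (f := F j)
    (C := C + m * C) (fun z hz => (a0 z (hs hz)).differentiableAt (by simp)) (fun z hz => ?_) hq' hq
  · exact le_sqrt_of_min hC (by positivity) dist_nonneg
      ((norm_sub_le _ _).trans (by linarith [(a1 q hq).1, (a1 q' hq').1])) (by rwa [dist_eq_norm])
  · refine (norm_le_dir e _).trans (add_le_add (a2 z hz).1 ?_)
    calc _ ≤ ∑ _p : Fin m, C := Finset.sum_le_sum fun p _ => (a3 p z hz).1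
      _ = _ := by simp

theorem jets (e : E ≃ₗᵢ[ℝ] En m) (hO : IsOpen O) (h0 : ∀ F, 𝒞 F → C0 NR l O F)
    (ht : ∀ F, 𝒞 F → 𝒞 fun j => Dt (F j)) (hp : ∀ p F, 𝒞 F → 𝒞 fun j => Dp e p (F j)) (N : ℕ) :
    ∀ F, 𝒞 F → ∀ q0 ∈ O, ∃ C : ℝ, ∀ᶠ rj : ℝ × ι in (𝓝[>] (0 : ℝ)) ×ˢ l, ∀ q ∈ ball q0 rj.1,
      ‖iteratedFDeriv ℝ N (F rj.2) q‖ ≤ C := by
  induction N with
  | zero =>
    intro F hF q0 hq0
    obtain ⟨r, C, hr, hC, hj⟩ := (h0 F hF).2 q0 hq0
    refine ⟨C, ?_⟩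
    filter_upwards [tendsto_fst.eventually (Ioo_mem_nhdsGT hr), tendsto_snd.eventually hj]
      with rj h1 h2 q hq
    rw [norm_iteratedFDeriv_zero]
    exact (h2 q (ball_subset_ball h1.2.le hq)).1
  | succ N ih =>
    intro F hF q0 hq0
    obtain ⟨ρ, hρ, hb⟩ := Metric.isOpen_iff.1 hO q0 hq0
    obtain ⟨C, hC⟩ := ih _ (ht F hF) q0 hq0
    choose C' hC' using fun p => ih _ (hp p F hF) q0 hq0
    refine ⟨C + ∑ p, C' p, ?_⟩
    filter_upwards [tendsto_fst.eventually (Ioo_mem_nhdsGT hρ), tendsto_snd.eventually (h0 F hF).1,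
      hC, eventually_all.2 hC'] with rj h1 h2 h3 h4 q hq
    have h5 : ContDiffAt ℝ ∞ (fderiv ℝ (F rj.2)) q :=
      (h2 q (hb (ball_subset_ball h1.2.le hq))).fderiv_right (by simp)
    have h6 : ∀ ξ (v : Fin N → ℝ × E), iteratedFDeriv ℝ N (fderiv ℝ (F rj.2)) q v ξ =
        iteratedFDeriv ℝ N (Dv ξ (F rj.2)) q v := fun ξ v => by
      have := (ContinuousLinearMap.apply ℝ ℂ ξ).iteratedFDeriv_comp_left h5 (i := N)
        (by exact_mod_cast le_top)
      exact (congrArg (fun M => M v) this).symm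
    have h7 : 0 ≤ C := (norm_nonneg _).trans (h3 q hq)
    have h8 : ∀ p, 0 ≤ C' p := fun p => (norm_nonneg _).trans (h4 p q hq)
    rw [← norm_iteratedFDeriv_fderiv]
    refine ContinuousMultilinearMap.opNorm_le_bound
      (add_nonneg h7 (Finset.sum_nonneg fun p _ => h8 p)) fun v => ?_
    refine (norm_le_dir e _).trans ?_
    rw [add_mul, Finset.sum_mul]
    simp only [h6]
    exact add_le_add (ContinuousMultilinearMap.le_of_opNorm_le (h3 q hq) v)
      (Finset.sum_le_sum fun p _ => ContinuousMultilinearMap.le_of_opNorm_le (h4 p q hq) v)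

/-- **the bootstrap** for a quasilinear parabolic system whose coefficients are polynomials in
`g⁻¹` and `D g` -/
theorem boot [FiniteDimensional ℝ E] (e : E ≃ₗᵢ[ℝ] En m) (hO : IsOpen O)
    {g gi : ι → ℝ × E → Matrix σ σ ℂ} {c : Fin m → Fin m → ι → ℝ × E → ℂ}
    {f : σ → σ → ι → ℝ × E → ℂ} (hinv : ∀ᶠ j in l, ∀ q ∈ O, gi j q * g j q = 1)
    (bg : ∀ a b, C0 NR l O fun j q => g j q a b) (bi : ∀ a b, C0 NR l O fun j q => gi j q a b)
    (bt : ∀ a b, YB NR l O fun j => Dt fun q => g j q a b)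
    (b1 : ∀ a b p, YB ST l O fun j => Dp e p fun q => g j q a b)
    (hc : ∀ 𝒞, Good l O 𝒞 → (∀ a b, 𝒞 fun j q => gi j q a b) → ∀ p q, 𝒞 (c p q))
    (hf : ∀ 𝒞, Good l O 𝒞 → (∀ a b, 𝒞 fun j q => gi j q a b) →
      (∀ a b p, 𝒞 fun j => Dp e p fun q => g j q a b) → ∀ a b, 𝒞 (f a b))
    (ell : ∀ q0 ∈ O, ∃ (a0 : Matrix (Fin m) (Fin m) ℝ) (c0 : Fin m → Fin m → ℂ), a0.PosDef ∧
      (∀ S : Fin m → Fin m → ℂ, (∀ p q, S p q = S q p) →
        ∑ p, ∑ q, c0 p q * S p q = ∑ p, ∑ q, (a0 p q : ℂ) * S p q) ∧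
      ∀ p p', Tendsto (fun j => c p p' j q0) l (𝓝 (c0 p p')))
    (he : ∀ a b, ∀ᶠ j in l, ∀ q ∈ O, Dt (fun q => g j q a b) q =
      ∑ p, ∑ p', c p p' j q * Dp e p (Dp e p' fun q => g j q a b) q + f a b j q)
    {Q : Set (ℝ × E)} (hQ : IsCompact Q) (hQO : Q ⊆ O) (a b : σ) (N : ℕ) :
    ∃ C : ℝ, ∀ᶠ j in l, ∀ q ∈ Q, ‖iteratedFDeriv ℝ N (fun q => g j q a b) q‖ ≤ C := by
  have w1 : ∀ {F : ι → ℝ × E → ℂ} {R}, YB R l O F → YB NR l O F := fun h =>
    h.weaken fun _ _ h => h.elim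
  have w2 : ∀ {F : ι → ℝ × E → ℂ}, YB AR l O F → YB ST l O F := fun h =>
    h.weaken fun _ _ _ => trivial
  have t1 : ∀ a b, Tw (C0 NR l O) (insert (1, 0) (DS e)) 1 fun j q => g j q a b := fun a b =>
    ⟨bg a b, forall_mem_insert.2 ⟨⟨(bg a b).1.dv _, bt a b⟩,
      forall_mem_range.2 fun p => ⟨(bg a b).1.dv _, w1 (b1 a b p)⟩⟩⟩
  have lip : ∀ {F : ι → ℝ × E → ℂ}, Tw (C0 NR l O) (insert (1, 0) (DS e)) 1 F → C0 AR l O F :=
    fun h => ⟨h.1.1, yb_of_deriv e hO h.1 (h.2 _ (mem_insert _ _)).2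
      fun p => (h.2 _ (mem_insert_of_mem _ (mem_range_self p))).2⟩
  have lg := fun a b => lip (t1 a b)
  have li := fun a b => lip (tw_inv hO (good_C0 hO NR) hinv bi 1 t1 a b)
  have lc := hc _ (good_C0 hO AR) li
  have ell' : Ell l O c := fun q0 hq0 => by
    obtain ⟨a0, c0, h1, h2, h3⟩ := ell q0 hq0
    refine ⟨a0, c0, h1, h2, fun δ hδ => ?_⟩
    obtain ⟨⟨r, C⟩, y, hr, hC⟩ := ((eventually_all.2 fun p => eventually_all.2 fun p' =>
      (lc p p').2.ev hq0).and ev_pos).exists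
    simp only at y hr hC
    refine ⟨min r ((δ / 2 / (C + 1)) ^ 2), by positivity, ?_⟩
    filter_upwards [eventually_all.2 fun p => eventually_all.2 fun p' => y p p',
      eventually_all.2 fun p => eventually_all.2 fun p' =>
        Metric.tendsto_nhds.1 (h3 p p') (δ / 2) (by positivity)] with j a1 a2 q hq p p'
    have a3 := (a1 p p' q (ball_subset_ball (min_le_left _ _) hq)).2 q0 (mem_ball_self hr) trivial
    have a4 : √(dist q q0) ≤ δ / 2 / (C + 1) :=
      Real.sqrt_le_iff.2 ⟨by positivity, ((mem_ball.1 hq).trans_le (min_le_right _ _)).le⟩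
    have a5 : C * √(dist q q0) ≤ δ / 2 := by
      rw [le_div_iff₀ (by positivity)] at a4
      nlinarith [Real.sqrt_nonneg (dist q q0)]
    have a6 := a2 p p'
    rw [dist_eq_norm] at a6
    linarith [norm_sub_le_norm_sub_add_norm_sub (c p p' j q) (c p p' j q0) (c0 p p')]
  have i0 : ∀ a b, C0 ST l O fun j q => gi j q a b := fun a b => ⟨(li a b).1, w2 (li a b).2⟩
  have GP : ∀ k, Good l O (PK e l O k) := good_tw hO (good_C0 hO ST) _
  have s1 : ∀ k a b, PK e l O (k + 1) fun j q => g j q a b := by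
    intro k
    induction k with
    | zero => exact fun a b => (pk_succ e).2 ⟨⟨(lg a b).1, w2 (lg a b).2⟩,
        fun p => ⟨(bg a b).1.dv _, b1 a b p⟩⟩
    | succ k ih =>
      have hi := tw_inv hO (good_C0 hO ST) hinv i0 k fun a b => (ih a b).mono
      exact fun a b => linqk e hO ell' k (hc _ (GP k) hi) _ _
        (hf _ (GP k) hi (fun a b => ((pk_succ e).1 (ih a b)).2) a b) (ih a b) (he a b)
  have G2 := good_all GP
  have c2 : ∀ p F, (∀ k, PK e l O k F) → ∀ k, PK e l O k fun j => Dp e p (F j) :=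
    fun p F h k => ((pk_succ e).1 (h (k + 1))).2 p
  have i2 : ∀ a b k, PK e l O k fun j q => gi j q a b := fun a b k =>
    tw_inv hO (good_C0 hO ST) hinv i0 k (fun a b => (s1 k a b).mono) a b
  have s2 : ∀ k a b, Tw (fun F => ∀ k, PK e l O k F) {(1, 0)} k fun j q => g j q a b := by
    intro k
    induction k with
    | zero => exact fun a b k => (s1 k a b).mono
    | succ k ih =>
      have G := good_tw hO G2 {(1, 0)} k
      have hi := tw_inv hO G2 hinv i2 k ih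
      have hd := fun p => tw_Dv (D := {(1, 0)}) hO G2 (c2 p) k
      refine fun a b => ⟨(ih a b).base, fun ξ hξ => ?_⟩
      rw [mem_singleton_iff.1 hξ]
      exact G.congr (G.add (G.sum _ fun p _ => G.sum _ fun p' _ => G.mul (hc _ G hi p p')
        (hd p _ (hd p' _ (ih a b)))) (hf _ G hi (fun a b p => hd p _ (ih a b)) a b)) (he a b)
  have key := jets (𝒞 := fun F => ∀ k, Tw (fun F => ∀ k, PK e l O k F) {(1, 0)} k F) e hO
    (fun F h => ⟨(h 0 0).1, w1 (h 0 0).2⟩) (fun F h k => (h (k + 1)).2 _ rfl)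
    (fun p F h k => tw_Dv hO G2 (c2 p) k F (h k)) N _ fun k => s2 k a b
  refine hQ.induction_on (p := fun S => ∃ C : ℝ, ∀ᶠ j in l, ∀ q ∈ S,
    ‖iteratedFDeriv ℝ N (fun q => g j q a b) q‖ ≤ C) ⟨0, by simp⟩ ?_ ?_ ?_
  · rintro S T hST ⟨C, hC⟩
    exact ⟨C, hC.mono fun j hj q hq => hj q (hST hq)⟩
  · rintro S T ⟨C, hC⟩ ⟨C', hC'⟩
    exact ⟨max C C', (hC.and hC').mono fun j hj q hq => hq.elim
      (fun h => (hj.1 q h).trans (le_max_left _ _)) fun h => (hj.2 q h).trans (le_max_right _ _)⟩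
  · intro q0 hq0
    obtain ⟨C, hC⟩ := key q0 (hQO hq0)
    obtain ⟨r, h1, h2⟩ := (hC.curry.and self_mem_nhdsWithin).exists
    exact ⟨ball q0 r, mem_nhdsWithin_of_mem_nhds (ball_mem_nhds _ h2), C, h1⟩

end Crest.Agent.T223.Lm
end
end

-- ▼ part T223/Gr5_44
section

/-!
# Row 223 (helper44): `Lm.GradStmt` (`C^{1,1/2}` bounds from two sided bounds and curvature)
-/

set_option autoImplicit false

open Set Filter Topology Complex Metric
open scoped ContDiff ComplexConjugate Matrix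

namespace Crest.Agent.T223.Gr

open Crest.Agent.R275.Geo Crest.Agent.R275.EDR890 Crest.Agent.R273.Hess_333
open Crest.Agent.T223.Br Crest.Agent.T223.Tr

noncomputable section

variable {n : ℕ}

theorem norm_le_of_wdL {L : Cn n →L[ℝ] ℂ} {C : ℝ} (hC : 0 ≤ C) (h : ∀ s, ‖wdL s L‖ ≤ C) :
    ‖L‖ ≤ 2 * n * C := by
  have := norm_fderiv_le (f := L) (z := 0) hC (fun s => by rw [wd, L.fderiv]; exact h s)
  rwa [L.fderiv] at this

/-- Hoelder modulus of an almost holomorphic function -/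
theorem ah_hoelder {f : Cn n → ℂ} {z y : Cn n} {ρ A B : ℝ} (hρ : 0 < ρ) (hB0 : 0 ≤ B)
    (hf : ContDiffOn ℝ ∞ f (ball z (4 * ρ))) (hA : ∀ w ∈ ball z (4 * ρ), ‖f w‖ ≤ A)
    (hB : ∀ w ∈ ball z (4 * ρ), ∀ b, ‖wd (true, b) f w‖ ≤ B) (hy : y ∈ ball z (4 * ρ)) :
    ‖f y - f z‖ ≤ (2 * A / √ρ + 8 * (n * B) * √ρ) * √(dist y z) := by
  have hA0 : 0 ≤ A := (norm_nonneg _).trans (hA y hy)
  have hs : 0 < √ρ := Real.sqrt_pos.2 hρ
  have hss : √ρ * √ρ = ρ := Real.mul_self_sqrt hρ.le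
  rw [dist_eq_norm]
  set d := ‖y - z‖ with hd
  have hd0 : 0 ≤ d := norm_nonneg _
  have hdd : √d * √d = d := Real.mul_self_sqrt hd0
  have hsd : 0 ≤ √d := Real.sqrt_nonneg _
  rcases eq_or_lt_of_le hd0 with h0 | h0
  · have : y = z := sub_eq_zero.1 (norm_eq_zero.1 h0.symm)
    rw [this, sub_self, norm_zero]; positivity
  have hsd' : 0 < √d := Real.sqrt_pos.2 h0
  rcases le_or_gt d ρ with h1 | h1
  · have h2 : √d ≤ √ρ := Real.sqrt_le_sqrt h1
    have h3 := ah_modulusN (z := z) (y := y) (R := 2 * (√d * √ρ)) (by positivity) (by nlinarith)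
      hf hA hB (by rw [← hd]; nlinarith)
    refine h3.trans ?_
    rw [← hd]
    have h4 : 2 * A * d / (2 * (√d * √ρ)) = A / √ρ * √d := by
      field_simp
      rw [sq, hdd]
    rw [h4]
    have h5 : 0 ≤ A / √ρ * √d := by positivity
    have h6 : (2 * A / √ρ + 8 * (n * B) * √ρ) * √d =
      2 * (A / √ρ * √d) + 4 * (n * B) * (2 * (√d * √ρ)) := by ring
    linarith
  · have h2 : √ρ ≤ √d := Real.sqrt_le_sqrt h1.le
    have h3 : ‖f y - f z‖ ≤ 2 * A :=
      (norm_sub_le _ _).trans (by linarith [hA y hy, hA z (mem_ball_self (by linarith))])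
    have h4 : 2 * A ≤ 2 * A / √ρ * √d := by
      rw [div_mul_eq_mul_div, le_div_iff₀ hs]; gcongr
    have h5 : 0 ≤ 8 * (n * B) * √ρ * √d := by positivity
    linarith [add_mul (2 * A / √ρ) (8 * (n * B) * √ρ) √d]

theorem gradStmt (n : ℕ) : Lm.GradStmt n := by
  intro c C r hc hr
  set Λ := 1 / c + |C| with hΛ
  set K := |C| / c ^ 2 with hK
  have hΛ0 : 0 < Λ := by positivity
  have hK0 : 0 ≤ K := by positivity
  obtain ⟨D, hD0, hD⟩ := grad n (r / 4) Λ K (by linarith)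
  set B := 16 * K * Λ ^ 2 + n * D * D with hB
  have hB0 : 0 ≤ B := by positivity
  set T := 2 * D / √(r / 8) + 8 * (n * B) * √(r / 8) with hT
  have hT0 : 0 ≤ T := by positivity
  refine ⟨D + 2 * n * T, fun g z0 h1 h2 h3 h4 a b z hz => ?_⟩
  have H : HB g z0 r Λ K :=
    { sm := fun a b z hz => (h1 z hz a b).contDiffWithinAt
      herm := h2
      lo := fun z hz v => by
        have h5 := (h3 z hz v).1
        have h6 : 0 ≤ nq (g z) v := le_trans (by positivity) h5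
        have h7 : ‖v‖ ^ 2 ≤ 1 / c * nq (g z) v := by
          rw [one_div, ← div_eq_inv_mul, le_div_iff₀ hc]; linarith
        nlinarith [abs_nonneg C]
      hi := fun z hz v => by
        have h5 := (h3 z hz v).2
        have h6 : C ≤ Λ := by linarith [le_abs_self C, one_div_pos.2 hc]
        nlinarith [sq_nonneg ‖v‖]
      cur := fun z hz v w => by
        have h5 := (h3 z hz v).1
        have h6 := (h3 z hz w).1
        have h7 : 0 ≤ nq (g z) v := le_trans (by positivity) h5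
        refine (h4 z hz v w).trans ?_
        calc C * ‖v‖ ^ 2 * ‖w‖ ^ 2 ≤ |C| * ‖v‖ ^ 2 * ‖w‖ ^ 2 := by gcongr; exact le_abs_self C
          _ = K * (c * ‖v‖ ^ 2) * (c * ‖w‖ ^ 2) := by rw [hK]; field_simp
          _ ≤ _ := by gcongr
      Λ_pos := hΛ0
      K_nonneg := hK0 }
  have hsub : ∀ {w : Cn n} {s t : ℝ}, w ∈ ball z0 s → ball w t ⊆ ball z0 (s + t) :=
    fun {w s t} hw y hy => by
      have := dist_triangle y w z0
      rw [mem_ball] at hw hy ⊢
      linarith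
  have hb : ∀ w ∈ ball z0 (3 * r / 4), HB g w (r / 4) Λ K := fun w hw =>
    H.mono ((hsub hw).trans (ball_subset_ball (by linarith))) le_rfl
  have h34 : ball z0 (3 * r / 4) ⊆ ball z0 r := ball_subset_ball (by linarith)
  have h14 : ball z0 (r / 4) ⊆ ball z0 (3 * r / 4) := ball_subset_ball (by linarith)
  have hn : 0 ≤ 2 * n * T := by positivity
  refine ⟨by linarith [(hD _ _ (hb z (h14 hz))).2.1 a b], fun y hy => ?_⟩
  have hs : ball y (4 * (r / 8)) ⊆ ball z0 (3 * r / 4) :=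
    (hsub hy).trans (ball_subset_ball (by linarith))
  have hzy : z ∈ ball y (4 * (r / 8)) := by
    have := dist_triangle_right z y z0
    rw [mem_ball] at hz hy ⊢
    linarith
  have key : ∀ e a b, ‖wd (false, e) (fun w => g w a b) z - wd (false, e) (fun w => g w a b) y‖ ≤
      T * √(dist z y) := fun e a b =>
    ah_hoelder (f := wd (false, e) fun w => g w a b) (A := D) (by linarith) hB0
      (fun w hw => (H.cd_wdM (h34 (hs hw)) _ a b).contDiffWithinAt)
      (fun w hw => (hD _ _ (hb w (hs hw))).1 _ a b)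
      (fun w hw d => by
        have h5 : wdM (true, d) (wdM (false, e) g) w =
            Gam g e w * wdM (true, d) g w - Rm g w e d := by
          rw [H.wdM_comm (h34 (hs hw)), Rm, Gam]; abel
        have h6 : wd (true, d) (wd (false, e) fun w => g w a b) w =
            wdM (true, d) (wdM (false, e) g) w a b := rfl
        rw [h6, h5, Matrix.sub_apply]
        refine (norm_sub_le _ _).trans ?_
        have h7 := mul_entry_le (A := Gam g e w) (B := wdM (true, d) g w)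
          ((hD _ _ (hb w (hs hw))).2.2 e) ((hD _ _ (hb w (hs hw))).1 _) a b
        linarith [H.Rm_le (h34 (hs hw)) e d a b]) hzy
  have hq : 0 ≤ √(dist z y) := Real.sqrt_nonneg _
  have h8 := norm_le_of_wdL (L := fderiv ℝ (fun w => g w a b) z - fderiv ℝ (fun w => g w a b) y)
    (C := T * √(dist z y)) (by positivity) fun s => by
      rw [← wdLc_apply, map_sub]
      change ‖wd s (fun w => g w a b) z - wd s (fun w => g w a b) y‖ ≤ _
      obtain ⟨t, e⟩ := s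
      cases t
      · exact key e a b
      · have h9 : ∀ w ∈ ball z0 r, wd (true, e) (fun w => g w a b) w =
            conj (wd (false, e) (fun w => g w b a) w) := fun w hw => by
          have := H.wdM_ct' hw (false, e)
          simp only [Bool.not_false] at this
          rw [← wdM_apply, ← this]; rfl
        rw [h9 z (h34 (h14 hz)), h9 y (h34 (h14 hy)), ← map_sub, RCLike.norm_conj]
        exact key e b a
  nlinarith [mul_nonneg hD0 hq]

end

end Crest.Agent.T223.Gr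
end

-- ▼ part T223/LmJet_16
section

/-!
# Row 223, module LIMIT (helper16): `JetStmt`
-/

set_option autoImplicit false

open Set Filter Topology Metric
open scoped ContDiff ComplexConjugate Matrix ComplexOrder

namespace Crest.Agent.T223.Lm

open Crest.Agent.R275.Geo Crest.Agent.R275.EDR890
open Crest.Agent.R273.Kah_333 Crest.Agent.R273.Hess_333 Crest.Agent.R273.RMan4_798
open Crest.Agent.T223.Br Crest.Agent.T223.Tr Crest.Agent.N207.Jt

namespace J16

variable {n : ℕ} {ι : Type} {l : Filter ι} {q : ℝ × Cn n}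

/-- the space-time jets of `F j` at `q` converge to those of `F'` -/
def JC (l : Filter ι) (q : ℝ × Cn n) (F : ι → ℝ → Cn n → ℂ) (F' : ℝ → Cn n → ℂ) : Prop :=
  GE l (fun j (r : ℝ × Cn n) => F j r.1 r.2) (fun _ => q) (fun _ (r : ℝ × Cn n) => F' r.1 r.2)
    fun _ => q

section scalar

variable {F G : ι → ℝ → Cn n → ℂ} {F' G' : ℝ → Cn n → ℂ}

theorem JC.val (h : JC l q F F') : Tendsto (fun j => F j q.1 q.2) l (𝓝 (F' q.1 q.2)) :=
  have h' := GE.val h
  tendsto_sub_nhds_zero_iff.1 h'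

theorem JC.const (c : ℂ) : JC l q (fun _ _ _ => c) fun _ _ => c := GE.const' c

theorem JC.add (h : JC l q F F') (h' : JC l q G G') :
    JC l q (fun j s y => F j s y + G j s y) fun s y => F' s y + G' s y := GE.add h h'

theorem JC.sub (h : JC l q F F') (h' : JC l q G G') :
    JC l q (fun j s y => F j s y - G j s y) fun s y => F' s y - G' s y := GE.sub h h'

theorem JC.mul (h : JC l q F F') (h' : JC l q G G') :
    JC l q (fun j s y => F j s y * G j s y) fun s y => F' s y * G' s y :=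
  (GE.prodMk h h').smooth (Φ := fun p : ℂ × ℂ => p.1 * p.2) (by fun_prop)

theorem JC.neg (h : JC l q F F') : JC l q (fun j s y => -F j s y) fun s y => -F' s y :=
  GE.smooth (Φ := fun p : ℂ => -p) (by fun_prop) h

theorem JC.sum {α : Type} (S : Finset α) {w : α → ι → ℝ → Cn n → ℂ} {w' : α → ℝ → Cn n → ℂ}
    (h : ∀ a ∈ S, JC l q (w a) (w' a)) :
    JC l q (fun j s y => ∑ a ∈ S, w a j s y) fun s y => ∑ a ∈ S, w' a s y := GE.sum S h

theorem JC.prod {α : Type} (S : Finset α) {w : α → ι → ℝ → Cn n → ℂ} {w' : α → ℝ → Cn n → ℂ}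
    (h : ∀ a ∈ S, JC l q (w a) (w' a)) :
    JC l q (fun j s y => ∏ a ∈ S, w a j s y) fun s y => ∏ a ∈ S, w' a s y := by
  classical
  induction S using Finset.induction_on with
  | empty => simpa using JC.const 1
  | insert a S ha ih =>
    simpa [Finset.prod_insert ha] using (h a (by simp)).mul (ih fun b hb => h b (by simp [hb]))

theorem JC.smoothAt (h : JC l q F F') {Φ : ℂ → ℂ}
    (hΦ : ∀ᶠ z in 𝓝 (F' q.1 q.2), ContDiffAt ℝ ∞ Φ z) :
    JC l q (fun j s y => Φ (F j s y)) fun s y => Φ (F' s y) := by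
  obtain ⟨K, hK, hs, hc⟩ := local_compact_nhds hΦ
  exact GE.smoothOn hc (fun z hz => hs hz) h (h.val.eventually hK)
    (Eventually.of_forall fun _ => mem_of_mem_nhds hK)

theorem JC.inv (h : JC l q F F') (h0 : F' q.1 q.2 ≠ 0) :
    JC l q (fun j s y => (F j s y)⁻¹) fun s y => (F' s y)⁻¹ :=
  h.smoothAt (Φ := fun z => z⁻¹) ((eventually_ne_nhds h0).mono fun _ hz => contDiffAt_inv ℝ hz)

theorem JC.log (h : JC l q F F') (h0 : (F' q.1 q.2).re ≠ 0) :
    JC l q (fun j s y => (Real.log (F j s y).re : ℂ)) fun s y => (Real.log (F' s y).re : ℂ) :=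
  h.smoothAt (Φ := fun z => (Real.log z.re : ℂ))
    ((Complex.continuous_re.continuousAt.eventually_ne h0).mono fun z hz =>
      Complex.ofRealCLM.contDiff.contDiffAt.comp z
        ((Real.contDiffAt_log.2 hz).comp z Complex.reCLM.contDiff.contDiffAt))

theorem ev_diff {f : ℝ × Cn n → ℂ} (h : ContDiffAt ℝ ∞ f q) :
    ∀ᶠ r in 𝓝 q, DifferentiableAt ℝ f r :=
  ((h.of_le (kle 1)).eventually (by simp)).mono fun _ hr => hr.differentiableAt (by simp)

/-- operators that are linear in the first jet -/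
theorem JC.op (h : JC l q F F') (D : (ℝ → Cn n → ℂ) → ℝ → Cn n → ℂ)
    (L : ((ℝ × Cn n) →L[ℝ] ℂ) →L[ℝ] ℂ)
    (hD : ∀ (f : ℝ → Cn n → ℂ) (r : ℝ × Cn n),
      DifferentiableAt ℝ (fun r : ℝ × Cn n => f r.1 r.2) r →
      D f r.1 r.2 = L (fderiv ℝ (fun r : ℝ × Cn n => f r.1 r.2) r)) :
    JC l q (fun j => D (F j)) (D F') := by
  refine ((GE.clm L (GE.fderiv h)).congr_left ?_).congr_right ?_
  · exact h.left.sm.mono fun j hj => ⟨rfl, (ev_diff hj).mono fun r hr => hD _ r hr⟩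
  · exact h.right.sm.mono fun j hj => ⟨rfl, (ev_diff hj).mono fun r hr => hD _ r hr⟩

theorem JC.wd (h : JC l q F F') (σ : WI n) :
    JC l q (fun j s => wd σ (F j s)) fun s => wd σ (F' s) := by
  refine h.op (fun f s => R275.EDR890.wd σ (f s)) ((wdLc σ).comp
    ((ContinuousLinearMap.compL ℝ (Cn n) (ℝ × Cn n) ℂ).flip (ContinuousLinearMap.inr ℝ ℝ (Cn n))))
    fun f r hr => ?_
  have := (HasFDerivAt.comp (g := fun r : ℝ × Cn n => f r.1 r.2) (f := fun w => (r.1, w)) r.2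
    hr.hasFDerivAt (hasFDerivAt_prodMk_right r.1 r.2)).fderiv
  exact congrArg (wdL σ) this

theorem JC.dt (h : JC l q F F') :
    JC l q (fun j t y => deriv (fun s => F j s y) t) fun t y => deriv (fun s => F' s y) t := by
  refine h.op (fun f t y => deriv (fun s => f s y) t)
    (ContinuousLinearMap.apply ℝ ℂ ((1, 0) : ℝ × Cn n)) fun f r hr => ?_
  exact (HasFDerivAt.comp_hasDerivAt (l := fun r : ℝ × Cn n => f r.1 r.2) (f := fun s => (s, r.2))
    r.1 hr.hasFDerivAt ((hasDerivAt_id r.1).prodMk (hasDerivAt_const r.1 r.2))).deriv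

end scalar

/-- the matrix valued version -/
def JM (l : Filter ι) (q : ℝ × Cn n) (g : ι → ℝ → Cn n → Mat n) (g' : ℝ → Cn n → Mat n) : Prop :=
  ∀ a b, JC l q (fun j s y => g j s y a b) fun s y => g' s y a b

section matrix

variable {g h : ι → ℝ → Cn n → Mat n} {g' h' : ℝ → Cn n → Mat n}

theorem JM.add (h1 : JM l q g g') (h2 : JM l q h h') :
    JM l q (fun j s y => g j s y + h j s y) fun s y => g' s y + h' s y :=
  fun a b => (h1 a b).add (h2 a b)

theorem JM.sub (h1 : JM l q g g') (h2 : JM l q h h') :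
    JM l q (fun j s y => g j s y - h j s y) fun s y => g' s y - h' s y :=
  fun a b => (h1 a b).sub (h2 a b)

theorem JM.neg (h1 : JM l q g g') : JM l q (fun j s y => -g j s y) fun s y => -g' s y :=
  fun a b => (h1 a b).neg

theorem JM.smul (h1 : JM l q g g') (c : ℂ) :
    JM l q (fun j s y => c • g j s y) fun s y => c • g' s y :=
  fun a b => (JC.const c).mul (h1 a b)

theorem JM.mul (h1 : JM l q g g') (h2 : JM l q h h') :
    JM l q (fun j s y => g j s y * h j s y) fun s y => g' s y * h' s y :=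
  fun a b => JC.sum Finset.univ fun c _ => (h1 a c).mul (h2 c b)

theorem JM.det (h1 : JM l q g g') :
    JC l q (fun j s y => (g j s y).det) fun s y => (g' s y).det := by
  simp only [Matrix.det_apply']
  exact JC.sum Finset.univ fun σ _ => (JC.const _).mul (JC.prod Finset.univ fun i _ => h1 _ _)

theorem JM.adj (h1 : JM l q g g') :
    JM l q (fun j s y => (g j s y).adjugate) fun s y => (g' s y).adjugate := fun a b => by
  simp only [Matrix.adjugate_apply]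
  refine JM.det fun c d => ?_
  simp only [Matrix.updateRow_apply]
  split_ifs
  · exact JC.const _
  · exact h1 c d

theorem JM.inv (h1 : JM l q g g') (h0 : (g' q.1 q.2).det ≠ 0) :
    JM l q (fun j s y => (g j s y)⁻¹) fun s y => (g' s y)⁻¹ := fun a b => by
  simp only [Matrix.inv_def, Ring.inverse_eq_inv', Matrix.smul_apply, smul_eq_mul]
  exact (h1.det.inv h0).mul (h1.adj a b)

theorem JM.wdM (h1 : JM l q g g') (σ : WI n) :
    JM l q (fun j s => wdM σ (g j s)) fun s => wdM σ (g' s) := fun a b => (h1 a b).wd σ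

theorem JM.hess (h1 : JM l q g g') (h0 : (g' q.1 q.2).det.re ≠ 0) :
    JM l q (fun j s => hess (ldet (g j s))) fun s => hess (ldet (g' s)) :=
  fun a b => ((h1.det.log h0).wd (true, b)).wd (false, a)

theorem JM.ric (h1 : JM l q g g') (h0 : (g' q.1 q.2).det.re ≠ 0) :
    JM l q (fun j s => ric (g j s)) fun s => ric (g' s) := (h1.hess h0).neg

theorem JM.ricT (h1 : JM l q g g') (h0 : (g' q.1 q.2).det.re ≠ 0) :
    JM l q (fun j => ricT (g j)) (ricT g') := fun a b => (h1.ric h0 a b).dt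

theorem JM.Rm (h1 : JM l q g g') (h0 : (g' q.1 q.2).det ≠ 0) (c d : Fin n) :
    JM l q (fun j s y => Rm (g j s) y c d) fun s y => Rm (g' s) y c d :=
  ((h1.wdM (true, d)).wdM (false, c)).neg.add
    (((h1.wdM (false, c)).mul (h1.inv h0)).mul (h1.wdM (true, d)))

theorem JM.nabRic (h1 : JM l q g g') (h0 : (g' q.1 q.2).det.re ≠ 0) (k : Fin n) :
    JM l q (fun j s y => nabRic (g j s) y k) fun s y => nabRic (g' s) y k :=
  ((h1.ric h0).wdM (false, k)).sub
    (((h1.wdM (false, k)).mul (h1.inv fun e => h0 (by rw [e, Complex.zero_re]))).mul (h1.ric h0))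

theorem JM.hC (h1 : JM l q g g') (v : Cn n) :
    JC l q (fun j s y => hC (g j s y) v) fun s y => hC (g' s y) v :=
  JC.sum Finset.univ fun a _ => JC.sum Finset.univ fun b _ =>
    ((h1 a b).mul (JC.const _)).mul (JC.const _)

theorem JC.re {F : ι → ℝ → Cn n → ℂ} {F' : ℝ → Cn n → ℂ} (h : JC l q F F') :
    Tendsto (fun j => (F j q.1 q.2).re) l (𝓝 (F' q.1 q.2).re) :=
  (Complex.continuous_re.tendsto _).comp h.val

theorem JM.nq (h1 : JM l q g g') (v : Cn n) :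
    Tendsto (fun j => nq (g j q.1 q.2) v) l (𝓝 (nq (g' q.1 q.2) v)) := (h1.hC v).re

theorem JM.bis (h1 : JM l q g g') (h0 : (g' q.1 q.2).det ≠ 0) (v w : Cn n) :
    Tendsto (fun j => bis (g j q.1) q.2 v w) l (𝓝 (bis (g' q.1) q.2 v w)) :=
  (JC.sum Finset.univ fun a _ => JC.sum Finset.univ fun b _ => JC.sum Finset.univ fun c _ =>
    JC.sum Finset.univ fun d _ => ((((h1.Rm h0 c d a b).mul (JC.const (v a))).mul
      (JC.const (conj (v b)))).mul (JC.const (w c))).mul (JC.const (conj (w d)))).re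

end matrix

end J16

open J16

theorem jetStmt (n : ℕ) : JetStmt n := by
  intro ι l g g' t z h hp
  have h1 : JM l (t, z) g g' := h
  have h0 : (g' t z).det.re ≠ 0 := (Complex.pos_iff.1 hp.det_pos).1.ne'
  have h0' : (g' t z).det ≠ 0 := hp.det_pos.ne'
  refine ⟨fun s a b => ((h1 a b).wd s).val, fun a b => (h1 a b).dt.val,
    fun a b => (h1.hess h0 a b).val, fun v w => h1.bis h0' v w, fun τ c a v => ?_⟩
  exact (((((h1.ricT h0).add (((h1.ric h0).mul (h1.inv h0')).mul (h1.ric h0))).add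
    ((h1.ric h0).smul _)).nq v).const_mul _).add
    (((JC.const (conj c)).mul (JC.sum Finset.univ fun k _ =>
      (JC.const (a k)).mul ((h1.nabRic h0 k).hC v))).re.const_mul 2) |>.add (h1.bis h0' v a)

end Crest.Agent.T223.Lm
end

-- ▼ part T223/LmAsm_23

/-!
# Row 223, module LIMIT (helper23): assembly `limStmt_of : RegStmt → JetStmt → PropStmt → LimStmt`
-/

set_option autoImplicit false

open Set Filter Topology Metric
open scoped ContDiff ComplexConjugate Matrix ComplexOrder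

namespace Crest.Agent.T223.Lm23

open Crest.Agent.R275.Geo Crest.Agent.R275.EDR890
open Crest.Agent.R273.Kah_333 Crest.Agent.R273.Hess_333 Crest.Agent.R273.RMan4_798
open Crest.Agent.R275.Core144 (Jm)
open Crest.Agent.T223.Br Crest.Agent.T223.Tr Crest.Agent.N207.Jt Crest.Agent.T223.Lm

noncomputable section

variable {n : ℕ} {M : Type} [TopologicalSpace M] [T2Space M] [ConnectedSpace M] {A : Atl n M}
  {K0 : Kah A} {p : M}

/-- the ultrafilter -/
abbrev UU : Filter ℕ := (hyperfilter ℕ : Filter ℕ)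

theorem evU {P : ℕ → Prop} (h : ∀ᶠ k in atTop, P k) : ∀ᶠ k in UU, P k :=
  h.filter_mono Nat.hyperfilter_le_atTop

/-- the limit metric in the chart `i` -/
def gl (X : Apx K0 p) (i : A.ι) (t : ℝ) (z : Cn n) : Mat n :=
  Matrix.of fun a b => ul (hyperfilter ℕ) (fun k (r : ℝ × Cn n) => X.G k r.1 i r.2 a b) (t, z)

/-- `h` agrees with the limit on `(0, ∞) × target` -/
def Agr (X : Apx K0 p) (i : A.ι) (h : ℝ → Cn n → Mat n) : Prop :=
  ∀ s, 0 < s → ∀ w ∈ (A.e i).target, h s w = gl X i s w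

theorem isOpen_W (i : A.ι) : IsOpen (Ioi (0 : ℝ) ×ˢ (A.e i).target) :=
  isOpen_Ioi.prod (A.e i).open_target

theorem Agr.ev {X : Apx K0 p} {i : A.ι} {h : ℝ → Cn n → Mat n} (hh : Agr X i h) {t : ℝ}
    (ht : 0 < t) {z : Cn n} (hz : z ∈ (A.e i).target) (a b : Fin n) :
    (fun r : ℝ × Cn n => h r.1 r.2 a b) =ᶠ[𝓝 (t, z)] fun r => gl X i r.1 r.2 a b := by
  filter_upwards [(isOpen_W i).mem_nhds (mk_mem_prod ht hz)] with r hr
  rw [hh r.1 hr.1 r.2 hr.2]

/-- smooth convergence near a point -/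
theorem key (hR : RegStmt n) (X : Apx K0 p) (i : A.ι) {t : ℝ} (ht : 0 < t) {z : Cn n}
    (hz : z ∈ (A.e i).target) :
    ∃ r c : ℝ, 0 < r ∧ 0 < c ∧ closedBall z r ⊆ (A.e i).target ∧
      (∀ᶠ k in UU, ∀ w ∈ closedBall z r, KRFat (fun s => X.G k s i) t w ∧
        ∀ v, c * ‖v‖ ^ 2 ≤ nq (X.G k t i w) v) ∧
      ∀ a b, ContDiffAt ℝ ∞ (fun r : ℝ × Cn n => gl X i r.1 r.2 a b) (t, z) ∧
        UE UU (fun k (r : ℝ × Cn n) => X.G k r.1 i r.2 a b)
          (fun _ (r : ℝ × Cn n) => gl X i r.1 r.2 a b) fun _ => {t} ×ˢ closedBall z r := by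
  obtain ⟨r, c, C, hr, hc, hb, hk⟩ := loc_bounds X i ht hz
  have hk' := evU hk
  have hO : IsOpen (Ioo (t / 2) (2 * t) ×ˢ ball z r) := isOpen_Ioo.prod isOpen_ball
  have hreg := hR ℕ (hyperfilter ℕ) (fun k s => X.G k s i) (Ioo (t / 2) (2 * t) ×ˢ ball z r) c C
    hO hc (hk'.mono fun k h q hq => h q ⟨Ioo_subset_Icc_self hq.1, ball_subset_closedBall hq.2⟩)
    (Icc (3 * t / 4) (3 * t / 2) ×ˢ closedBall z (r / 2))
    (isCompact_Icc.prod (isCompact_closedBall _ _))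
    (prod_mono (Icc_subset_Ioo (by linarith) (by linarith))
      (closedBall_subset_ball (by linarith)))
  have htI : t ∈ Ioo (3 * t / 4) (3 * t / 2) := ⟨by linarith, by linarith⟩
  refine ⟨r / 4, c, by positivity, hc, (closedBall_subset_closedBall (by linarith)).trans hb, ?_,
    fun a b => ?_⟩
  · filter_upwards [hk'] with k h w hw
    have := h (t, w) ⟨⟨by simp only; linarith, by simp only; linarith⟩,
      closedBall_subset_closedBall (by linarith) hw⟩
    exact ⟨this.1, fun v => (this.2.1 v).1⟩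
  · have h1 : UB UU (fun k (r : ℝ × Cn n) => X.G k r.1 i r.2 a b)
        fun _ => Ioo (3 * t / 4) (3 * t / 2) ×ˢ ball z (r / 2) :=
      (hreg a b).mono (Eventually.of_forall fun _ =>
        prod_mono Ioo_subset_Icc_self ball_subset_closedBall)
    have h2 := UB.lim h1 (isOpen_Ioo.prod isOpen_ball)
    refine ⟨h2.1 (t, z) ⟨htI, mem_ball_self (by positivity)⟩, h2.2 _
      (isCompact_singleton.prod (isCompact_closedBall _ _)) ?_⟩
    exact prod_mono (singleton_subset_iff.2 htI) (closedBall_subset_ball (by linarith))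

section pt

variable (hR : RegStmt n) {X : Apx K0 p} {i : A.ι} {h : ℝ → Cn n → Mat n} (hh : Agr X i h)
  {t : ℝ} (ht : 0 < t) {z : Cn n} (hz : z ∈ (A.e i).target)

include hR hh ht hz

theorem Agr.sm (a b : Fin n) : ContDiffAt ℝ ∞ (fun r : ℝ × Cn n => h r.1 r.2 a b) (t, z) := by
  obtain ⟨r, c, -, -, -, -, h2⟩ := key hR X i ht hz
  exact (h2 a b).1.congr_of_eventuallyEq (hh.ev ht hz a b)

theorem Agr.ge (a b : Fin n) :
    GE UU (fun k (r : ℝ × Cn n) => X.G k r.1 i r.2 a b) (fun _ => (t, z))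
      (fun _ (r : ℝ × Cn n) => h r.1 r.2 a b) (fun _ => (t, z)) := by
  obtain ⟨r, c, hr, -, -, -, h2⟩ := key hR X i ht hz
  have h3 := (h2 a b).2.at (e := id) (m := UU) (y := fun _ => (t, z)) tendsto_id
    (Eventually.of_forall fun _ => ⟨rfl, mem_closedBall_self hr.le⟩)
  exact h3.congr_right (Eventually.of_forall fun _ => ⟨rfl, hh.ev ht hz a b⟩)

theorem Agr.val (a b : Fin n) : Tendsto (fun k => X.G k t i z a b) UU (𝓝 (h t z a b)) := by
  have := (hh.ge hR ht hz a b).val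
  exact tendsto_sub_nhds_zero_iff.1 this

theorem Agr.krfk : ∀ᶠ k in UU, KRFat (fun s => X.G k s i) t z := by
  obtain ⟨r, c, hr, -, -, h1, -⟩ := key hR X i ht hz
  exact h1.mono fun k hk => (hk z (mem_closedBall_self hr.le)).1

theorem Agr.pos : (h t z).PosDef := by
  obtain ⟨r, c, hr, hc, -, h1, -⟩ := key hR X i ht hz
  refine posDef_of_nq ?_ hc fun v => ?_
  · ext a b
    rw [Matrix.conjTranspose_apply]
    have h2 : Tendsto (fun k => star (X.G k t i z b a)) UU (𝓝 (star (h t z b a))) :=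
      (hh.val hR ht hz b a).star
    refine tendsto_nhds_unique (h2.congr' ?_) (hh.val hR ht hz a b)
    filter_upwards [h1] with k hk
    exact (hk z (mem_closedBall_self hr.le)).1.pos.self_of_nhds.isHermitian.apply a b
  · exact ge_of_tendsto (tendsto_nq (hh.val hR ht hz) v)
      (h1.mono fun k hk => (hk z (mem_closedBall_self hr.le)).2 v)

variable (hJ : JetStmt n)

include hJ

theorem Agr.jet :
    (∀ s a b, Tendsto (fun k => wd s (fun y => X.G k t i y a b) z) UU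
      (𝓝 (wd s (fun y => h t y a b) z))) ∧
    (∀ a b, Tendsto (fun k => deriv (fun s => X.G k s i z a b) t) UU
      (𝓝 (deriv (fun s => h s z a b) t))) ∧
    (∀ a b, Tendsto (fun k => hess (ldet (X.G k t i)) z a b) UU (𝓝 (hess (ldet (h t)) z a b))) ∧
    (∀ v w, Tendsto (fun k => bis (X.G k t i) z v w) UU (𝓝 (bis (h t) z v w))) ∧
    ∀ (τ : ℝ) (c : ℂ) (a v : Cn n),
      Tendsto (fun k => lyh (fun s => X.G k s i) τ t z c a v) UU (𝓝 (lyh h τ t z c a v)) :=
  hJ ℕ UU (fun k s => X.G k s i) h t z (hh.ge hR ht hz) (hh.pos hR ht hz)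

theorem Agr.closed (a b c : Fin n) :
    wd (false, c) (fun y => h t y a b) z = wd (false, a) (fun y => h t y c b) z := by
  have h1 := (hh.jet hR ht hz hJ).1
  refine tendsto_nhds_unique ((h1 (false, c) a b).congr' ?_) (h1 (false, a) c b)
  filter_upwards [hh.krfk hR ht hz] with k hk
  exact hk.closed.self_of_nhds a b c

theorem Agr.closed' (a b c : Fin n) :
    wd (true, c) (fun y => h t y a b) z = wd (true, b) (fun y => h t y a c) z := by
  have h1 := (hh.jet hR ht hz hJ).1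
  refine tendsto_nhds_unique ((h1 (true, c) a b).congr' ?_) (h1 (true, b) a c)
  filter_upwards [hh.krfk hR ht hz] with k hk
  exact hk.closed'.self_of_nhds a b c

theorem Agr.flow (a b : Fin n) :
    HasDerivAt (fun s => h s z a b) (hess (ldet (h t)) z a b) t := by
  have h1 := hh.jet hR ht hz hJ
  have h2 : deriv (fun s => h s z a b) t = hess (ldet (h t)) z a b := by
    refine tendsto_nhds_unique ((h1.2.1 a b).congr' ?_) (h1.2.2.1 a b)
    filter_upwards [hh.krfk hR ht hz] with k hk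
    exact (hk.flow.self_of_nhds a b).deriv
  rw [← h2]
  have h3 : ContDiffAt ℝ ∞ (fun s : ℝ => h s z a b) t :=
    (hh.sm hR ht hz a b).comp t (contDiffAt_id.prodMk contDiffAt_const)
  exact (h3.differentiableAt (by simp)).hasDerivAt

theorem Agr.krf : KRFat h t z := by
  have hW := (isOpen_W i).mem_nhds (mk_mem_prod (mem_Ioi.2 ht) hz)
  refine ⟨?_, ?_, ?_, ?_, ?_⟩ <;> filter_upwards [hW] with q hq
  · exact hh.sm hR hq.1 hq.2
  · exact hh.pos hR hq.1 hq.2
  · exact hh.closed hR hq.1 hq.2 hJ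
  · exact hh.closed' hR hq.1 hq.2 hJ
  · exact hh.flow hR hq.1 hq.2 hJ

theorem Agr.bk : BKge (h t) z 0 := by
  intro v w
  have hx := (A.e i).map_target hz
  have he := (A.e i).right_inv hz
  have h1 := (hh.jet hR ht hz hJ).2.2.2.1 v w
  have h2 := tendsto_nq (hh.val hR ht hz)
  have h3 : ∀ ε : ℝ, 0 < ε → -(ε * nq (h t z) v * nq (h t z) w) ≤ bis (h t) z v w := by
    intro ε hε
    refine le_of_tendsto_of_tendsto ((((h2 v).const_mul ε).mul (h2 w)).neg) h1 ?_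
    filter_upwards [evU (X.bk t {(A.e i).symm z} isCompact_singleton ε hε)] with k hk
    have := hk t ⟨ht, le_rfl⟩ i _ hx rfl v w
    rwa [he] at this
  have h4 : Tendsto (fun ε : ℝ => -(ε * nq (h t z) v * nq (h t z) w)) (𝓝[>] 0)
      (𝓝 (-(0 * nq (h t z) v * nq (h t z) w))) :=
    (Continuous.tendsto (by fun_prop) 0).mono_left nhdsWithin_le_nhds
  exact le_of_tendsto h4 (eventually_mem_nhdsWithin.mono h3)

theorem Agr.lyh (c : ℂ) (a v : Cn n) : 0 ≤ lyh h t t z c a v := by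
  have hx := (A.e i).map_target hz
  have he := (A.e i).right_inv hz
  have h1 := (hh.jet hR ht hz hJ).2.2.2.2 t c a v
  have h2 := tendsto_nq (hh.val hR ht hz)
  have h3 : ∀ ε : ℝ, 0 < ε →
      -(ε * (‖c‖ ^ 2 + nq (h t z) a) * nq (h t z) v) ≤ T223.lyh h t t z c a v := by
    intro ε hε
    refine le_of_tendsto_of_tendsto (((((h2 a).const_add _).const_mul ε).mul (h2 v)).neg) h1 ?_
    filter_upwards [evU (X.lyh t t {(A.e i).symm z} ht isCompact_singleton ε hε)] with k hk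
    have := hk t ⟨le_rfl, le_rfl⟩ i _ hx rfl c a v
    rwa [he] at this
  have h4 : Tendsto (fun ε : ℝ => -(ε * (‖c‖ ^ 2 + nq (h t z) a) * nq (h t z) v)) (𝓝[>] 0)
      (𝓝 (-(0 * (‖c‖ ^ 2 + nq (h t z) a) * nq (h t z) v))) :=
    (Continuous.tendsto (by fun_prop) 0).mono_left nhdsWithin_le_nhds
  simpa using le_of_tendsto h4 (eventually_mem_nhdsWithin.mono h3)

omit hJ in
theorem Agr.le0 (v : Cn n) : nq (h t z) v ≤ 1 * nq (gc K0 i z) v := by
  have hx := (A.e i).map_target hz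
  have he := (A.e i).right_inv hz
  have h2 := tendsto_nq (hh.val hR ht hz)
  have h3 : ∀ ε : ℝ, 0 < ε → nq (h t z) v ≤ (1 + ε) * nq (gc K0 i z) v := by
    intro ε hε
    refine le_of_tendsto (h2 v) ?_
    filter_upwards [evU (X.upper t {(A.e i).symm z} isCompact_singleton ε hε)] with k hk
    have := hk t ⟨ht, le_rfl⟩ i _ hx rfl v
    rwa [he] at this
  have h4 : Tendsto (fun ε : ℝ => (1 + ε) * nq (gc K0 i z) v) (𝓝[>] 0)
      (𝓝 ((1 + 0) * nq (gc K0 i z) v)) :=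
    (Continuous.tendsto (by fun_prop) 0).mono_left nhdsWithin_le_nhds
  simpa using ge_of_tendsto h4 (eventually_mem_nhdsWithin.mono h3)

end pt

theorem agr_gl (X : Apx K0 p) (i : A.ι) : Agr X i (gl X i) := fun _ _ _ _ => rfl

theorem agr_rd (X : Apx K0 p) (i : A.ι) :
    Agr X i (fun s w => gl X i s (A.e i ((A.e i).symm w))) := fun s _ w hw => by
  simp only [(A.e i).right_inv hw]

theorem gl_tr (hR : RegStmt n) (X : Apx K0 p) {t : ℝ} (ht : 0 < t) (i j : A.ι) (x : M)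
    (hx : x ∈ (A.e i).source ∩ (A.e j).source) :
    gl X i t (A.e i x) = (Jm A i j x)ᵀ * gl X j t (A.e j x) * (Jm A i j x).map conj := by
  have h1 := tendsto_mat ((agr_gl X i).val hR ht ((A.e i).map_source hx.1))
  have h2 := tendsto_mat ((agr_gl X j).val hR ht ((A.e j).map_source hx.2))
  have h3 : Tendsto (fun k => (Jm A i j x)ᵀ * X.G k t j (A.e j x) * (Jm A i j x).map conj) UU
      (𝓝 ((Jm A i j x)ᵀ * gl X j t (A.e j x) * (Jm A i j x).map conj)) :=
    (h2.const_mul _).mul_const _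
  refine tendsto_nhds_unique h1 (h3.congr' ?_)
  filter_upwards [evU (X.krf t {x} isCompact_singleton)] with k hk
  exact ((hk t ⟨ht, le_rfl⟩).1 i j x hx rfl).symm

/-- the limit metric at a positive time -/
def Kt (hR : RegStmt n) (hJ : JetStmt n) (X : Apx K0 p) (t : ℝ) (ht : 0 < t) : Kah A where
  g i x := gl X i t (A.e i x)
  sm i a b z hz := (((agr_rd X i).krf hR ht hz hJ).kahAt.sm a b).contDiffWithinAt
  pos i x hx := (agr_gl X i).pos hR ht ((A.e i).map_source hx)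
  tr i j x hx := gl_tr hR X ht i j x hx
  closed i z hz := (agr_rd X i).closed hR ht hz hJ
  closed' i z hz := (agr_rd X i).closed' hR ht hz hJ

/-- the limit flow -/
def Kl (hR : RegStmt n) (hJ : JetStmt n) (X : Apx K0 p) (t : ℝ) : Kah A :=
  if ht : 0 < t then Kt hR hJ X t ht else K0

theorem Kl_g (hR : RegStmt n) (hJ : JetStmt n) (X : Apx K0 p) {t : ℝ} (ht : 0 < t) (i : A.ι)
    (x : M) : (Kl hR hJ X t).g i x = gl X i t (A.e i x) := by
  rw [Kl, dif_pos ht]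
  rfl

theorem agr_Kl (hR : RegStmt n) (hJ : JetStmt n) (X : Apx K0 p) (i : A.ι) :
    Agr X i (fun s => gc (Kl hR hJ X s) i) := fun s hs w hw => by
  simp only [gc, Kl_g hR hJ X hs, (A.e i).right_inv hw]

/-- on a compact set the local flows are eventually bounded by four times the limit -/
theorem le_four (hR : RegStmt n) (X : Apx K0 p) {t : ℝ} (ht : 0 < t) {Q : Set M}
    (hQ : IsCompact Q) : ∀ᶠ k in UU, ∀ x ∈ Q, ∀ i, x ∈ (A.e i).source → ∀ v,
      nq (X.G k t i (A.e i x)) v ≤ 4 * nq (gl X i t (A.e i x)) v := by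
  have h1 : ∀ᶠ k in UU, ∀ x ∈ Q, ∃ j, x ∈ (A.e j).source ∧ ∀ v,
      nq (X.G k t j (A.e j x)) v ≤ 4 * nq (gl X j t (A.e j x)) v := by
    refine hQ.induction_on (p := fun S => ∀ᶠ k in UU, ∀ x ∈ S, ∃ j, x ∈ (A.e j).source ∧ ∀ v,
      nq (X.G k t j (A.e j x)) v ≤ 4 * nq (gl X j t (A.e j x)) v) (by simp)
      (fun S T hST hT => hT.mono fun k hk x hx => hk x (hST hx))
      (fun S T hS hT => ?_) (fun x0 _ => ?_)
    · filter_upwards [hS, hT] with k h1 h2 x hx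
      exact hx.elim (h1 x) (h2 x)
    · obtain ⟨j, hj⟩ := A.cover x0
      obtain ⟨r, c, hr, hc, hb, h1, h2⟩ := key hR X j ht ((A.e j).map_source hj)
      refine ⟨(A.e j).source ∩ A.e j ⁻¹' closedBall (A.e j x0) r, mem_nhdsWithin_of_mem_nhds
        (inter_mem ((A.e j).open_source.mem_nhds hj)
          ((A.e j).continuousAt hj (closedBall_mem_nhds _ hr))), ?_⟩
      have hε : 0 < c / ((n : ℝ) ^ 2 + 1) := by positivity
      have h3 : ∀ᶠ k in UU, ∀ a b, ∀ w ∈ closedBall (A.e j x0) r,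
          ‖X.G k t j w a b - gl X j t w a b‖ ≤ c / ((n : ℝ) ^ 2 + 1) := by
        refine eventually_all.2 fun a => eventually_all.2 fun b => ?_
        filter_upwards [(h2 a b).2.ev 0 hε] with k hk w hw
        have := hk (t, w) ⟨rfl, hw⟩
        rw [iteratedFDeriv_zero_eq_comp, iteratedFDeriv_zero_eq_comp, Function.comp_apply,
          Function.comp_apply, ← map_sub, LinearIsometryEquiv.norm_map] at this
        exact this.le
      filter_upwards [h3] with k hk x hx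
      refine ⟨j, hx.1, fun v => ?_⟩
      have h4 : c * ‖v‖ ^ 2 ≤ nq (gl X j t (A.e j x)) v :=
        ge_of_tendsto (tendsto_nq ((agr_gl X j).val hR ht (hb hx.2)) v)
          (h1.mono fun k hk => (hk _ hx.2).2 v)
      have h5 := (le_abs_self _).trans (abs_nq_le (X.G k t j (A.e j x) - gl X j t (A.e j x)) v
        fun a b => hk a b _ hx.2)
      rw [nq_sub] at h5
      have h6 : (n : ℝ) ^ 2 * (c / ((n : ℝ) ^ 2 + 1)) ≤ c := by
        rw [← mul_div_assoc, div_le_iff₀ (by positivity)]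
        nlinarith
      have h7 : (n : ℝ) ^ 2 * (c / ((n : ℝ) ^ 2 + 1)) * ‖v‖ ^ 2 ≤ c * ‖v‖ ^ 2 := by gcongr
      have h8 : 0 ≤ c * ‖v‖ ^ 2 := by positivity
      linarith
  filter_upwards [h1, evU (X.krf t Q hQ)] with k k1 k2 x hx i hi v
  obtain ⟨j, hj, hv⟩ := k1 x hx
  rw [(k2 t ⟨ht, le_rfl⟩).1 i j x ⟨hi, hj⟩ hx, gl_tr hR X ht i j x ⟨hi, hj⟩]
  have e : Jm A i j x = mat (fderiv ℂ (fun z => A.e j ((A.e i).symm z)) (A.e i x)) := rfl
  rw [e, nq_pull, nq_pull]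
  exact hv _

theorem Kl_proper (hR : RegStmt n) (hJ : JetStmt n) (hP : PropStmt n) (H : Hyp K0) (X : Apx K0 p)
    {t : ℝ} (ht : 0 < t) : ProperSpace (ofKah (Kl hR hJ X t)).M := by
  obtain ⟨C, hC, h⟩ := X.prop t
  refine hP M A K0 (Kl hR hJ X t) p (2 * C) H.proper (by positivity) fun Q hQ => ?_
  obtain ⟨k, k1, k2⟩ := ((evU (h Q hQ)).and (le_four hR X ht hQ)).exists
  obtain ⟨ρ, h1, h2⟩ := k1 t ⟨ht, le_rfl⟩
  refine ⟨ρ, fun i x hx hxQ ε hε => ?_, fun x hx => (h2 x hx).trans ?_⟩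
  · filter_upwards [h1 i x hx hxQ (ε / 2) (by positivity)] with w hw
    refine hw.trans ?_
    have e : gc (Kl hR hJ X t) i (A.e i x) = gl X i t (A.e i x) :=
      agr_Kl hR hJ X i t ht _ ((A.e i).map_source hx)
    rw [e]
    have h3 := Real.sqrt_le_sqrt (k2 x hxQ i hx (w - A.e i x))
    have h4 : √(4 * nq (gl X i t (A.e i x)) (w - A.e i x)) =
        2 * √(nq (gl X i t (A.e i x)) (w - A.e i x)) := by
      rw [Real.sqrt_mul (by norm_num), show (4 : ℝ) = 2 ^ 2 by norm_num,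
        Real.sqrt_sq (by norm_num)]
    rw [h4] at h3
    calc _ ≤ (C + ε / 2) * (2 * √(nq (gl X i t (A.e i x)) (w - A.e i x))) := by gcongr
      _ = _ := by ring
  · have := abs_nonneg (ρ x - ρ p)
    nlinarith

/-- **LIMIT** -/
theorem limStmt_of (hR : RegStmt n) (hJ : JetStmt n) (hP : PropStmt n) : LimStmt n := by
  intro M _ _ _ _ _ A K0 p H X
  refine ⟨⟨Kl hR hJ X, fun t ht i z hz => (agr_Kl hR hJ X i).krf hR ht hz hJ,
    fun t ht i z hz => (agr_Kl hR hJ X i).bk hR ht hz hJ,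
    fun t ht i z hz => (agr_Kl hR hJ X i).lyh hR ht hz hJ, fun t ht i x hx v => ?_,
    fun t ht => Kl_proper hR hJ hP H X ht, ?_⟩⟩
  · have := (agr_gl X i).le0 hR ht ((A.e i).map_source hx) v
    rwa [gc, (A.e i).left_inv hx, ← Kl_g hR hJ X ht] at this
  · obtain ⟨C, hC⟩ := X.sig
    refine ⟨C, fun t ht i hi => ?_⟩
    have hz := (A.e i).map_source hi
    have h1 := tendsto_ldet ((agr_Kl hR hJ X i).pos hR ht hz) ((agr_Kl hR hJ X i).val hR ht hz)
    refine le_of_tendsto (h1.const_sub (ldet (gc K0 i) (A.e i p))) ?_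
    filter_upwards [evU (hC t)] with k hk
    exact hk t ⟨ht, le_rfl⟩ i hi

end

end Crest.Agent.T223.Lm23
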