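import Crest.Agent.T223.NaDef_80
import Mathlib

-- ▼ part T223/NaSchA_80
section

/-!
# Row 223, module NA (helper80): general lemmas for the schedule
-/

set_option autoImplicit false

open Set Filter Topology Metric
open scoped InnerProductSpace

namespace Crest.Agent.T223.Na

open Crest.Agent.T223.Tr Crest.Agent.T223.Dyn

variable {n : ℕ}

/-! ### maps tangent to the identity -/

theorem Tan.mono {X Y : ℝ} {f : EE n → EE n} (h : Tan X f) (hX : 0 < X) (hXY : X ≤ Y) :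
    Tan Y f := by
  have hs : ball (0 : EE n) Y⁻¹ ⊆ ball 0 X⁻¹ := ball_subset_ball (inv_anti₀ hX hXY)
  refine ⟨h.1.mono hs, fun z hz => (h.2 z (hs hz)).trans ?_⟩
  exact mul_le_mul_of_nonneg_right hXY (sq_nonneg _)

theorem Tan.comp {X : ℝ} {f g : EE n → EE n} (hf : Tan X f) (hg : Tan X g) (hX : 0 < X) :
    Tan (3 * X) (fun z => f (g z)) := by
  have hs : ball (0 : EE n) (3 * X)⁻¹ ⊆ ball 0 X⁻¹ :=
    ball_subset_ball (inv_anti₀ hX (by linarith))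
  have key : ∀ z ∈ ball (0 : EE n) (3 * X)⁻¹, ‖g z‖ ≤ 4 / 3 * ‖z‖ ∧ g z ∈ ball (0 : EE n) X⁻¹ := by
    intro z hz
    have h1 := hg.2 z (hs hz)
    rw [mem_ball_zero_iff] at hz
    have h2 : X * ‖z‖ < 1 / 3 := by
      rw [← one_div, lt_div_iff₀ (by positivity)] at hz
      linarith
    have h3 : ‖g z‖ ≤ ‖g z - z‖ + ‖z‖ := by simpa using norm_add_le (g z - z) z
    have h4 : ‖g z‖ ≤ 4 / 3 * ‖z‖ := by nlinarith [norm_nonneg z]
    refine ⟨h4, ?_⟩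
    rw [mem_ball_zero_iff, ← one_div, lt_div_iff₀ hX]
    nlinarith
  refine ⟨hf.1.comp (hg.1.mono hs) fun z hz => (key z hz).2, fun z hz => ?_⟩
  have h1 := hf.2 _ (key z hz).2
  have h2 := hg.2 z (hs hz)
  have h3 : ‖f (g z) - z‖ ≤ ‖f (g z) - g z‖ + ‖g z - z‖ := by
    simpa using norm_add_le (f (g z) - g z) (g z - z)
  have h4 : ‖g z‖ ^ 2 ≤ (4 / 3 * ‖z‖) ^ 2 := pow_le_pow_left₀ (norm_nonneg _) (key z hz).1 2
  nlinarith [sq_nonneg ‖z‖]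

theorem Tan.conj {X S : ℝ} {f : EE n → EE n} (hf : Tan X f) (hX : 0 < X) (hS : 1 ≤ S)
    (α : EE n ≃L[ℂ] EE n) (h1 : ∀ x, ‖α x‖ ≤ S * ‖x‖) (h2 : ∀ x, ‖α.symm x‖ ≤ S * ‖x‖) :
    Tan (X * S ^ 3) (fun z => α (f (α.symm z))) := by
  have hS3 : S ≤ S ^ 3 := by nlinarith [mul_self_nonneg S, sq_nonneg (S - 1), mul_pos (by linarith : (0:ℝ) < S) (by linarith : (0:ℝ) < S)]
  have key : ∀ z ∈ ball (0 : EE n) (X * S ^ 3)⁻¹, α.symm z ∈ ball (0 : EE n) X⁻¹ := by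
    intro z hz
    rw [mem_ball_zero_iff] at hz ⊢
    have hp : 0 < X * S ^ 3 := by positivity
    rw [← one_div, lt_div_iff₀ hp] at hz
    rw [← one_div, lt_div_iff₀ hX]
    have := h2 z
    nlinarith [norm_nonneg z, mul_le_mul_of_nonneg_left hS3 (mul_nonneg (norm_nonneg z) hX.le)]
  refine ⟨α.differentiable.comp_differentiableOn
    (hf.1.comp α.symm.differentiable.differentiableOn key), fun z hz => ?_⟩
  have e : α (f (α.symm z)) - z = α (f (α.symm z) - α.symm z) := by simp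
  rw [e]
  have h3 := hf.2 _ (key z hz)
  have h4 : ‖α.symm z‖ ^ 2 ≤ (S * ‖z‖) ^ 2 := pow_le_pow_left₀ (norm_nonneg _) (h2 z) 2
  calc ‖α (f (α.symm z) - α.symm z)‖ ≤ S * ‖f (α.symm z) - α.symm z‖ := h1 _
    _ ≤ S * (X * (S * ‖z‖) ^ 2) := by
      gcongr
      exact h3.trans (mul_le_mul_of_nonneg_left h4 hX.le)
    _ = X * S ^ 3 * ‖z‖ ^ 2 := by ring

theorem tan_of_aut {D b : ℝ} {s : EE n ≃ EE n} (h : Aut D b s) :
    Tan (Real.exp b) s ∧ Tan (Real.exp b) s.symm := by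
  refine ⟨⟨h.hol.differentiableOn, fun z hz => h.near z ?_⟩,
    ⟨h.hol'.differentiableOn, fun z hz => h.near' z ?_⟩⟩ <;>
  · rw [mem_ball_zero_iff, ← Real.exp_neg] at hz
    exact hz.le

/-! ### linear parts -/

section lin

variable {Φ : ℕ → ℕ → EE n → EE n} {r κ : ℝ} {σ : ℕ → ℝ}

theorem hasFDerivAt_Lm (hc : Coc Φ r κ) {j k : ℕ} (h : j ≤ k) :
    HasFDerivAt (Φ j k) (Lm Φ j k) 0 :=
  ((hc.hol j k h).differentiableAt (ball_mem_nhds _ hc.r_pos)).hasFDerivAt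

theorem Lm_comp (hc : Coc Φ r κ) {i j k : ℕ} (hij : i ≤ j) (hjk : j ≤ k) :
    (Lm Φ j k).comp (Lm Φ i j) = Lm Φ i k := by
  have h1 := hasFDerivAt_Lm hc hij
  have h2 := hasFDerivAt_Lm hc hjk
  rw [← hc.zero i j hij] at h2
  have h3 := h2.comp (0 : EE n) h1
  have hp : 0 < r / κ := div_pos hc.r_pos (by linarith [hc.one_le])
  have h4 : Φ i k =ᶠ[𝓝 0] (Φ j k ∘ Φ i j) := by
    filter_upwards [ball_mem_nhds (0 : EE n) hp] with w hw
    exact (hc.coc i j k hij hjk w hw).symm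
  exact ((h3.congr_of_eventuallyEq h4).unique (hasFDerivAt_Lm hc (hij.trans hjk)))

theorem Lm_inj (hc : Coc Φ r κ) {j k : ℕ} (h : j ≤ k) : Function.Injective (Lm Φ j k) :=
  hc.imm j k h 0 (mem_ball_self hc.r_pos)

theorem Lm_pinch (hc : Coc Φ r κ) (hh : NAHyp Φ r σ) :
    ∃ ε C : ℝ, 0 < ε ∧ 0 ≤ C ∧ ∀ k : ℕ, ‖Lm Φ 0 k‖ ≤ Real.exp (C - ε * k) := by
  obtain ⟨ε, C, hε, h⟩ := hh.dec 0
  have hr := hc.r_pos
  refine ⟨ε, Real.log (1 + |C| / r), hε, Real.log_nonneg (by have := div_nonneg (abs_nonneg C) hr.le; linarith), fun k => ?_⟩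
  have h1 : MapsTo (Φ 0 k) (ball 0 r) (closedBall (Φ 0 k 0) (|C| * Real.exp (-(ε * k)))) := by
    intro w hw
    rw [hc.zero 0 k (Nat.zero_le _), mem_closedBall_zero_iff]
    exact (h k (Nat.zero_le _) w hw).trans
      (mul_le_mul_of_nonneg_right (le_abs_self C) (Real.exp_pos _).le)
  have h2 := Complex.norm_fderiv_le_div_of_mapsTo_ball (hc.hol 0 k (Nat.zero_le _)) h1 hr
  refine h2.trans ?_
  rw [sub_eq_add_neg, Real.exp_add, Real.exp_log (by positivity), mul_div_right_comm]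
  gcongr
  linarith

/-- a continuous linear equivalence with the given underlying map -/
theorem exists_cle (L : EE n →L[ℂ] EE n) (h : Function.Injective L) :
    ∃ e : EE n ≃L[ℂ] EE n, (e : EE n →L[ℂ] EE n) = L :=
  ⟨(LinearEquiv.ofInjectiveEndo (L : EE n →ₗ[ℂ] EE n) h).toContinuousLinearEquiv,
    ContinuousLinearMap.ext fun _ => rfl⟩

theorem adj_lower {L : EE n →L[ℂ] EE n} {c : ℝ} (hc : 0 ≤ c) (h : ∀ v, ‖v‖ ≤ c * ‖L v‖)
    (ζ : EE n) : ‖ζ‖ ≤ c * ‖ContinuousLinearMap.adjoint L ζ‖ := by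
  have hinj : Function.Injective L := by
    refine (injective_iff_map_eq_zero L).2 fun v hv => ?_
    have := h v
    rw [hv, norm_zero, mul_zero] at this
    exact norm_le_zero_iff.1 this
  obtain ⟨e, he⟩ := exists_cle L hinj
  have h1 : L (e.symm ζ) = ζ := by
    rw [← he]
    simp
  have h2 : ‖ζ‖ ^ 2 ≤ ‖ContinuousLinearMap.adjoint L ζ‖ * ‖e.symm ζ‖ := by
    have : ⟪ζ, ζ⟫_ℂ = ⟪ContinuousLinearMap.adjoint L ζ, e.symm ζ⟫_ℂ := by
      rw [ContinuousLinearMap.adjoint_inner_left, h1]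
    calc ‖ζ‖ ^ 2 = ‖⟪ζ, ζ⟫_ℂ‖ := by rw [inner_self_eq_norm_sq_to_K]; simp
      _ ≤ _ := by rw [this]; exact norm_inner_le_norm _ _
  have h3 : ‖e.symm ζ‖ ≤ c * ‖ζ‖ := by simpa [h1] using h (e.symm ζ)
  rcases (norm_nonneg ζ).eq_or_lt with h0 | h0
  · rw [← h0]
    positivity
  · have : ‖ζ‖ * ‖ζ‖ ≤ (c * ‖ContinuousLinearMap.adjoint L ζ‖) * ‖ζ‖ := by
      nlinarith [norm_nonneg (ContinuousLinearMap.adjoint L ζ)]
    exact le_of_mul_le_mul_right this h0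

theorem Lm_self (hc : Coc Φ r κ) (j : ℕ) : Lm Φ j j = ContinuousLinearMap.id ℂ (EE n) := by
  have h4 : Φ j j =ᶠ[𝓝 0] id := by
    filter_upwards [ball_mem_nhds (0 : EE n) hc.r_pos] with w hw
    exact hc.self j w hw
  exact (hasFDerivAt_Lm hc le_rfl).unique ((hasFDerivAt_id (0 : EE n)).congr_of_eventuallyEq h4)

/-- slopes of a convex function on the nodes -/
theorem slope_le {f : ℕ → ℝ} {b : ℕ} (hm : StrictMono σ)
    (hf : ∀ i j k, i < j → j < k → k ≤ b →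
      (σ k - σ i) * f j ≤ (σ k - σ j) * f i + (σ j - σ i) * f k)
    {x y z w : ℕ} (hxy : x < y) (hyz : y ≤ z) (hzw : z < w) (hw : w ≤ b) :
    (f y - f x) / (σ y - σ x) ≤ (f w - f z) / (σ w - σ z) := by
  have three : ∀ i j k, i < j → j < k → k ≤ b →
      (f j - f i) / (σ j - σ i) ≤ (f k - f j) / (σ k - σ j) := by
    intro i j k hij hjk hk
    rw [div_le_div_iff₀ (sub_pos.2 (hm hij)) (sub_pos.2 (hm hjk))]
    have := hf i j k hij hjk hk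
    nlinarith
  rcases hyz.eq_or_lt with rfl | hyz
  · exact three x y w hxy hzw hw
  · exact (three x y z hxy hyz (hzw.le.trans hw)).trans (three y z w hyz hzw hw)

/-- lower bound for the rates after a block -/
theorem Lm_contr (hc : Coc Φ r κ) (hh : NAHyp Φ r σ) {ε C : ℝ}
    (hp : ∀ k : ℕ, ‖Lm Φ 0 k‖ ≤ Real.exp (C - ε * k)) {x y a b : ℕ} (hxy : x < y) (hya : y ≤ a)
    (hab : a < b) {lo : ℝ} (hlo : lo * (σ y - σ x) ≤ ε * y - C - x) (v : EE n) :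
    ‖Lm Φ a b v‖ ≤ Real.exp (-(lo * (σ b - σ a))) * ‖v‖ := by
  refine ((Lm Φ a b).le_opNorm v).trans (mul_le_mul_of_nonneg_right ?_ (norm_nonneg _))
  rw [← LinearIsometryEquiv.norm_map ContinuousLinearMap.adjoint]
  refine ContinuousLinearMap.opNorm_le_bound _ (Real.exp_pos _).le fun ζ => ?_
  rcases eq_or_ne ζ 0 with rfl | hζ
  · simp
  set A : ℕ → EE n := fun s => ContinuousLinearMap.adjoint (Lm Φ s b) ζ with hA
  have hcomp : ∀ i k, i ≤ k → k ≤ b → ContinuousLinearMap.adjoint (Lm Φ i k) (A k) = A i := by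
    intro i k hik hkb
    simp only [hA]
    rw [← Lm_comp hc hik hkb, ContinuousLinearMap.adjoint_comp]
    rfl
  have hlow : ∀ i k, i ≤ k → k ≤ b → ‖A k‖ ≤ Real.exp ((k : ℝ) - i) * ‖A i‖ := by
    intro i k hik hkb
    rw [← hcomp i k hik hkb]
    exact adj_lower (Real.exp_pos _).le (hh.inv i k hik) _
  have hAb : A b = ζ := by simp [hA, Lm_self hc]
  have hpos : ∀ i, i ≤ b → 0 < ‖A i‖ := by
    intro i hi
    have h1 := hlow i b hi le_rfl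
    rw [hAb] at h1
    have h2 : 0 < ‖ζ‖ := norm_pos_iff.2 hζ
    by_contra h3
    have h4 : ‖A i‖ = 0 := le_antisymm (not_lt.1 h3) (norm_nonneg _)
    rw [h4, mul_zero] at h1
    linarith
  set f : ℕ → ℝ := fun s => Real.log ‖A s‖ with hf
  have hcv : ∀ i j k, i < j → j < k → k ≤ b →
      (σ k - σ i) * f j ≤ (σ k - σ j) * f i + (σ j - σ i) * f k := by
    intro i j k hij hjk hk
    have := hh.cvx i j k hij hjk (A k) (norm_pos_iff.1 (hpos k hk))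
    rwa [hcomp j k hjk.le hk, hcomp i k (hij.trans hjk).le hk] at this
  have hyb : y ≤ b := hya.trans hab.le
  have h1 := slope_le hh.mono hcv hxy hya hab le_rfl
  have h2 : f x ≤ x + f 0 := by
    have := Real.log_le_log (hpos x (hxy.le.trans hyb)) (hlow 0 x (Nat.zero_le _) (hxy.le.trans hyb))
    rw [Real.log_mul (Real.exp_pos _).ne' (hpos 0 (Nat.zero_le _)).ne', Real.log_exp] at this
    simpa [hf] using this
  have h3 : f 0 ≤ C - ε * y + f y := by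
    have h4 : ‖A 0‖ ≤ Real.exp (C - ε * y) * ‖A y‖ := by
      rw [← hcomp 0 y (Nat.zero_le _) hyb]
      refine (ContinuousLinearMap.le_opNorm _ _).trans
        (mul_le_mul_of_nonneg_right ?_ (norm_nonneg _))
      rw [LinearIsometryEquiv.norm_map]
      exact hp y
    have := Real.log_le_log (hpos 0 (Nat.zero_le _)) h4
    rwa [Real.log_mul (Real.exp_pos _).ne' (hpos y hyb).ne', Real.log_exp] at this
  have h4 : lo ≤ (f y - f x) / (σ y - σ x) := by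
    rw [le_div_iff₀ (sub_pos.2 (hh.mono hxy))]
    linarith
  have h5 := h4.trans h1
  rw [le_div_iff₀ (sub_pos.2 (hh.mono hab))] at h5
  have h6 : f a ≤ -(lo * (σ b - σ a)) + f b := by linarith
  have h7 := Real.exp_le_exp.2 h6
  rw [Real.exp_add] at h7
  simp only [hf] at h7
  rwa [Real.exp_log (hpos a hab.le), Real.exp_log (hpos b le_rfl), hAb] at h7

/-! ### gaps -/

theorem gap_anti (hh : NAHyp Φ r σ) : Antitone fun j => σ (j + 1) - σ j :=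
  antitone_nat_of_succ_le hh.conc

theorem gap_le (hh : NAHyp Φ r σ) {x y : ℕ} (h : x ≤ y) :
    σ y - σ x ≤ ((y : ℝ) - x) * (σ (x + 1) - σ x) := by
  induction y, h using Nat.le_induction with
  | base => simp
  | succ y h ih =>
    have := gap_anti hh h
    simp only at this
    push_cast
    linarith

theorem le_gap (hh : NAHyp Φ r σ) {x y z : ℕ} (h : x ≤ y) (hz : y ≤ z) :
    ((y : ℝ) - x) * (σ (z + 1) - σ z) ≤ σ y - σ x := by
  induction y, h using Nat.le_induction with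
  | base => simp
  | succ y h ih =>
    have := gap_anti hh ((Nat.le_succ y).trans hz)
    have := ih ((Nat.le_succ y).trans hz)
    simp only at *
    push_cast
    linarith

/-- mean slopes increase -/
theorem mean_le (hh : NAHyp Φ r σ) {x y z w : ℕ} (hxy : x ≤ y) (hyz : y ≤ z) (hzw : z ≤ w) :
    ((y : ℝ) - x) * (σ w - σ z) ≤ ((w : ℝ) - z) * (σ y - σ x) := by
  have h1 := gap_le hh hzw
  have h2 := le_gap hh hxy hyz
  have h3 : (0 : ℝ) ≤ (y : ℝ) - x := sub_nonneg.2 (by exact_mod_cast hxy)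
  have h4 : (0 : ℝ) ≤ (w : ℝ) - z := sub_nonneg.2 (by exact_mod_cast hzw)
  calc ((y : ℝ) - x) * (σ w - σ z) ≤ ((y : ℝ) - x) * (((w : ℝ) - z) * (σ (z + 1) - σ z)) :=
        mul_le_mul_of_nonneg_left h1 h3
    _ = ((w : ℝ) - z) * (((y : ℝ) - x) * (σ (z + 1) - σ z)) := by ring
    _ ≤ _ := mul_le_mul_of_nonneg_left h2 h4

end lin

end Crest.Agent.T223.Na
end

-- ▼ part T223/NaSchB_80
section

/-!
# Row 223, module NA (helper80): the grid of fine and crude pieces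
-/

set_option autoImplicit false

namespace Crest.Agent.T223.Na

/-- the grid: block `k` covers `2^(k0+k) ≤ g < 2^(k0+k+1)`, fine blocks in unit steps, crude
blocks in `2^q0` steps -/
theorem exists_grid (k0 q0 : ℕ) (hq : q0 ≤ k0) (fb : ℕ → Prop) :
    ∃ (I bl g : ℕ → ℕ), StrictMono I ∧ I 0 = 0 ∧
      (∀ k i, bl i = k ↔ I k ≤ i ∧ i < I (k + 1)) ∧
      (∀ k, g (I k) = 2 ^ (k0 + k)) ∧
      (∀ k, ¬ fb k → I (k + 1) = I k + 2 ^ q0) ∧
      (∀ i, fb (bl i) → g (i + 1) = g i + 1) ∧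
      (∀ i, ¬ fb (bl i) → g (i + 1) = g i + 2 ^ (k0 + bl i - q0)) ∧
      (∀ i, 2 ^ (k0 + bl i) ≤ g i ∧ g (i + 1) ≤ 2 ^ (k0 + bl i + 1)) ∧
      (∀ i, bl (i + 1) = bl i ∨ (bl (i + 1) = bl i + 1 ∧ g (i + 1) = 2 ^ (k0 + bl i + 1))) := by
  classical
  set cnt : ℕ → ℕ := fun k => if fb k then 2 ^ (k0 + k) else 2 ^ q0 with hcnt
  set stp : ℕ → ℕ := fun k => if fb k then 1 else 2 ^ (k0 + k - q0) with hstp
  have hcs : ∀ k, cnt k * stp k = 2 ^ (k0 + k) := by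
    intro k
    simp only [hcnt, hstp]
    split_ifs
    · simp
    · rw [← pow_add]
      congr 1
      omega
  have hcp : ∀ k, 0 < cnt k := by
    intro k
    simp only [hcnt]
    split_ifs <;> positivity
  set I : ℕ → ℕ := fun k => ∑ j ∈ Finset.range k, cnt j with hI
  have hIs : ∀ k, I (k + 1) = I k + cnt k := fun k => Finset.sum_range_succ _ _
  have hIm : StrictMono I := strictMono_nat_of_lt_succ fun k => by
    rw [hIs]
    have := hcp k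
    omega
  have hex : ∀ i, ∃ k, i < I (k + 1) := fun i =>
    ⟨i, lt_of_lt_of_le (Nat.lt_succ_self i) (hIm.id_le (i + 1))⟩
  set bl : ℕ → ℕ := fun i => Nat.find (hex i) with hbl
  have hb : ∀ k i, bl i = k ↔ I k ≤ i ∧ i < I (k + 1) := by
    intro k i
    simp only [hbl]
    rw [Nat.find_eq_iff]
    constructor
    · rintro ⟨h1, h2⟩
      refine ⟨?_, h1⟩
      rcases k with _ | k
      · simp [hI]
      · exact not_lt.1 (h2 k (Nat.lt_succ_self k))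
    · rintro ⟨h1, h2⟩
      refine ⟨h2, fun j hj => not_lt.2 ((hIm.monotone (Nat.succ_le_of_lt hj)).trans h1)⟩
  set g : ℕ → ℕ := fun i => 2 ^ (k0 + bl i) + (i - I (bl i)) * stp (bl i) with hg
  have hbI : ∀ k, bl (I k) = k := fun k => (hb k _).2 ⟨le_rfl, hIm (Nat.lt_succ_self k)⟩
  have hgI : ∀ k, g (I k) = 2 ^ (k0 + k) := by
    intro k
    simp [hg, hbI]
  have hnext : ∀ i, (bl (i + 1) = bl i) ∨ (i + 1 = I (bl i + 1)) := by
    intro i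
    obtain ⟨h1, h2⟩ := (hb (bl i) i).1 rfl
    rcases (Nat.succ_le_of_lt h2).eq_or_lt with h | h
    · exact Or.inr h
    · exact Or.inl ((hb _ _).2 ⟨h1.trans (Nat.le_succ i), h⟩)
  have hstep : ∀ i, g (i + 1) = g i + stp (bl i) := by
    intro i
    obtain ⟨h1, h2⟩ := (hb (bl i) i).1 rfl
    rcases hnext i with h | h
    · simp only [hg, h]
      rw [show i + 1 - I (bl i) = (i - I (bl i)) + 1 by omega]
      ring
    · rw [h, hgI]
      simp only [hg]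
      have h3 : cnt (bl i) = (i - I (bl i)) + 1 := by
        have := hIs (bl i)
        omega
      have h4 := hcs (bl i)
      rw [h3] at h4
      rw [← add_assoc, pow_succ]
      nlinarith
  refine ⟨I, bl, g, hIm, by simp [hI], hb, hgI, fun k hk => ?_, fun i hi => ?_, fun i hi => ?_,
    fun i => ⟨?_, ?_⟩, fun i => ?_⟩
  · rw [hIs]
    simp [hcnt, hk]
  · rw [hstep]
    simp [hstp, hi]
  · rw [hstep]
    simp [hstp, hi]
  · simp [hg]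
  · rw [hstep]
    obtain ⟨h1, h2⟩ := (hb (bl i) i).1 rfl
    have h3 : (i - I (bl i)) + 1 ≤ cnt (bl i) := by
      have := hIs (bl i)
      omega
    have h4 := hcs (bl i)
    have h5 := Nat.mul_le_mul_right (stp (bl i)) h3
    simp only [hg]
    rw [pow_succ]
    nlinarith
  · rcases hnext i with h | h
    · exact Or.inl h
    · refine Or.inr ⟨by rw [h, hbI], by rw [h, hgI, add_assoc]⟩

end Crest.Agent.T223.Na
end

-- ▼ part T223/NaSchC_80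
section

/-!
# Row 223, module NA (helper80): the numbers of the schedule
-/

set_option autoImplicit false
set_option maxHeartbeats 400000

open Set Filter Topology

namespace Crest.Agent.T223.Na

theorem pow_step {g : ℝ} (hg : 1 ≤ g) (e : ℕ) :
    g ^ e ≤ (g + 1) ^ (e + 1) - g ^ (e + 1) ∧
      (g + 1) ^ (e + 1) - g ^ (e + 1) ≤ (e + 1) * 2 ^ e * g ^ e := by
  induction e with
  | zero => simp
  | succ e ih =>
    have h0 : 0 < g ^ e := by positivity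
    have h2 : (1 : ℝ) ≤ 2 ^ e := one_le_pow₀ (by norm_num)
    have e1 : (g + 1) ^ (e + 1 + 1) - g ^ (e + 1 + 1) =
        (g + 1) * ((g + 1) ^ (e + 1) - g ^ (e + 1)) + g ^ e * g := by ring
    rw [e1, pow_succ g e, pow_succ 2 e]
    rw [pow_succ g e] at ih
    push_cast
    constructor
    · nlinarith [ih.1]
    · have h3 : (g + 1) * ((g + 1) ^ (e + 1) - g ^ e * g) ≤
          (2 * g) * ((e + 1) * 2 ^ e * g ^ e) :=
        mul_le_mul (by linarith) ih.2 (by linarith [ih.1]) (by linarith)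
      have h4 : g ^ e * g ≤ 2 ^ e * 2 * (g ^ e * g) := by nlinarith [mul_pos h0 (by linarith : 0 < g)]
      nlinarith

/-- the schedule: all inequalities that do not involve maps -/
structure Sch (σ : ℕ → ℝ) (a β CF ε Cp A0 Λ K : ℝ) (p q mn : ℕ) where
  c : ℕ → ℕ
  t : ℕ → ℕ
  g : ℕ → ℝ
  I : ℕ → ℕ
  fine : ℕ → Prop
  mm : ℕ → ℝ
  ℓ : ℕ → ℝ
  lo : ℕ → ℝ
  κ : ℕ → ℝ
  E : ℕ → ℝ
  b : ℕ → ℝ
  η : ℕ → ℝ
  c_mono : StrictMono c
  c_eq : ∀ i, (c i : ℝ) = g i ^ p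
  c_two : ∀ i, c (i + 1) ≤ 2 * c i
  g_ge : ∀ i, A0 ≤ g i
  g_one : ∀ i, 1 ≤ g i
  g_two : ∀ i, g (i + 1) ≤ 2 * g i
  lo_pos : ∀ i, 0 < lo i
  lo_le : ∀ i, fine i → ∃ x y : ℕ, x < y ∧ y ≤ c i ∧ lo i * (σ y - σ x) ≤ ε * y - Cp - x
  junc : ∀ i, fine i → fine (i + 1) → c i < t i ∧ t i < c (i + 1) ∧ 0 < κ i ∧
    CF ≤ κ i * (σ (c (i + 1)) - σ (t i)) ∧
    CF * (1 + (σ (c (i + 1)) - σ (t i)) *
      (((c (i + 2) : ℝ) - c (i + 1)) / (σ (c (i + 2)) - σ (c (i + 1))) + κ i)) ≤ g i ^ 3 ∧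
    CF * g (i + 1) ^ 3 ≤ κ i * (σ (c (i + 2)) - σ (c (i + 1)))
  b_next : ∀ i, fine (i + 1) → b (i + 1) ≤ 2 * b i
  b_ge : ∀ i, ((c (i + 1) : ℝ) - c i) + 40 * g i ^ 3 ≤ b i
  b_le : ∀ i, a * b i + (mn + 50) * g i ^ 3 ≤ β * c i
  E_ge : ∀ i, 0 ≤ E i
  E_le : ∀ i, 2 * E i ≤ lo i
  gain : ∀ i, fine i → fine (i + 1) →
    a * (1 + 9 * g i ^ 3 + max (b (i + 1) - b i) 0) ≤ (σ (c (i + 1)) - σ (c i)) * E i
  I_mono : StrictMono I
  mm_pos : ∀ k, 0 < mm k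
  mm_mono : Monotone mm
  ℓ_pos : ∀ k, 0 < ℓ k
  ℓ_sum : ¬ Summable ℓ
  mℓ : ∀ k, mm (k + 1) * ℓ (k + 1) ≤ Λ * (mm k * ℓ k)
  b_blk : ∀ k i, I k ≤ i → i < I (k + 1) → b i ≤ 2 * (mm k * ℓ k)
  η_ge : ∀ i, 0 ≤ η i
  η_sum : Summable η
  not_fine : ¬ fine 0
  crude : ∀ k, ¬ (mm (k + 1) ≤ K * mm k ∧ mm (k + 2) ≤ K * mm (k + 1)) →
    I (k + 2) ≤ I (k + 1) + q ∧ ∀ i, I (k + 1) ≤ i → i < I (k + 2) → ¬ fine i
  fin : ∀ k, mm (k + 1) ≤ K * mm k ∧ mm (k + 2) ≤ K * mm (k + 1) →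
    ℓ (k + 1) = σ (c (I (k + 2))) - σ (c (I (k + 1))) ∧
    ∀ i, I (k + 1) ≤ i → i < I (k + 2) → fine i ∧ lo i = mm k / Λ ∧
      ((c (i + 1) : ℝ) - c i) / (σ (c (i + 1)) - σ (c i)) ≤ mm (k + 2)
  j1 : ∀ i, fine i → fine (i + 1) →
    a * max (b (i + 1) - b i) 0 + a + 9 * g i ^ 3 + mn ≤ (σ (c (i + 1)) - σ (c i)) * lo (i + 1) / 8
  j2 : ∀ i, fine i → fine (i + 1) → E (i + 1) - E i + κ i ≤ η i * (lo (i + 1) / 2)

/-- raw data of the schedule -/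
structure Pre (σ : ℕ → ℝ) (a β CF ε Cp A0 Λ K δ B1 C3 : ℝ) (C6 e q mn : ℕ) where
  P : ℕ → ℕ
  I : ℕ → ℕ
  bl : ℕ → ℕ
  g : ℕ → ℕ
  c : ℕ → ℕ
  fb : ℕ → Prop
  mm : ℕ → ℝ
  lo : ℕ → ℝ
  b : ℕ → ℝ
  hm : StrictMono σ
  ha : 1 ≤ a
  hβ : 0 < β
  hCF : 1 ≤ CF
  hK : 1 ≤ K
  hΛ : Λ = 2 ^ (e + 8)
  hΛ2 : 256 ≤ Λ
  hε : 4 ≤ ε * Λ
  hδ : 0 < δ
  hδ1 : δ ≤ 1
  hδa : 2 * a * δ ≤ β
  hB1 : B1 = (e + 8) * Λ
  hB : 80 ≤ B1
  hC6 : CF * Λ * K ^ 2 ≤ C6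
  hC61 : (1 : ℝ) ≤ C6
  hC3 : C3 = Λ * K ^ 2 * (a * (B1 ^ 2 + 10))
  T0 : ∀ i, A0 ≤ g i
  T2 : ∀ i, (C6 : ℝ) + 1 ≤ g i
  T3 : ∀ i, CF * (1 + C6 * (K ^ 3 + 1)) ≤ g i
  T4 : ∀ i, 8 * CF * Λ * K ^ 3 ≤ g i
  T5 : ∀ i, 2 * C3 ≤ g i
  T8 : ∀ i, 8 * Λ * K ^ 2 * (a * B1 ^ 2 + a + 9 + mn) ≤ g i
  T9 : ∀ k, Cp ≤ P k
  T10 : ∀ i, B1 * Λ ≤ δ * g i
  T11 : ∀ i, 80 ≤ δ * g i
  T14 : ∀ i, a * B1 + (mn + 50) ≤ β * g i
  T15 : ∀ i, 2 * (mn + 50) ≤ β * g i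
  hPs : ∀ k, (P (k + 1) : ℝ) = Λ * P k
  hPp : ∀ k, (0 : ℝ) < P k
  hPlt : ∀ k, P k < P (k + 1)
  hml : ∀ k, mm k * (σ (P (k + 1)) - σ (P k)) = (Λ - 1) * P k
  hmp : ∀ k, 0 < mm k
  S1 : ∀ j x y : ℕ, x ≤ y → y ≤ P j → (y : ℝ) - x ≤ mm j * (σ y - σ x)
  S2 : ∀ j x y : ℕ, P (j + 1) ≤ x → x ≤ y → mm j * (σ y - σ x) ≤ (y : ℝ) - x
  hmono : Monotone mm
  hfb : ∀ k, fb k → ∃ k', k = k' + 1
  hfb' : ∀ k, fb (k + 1) ↔ mm (k + 1) ≤ K * mm k ∧ mm (k + 2) ≤ K * mm (k + 1)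
  hIm : StrictMono I
  hI0 : I 0 = 0
  hbl : ∀ k i, bl i = k ↔ I k ≤ i ∧ i < I (k + 1)
  hcI : ∀ k, c (I k) = P k
  hIc : ∀ k, ¬ fb k → I (k + 1) = I k + q
  hgf : ∀ i, fb (bl i) → g (i + 1) = g i + 1
  hbn : ∀ i, bl (i + 1) = bl i ∨ (bl (i + 1) = bl i + 1 ∧ (2 : ℝ) ^ (bl i + 1) ≤ g (i + 1))
  hcr : ∀ i, (c i : ℝ) = (g i : ℝ) ^ (e + 8)
  hg1 : ∀ i, (1 : ℝ) ≤ g i
  hglt : ∀ i, g i < g (i + 1)
  hg2 : ∀ i, (g (i + 1) : ℝ) ≤ 2 * g i
  hcq : ∀ i, (c (i + 1) : ℝ) ≤ (1 + δ / 2) * c i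
  hcm : StrictMono c
  hcP : ∀ i k, bl i = k → P k ≤ c i ∧ c (i + 1) ≤ P (k + 1)
  hlo : ∀ i, lo i = mm (bl i - 1) / Λ
  hbf : ∀ i, fb (bl i) → b i = B1 * (g i : ℝ) ^ (e + 7)
  hbc : ∀ i, ¬ fb (bl i) → b i = δ * c i

theorem exists_pre {σ : ℕ → ℝ} (hm : StrictMono σ)
    (hmean : ∀ x y z w : ℕ, x ≤ y → y ≤ z → z ≤ w →
      ((y : ℝ) - x) * (σ w - σ z) ≤ ((w : ℝ) - z) * (σ y - σ x))
    {a β CF ε Cp A0 K δ : ℝ} {e q0 mn : ℕ} (ha : 1 ≤ a) (hβ : 0 < β) (hCF : 1 ≤ CF)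
    (hK : 1 ≤ K) (hε : 4 ≤ ε * 2 ^ (e + 8)) (hδ : 0 < δ) (hδ1 : δ ≤ 1) (hδa : 2 * a * δ ≤ β)
    (hq : (1 + ((2 : ℝ) ^ q0)⁻¹) ^ (e + 8) ≤ 1 + δ / 2) :
    ∃ (B1 C3 : ℝ) (C6 : ℕ),
      Nonempty (Pre σ a β CF ε Cp A0 (2 ^ (e + 8)) K δ B1 C3 C6 e (2 ^ q0) mn) := by
  classical
  obtain ⟨Λ, hΛ⟩ : ∃ Λ : ℝ, Λ = 2 ^ (e + 8) := ⟨_, rfl⟩
  rw [← hΛ] at hε ⊢
  have hΛ2 : 256 ≤ Λ := by
    rw [hΛ, pow_add]
    have := one_le_pow₀ (by norm_num : (1 : ℝ) ≤ 2) (n := e)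
    linarith
  obtain ⟨B1, hB1⟩ : ∃ B1 : ℝ, B1 = (e + 8) * Λ := ⟨_, rfl⟩
  have hB : 80 ≤ B1 := by
    have := mul_nonneg (Nat.cast_nonneg (α := ℝ) e) (by linarith : 0 ≤ Λ)
    rw [hB1, add_mul]
    linarith
  obtain ⟨C6, hC6⟩ := exists_nat_ge (CF * Λ * K ^ 2)
  have hK2 : 1 ≤ K ^ 2 := one_le_pow₀ hK
  have hC61 : (1 : ℝ) ≤ C6 := le_trans (by
    have := mul_le_mul (mul_le_mul hCF (by linarith : 1 ≤ Λ) (by norm_num) (by linarith)) hK2
      (by norm_num) (by positivity)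
    simpa using this) hC6
  obtain ⟨C3, hC3⟩ : ∃ C3 : ℝ, C3 = Λ * K ^ 2 * (a * (B1 ^ 2 + 10)) := ⟨_, rfl⟩
  obtain ⟨k0, hq0, T0, T2, T3, T4, T5, T8, T9, T10, T11, T14, T15⟩ : ∃ k0 : ℕ, q0 ≤ k0 ∧
      A0 ≤ 2 ^ k0 ∧ (C6 : ℝ) + 1 ≤ 2 ^ k0 ∧ CF * (1 + C6 * (K ^ 3 + 1)) ≤ 2 ^ k0 ∧
      8 * CF * Λ * K ^ 3 ≤ 2 ^ k0 ∧ 2 * C3 ≤ 2 ^ k0 ∧
      8 * Λ * K ^ 2 * (a * B1 ^ 2 + a + 9 + mn) ≤ 2 ^ k0 ∧ Cp ≤ 2 ^ k0 ∧
      B1 * Λ / δ ≤ 2 ^ k0 ∧ 80 / δ ≤ 2 ^ k0 ∧ (a * B1 + (mn + 50)) / β ≤ 2 ^ k0 ∧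
      2 * (mn + 50) / β ≤ 2 ^ k0 := by
    have h2 : Tendsto (fun k : ℕ => (2 : ℝ) ^ k) atTop atTop :=
      tendsto_pow_atTop_atTop_of_one_lt (by norm_num)
    exact ((eventually_ge_atTop q0).and ((h2.eventually_ge_atTop _).and
      ((h2.eventually_ge_atTop _).and ((h2.eventually_ge_atTop _).and
      ((h2.eventually_ge_atTop _).and ((h2.eventually_ge_atTop _).and
      ((h2.eventually_ge_atTop _).and ((h2.eventually_ge_atTop _).and
      ((h2.eventually_ge_atTop _).and ((h2.eventually_ge_atTop _).and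
      ((h2.eventually_ge_atTop _).and (h2.eventually_ge_atTop _)))))))))))).exists
  obtain ⟨P, hP⟩ : ∃ P : ℕ → ℕ, ∀ k, P k = (2 ^ (k0 + k)) ^ (e + 8) := ⟨_, fun _ => rfl⟩
  have hPs : ∀ k, (P (k + 1) : ℝ) = Λ * P k := by
    intro k
    simp only [hP, hΛ]
    push_cast
    rw [← add_assoc, pow_succ 2 (k0 + k), mul_pow, mul_comm]
  have hP0 : ∀ k, (2 : ℝ) ^ k0 ≤ P k := by
    intro k
    simp only [hP]
    push_cast
    exact (pow_le_pow_right₀ (by norm_num) (Nat.le_add_right _ _)).trans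
      (le_self_pow₀ (one_le_pow₀ (by norm_num)) (by omega))
  have h2k : (1 : ℝ) ≤ 2 ^ k0 := one_le_pow₀ (by norm_num)
  have hPp : ∀ k, (0 : ℝ) < P k := fun k => by linarith [hP0 k]
  have hPd : ∀ k, (0 : ℝ) < (P (k + 1) : ℝ) - P k := by
    intro k
    have := mul_pos (by linarith : 0 < Λ - 1) (hPp k)
    rw [hPs]
    linarith
  have hPlt : ∀ k, P k < P (k + 1) := by
    intro k
    have : (P k : ℝ) < P (k + 1) := by linarith [hPd k]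
    exact_mod_cast this
  have hℓp : ∀ k, 0 < σ (P (k + 1)) - σ (P k) := fun k => sub_pos.2 (hm (hPlt k))
  obtain ⟨mm, hmm⟩ : ∃ mm : ℕ → ℝ, ∀ k,
      mm k = ((P (k + 1) : ℝ) - P k) / (σ (P (k + 1)) - σ (P k)) := ⟨_, fun _ => rfl⟩
  have S1 : ∀ j x y : ℕ, x ≤ y → y ≤ P j → (y : ℝ) - x ≤ mm j * (σ y - σ x) := by
    intro j x y hxy hy
    have := hmean x y (P j) (P (j + 1)) hxy hy (hPlt j).le
    rw [hmm, div_mul_eq_mul_div, le_div_iff₀ (hℓp j)]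
    exact this
  have S2 : ∀ j x y : ℕ, P (j + 1) ≤ x → x ≤ y → mm j * (σ y - σ x) ≤ (y : ℝ) - x := by
    intro j x y hx hxy
    have := hmean (P j) (P (j + 1)) x y (hPlt j).le hx hxy
    rw [hmm, div_mul_eq_mul_div, div_le_iff₀ (hℓp j)]
    exact this
  obtain ⟨fb, hfb⟩ : ∃ fb : ℕ → Prop, ∀ k, fb k ↔ ∃ k', k = k' + 1 ∧ mm (k' + 1) ≤ K * mm k' ∧
    mm (k' + 2) ≤ K * mm (k' + 1) := ⟨_, fun _ => Iff.rfl⟩
  obtain ⟨I, bl, g, hIm, hI0, hbl, hgI, hIc, hgf, hgc, hgb, hbn⟩ := exists_grid k0 q0 hq0 fb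
  obtain ⟨c, hc⟩ : ∃ c : ℕ → ℕ, ∀ i, c i = g i ^ (e + 8) := ⟨_, fun _ => rfl⟩
  have hcr : ∀ i, (c i : ℝ) = (g i : ℝ) ^ (e + 8) := fun i => by simp [hc]
  have hg0 : ∀ i, (2 : ℝ) ^ k0 ≤ g i := by
    intro i
    have h1 : 2 ^ k0 ≤ g i :=
      (Nat.pow_le_pow_right (by norm_num) (Nat.le_add_right _ _)).trans (hgb i).1
    exact_mod_cast h1
  have hg1 : ∀ i, (1 : ℝ) ≤ g i := fun i => h2k.trans (hg0 i)
  have hglt : ∀ i, g i < g (i + 1) := by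
    intro i
    by_cases h : fb (bl i)
    · rw [hgf i h]
      omega
    · rw [hgc i h]
      have : 0 < 2 ^ (k0 + bl i - q0) := by positivity
      omega
  have hgq : ∀ i, (g (i + 1) : ℝ) ≤ (1 + ((2 : ℝ) ^ q0)⁻¹) * g i := by
    intro i
    have h1 : ((2 : ℝ) ^ (k0 + bl i - q0)) ≤ ((2 : ℝ) ^ q0)⁻¹ * g i := by
      rw [inv_mul_eq_div, le_div_iff₀ (by positivity), ← pow_add,
        show k0 + bl i - q0 + q0 = k0 + bl i by omega]
      exact_mod_cast (hgb i).1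
    rw [add_mul]
    by_cases h : fb (bl i)
    · rw [hgf i h]
      push_cast
      have : (1 : ℝ) ≤ 2 ^ (k0 + bl i - q0) := one_le_pow₀ (by norm_num)
      linarith
    · rw [hgc i h]
      push_cast
      linarith
  have hdiv : ∀ {x y : ℝ} (i : ℕ), 0 < y → x / y ≤ 2 ^ k0 → x ≤ y * g i := by
    intro x y i hy h
    have := h.trans (hg0 i)
    rw [div_le_iff₀ hy] at this
    linarith
  refine ⟨B1, C3, C6, ⟨{
    P := P, I := I, bl := bl, g := g, c := c, fb := fb, mm := mm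
    lo := fun i => mm (bl i - 1) / Λ
    b := fun i => if fb (bl i) then B1 * (g i : ℝ) ^ (e + 7) else δ * c i
    hm := hm, ha := ha, hβ := hβ, hCF := hCF, hK := hK, hΛ := hΛ, hΛ2 := hΛ2, hε := hε
    hδ := hδ, hδ1 := hδ1, hδa := hδa, hB1 := hB1, hB := hB, hC6 := hC6, hC61 := hC61, hC3 := hC3
    T0 := fun i => T0.trans (hg0 i)
    T2 := fun i => T2.trans (hg0 i)
    T3 := fun i => T3.trans (hg0 i)
    T4 := fun i => T4.trans (hg0 i)
    T5 := fun i => T5.trans (hg0 i)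
    T8 := fun i => T8.trans (hg0 i)
    T9 := fun k => T9.trans (hP0 k)
    T10 := fun i => hdiv i hδ T10
    T11 := fun i => hdiv i hδ T11
    T14 := fun i => hdiv i hβ T14
    T15 := fun i => hdiv i hβ T15
    hPs := hPs, hPp := hPp, hPlt := hPlt
    hml := fun k => ?_
    hmp := fun k => by rw [hmm]; exact div_pos (hPd k) (hℓp k)
    S1 := S1, S2 := S2
    hmono := ?_
    hfb := fun k hk => ?_
    hfb' := fun k => ?_
    hIm := hIm, hI0 := hI0, hbl := hbl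
    hcI := fun k => by rw [hc, hgI, hP]
    hIc := hIc, hgf := hgf
    hbn := fun i => ?_
    hcr := hcr, hg1 := hg1, hglt := hglt
    hg2 := fun i => ?_
    hcq := fun i => ?_
    hcm := strictMono_nat_of_lt_succ fun i => by
      rw [hc, hc]; exact Nat.pow_lt_pow_left (hglt i) (by omega)
    hcP := fun i k hk => ?_
    hlo := fun i => rfl
    hbf := fun i h => by simp [h]
    hbc := fun i h => by simp [h] }⟩⟩
  · rw [hmm, div_mul_cancel₀ _ (hℓp k).ne', hPs]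
    ring
  · refine monotone_nat_of_le_succ fun j => ?_
    have := S2 j (P (j + 1)) (P (j + 2)) le_rfl (hPlt _).le
    rw [hmm (j + 1), le_div_iff₀ (hℓp (j + 1))]
    exact this
  · obtain ⟨k', h, -⟩ := (hfb k).1 hk
    exact ⟨k', h⟩
  · rw [hfb]
    constructor
    · rintro ⟨k', h1, h2⟩
      obtain rfl : k = k' := by omega
      exact h2
    · exact fun h => ⟨k, rfl, h⟩
  · rcases hbn i with h | h
    · exact Or.inl h
    · refine Or.inr ⟨h.1, ?_⟩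
      rw [h.2]
      push_cast
      exact pow_le_pow_right₀ (by norm_num) (by omega)
  · have h1 : ((2 : ℝ) ^ q0)⁻¹ ≤ 1 := inv_le_one_of_one_le₀ (one_le_pow₀ (by norm_num))
    exact (hgq i).trans (mul_le_mul_of_nonneg_right (by linarith) (Nat.cast_nonneg _))
  · rw [hcr, hcr]
    calc (g (i + 1) : ℝ) ^ (e + 8) ≤ ((1 + ((2 : ℝ) ^ q0)⁻¹) * g i) ^ (e + 8) :=
          pow_le_pow_left₀ (Nat.cast_nonneg _) (hgq i) _
      _ ≤ _ := by
          rw [mul_pow]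
          exact mul_le_mul_of_nonneg_right hq (by positivity)
  · subst hk
    rw [hc, hc, hP, hP]
    exact ⟨Nat.pow_le_pow_left (hgb i).1 _,
      Nat.pow_le_pow_left (by rw [← add_assoc]; exact (hgb i).2) _⟩

namespace Pre

variable {σ : ℕ → ℝ} {a β CF ε Cp A0 Λ K δ B1 C3 : ℝ} {C6 e q mn : ℕ}
  (X : Pre σ a β CF ε Cp A0 Λ K δ B1 C3 C6 e q mn)

theorem hl (i : ℕ) : 0 < σ (X.c (i + 1)) - σ (X.c i) :=
  sub_pos.2 (X.hm (X.hcm (Nat.lt_succ_self i)))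

theorem hpw (i : ℕ) {x y : ℕ} (h : x ≤ y) : (X.g i : ℝ) ^ x ≤ (X.g i : ℝ) ^ y :=
  pow_le_pow_right₀ (X.hg1 i) h

include X in
theorem hC30 : 0 < C3 := by
  have := X.hΛ2
  have := X.hK
  have := X.ha
  rw [X.hC3]
  positivity

theorem hd (i : ℕ) (h : X.fb (X.bl i)) :
    (X.g i : ℝ) ^ (e + 7) ≤ (X.c (i + 1) : ℝ) - X.c i ∧
      (X.c (i + 1) : ℝ) - X.c i ≤ B1 / 2 * (X.g i : ℝ) ^ (e + 7) := by
  have := pow_step (X.hg1 i) (e + 7)
  rw [X.hcr, X.hcr, X.hgf i h]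
  push_cast at this ⊢
  have hb : B1 / 2 = ((e : ℝ) + 7 + 1) * 2 ^ (e + 7) := by
    rw [X.hB1, X.hΛ]
    ring
  exact ⟨this.1, this.2.trans (le_of_eq (by rw [hb]))⟩

theorem hlop (i : ℕ) : 0 < X.lo i := by
  rw [X.hlo]
  exact div_pos (X.hmp _) (by linarith [X.hΛ2])

theorem hlom (i : ℕ) : X.lo i ≤ X.lo (i + 1) := by
  rw [X.hlo, X.hlo]
  refine div_le_div_of_nonneg_right (X.hmono ?_) (by linarith [X.hΛ2])
  rcases X.hbn i with h | h
  · rw [h]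
  · rw [h.1]
    omega

theorem hmk {i k : ℕ} (hk : X.bl i = k + 1) : X.mm k = Λ * X.lo i := by
  rw [X.hlo, hk, Nat.add_sub_cancel, mul_div_cancel₀ _ (by linarith [X.hΛ2])]

theorem hdb (i : ℕ) (h : X.fb (X.bl i)) (h' : X.fb (X.bl (i + 1))) :
    max (X.b (i + 1) - X.b i) 0 ≤ B1 ^ 2 * (X.g i : ℝ) ^ (e + 6) := by
  refine max_le ?_ (by positivity)
  have := (pow_step (X.hg1 i) (e + 6)).2
  rw [X.hbf i h, X.hbf _ h', X.hgf i h]
  push_cast at this ⊢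
  have h1 : ((e : ℝ) + 6 + 1) * 2 ^ (e + 6) ≤ B1 := by
    rw [X.hB1, X.hΛ]
    exact mul_le_mul (by linarith) (pow_le_pow_right₀ (by norm_num) (by omega)) (by positivity)
      (by positivity)
  have h2 : ((X.g i : ℝ) + 1) ^ (e + 7) - (X.g i : ℝ) ^ (e + 7) ≤ B1 * (X.g i : ℝ) ^ (e + 6) :=
    this.trans (mul_le_mul_of_nonneg_right h1 (by positivity))
  have h3 := mul_le_mul_of_nonneg_left h2 (by linarith [X.hB] : 0 ≤ B1)
  linarith

theorem hm2 {i k : ℕ} (hk : X.bl i = k + 1) (h : X.fb (X.bl i)) :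
    X.mm (k + 2) ≤ K ^ 2 * (Λ * X.lo i) := by
  have h1 := (X.hfb' k).1 (hk ▸ h)
  have h2 := mul_le_mul_of_nonneg_left h1.1 (by linarith [X.hK] : 0 ≤ K)
  rw [← X.hmk hk]
  linarith [h1.2]

theorem hlen (i : ℕ) (h : X.fb (X.bl i)) :
    (X.g i : ℝ) ^ (e + 7) ≤ K ^ 2 * (Λ * X.lo i) * (σ (X.c (i + 1)) - σ (X.c i)) := by
  obtain ⟨k, hk⟩ := X.hfb _ h
  have h2 := X.S1 (k + 2) (X.c i) (X.c (i + 1)) (X.hcm (Nat.lt_succ_self i)).le (X.hcP i _ hk).2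
  exact ((X.hd i h).1.trans h2).trans (mul_le_mul_of_nonneg_right (X.hm2 hk h) (X.hl i).le)

theorem lo_le (i : ℕ) (h : X.fb (X.bl i)) :
    ∃ x y : ℕ, x < y ∧ y ≤ X.c i ∧ X.lo i * (σ y - σ x) ≤ ε * y - Cp - x := by
  obtain ⟨k, hk⟩ := X.hfb _ h
  refine ⟨X.P k, X.P (k + 1), X.hPlt k, (X.hcP i _ hk).1, ?_⟩
  have h1 := X.hml k
  have h0 := X.hPp k
  have hΛ := X.hΛ2
  rw [X.hmk hk] at h1
  have h2 : 4 * (X.P k : ℝ) ≤ ε * (Λ * X.P k) := by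
    have := mul_le_mul_of_nonneg_right X.hε h0.le
    linarith
  have h3 : (X.P k : ℝ) ≤ ε * (Λ * X.P k) - Cp - X.P k := by linarith [X.T9 k]
  rw [X.hPs]
  refine le_trans (le_of_mul_le_mul_left ?_ (by linarith : 0 < Λ)) h3
  linarith

theorem junc (i : ℕ) (h : X.fb (X.bl i)) (h' : X.fb (X.bl (i + 1))) :
    X.c i < X.c (i + 1) - C6 * X.g i ^ 2 ∧ X.c (i + 1) - C6 * X.g i ^ 2 < X.c (i + 1) ∧
    0 < X.lo i / (X.g i : ℝ) ^ 2 ∧
    CF ≤ X.lo i / (X.g i : ℝ) ^ 2 * (σ (X.c (i + 1)) - σ (X.c (i + 1) - C6 * X.g i ^ 2)) ∧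
    CF * (1 + (σ (X.c (i + 1)) - σ (X.c (i + 1) - C6 * X.g i ^ 2)) *
      (((X.c (i + 2) : ℝ) - X.c (i + 1)) / (σ (X.c (i + 2)) - σ (X.c (i + 1))) +
        X.lo i / (X.g i : ℝ) ^ 2)) ≤ (X.g i : ℝ) ^ 3 ∧
    CF * (X.g (i + 1) : ℝ) ^ 3 ≤
      X.lo i / (X.g i : ℝ) ^ 2 * (σ (X.c (i + 2)) - σ (X.c (i + 1))) := by
  obtain ⟨k, hk⟩ := X.hfb _ h
  have hgi := X.hg1 i
  have hΛ := X.hΛ2
  have hK := X.hK
  have hCF := X.hCF
  have hC61 := X.hC61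
  have hlop := X.hlop i
  have hg2p : (0 : ℝ) < (X.g i : ℝ) ^ 2 := by positivity
  have hs : ((C6 * X.g i ^ 2 : ℕ) : ℝ) < (X.c (i + 1) : ℝ) - X.c i := by
    refine lt_of_lt_of_le ?_ ((X.hpw i (by omega : 3 ≤ e + 7)).trans (X.hd i h).1)
    push_cast
    have := mul_le_mul_of_nonneg_right (X.T2 i) hg2p.le
    linarith
  have hs' : X.c i + C6 * X.g i ^ 2 < X.c (i + 1) := by
    have : ((X.c i + C6 * X.g i ^ 2 : ℕ) : ℝ) < X.c (i + 1) := by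
      rw [Nat.cast_add]
      linarith
    exact_mod_cast this
  have hs0 : 0 < C6 * X.g i ^ 2 := by
    have : (0 : ℝ) < ((C6 * X.g i ^ 2 : ℕ) : ℝ) := by
      push_cast
      positivity
    exact_mod_cast this
  have ht : ((X.c (i + 1) - C6 * X.g i ^ 2 : ℕ) : ℝ) = X.c (i + 1) - C6 * (X.g i : ℝ) ^ 2 := by
    rw [Nat.cast_sub (by omega)]
    push_cast
    ring
  have hh : 0 ≤ σ (X.c (i + 1)) - σ (X.c (i + 1) - C6 * X.g i ^ 2) :=
    sub_nonneg.2 (X.hm.monotone (Nat.sub_le _ _))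
  have hA := X.S1 (k + 2) (X.c (i + 1) - C6 * X.g i ^ 2) (X.c (i + 1)) (Nat.sub_le _ _)
    (X.hcP i _ hk).2
  have hB' := X.S2 k (X.c (i + 1) - C6 * X.g i ^ 2) (X.c (i + 1))
    ((X.hcP i _ hk).1.trans (by omega)) (Nat.sub_le _ _)
  rw [ht] at hA hB'
  rw [X.hmk hk] at hB'
  generalize σ (X.c (i + 1)) - σ (X.c (i + 1) - C6 * X.g i ^ 2) = h0 at *
  replace hA : (C6 : ℝ) * (X.g i : ℝ) ^ 2 ≤ K ^ 2 * (Λ * X.lo i) * h0 := by
    have := mul_le_mul_of_nonneg_right (X.hm2 hk h) hh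
    linarith
  replace hB' : Λ * X.lo i * h0 ≤ (C6 : ℝ) * (X.g i : ℝ) ^ 2 := by linarith
  obtain ⟨j, hj1, hj2⟩ : ∃ j, X.c (i + 2) ≤ X.P j ∧ X.mm j ≤ K ^ 3 * (Λ * X.lo i) := by
    refine ⟨X.bl (i + 1) + 1, (X.hcP (i + 1) _ rfl).2, ?_⟩
    have h3 := X.hm2 hk h
    rcases X.hbn i with h4 | h4
    · rw [h4, hk]
      exact h3.trans (mul_le_mul_of_nonneg_right (pow_le_pow_right₀ hK (by norm_num))
        (by positivity))
    · have h5 : X.bl (i + 1) = (k + 1) + 1 := by rw [h4.1, hk]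
      have h6 := ((X.hfb' (k + 1)).1 (h5 ▸ h')).2
      rw [h5]
      have := mul_le_mul_of_nonneg_left h3 (by linarith : 0 ≤ K)
      refine h6.trans (this.trans (le_of_eq (by ring)))
  have hC := X.S1 j (X.c (i + 1)) (X.c (i + 2)) (X.hcm (Nat.lt_succ_self _)).le hj1
  have hl1 : 0 < σ (X.c (i + 2)) - σ (X.c (i + 1)) := X.hl (i + 1)
  have hC' : (X.c (i + 2) : ℝ) - X.c (i + 1) ≤
      K ^ 3 * (Λ * X.lo i) * (σ (X.c (i + 2)) - σ (X.c (i + 1))) :=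
    hC.trans (mul_le_mul_of_nonneg_right hj2 hl1.le)
  refine ⟨by omega, by omega, div_pos hlop hg2p, ?_, ?_, ?_⟩
  · rw [div_mul_eq_mul_div, le_div_iff₀ hg2p]
    have h1 : CF * Λ * K ^ 2 * (X.g i : ℝ) ^ 2 ≤ K ^ 2 * (Λ * X.lo i) * h0 :=
      (mul_le_mul_of_nonneg_right X.hC6 hg2p.le).trans hA
    have h2 : (Λ * K ^ 2) * (CF * (X.g i : ℝ) ^ 2) ≤ (Λ * K ^ 2) * (X.lo i * h0) := by linarith
    exact le_of_mul_le_mul_left h2 (by positivity)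
  · have h1 : ((X.c (i + 2) : ℝ) - X.c (i + 1)) / (σ (X.c (i + 2)) - σ (X.c (i + 1))) ≤
        K ^ 3 * (Λ * X.lo i) := by
      rw [div_le_iff₀ hl1]
      exact hC'
    have h5 : (1 : ℝ) ≤ (X.g i : ℝ) ^ 2 := one_le_pow₀ hgi
    have h2 : X.lo i / (X.g i : ℝ) ^ 2 ≤ Λ * X.lo i :=
      (div_le_self hlop.le h5).trans (le_mul_of_one_le_left hlop.le (by linarith))
    have h3 : h0 * (((X.c (i + 2) : ℝ) - X.c (i + 1)) / (σ (X.c (i + 2)) - σ (X.c (i + 1))) +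
        X.lo i / (X.g i : ℝ) ^ 2) ≤ (K ^ 3 + 1) * (C6 * (X.g i : ℝ) ^ 2) :=
      calc _ ≤ h0 * (K ^ 3 * (Λ * X.lo i) + Λ * X.lo i) :=
            mul_le_mul_of_nonneg_left (add_le_add h1 h2) hh
        _ = (K ^ 3 + 1) * (Λ * X.lo i * h0) := by ring
        _ ≤ _ := mul_le_mul_of_nonneg_left hB' (by positivity)
    calc _ ≤ CF * ((1 + C6 * (K ^ 3 + 1)) * (X.g i : ℝ) ^ 2) :=
          mul_le_mul_of_nonneg_left (by linarith) (by linarith)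
      _ = CF * (1 + C6 * (K ^ 3 + 1)) * (X.g i : ℝ) ^ 2 := by ring
      _ ≤ X.g i * (X.g i : ℝ) ^ 2 := mul_le_mul_of_nonneg_right (X.T3 i) hg2p.le
      _ = _ := by ring
  · rw [div_mul_eq_mul_div, le_div_iff₀ hg2p]
    have h1 : (X.g i : ℝ) ^ (e + 7) ≤ (X.c (i + 2) : ℝ) - X.c (i + 1) :=
      (pow_le_pow_left₀ (Nat.cast_nonneg _) (by exact_mod_cast (X.hglt i).le) _).trans
        (X.hd (i + 1) h').1
    have h2 : (X.g (i + 1) : ℝ) ^ 3 ≤ 8 * (X.g i : ℝ) ^ 3 :=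
      (pow_le_pow_left₀ (Nat.cast_nonneg _) (X.hg2 i) 3).trans (le_of_eq (by ring))
    have h3 := X.T4 i
    have h5 : (K ^ 3 * Λ) * (CF * (X.g (i + 1) : ℝ) ^ 3 * (X.g i : ℝ) ^ 2) ≤
        (K ^ 3 * Λ) * (X.lo i * (σ (X.c (i + 2)) - σ (X.c (i + 1)))) :=
      calc (K ^ 3 * Λ) * (CF * (X.g (i + 1) : ℝ) ^ 3 * (X.g i : ℝ) ^ 2)
          ≤ (K ^ 3 * Λ) * (CF * (8 * (X.g i : ℝ) ^ 3) * (X.g i : ℝ) ^ 2) := by gcongr
        _ = (X.g i : ℝ) ^ 3 * (8 * CF * Λ * K ^ 3) * (X.g i : ℝ) ^ 2 := by ring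
        _ ≤ (X.g i : ℝ) ^ 3 * X.g i * (X.g i : ℝ) ^ 2 := by gcongr
        _ = (X.g i : ℝ) ^ 6 := by ring
        _ ≤ (X.g i : ℝ) ^ (e + 7) := X.hpw i (by omega)
        _ ≤ _ := by linarith
    exact le_of_mul_le_mul_left h5 (by positivity)

theorem hBg (i : ℕ) : B1 ≤ X.g i := by
  have h1 := X.T10 i
  have h2 := mul_le_mul_of_nonneg_right X.hδ1 (Nat.cast_nonneg (α := ℝ) (X.g i))
  have h3 := mul_le_mul_of_nonneg_left (by linarith [X.hΛ2] : 1 ≤ Λ) (by linarith [X.hB] : 0 ≤ B1)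
  linarith

theorem b_next (i : ℕ) (h : X.fb (X.bl (i + 1))) : X.b (i + 1) ≤ 2 * X.b i := by
  have hgi := X.hg1 i
  have hB := X.hB
  have hδ := X.hδ
  by_cases h' : X.fb (X.bl i)
  · have h1 := (le_max_left _ _).trans (X.hdb i h' h)
    have h2 := X.hbf i h'
    have h4 : B1 ^ 2 * (X.g i : ℝ) ^ (e + 6) ≤ B1 * (X.g i : ℝ) ^ (e + 7) :=
      calc B1 ^ 2 * (X.g i : ℝ) ^ (e + 6) = B1 * B1 * (X.g i : ℝ) ^ (e + 6) := by ring
        _ ≤ B1 * X.g i * (X.g i : ℝ) ^ (e + 6) := by gcongr; exact X.hBg i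
        _ = _ := by ring
    linarith
  · rw [X.hbf _ h, X.hbc _ h', X.hcr]
    have h1 : (X.g (i + 1) : ℝ) ^ (e + 7) ≤ Λ * (X.g i : ℝ) ^ (e + 7) := by
      refine (pow_le_pow_left₀ (Nat.cast_nonneg _) (X.hg2 i) _).trans ?_
      have h0 : (2 : ℝ) ^ (e + 7) ≤ Λ := by
        rw [X.hΛ]
        exact pow_le_pow_right₀ (by norm_num) (by omega)
      rw [mul_pow]
      exact mul_le_mul_of_nonneg_right h0 (by positivity)
    have h2 : 0 ≤ δ * (X.g i : ℝ) ^ (e + 8) := by positivity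
    calc B1 * (X.g (i + 1) : ℝ) ^ (e + 7) ≤ B1 * (Λ * (X.g i : ℝ) ^ (e + 7)) := by gcongr
      _ = (B1 * Λ) * (X.g i : ℝ) ^ (e + 7) := by ring
      _ ≤ (δ * X.g i) * (X.g i : ℝ) ^ (e + 7) :=
          mul_le_mul_of_nonneg_right (X.T10 i) (by positivity)
      _ = δ * (X.g i : ℝ) ^ (e + 8) := by ring
      _ ≤ _ := by linarith

theorem small {x y : ℝ} (i : ℕ) (hy : 0 ≤ y) (h : x ≤ y * X.g i) :
    x * (X.g i : ℝ) ^ 3 ≤ y * X.c i :=
  calc x * (X.g i : ℝ) ^ 3 ≤ (y * X.g i) * (X.g i : ℝ) ^ 3 := by gcongr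
    _ = y * (X.g i : ℝ) ^ 4 := by ring
    _ ≤ y * X.c i := by
      rw [X.hcr]
      exact mul_le_mul_of_nonneg_left (X.hpw i (by omega)) hy

theorem b_ge (i : ℕ) : ((X.c (i + 1) : ℝ) - X.c i) + 40 * (X.g i : ℝ) ^ 3 ≤ X.b i := by
  by_cases h : X.fb (X.bl i)
  · rw [X.hbf i h]
    have h1 := (X.hd i h).2
    have h2 := X.hpw i (by omega : 3 ≤ e + 7)
    have h3 := mul_le_mul_of_nonneg_right X.hB (by positivity : 0 ≤ (X.g i : ℝ) ^ (e + 7))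
    linarith
  · rw [X.hbc i h]
    have h1 := X.hcq i
    have h4 := X.small i X.hδ.le (X.T11 i)
    linarith

theorem b_le (i : ℕ) : a * X.b i + (mn + 50) * (X.g i : ℝ) ^ 3 ≤ β * X.c i := by
  have hmn : (0 : ℝ) ≤ mn + 50 := by positivity
  by_cases h : X.fb (X.bl i)
  · rw [X.hbf i h, X.hcr]
    have h1 := mul_le_mul_of_nonneg_right (X.T14 i) (by positivity : 0 ≤ (X.g i : ℝ) ^ (e + 7))
    have h2 := mul_le_mul_of_nonneg_left (X.hpw i (by omega : 3 ≤ e + 7)) hmn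
    rw [pow_succ (X.g i : ℝ) (e + 7)]
    linarith
  · rw [X.hbc i h]
    have h4 := X.small i X.hβ.le (X.T15 i)
    have h5 := mul_le_mul_of_nonneg_right X.hδa (Nat.cast_nonneg (α := ℝ) (X.c i))
    linarith

theorem E_le (i : ℕ) : 2 * (C3 / X.g i * X.lo i) ≤ X.lo i := by
  have h2 : 2 * (C3 / X.g i) ≤ 1 := by
    rw [← mul_div_assoc, div_le_one (by linarith [X.hg1 i])]
    exact X.T5 i
  have := mul_le_mul_of_nonneg_right h2 (X.hlop i).le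
  linarith

theorem gain (i : ℕ) (h : X.fb (X.bl i)) (h' : X.fb (X.bl (i + 1))) :
    a * (1 + 9 * (X.g i : ℝ) ^ 3 + max (X.b (i + 1) - X.b i) 0) ≤
      (σ (X.c (i + 1)) - σ (X.c i)) * (C3 / X.g i * X.lo i) := by
  have h1 := X.hlen i h
  have h2 := X.hdb i h h'
  have hgi := X.hg1 i
  have ha := X.ha
  have h3 : a * (1 + 9 * (X.g i : ℝ) ^ 3 + max (X.b (i + 1) - X.b i) 0) ≤
      a * ((B1 ^ 2 + 10) * (X.g i : ℝ) ^ (e + 6)) := by
    have h5 := X.hpw i (by omega : 3 ≤ e + 6)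
    have h6 : 1 ≤ (X.g i : ℝ) ^ (e + 6) := one_le_pow₀ hgi
    exact mul_le_mul_of_nonneg_left (by linarith) (by linarith)
  refine h3.trans ?_
  have h4 : (σ (X.c (i + 1)) - σ (X.c i)) * (C3 / X.g i * X.lo i) =
      a * (B1 ^ 2 + 10) * (K ^ 2 * (Λ * X.lo i) * (σ (X.c (i + 1)) - σ (X.c i))) / X.g i := by
    have h5 : ∀ x y z : ℝ, x * (C3 / y * z) =
        a * (B1 ^ 2 + 10) * (K ^ 2 * (Λ * z) * x) / y := by
      intro x y z
      rw [X.hC3]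
      ring
    exact h5 _ _ _
  rw [h4, le_div_iff₀ (by linarith), mul_assoc, mul_assoc, ← pow_succ, ← mul_assoc]
  exact mul_le_mul_of_nonneg_left h1 (by positivity)

theorem b_blk (k i : ℕ) (h1 : X.I k ≤ i) (h2 : i < X.I (k + 1)) :
    X.b i ≤ 2 * (X.mm k * (σ (X.P (k + 1)) - σ (X.P k))) := by
  have hk : X.bl i = k := (X.hbl k i).2 ⟨h1, h2⟩
  have h3 : X.b i ≤ X.c i := by
    by_cases h : X.fb (X.bl i)
    · rw [X.hbf i h, X.hcr, pow_succ (X.g i : ℝ) (e + 7), mul_comm]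
      exact mul_le_mul_of_nonneg_left (X.hBg i) (by positivity)
    · rw [X.hbc i h]
      exact mul_le_of_le_one_left (Nat.cast_nonneg _) X.hδ1
  have h4 : (X.c i : ℝ) ≤ X.P (k + 1) := by
    exact_mod_cast (X.hcm (Nat.lt_succ_self i)).le.trans (X.hcP i _ hk).2
  rw [X.hml]
  rw [X.hPs] at h4
  have := mul_le_mul_of_nonneg_right X.hΛ2 (X.hPp k).le
  linarith [X.hPp k]

theorem η_ge (i : ℕ) : 0 ≤ 4 * (((X.g i : ℝ))⁻¹ - ((X.g (i + 1) : ℝ))⁻¹) +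
    2 * C3 * ((1 / 2) ^ X.bl i - (1 / 2) ^ X.bl (i + 1)) := by
  have h1 : ((X.g (i + 1) : ℝ))⁻¹ ≤ ((X.g i : ℝ))⁻¹ :=
    inv_anti₀ (by linarith [X.hg1 i]) (by exact_mod_cast (X.hglt i).le)
  have h2 : ((1 : ℝ) / 2) ^ X.bl (i + 1) ≤ (1 / 2) ^ X.bl i := by
    refine pow_le_pow_of_le_one (by norm_num) (by norm_num) ?_
    rcases X.hbn i with h | h
    · exact h.ge
    · rw [h.1]
      omega
  have := sub_nonneg.2 h1
  have := sub_nonneg.2 h2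
  have := X.hC30
  positivity

theorem j1 (i : ℕ) (h : X.fb (X.bl i)) (h' : X.fb (X.bl (i + 1))) :
    a * max (X.b (i + 1) - X.b i) 0 + a + 9 * (X.g i : ℝ) ^ 3 + mn ≤
      (σ (X.c (i + 1)) - σ (X.c i)) * X.lo (i + 1) / 8 := by
  have h1 := X.hlen i h
  have h2 := X.hdb i h h'
  have hgi := X.hg1 i
  have ha := X.ha
  have hK := X.hK
  have hΛ := X.hΛ2
  have h0 : (1 : ℝ) ≤ (X.g i : ℝ) ^ (e + 6) := one_le_pow₀ hgi
  have h3 : a * max (X.b (i + 1) - X.b i) 0 + a + 9 * (X.g i : ℝ) ^ 3 + mn ≤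
      (a * B1 ^ 2 + a + 9 + mn) * (X.g i : ℝ) ^ (e + 6) := by
    have h4 := mul_le_mul_of_nonneg_left h2 (by linarith : 0 ≤ a)
    have h5 := X.hpw i (by omega : 3 ≤ e + 6)
    have h6 := mul_le_mul_of_nonneg_left h0 (by linarith : 0 ≤ a)
    have h7 := mul_le_mul_of_nonneg_left h0 (Nat.cast_nonneg (α := ℝ) mn)
    linarith
  refine h3.trans ?_
  have h4 := X.T8 i
  have h5 : (8 * Λ * K ^ 2) * ((a * B1 ^ 2 + a + 9 + mn) * (X.g i : ℝ) ^ (e + 6)) ≤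
      (8 * Λ * K ^ 2) * ((σ (X.c (i + 1)) - σ (X.c i)) * X.lo (i + 1) / 8) :=
    calc (8 * Λ * K ^ 2) * ((a * B1 ^ 2 + a + 9 + mn) * (X.g i : ℝ) ^ (e + 6))
        = (8 * Λ * K ^ 2 * (a * B1 ^ 2 + a + 9 + mn)) * (X.g i : ℝ) ^ (e + 6) := by ring
      _ ≤ X.g i * (X.g i : ℝ) ^ (e + 6) := by gcongr
      _ = (X.g i : ℝ) ^ (e + 7) := by ring
      _ ≤ K ^ 2 * (Λ * X.lo i) * (σ (X.c (i + 1)) - σ (X.c i)) := h1
      _ ≤ K ^ 2 * (Λ * X.lo (i + 1)) * (σ (X.c (i + 1)) - σ (X.c i)) := by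
          have := (X.hl i).le
          have := X.hlom i
          gcongr
      _ = _ := by ring
  exact le_of_mul_le_mul_left h5 (by positivity)

theorem j2 (i : ℕ) (h : X.fb (X.bl i)) :
    C3 / X.g (i + 1) * X.lo (i + 1) - C3 / X.g i * X.lo i + X.lo i / (X.g i : ℝ) ^ 2 ≤
      (4 * (((X.g i : ℝ))⁻¹ - ((X.g (i + 1) : ℝ))⁻¹) +
        2 * C3 * ((1 / 2) ^ X.bl i - (1 / 2) ^ X.bl (i + 1))) * (X.lo (i + 1) / 2) := by
  have hgi := X.hg1 i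
  have hC30 := X.hC30
  have hg' : (X.g (i + 1) : ℝ) = X.g i + 1 := by
    rw [X.hgf i h]
    push_cast
    ring
  have h1 : X.lo i / (X.g i : ℝ) ^ 2 ≤
      4 * (((X.g i : ℝ))⁻¹ - ((X.g (i + 1) : ℝ))⁻¹) * (X.lo (i + 1) / 2) := by
    have h2 : ((X.g i : ℝ) ^ 2)⁻¹ ≤ 2 * (((X.g i : ℝ))⁻¹ - ((X.g (i + 1) : ℝ))⁻¹) := by
      rw [hg']
      have : 2 * (((X.g i : ℝ))⁻¹ - ((X.g i : ℝ) + 1)⁻¹) =
          ((X.g i : ℝ) * ((X.g i + 1) / 2))⁻¹ := by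
        field_simp
        ring
      rw [this]
      exact inv_anti₀ (by positivity) (by nlinarith)
    rw [div_eq_mul_inv]
    calc X.lo i * ((X.g i : ℝ) ^ 2)⁻¹
        ≤ X.lo (i + 1) * (2 * (((X.g i : ℝ))⁻¹ - ((X.g (i + 1) : ℝ))⁻¹)) :=
          mul_le_mul (X.hlom i) h2 (by positivity) (X.hlop _).le
      _ = _ := by ring
  have h2 : C3 / X.g (i + 1) * X.lo (i + 1) - C3 / X.g i * X.lo i ≤
      2 * C3 * ((1 / 2) ^ X.bl i - (1 / 2) ^ X.bl (i + 1)) * (X.lo (i + 1) / 2) := by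
    rcases X.hbn i with h3 | h3
    · have h4 : X.lo (i + 1) = X.lo i := by rw [X.hlo, X.hlo, h3]
      have h5 : C3 / X.g (i + 1) ≤ C3 / X.g i :=
        div_le_div_of_nonneg_left hC30.le (by linarith) (by linarith)
      rw [h3, h4, sub_self]
      have := mul_le_mul_of_nonneg_right h5 (X.hlop i).le
      linarith
    · have h4 : C3 / X.g (i + 1) ≤ C3 * (1 / 2) ^ (X.bl i + 1) := by
        rw [one_div, inv_pow, div_eq_mul_inv]
        exact mul_le_mul_of_nonneg_left (inv_anti₀ (by positivity) h3.2) hC30.le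
      have h5 : 0 ≤ C3 / X.g i * X.lo i :=
        mul_nonneg (div_nonneg hC30.le (Nat.cast_nonneg _)) (X.hlop i).le
      have h6 := mul_le_mul_of_nonneg_right h4 (X.hlop (i + 1)).le
      rw [h3.1]
      rw [pow_succ] at h6 ⊢
      linarith
  rw [add_mul]
  linarith

end Pre

theorem exists_sch {σ : ℕ → ℝ} (hm : StrictMono σ) (ht : Tendsto σ atTop atTop)
    (hmean : ∀ x y z w : ℕ, x ≤ y → y ≤ z → z ≤ w →
      ((y : ℝ) - x) * (σ w - σ z) ≤ ((w : ℝ) - z) * (σ y - σ x))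
    {a β CF ε Cp A0 K δ : ℝ} {e q0 mn : ℕ} (ha : 1 ≤ a) (hβ : 0 < β) (hCF : 1 ≤ CF)
    (hK : 1 ≤ K) (hε : 4 ≤ ε * 2 ^ (e + 8)) (hδ : 0 < δ) (hδ1 : δ ≤ 1) (hδa : 2 * a * δ ≤ β)
    (hq : (1 + ((2 : ℝ) ^ q0)⁻¹) ^ (e + 8) ≤ 1 + δ / 2) :
    Nonempty (Sch σ a β CF ε Cp A0 (2 ^ (e + 8)) K (e + 8) (2 ^ q0) mn) := by
  obtain ⟨B1, C3, C6, ⟨X⟩⟩ := exists_pre (A0 := A0) (Cp := Cp) (mn := mn) hm hmean ha hβ hCF hK hε
    hδ hδ1 hδa hq
  refine ⟨{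
    c := X.c
    t := fun i => X.c (i + 1) - C6 * X.g i ^ 2
    g := fun i => X.g i
    I := X.I
    fine := fun i => X.fb (X.bl i)
    mm := X.mm
    ℓ := fun k => σ (X.P (k + 1)) - σ (X.P k)
    lo := X.lo
    κ := fun i => X.lo i / (X.g i : ℝ) ^ 2
    E := fun i => C3 / X.g i * X.lo i
    b := X.b
    η := fun i => 4 * (((X.g i : ℝ))⁻¹ - ((X.g (i + 1) : ℝ))⁻¹) +
      2 * C3 * ((1 / 2) ^ X.bl i - (1 / 2) ^ X.bl (i + 1))
    c_mono := X.hcm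
    c_eq := X.hcr
    c_two := fun i => ?_
    g_ge := X.T0
    g_one := X.hg1
    g_two := X.hg2
    lo_pos := X.hlop
    lo_le := X.lo_le
    junc := X.junc
    b_next := X.b_next
    b_ge := X.b_ge
    b_le := X.b_le
    E_ge := fun i => mul_nonneg (div_nonneg X.hC30.le (Nat.cast_nonneg _)) (X.hlop i).le
    E_le := X.E_le
    gain := X.gain
    I_mono := X.hIm
    mm_pos := X.hmp
    mm_mono := X.hmono
    ℓ_pos := fun k => sub_pos.2 (hm (X.hPlt k))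
    ℓ_sum := fun hs => ?_
    mℓ := fun k => ?_
    b_blk := X.b_blk
    η_ge := X.η_ge
    η_sum := ?_
    not_fine := ?_
    crude := fun k hk => ?_
    fin := fun k hk => ?_
    j1 := X.j1
    j2 := fun i h _ => X.j2 i h }⟩
  · have : (X.c (i + 1) : ℝ) ≤ 2 * X.c i :=
      (X.hcq i).trans (mul_le_mul_of_nonneg_right (by linarith) (Nat.cast_nonneg _))
    exact_mod_cast this
  · have h1 : ∀ N, ∑ k ∈ Finset.range N, (σ (X.P (k + 1)) - σ (X.P k)) =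
        σ (X.P N) - σ (X.P 0) := fun N => Finset.sum_range_sub (fun k => σ (X.P k)) N
    have h2 : Tendsto (fun N => σ (X.P N) - σ (X.P 0)) atTop atTop :=
      tendsto_atTop_add_const_right _ _
        (ht.comp (strictMono_nat_of_lt_succ X.hPlt).tendsto_atTop)
    have h3 := hs.hasSum.tendsto_sum_nat
    simp only [h1] at h3
    exact not_tendsto_atTop_of_tendsto_nhds h3 h2
  · rw [X.hml, X.hml, X.hPs]
    exact le_of_eq (by ring)
  · refine summable_of_sum_range_le (c := 4 + 2 * C3) X.η_ge fun N => ?_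
    rw [Finset.sum_add_distrib, ← Finset.mul_sum, ← Finset.mul_sum,
      Finset.sum_range_sub' (fun i => ((X.g i : ℝ))⁻¹),
      Finset.sum_range_sub' (fun i => ((1 : ℝ) / 2) ^ X.bl i)]
    have h1 : ((X.g 0 : ℝ))⁻¹ ≤ 1 := inv_le_one_of_one_le₀ (X.hg1 0)
    have h2 : ((1 : ℝ) / 2) ^ X.bl 0 ≤ 1 := pow_le_one₀ (by norm_num) (by norm_num)
    have h3 : (0 : ℝ) ≤ ((X.g N : ℝ))⁻¹ := by positivity
    have h4 : (0 : ℝ) ≤ ((1 : ℝ) / 2) ^ X.bl N := by positivity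
    have h5 := mul_le_mul_of_nonneg_left
      (by linarith : ((1 : ℝ) / 2) ^ X.bl 0 - ((1 : ℝ) / 2) ^ X.bl N ≤ 1) X.hC30.le
    linarith
  · have h0 : X.bl 0 = 0 := (X.hbl 0 0).2 ⟨X.hI0.le, by
      have := X.hIm (Nat.lt_succ_self 0)
      rwa [X.hI0] at this⟩
    intro h
    obtain ⟨k, hk⟩ := X.hfb _ h
    omega
  · have h1 : ¬ X.fb (k + 1) := fun h => hk ((X.hfb' k).1 h)
    refine ⟨(X.hIc (k + 1) h1).le, fun i h2 h3 => ?_⟩
    rw [(X.hbl (k + 1) i).2 ⟨h2, h3⟩]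
    exact h1
  · refine ⟨by rw [X.hcI, X.hcI], fun i h2 h3 => ?_⟩
    have h4 : X.bl i = k + 1 := (X.hbl (k + 1) i).2 ⟨h2, h3⟩
    refine ⟨by rw [h4]; exact (X.hfb' k).2 hk, by rw [X.hlo, h4, Nat.add_sub_cancel], ?_⟩
    rw [div_le_iff₀ (X.hl i)]
    exact X.S1 (k + 2) (X.c i) (X.c (i + 1)) (X.hcm (Nat.lt_succ_self i)).le (X.hcP i _ h4).2

end Crest.Agent.T223.Na
end

-- ▼ part T223/NaSch_80

/-!
# Row 223, module NA (helper80): `SchedStmt` from FLAG, NF and LYAP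
-/

set_option autoImplicit false
set_option maxHeartbeats 400000

open Set Filter Topology Metric

namespace Crest.Agent.T223.Na

open Crest.Agent.T223.Tr Crest.Agent.T223.Dyn

variable {n : ℕ}

theorem det_comp3 (A B : EE n ≃L[ℂ] EE n) (T : EE n →L[ℂ] EE n) :
    ((A : EE n →L[ℂ] EE n).comp (T.comp (B : EE n →L[ℂ] EE n))).det =
      (A : EE n →L[ℂ] EE n).det * T.det * (B : EE n →L[ℂ] EE n).det := by
  simp only [ContinuousLinearMap.det]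
  rw [← LinearMap.det_comp, ← LinearMap.det_comp]
  rfl

theorem det_conj (A B : EE n ≃L[ℂ] EE n) (F : EE n → EE n) (x : EE n) :
    (fderiv ℂ (fun z => A (F (B z))) x).det =
      (A : EE n →L[ℂ] EE n).det * (fderiv ℂ F (B x)).det * (B : EE n →L[ℂ] EE n).det := by
  have h1 : fderiv ℂ (fun z => A (F (B z))) x =
      (A : EE n →L[ℂ] EE n).comp ((fderiv ℂ F (B x)).comp (B : EE n →L[ℂ] EE n)) := by
    rw [← B.comp_right_fderiv, ← A.comp_fderiv]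
    rfl
  rw [h1, det_comp3]

theorem det_symm (A : EE n ≃L[ℂ] EE n) :
    (A : EE n →L[ℂ] EE n).det * (A.symm : EE n →L[ℂ] EE n).det = 1 := by
  have h := det_comp3 A A.symm (ContinuousLinearMap.id ℂ (EE n))
  have h1 : (A : EE n →L[ℂ] EE n).comp ((ContinuousLinearMap.id ℂ (EE n)).comp
      (A.symm : EE n →L[ℂ] EE n)) = ContinuousLinearMap.id ℂ (EE n) := by
    ext1 x
    simp
  have h2 : (ContinuousLinearMap.id ℂ (EE n)).det = 1 := by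
    simp [ContinuousLinearMap.det]
  rw [h1, h2, mul_one] at h
  exact h.symm

theorem le_exp2 {A B : EE n → EE n} {x y z : ℝ} (hA : ∀ v, ‖A v‖ ≤ Real.exp x * ‖v‖)
    (hB : ∀ v, ‖B v‖ ≤ Real.exp y * ‖v‖) (h : x + y ≤ z) (v : EE n) :
    ‖A (B v)‖ ≤ Real.exp z * ‖v‖ :=
  calc ‖A (B v)‖ ≤ Real.exp x * (Real.exp y * ‖v‖) :=
        (hA _).trans (mul_le_mul_of_nonneg_left (hB v) (Real.exp_pos _).le)
    _ = Real.exp (x + y) * ‖v‖ := by rw [Real.exp_add, mul_assoc]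
    _ ≤ _ := mul_le_mul_of_nonneg_right (Real.exp_le_exp.2 h) (norm_nonneg _)

theorem le_exp_self (x : ℝ) : x ≤ Real.exp x := by linarith [Real.add_one_le_exp x]

variable {Φ : ℕ → ℕ → EE n → EE n} {r κ : ℝ} {σ : ℕ → ℝ} {a β CF ε Cp A0 Λ K : ℝ} {p q mn : ℕ}

namespace Sch

variable (X : Sch σ a β CF ε Cp A0 Λ K p q mn)

/-- length of a piece -/
def len (i : ℕ) : ℝ := σ (X.c (i + 1)) - σ (X.c i)

theorem g3 (i : ℕ) : X.g i ≤ X.g i ^ 3 := le_self_pow₀ (X.g_one i) (by norm_num)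

theorem g3n (i : ℕ) : X.g (i + 1) ^ 3 ≤ 8 * X.g i ^ 3 :=
  (pow_le_pow_left₀ (by linarith [X.g_one (i + 1)]) (X.g_two i) 3).trans (le_of_eq (by ring))

theorem dc (i : ℕ) : (0 : ℝ) ≤ (X.c (i + 1) : ℝ) - X.c i :=
  sub_nonneg.2 (by exact_mod_cast (X.c_mono (Nat.lt_succ_self i)).le)

theorem cle (i : ℕ) : X.c i ≤ X.c (i + 1) := (X.c_mono (Nat.lt_succ_self i)).le

end Sch

/-- adapted frames along a schedule -/
structure Fr (Φ : ℕ → ℕ → EE n → EE n) (X : Sch σ a β CF ε Cp A0 Λ K p q mn) where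
  α : ℕ → EE n ≃L[ℂ] EE n
  Le : ℕ → EE n ≃L[ℂ] EE n
  Ae : ℕ → EE n ≃L[ℂ] EE n
  lam : ℕ → Fin n → ℝ
  len_pos : ∀ i, 0 < X.len i
  hLe : ∀ i, (Le i : EE n →L[ℂ] EE n) = Lm Φ (X.c i) (X.c (i + 1))
  Le_le : ∀ i x, ‖Le i x‖ ≤ Real.exp 0 * ‖x‖
  Le_inv : ∀ i x, ‖(Le i).symm x‖ ≤ Real.exp ((X.c (i + 1) : ℝ) - X.c i) * ‖x‖
  α_le : ∀ i x, ‖α i x‖ ≤ Real.exp (X.g i ^ 3) * ‖x‖
  α_inv : ∀ i x, ‖(α i).symm x‖ ≤ Real.exp (X.g i ^ 3) * ‖x‖
  α0 : ∀ x, α 0 x = x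
  Ae_le : ∀ i, X.fine i → ∀ x, ‖Ae i x‖ ≤ Real.exp (X.g i ^ 3) * ‖x‖
  Ae_inv : ∀ i, X.fine i → ∀ x, ‖(Ae i).symm x‖ ≤ Real.exp (X.g i ^ 3) * ‖x‖
  lam_ge : ∀ i, X.fine i → ∀ l, X.lo i ≤ lam i l
  lam_le : ∀ i, X.fine i → ∀ l, lam i l ≤ ((X.c (i + 1) : ℝ) - X.c i) / X.len i
  diag : ∀ i, X.fine i → ∀ x, Ae i (Le i x) = dg (fun l => X.len i * lam i l) (α i x)
  jun : ∀ i, X.fine i → X.fine (i + 1) → ∀ k l,
    α (i + 1) ((Ae i).symm (EuclideanSpace.single l 1)) k ≠ 0 → lam i l ≤ lam (i + 1) k + X.κ i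

theorem exists_fr (hc : Coc Φ r κ) (hh : NAHyp Φ r σ)
    (hp : ∀ k : ℕ, ‖Lm Φ 0 k‖ ≤ Real.exp (Cp - ε * k)) (hA : CF ≤ A0)
    (X : Sch σ a β CF ε Cp A0 Λ K p q mn)
    (hF : ∀ (L : ℕ → ℕ → EE n →L[ℂ] EE n) (σ : ℕ → ℝ) (c t : ℕ → ℕ) (fine : ℕ → Prop)
    (lo hi κ cst : ℕ → ℝ), StrictMono σ → StrictMono c →
    (∀ i j k, i ≤ j → j ≤ k → (L j k).comp (L i j) = L i k) →
    (∀ j k, j ≤ k → Function.Injective (L j k)) → Cvx L σ →
    (∀ i, fine i → 0 ≤ lo i ∧ CF ≤ cst i ∧ ∀ v,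
      ‖L (c i) (c (i + 1)) v‖ ≤ Real.exp (-(lo i * (σ (c (i + 1)) - σ (c i)))) * ‖v‖ ∧
      ‖v‖ ≤ Real.exp (hi i * (σ (c (i + 1)) - σ (c i))) * ‖L (c i) (c (i + 1)) v‖) →
    (∀ i, fine i → fine (i + 1) → c i < t i ∧ t i < c (i + 1) ∧ 0 < κ i ∧
      CF ≤ κ i * (σ (c (i + 1)) - σ (t i)) ∧
      CF * (1 + (σ (c (i + 1)) - σ (t i)) * (hi (i + 1) + κ i)) ≤ cst i ∧
      CF * cst (i + 1) ≤ κ i * (σ (c (i + 2)) - σ (c (i + 1)))) →
    ∃ (As Ae : ℕ → EE n ≃L[ℂ] EE n) (lam : ℕ → Fin n → ℝ), ∀ i, fine i →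
      (∀ x, ‖As i x‖ ≤ Real.exp (cst i) * ‖x‖) ∧
      (∀ x, ‖(As i).symm x‖ ≤ Real.exp (cst i) * ‖x‖) ∧
      (∀ x, ‖Ae i x‖ ≤ Real.exp (cst i) * ‖x‖) ∧
      (∀ x, ‖(Ae i).symm x‖ ≤ Real.exp (cst i) * ‖x‖) ∧
      (∀ l, lo i ≤ lam i l ∧ lam i l ≤ hi i) ∧
      (∀ x, Ae i (L (c i) (c (i + 1)) x) =
        dg (fun l => (σ (c (i + 1)) - σ (c i)) * lam i l) (As i x)) ∧
      (fine (i + 1) → ∀ k l, As (i + 1) ((Ae i).symm (EuclideanSpace.single l 1)) k ≠ 0 →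
        lam i l ≤ lam (i + 1) k + κ i)) :
    Nonempty (Fr Φ X) := by
  classical
  have hl : ∀ i, 0 < X.len i := fun i => sub_pos.2 (hh.mono (X.c_mono (Nat.lt_succ_self i)))
  obtain ⟨As, Ae, lam, H⟩ := hF (Lm Φ) σ X.c X.t X.fine X.lo
    (fun i => ((X.c (i + 1) : ℝ) - X.c i) / X.len i) X.κ (fun i => X.g i ^ 3) hh.mono X.c_mono
    (fun i j k => Lm_comp hc) (fun j k => Lm_inj hc) hh.cvx
    (fun i hi => ⟨(X.lo_pos i).le, hA.trans ((X.g_ge i).trans (X.g3 i)), fun v => ⟨by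
      obtain ⟨x, y, h1, h2, h3⟩ := X.lo_le i hi
      exact Lm_contr hc hh hp h1 h2 (X.c_mono (Nat.lt_succ_self i)) h3 v, by
      have h1 : ((X.c (i + 1) : ℝ) - X.c i) / X.len i * (σ (X.c (i + 1)) - σ (X.c i)) =
        (X.c (i + 1) : ℝ) - X.c i := div_mul_cancel₀ _ (hl i).ne'
      rw [h1]
      exact hh.inv _ _ (X.cle i) v⟩⟩) X.junc
  choose Le hLe using fun i => exists_cle _ (Lm_inj hc (X.cle i))
  have hLa : ∀ i x, Le i x = Lm Φ (X.c i) (X.c (i + 1)) x := fun i x => by rw [← hLe]; rfl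
  obtain ⟨α, hα, hα'⟩ : ∃ α : ℕ → EE n ≃L[ℂ] EE n, (∀ i, X.fine i → α i = As i) ∧
      ∀ i, ¬ X.fine i → α i = ContinuousLinearEquiv.refl ℂ (EE n) :=
    ⟨fun i => if X.fine i then As i else ContinuousLinearEquiv.refl ℂ (EE n),
      fun i h => by simp [h], fun i h => by simp [h]⟩
  have h1 : ∀ i (x : EE n), ‖x‖ ≤ Real.exp (X.g i ^ 3) * ‖x‖ := fun i x =>
    le_mul_of_one_le_left (norm_nonneg _)
      (Real.one_le_exp (by linarith [X.g3 i, X.g_one i]))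
  refine ⟨{
    α := α, Le := Le, Ae := Ae, lam := lam, len_pos := hl, hLe := hLe
    Le_le := fun i x => by simpa [hLa] using hh.nrm _ _ (X.cle i) x
    Le_inv := fun i x => by
      have := hh.inv _ _ (X.cle i) ((Le i).symm x)
      rwa [← hLa, ContinuousLinearEquiv.apply_symm_apply] at this
    α_le := fun i x => ?_
    α_inv := fun i x => ?_
    α0 := fun x => by rw [hα' 0 X.not_fine]; rfl
    Ae_le := fun i h => (H i h).2.2.1
    Ae_inv := fun i h => (H i h).2.2.2.1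
    lam_ge := fun i h l => ((H i h).2.2.2.2.1 l).1
    lam_le := fun i h l => ((H i h).2.2.2.2.1 l).2
    diag := fun i h x => by rw [hLa, hα i h]; exact (H i h).2.2.2.2.2.1 x
    jun := fun i h h' => by rw [hα _ h']; exact (H i h).2.2.2.2.2.2 h' }⟩
  · by_cases h : X.fine i
    · rw [hα i h]
      exact (H i h).1 x
    · rw [hα' i h]
      exact h1 i x
  · by_cases h : X.fine i
    · rw [hα i h]
      exact (H i h).2.1 x
    · rw [hα' i h]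
      exact h1 i x

namespace Fr

variable {X : Sch σ a β CF ε Cp A0 Λ K p q mn} (F : Fr Φ X)

/-- the linear data in the adapted frames -/
noncomputable def lin : LinD n where
  L i := (F.α i).symm.trans ((F.Le i).trans (F.α (i + 1)))
  J i := (F.Ae i).symm.trans (F.α (i + 1))
  wt i l := F.lam i l - X.E i
  len := X.len
  e i := X.len i * X.E i
  fine := X.fine
  b := X.b
  cst i := 9 * X.g i ^ 3

theorem wt_ge (i : ℕ) (h : X.fine i) (l : Fin n) : X.lo i / 2 ≤ F.lin.wt i l := by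
  have h1 := F.lam_ge i h l
  have h2 := X.E_le i
  simp only [lin]
  linarith

theorem ok : F.lin.Ok a where
  b_ge i := by
    have := X.b_ge i
    have := X.dc i
    have := X.g3 i
    have := X.g_one i
    simp only [lin]
    linarith
  cst_ge i := by
    have := X.g3 i
    have := X.g_one i
    simp only [lin]
    linarith
  b_next := X.b_next
  L_le i x := by
    have h1 := le_exp2 (F.Le_le i) (F.α_inv i) le_rfl
    have h2 := le_exp2 (z := X.b i) (F.α_le (i + 1)) h1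
      (by linarith [X.b_ge i, X.dc i, X.g3 i, X.g3n i, X.g_one i]) x
    exact h2
  L_inv i x := by
    have h1 := le_exp2 (F.Le_inv i) (F.α_inv (i + 1)) le_rfl
    have h2 := le_exp2 (z := X.b i) (F.α_le i) h1
      (by linarith [X.b_ge i, X.dc i, X.g3 i, X.g3n i, X.g_one i]) x
    exact h2
  L_eq i h x := by
    have h1 := F.diag i h ((F.α i).symm x)
    rw [ContinuousLinearEquiv.apply_symm_apply] at h1
    have h2 : (fun l => F.lin.len i * F.lin.wt i l + F.lin.e i) =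
        fun l => X.len i * F.lam i l := by
      funext l
      simp only [lin]
      ring
    rw [h2, ← h1]
    simp [lin]
  J_le i h x := by
    have h2 := le_exp2 (z := 9 * X.g i ^ 3) (F.α_le (i + 1)) (F.Ae_inv i h)
      (by linarith [X.g3n i]) x
    exact h2
  J_inv i h x := by
    have h2 := le_exp2 (z := 9 * X.g i ^ 3) (F.Ae_le i h) (F.α_inv (i + 1))
      (by linarith [X.g3n i]) x
    exact h2
  wt_pos i h l := (half_pos (X.lo_pos i)).trans_le (F.wt_ge i h l)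
  len_pos i _ := F.len_pos i
  e_ge i _ := mul_nonneg (F.len_pos i).le (X.E_ge i)
  rho_le i h l := by
    have h1 := F.lam_le i h l
    rw [le_div_iff₀ (F.len_pos i)] at h1
    have := X.b_ge i
    have := X.g3 i
    have := X.g_one i
    simp only [lin]
    linarith
  gain := X.gain

/-- the transition maps in the adapted frames -/
noncomputable def f (i : ℕ) (x : EE n) : EE n :=
  F.α (i + 1) (Φ (X.c i) (X.c (i + 1)) ((F.α i).symm x))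

/-- the volume normalisation in the adapted frames -/
noncomputable def V (V0 : ℕ → EE n → EE n) (i : ℕ) (x : EE n) : EE n :=
  F.α i (V0 (X.c i) ((F.α i).symm x))

theorem tanV {V0 : ℕ → EE n → EE n} (hV : ∀ i, Tan (Real.exp (X.g i ^ 3)) (V0 (X.c i))) (i : ℕ)
    {z : ℝ} (hz : 4 * X.g i ^ 3 ≤ z) : Tan (Real.exp z) (F.V V0 i) := by
  have h := (hV i).conj (Real.exp_pos _)
    (Real.one_le_exp (by linarith [X.g3 i, X.g_one i])) (F.α i) (F.α_le i) (F.α_inv i)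
  refine h.mono (by positivity) ?_
  rw [← Real.exp_nat_mul, ← Real.exp_add]
  exact Real.exp_le_exp.2 (by push_cast; linarith)

theorem mapOk (hc : Coc Φ r κ) (h1 : κ ≤ A0) (h2 : r⁻¹ ≤ A0) {V0 : ℕ → EE n → EE n}
    (hV : ∀ i, Tan (Real.exp (X.g i ^ 3)) (V0 (X.c i)))
    (hvol : ∀ j k, j ≤ k → ∀ᶠ x in 𝓝 (0 : EE n),
      (fderiv ℂ (V0 k) (Φ j k x)).det * (fderiv ℂ (Φ j k) x).det =
        (Lm Φ j k).det * (fderiv ℂ (V0 j) x).det) : MapOk F.lin F.f (F.V V0) := by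
  have hb : ∀ i, 40 * X.g i ^ 3 ≤ X.b i := fun i => by linarith [X.b_ge i, X.dc i]
  have hg : ∀ i, 1 ≤ X.g i ^ 3 := fun i => (X.g_one i).trans (X.g3 i)
  have hin : ∀ i, ∀ x ∈ ball (0 : EE n) (Real.exp (-X.b i)), (F.α i).symm x ∈ ball (0 : EE n) r := by
    intro i x hx
    rw [mem_ball_zero_iff] at hx ⊢
    have h3 : r⁻¹ ≤ Real.exp (X.g i ^ 3) :=
      h2.trans ((X.g_ge i).trans ((X.g3 i).trans (le_exp_self _)))
    rw [inv_le_comm₀ hc.r_pos (Real.exp_pos _), ← Real.exp_neg] at h3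
    calc _ ≤ Real.exp (X.g i ^ 3) * ‖x‖ := F.α_inv i x
      _ < Real.exp (X.g i ^ 3) * Real.exp (-X.b i) := mul_lt_mul_of_pos_left hx (Real.exp_pos _)
      _ ≤ Real.exp (-X.g i ^ 3) := by
          rw [← Real.exp_add]
          exact Real.exp_le_exp.2 (by linarith [hb i, hg i])
      _ ≤ r := h3
  have t1 : ∀ i, Tan (Real.exp (X.b i)) (F.V V0 i) := fun i =>
    F.tanV hV i (by linarith [hb i, hg i])
  have t2 : ∀ i, Tan (Real.exp (X.b i)) (F.V V0 (i + 1)) := fun i =>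
    F.tanV hV (i + 1) (by linarith [hb i, hg i, X.g3n i])
  simp only [Tan, ← Real.exp_neg] at t1 t2
  refine ⟨fun i => ?_, fun i x hx => ?_, fun i => ?_, fun i => (t1 i).1, fun i => (t2 i).1,
    fun i => (t1 i).2, fun i => (t2 i).2, fun i => ?_⟩
  · exact (F.α (i + 1)).differentiable.comp_differentiableOn
      ((hc.hol _ _ (X.cle i)).comp (F.α i).symm.differentiable.differentiableOn (hin i))
  · have h3 := hc.bd _ _ (X.cle i) _ (hin i x hx)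
    have h4 : κ ≤ Real.exp (X.g i ^ 3) :=
      h1.trans ((X.g_ge i).trans ((X.g3 i).trans (le_exp_self _)))
    calc ‖F.f i x‖ ≤ Real.exp (X.g (i + 1) ^ 3) * (Real.exp (X.g i ^ 3) *
          (Real.exp (X.g i ^ 3) * ‖x‖)) :=
          (F.α_le _ _).trans (mul_le_mul_of_nonneg_left (h3.trans
            (mul_le_mul h4 (F.α_inv i x) (norm_nonneg _) (Real.exp_pos _).le)) (Real.exp_pos _).le)
      _ = Real.exp (X.g (i + 1) ^ 3 + X.g i ^ 3 + X.g i ^ 3) * ‖x‖ := by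
          rw [Real.exp_add, Real.exp_add]
          ring
      _ ≤ Real.exp (X.b i) * ‖x‖ := mul_le_mul_of_nonneg_right
          (Real.exp_le_exp.2 (by linarith [hb i, hg i, X.g3n i])) (norm_nonneg _)
  · have h3 := hasFDerivAt_Lm hc (X.cle i)
    rw [← F.hLe, ← map_zero (F.α i).symm] at h3
    exact (F.α (i + 1)).hasFDerivAt.comp 0 (h3.comp 0 (F.α i).symm.hasFDerivAt)
  · have h3 : Tendsto (F.α i).symm (𝓝 0) (𝓝 0) := by
      simpa using (F.α i).symm.continuous.tendsto 0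
    filter_upwards [h3.eventually (hvol _ _ (X.cle i))] with x hx
    have e1 := det_conj (F.α (i + 1)) (F.α (i + 1)).symm (V0 (X.c (i + 1))) (F.f i x)
    have e2 := det_conj (F.α (i + 1)) (F.α i).symm (Φ (X.c i) (X.c (i + 1))) x
    have e3 := det_conj (F.α i) (F.α i).symm (V0 (X.c i)) x
    have e4 := det_comp3 (F.α (i + 1)) (F.α i).symm (F.Le i)
    have e5 := det_symm (F.α i)
    have e6 := det_symm (F.α (i + 1))
    rw [F.hLe] at e4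
    rw [f, ContinuousLinearEquiv.symm_apply_apply] at e1
    have e7 : (F.lin.L i : EE n →L[ℂ] EE n) = (F.α (i + 1) : EE n →L[ℂ] EE n).comp
        ((Lm Φ (X.c i) (X.c (i + 1))).comp ((F.α i).symm : EE n →L[ℂ] EE n)) := by
      rw [← F.hLe]
      rfl
    rw [e7, e4]
    refine (congrArg₂ (· * ·) e1 e2).trans (Eq.trans ?_ (congrArg₂ (· * ·) rfl e3).symm)
    generalize (F.α (i + 1) : EE n →L[ℂ] EE n).det = u at *
    generalize ((F.α (i + 1)).symm : EE n →L[ℂ] EE n).det = u' at *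
    generalize (F.α i : EE n →L[ℂ] EE n).det = w at *
    generalize ((F.α i).symm : EE n →L[ℂ] EE n).det = w' at *
    linear_combination (u * w') * hx +
      (u * w' * (fderiv ℂ (V0 (X.c (i + 1))) (Φ (X.c i) (X.c (i + 1)) ((F.α i).symm x))).det *
        (fderiv ℂ (Φ (X.c i) (X.c (i + 1))) ((F.α i).symm x)).det) * e6 -
      (u * w' * (Lm Φ (X.c i) (X.c (i + 1))).det *
        (fderiv ℂ (V0 (X.c i)) ((F.α i).symm x)).det) * e5

theorem lyap {s : ℕ → EE n ≃ EE n} (ha : 1 ≤ a) (hΛ : 0 < Λ) (h1 : (n : ℝ) ≤ A0)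
    (h2 : n ≤ mn)
    (H : ∀ (I : ℕ → ℕ) (m ℓ η : ℕ → ℝ),
      StrictMono I → (∀ k, 0 < m k) → Monotone m → (∀ k, 0 < ℓ k) → ¬ Summable ℓ →
      (∀ k, m (k + 1) * ℓ (k + 1) ≤ Λ * (m k * ℓ k)) →
      (∀ k i, I k ≤ i → i < I (k + 1) → F.lin.b i ≤ 2 * (m k * ℓ k)) →
      (∀ i, 0 ≤ η i) → Summable η →
      (∀ k, ¬ (m (k + 1) ≤ K * m k ∧ m (k + 2) ≤ K * m (k + 1)) →
        I (k + 2) ≤ I (k + 1) + q ∧ ∀ i, I (k + 1) ≤ i → i < I (k + 2) → ¬ F.lin.fine i) →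
      (∀ k, m (k + 1) ≤ K * m k ∧ m (k + 2) ≤ K * m (k + 1) →
        ℓ (k + 1) ≤ ∑ i ∈ Finset.Ico (I (k + 1)) (I (k + 2)), F.lin.len i ∧
        ∀ i, I (k + 1) ≤ i → i < I (k + 2) → F.lin.fine i ∧
          ∀ l, (2 * Λ)⁻¹ * m k ≤ F.lin.wt i l ∧ F.lin.wt i l ≤ m (k + 2)) →
      (∀ i, F.lin.fine i → a + F.lin.cst i + n ≤ a * F.lin.b i) →
      (∀ i, F.lin.fine i → F.lin.fine (i + 1) → ∀ k,
        a * max (F.lin.b (i + 1) - F.lin.b i) 0 + a + F.lin.cst i + n ≤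
          F.lin.len i * F.lin.wt (i + 1) k / 4 ∧
        ∀ l, F.lin.J i (EuclideanSpace.single l 1) k ≠ 0 →
          F.lin.wt i l ≤ (1 + η i) * F.lin.wt (i + 1) k) →
      ∀ (R : ℝ) (i0 : ℕ), ∃ i, i0 ≤ i ∧ ∀ x : EE n, ‖x‖ ≤ R →
        ‖orb (fun j y => F.lin.L j (s j y)) i x‖ ≤ 1) :
    ∀ (R : ℝ) (i0 : ℕ), ∃ i, i0 ≤ i ∧ ∀ x : EE n, ‖x‖ ≤ R →
        ‖orb (fun j y => F.lin.L j (s j y)) i x‖ ≤ 1 := by
  refine H X.I X.mm X.ℓ X.η X.I_mono X.mm_pos X.mm_mono X.ℓ_pos X.ℓ_sum X.mℓ X.b_blk X.η_ge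
    X.η_sum X.crude (fun k hk => ?_) (fun i _ => ?_) (fun i h h' k => ⟨?_, fun l hl => ?_⟩)
  · obtain ⟨h3, h4⟩ := X.fin k hk
    refine ⟨le_of_eq ?_, fun i h5 h6 => ?_⟩
    · rw [h3]
      exact (Finset.sum_Ico_sub (fun i => σ (X.c i)) (X.I_mono (Nat.lt_succ_self _)).le).symm
    · obtain ⟨h7, h8, h9⟩ := h4 i h5 h6
      refine ⟨h7, fun l => ⟨le_trans (le_of_eq ?_) (F.wt_ge i h7 l), ?_⟩⟩
      · rw [h8]
        field_simp
      · have := (F.lam_le i h7 l).trans h9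
        have := X.E_ge i
        simp only [lin]
        linarith
  · have h3 : 1 + 39 * X.g i ^ 3 ≤ X.b i := by linarith [X.b_ge i, X.dc i, X.g3 i, X.g_one i]
    have h4 := mul_le_mul_of_nonneg_left h3 (by linarith : 0 ≤ a)
    have h5 := mul_le_mul_of_nonneg_right ha (by linarith [X.g3 i, X.g_one i] : 0 ≤ X.g i ^ 3)
    simp only [lin]
    linarith [X.g3 i, X.g_ge i, X.g_one i]
  · have h3 := X.j1 i h h'
    have h4 := mul_le_mul_of_nonneg_left (F.wt_ge (i + 1) h' k) (F.len_pos i).le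
    have h5 : (n : ℝ) ≤ mn := by exact_mod_cast h2
    simp only [lin, Sch.len] at h4 ⊢
    linarith
  · have h3 := F.jun i h h' k l hl
    have h4 := X.j2 i h h'
    have h5 := mul_le_mul_of_nonneg_left (F.wt_ge (i + 1) h' k) (X.η_ge i)
    simp only [lin] at h5 ⊢
    linarith

theorem nfp {D : ℝ} {m J0 : ℕ} {V0 : ℕ → EE n → EE n} {ν s : ℕ → EE n ≃ EE n} (ha : 1 ≤ a)
    (hp : p ≠ 0) (h1 : (J0 : ℝ) ≤ A0) (h2 : m ≤ mn)
    (hV : ∀ i, Tan (Real.exp (X.g i ^ 3)) (V0 (X.c i)))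
    (hν : ∀ i, Aut D (a * X.b i) (ν i)) (hs : ∀ i, Aut D (a * X.b i) (s i))
    (hN : ∀ i x, ‖x‖ ≤ Real.exp (-(a * X.b i)) →
      ‖ν (i + 1) (F.V V0 (i + 1) (F.f i x)) - F.lin.L i (s i (ν i (F.V V0 i x)))‖ ≤
        Real.exp (a * X.b i) * ‖x‖ ^ (m + 1))
    (hO : ∀ (R : ℝ) (i0 : ℕ), ∃ i, i0 ≤ i ∧ ∀ x : EE n, ‖x‖ ≤ R →
      ‖orb (fun j y => F.lin.L j (s j y)) i x‖ ≤ 1) : NFP Φ m β J0 := by
  have hg : ∀ i, 1 ≤ X.g i ^ 3 := fun i => (X.g_one i).trans (X.g3 i)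
  have hb : ∀ i, 40 * X.g i ^ 3 ≤ a * X.b i := fun i => by
    have h3 : 40 * X.g i ^ 3 ≤ X.b i := by linarith [X.b_ge i, X.dc i]
    exact h3.trans (le_mul_of_one_le_left (by linarith [hg i]) ha)
  have hm : ∀ i, a * X.b i + (m + 50) * X.g i ^ 3 ≤ β * X.c i := fun i => by
    have h3 : (m : ℝ) ≤ mn := by exact_mod_cast h2
    have := mul_le_mul_of_nonneg_right h3 (by linarith [hg i] : 0 ≤ X.g i ^ 3)
    linarith [X.b_le i]
  have hm0 : ∀ i, 0 ≤ (m : ℝ) * X.g i ^ 3 := fun i =>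
    mul_nonneg (Nat.cast_nonneg _) (by linarith [hg i])
  have cj : ∀ i {z : ℝ} {u : EE n → EE n}, z ≤ a * X.b i + 2 → Tan (Real.exp z) u →
      Tan (Real.exp (β * X.c i)) (fun x => (F.α i).symm (u (F.α i x))) := by
    intro i z u hz hu
    refine (hu.conj (Real.exp_pos _) (Real.one_le_exp (by linarith [hg i])) (F.α i).symm
      (F.α_inv i) (F.α_le i)).mono (by positivity) ?_
    rw [← Real.exp_nat_mul, ← Real.exp_add]
    exact Real.exp_le_exp.2 (by push_cast; linarith [hm i, hm0 i, hg i])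
  have hL : ∀ i y, Lm Φ (X.c i) (X.c (i + 1)) ((F.α i).symm y) =
      (F.α (i + 1)).symm (F.lin.L i y) := by
    intro i y
    rw [← F.hLe]
    simp [lin]
  refine ⟨X.c, fun i x => (F.α i).symm (ν i (F.V V0 i (F.α i x))),
    fun i => (F.α i).toEquiv.trans ((s i).trans (F.α i).symm.toEquiv), X.c_mono, ?_, X.c_two,
    fun i => ?_, fun i => ?_, fun i => ?_, fun i => ?_, fun i => ?_, fun i x hx => ?_,
    fun R i0 => ?_⟩
  · have : (J0 : ℝ) ≤ X.c 0 := by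
      rw [X.c_eq]
      exact h1.trans ((X.g_ge 0).trans (le_self_pow₀ (X.g_one 0) hp))
    exact_mod_cast this
  · refine cj i le_rfl (u := fun x => ν i (F.V V0 i x)) ?_
    refine ((tan_of_aut (hν i)).1.comp (F.tanV hV i (by linarith [hb i, hg i]))
      (Real.exp_pos _)).mono (by positivity) ?_
    rw [Real.exp_add, mul_comm]
    exact mul_le_mul_of_nonneg_left (by linarith [Real.add_one_le_exp (2 : ℝ)]) (Real.exp_pos _).le
  · exact (F.α i).symm.differentiable.comp ((hs i).hol.comp (F.α i).differentiable)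
  · exact (F.α i).symm.differentiable.comp ((hs i).hol'.comp (F.α i).differentiable)
  · exact cj i (by linarith) (tan_of_aut (hs i)).1
  · exact cj i (by linarith) (tan_of_aut (hs i)).2
  · have h3 : ‖F.α i x‖ ≤ Real.exp (-(a * X.b i)) :=
      calc _ ≤ Real.exp (X.g i ^ 3) * ‖x‖ := F.α_le i x
        _ ≤ Real.exp (X.g i ^ 3) * Real.exp (-(β * X.c i)) :=
          mul_le_mul_of_nonneg_left hx (Real.exp_pos _).le
        _ ≤ _ := by
          rw [← Real.exp_add]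
          exact Real.exp_le_exp.2 (by linarith [hm i, hm0 i, hg i])
    have h4 := hN i _ h3
    have h5 : F.f i (F.α i x) = F.α (i + 1) (Φ (X.c i) (X.c (i + 1)) x) := by simp [f]
    rw [h5] at h4
    have h6 : ((F.α i).toEquiv.trans ((s i).trans (F.α i).symm.toEquiv))
        ((F.α i).symm (ν i (F.V V0 i (F.α i x)))) =
        (F.α i).symm (s i (ν i (F.V V0 i (F.α i x)))) := by simp
    beta_reduce
    rw [h6, hL, ← map_sub]
    calc _ ≤ Real.exp (X.g (i + 1) ^ 3) * (Real.exp (a * X.b i) *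
          (Real.exp (X.g i ^ 3) * ‖x‖) ^ (m + 1)) :=
          (F.α_inv _ _).trans (mul_le_mul_of_nonneg_left (h4.trans (mul_le_mul_of_nonneg_left
            (pow_le_pow_left₀ (norm_nonneg _) (F.α_le i x) _) (Real.exp_pos _).le))
            (Real.exp_pos _).le)
      _ = Real.exp (X.g (i + 1) ^ 3 + a * X.b i + ((m + 1 : ℕ) : ℝ) * X.g i ^ 3) *
          ‖x‖ ^ (m + 1) := by
          rw [Real.exp_add, Real.exp_add, Real.exp_nat_mul]
          ring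
      _ ≤ _ := mul_le_mul_of_nonneg_right
          (Real.exp_le_exp.2 (by push_cast; linarith [hm i, hg i, X.g3n i])) (by positivity)
  · obtain ⟨i, hi, h3⟩ := hO R i0
    refine ⟨i, hi, fun x hx => ?_⟩
    have h4 : ∀ i, orb (fun j y => Lm Φ (X.c j) (X.c (j + 1))
        (((F.α j).toEquiv.trans ((s j).trans (F.α j).symm.toEquiv)) y)) i x =
        (F.α i).symm (orb (fun j y => F.lin.L j (s j y)) i x) := by
      intro i
      induction i with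
      | zero => exact ((F.α 0).eq_symm_apply).2 (F.α0 x)
      | succ i ih =>
        simp only [orb, Function.comp_apply]
        rw [ih, ← hL]
        simp
    rw [h4]
    refine (F.α_inv i _).trans ((mul_le_of_le_one_right (Real.exp_pos _).le (h3 x hx)).trans ?_)
    exact Real.exp_le_exp.2 (by linarith [hm i, hm0 i, hg i, hb i])

end Fr

theorem schedStmt (hF : FlagStmt n) (hN : NFStmt n) (hL : LyapStmt n) : SchedStmt n := by
  intro Φ r κ σ _ hc hh hV m β J0 hβ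
  obtain ⟨a, D, ha, hD, hN⟩ := hN m
  obtain ⟨CF, hCF, hF⟩ := hF
  obtain ⟨ε, Cp, hε, -, hp⟩ := Lm_pinch hc hh
  obtain ⟨CV, pV, V0, hCV, hV, hvol⟩ := hV
  have h2 : Tendsto (fun k : ℕ => (2 : ℝ) ^ k) atTop atTop :=
    tendsto_pow_atTop_atTop_of_one_lt (by norm_num)
  obtain ⟨e, he⟩ : ∃ e : ℕ, 4 ≤ ε * 2 ^ (e + 8) := by
    obtain ⟨e, he⟩ := (h2.eventually_ge_atTop (4 / ε)).exists
    refine ⟨e, ?_⟩
    rw [div_le_iff₀ hε, mul_comm] at he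
    exact he.trans (mul_le_mul_of_nonneg_left (pow_le_pow_right₀ (by norm_num) (by omega)) hε.le)
  obtain ⟨δ, hδ, hδ1, hδa⟩ : ∃ δ : ℝ, 0 < δ ∧ δ ≤ 1 ∧ 2 * a * δ ≤ β := by
    refine ⟨min 1 (β / (2 * a)), by positivity, min_le_left _ _, ?_⟩
    rw [mul_comm, ← le_div_iff₀ (by positivity)]
    exact min_le_right _ _
  obtain ⟨q0, hq⟩ : ∃ q0 : ℕ, (1 + ((2 : ℝ) ^ q0)⁻¹) ^ (e + 8) ≤ 1 + δ / 2 := by
    have h3 := ((tendsto_inv_atTop_zero.comp h2).const_add 1).pow (e + 8)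
    rw [add_zero, one_pow] at h3
    exact (h3.eventually_le_const (by linarith : (1 : ℝ) < 1 + δ / 2)).exists
  have hΛ : (1 : ℝ) ≤ 2 ^ (e + 8) := one_le_pow₀ (by norm_num)
  obtain ⟨K, hK, hL⟩ := hL a D (2 ^ (e + 8)) (2 * 2 ^ (e + 8))⁻¹ 2 (2 ^ q0) ha hD hΛ
    (by positivity) (inv_le_one_of_one_le₀ (by linarith)) (by norm_num)
  obtain ⟨A0, A1, A2, A3, A4, A5, A6, A7⟩ : ∃ A0 : ℝ, CF ≤ A0 ∧ (J0 : ℝ) ≤ A0 ∧ κ ≤ A0 ∧
      r⁻¹ ≤ A0 ∧ CV ≤ A0 ∧ (1 + (e + 9) * pV : ℝ) ≤ A0 ∧ (n : ℝ) ≤ A0 :=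
    ((eventually_ge_atTop _).and ((eventually_ge_atTop _).and ((eventually_ge_atTop _).and
      ((eventually_ge_atTop _).and ((eventually_ge_atTop _).and ((eventually_ge_atTop _).and
      (eventually_ge_atTop _))))))).exists
  obtain ⟨X⟩ := exists_sch (Cp := Cp) (A0 := A0) (mn := m + n) hh.mono hh.top
    (fun x y z w => mean_le hh) ha hβ hCF hK he hδ hδ1 hδa hq
  obtain ⟨F⟩ := exists_fr hc hh hp A1 X hF
  have hV' : ∀ i, Tan (Real.exp (X.g i ^ 3)) (V0 (X.c i)) := by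
    intro i
    have hg := X.g_one i
    refine (hV _).mono (by positivity) ?_
    have h3 : (X.c i : ℝ) + 1 ≤ Real.exp (X.g i) ^ (e + 9) := by
      rw [X.c_eq, pow_succ _ (e + 8)]
      have h4 : X.g i ^ (e + 8) ≤ Real.exp (X.g i) ^ (e + 8) :=
        pow_le_pow_left₀ (by linarith) (le_exp_self _) _
      have h5 : 1 ≤ X.g i ^ (e + 8) := one_le_pow₀ hg
      have h6 := mul_le_mul_of_nonneg_left
        (by linarith [Real.add_one_le_exp (X.g i)] : 2 ≤ Real.exp (X.g i))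
        (by linarith : 0 ≤ Real.exp (X.g i) ^ (e + 8))
      linarith
    calc CV * ((X.c i : ℝ) + 1) ^ pV ≤ Real.exp (X.g i) * (Real.exp (X.g i) ^ (e + 9)) ^ pV :=
          mul_le_mul (A5.trans ((X.g_ge i).trans (le_exp_self _)))
            (pow_le_pow_left₀ (by positivity) h3 _) (by positivity) (Real.exp_pos _).le
      _ = Real.exp ((1 + (e + 9) * pV) * X.g i) := by
          rw [← pow_mul, ← Real.exp_nat_mul, ← Real.exp_add]
          congr 1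
          push_cast
          ring
      _ ≤ _ := Real.exp_le_exp.2 (by
          have h4 := mul_le_mul_of_nonneg_right (A6.trans (X.g_ge i)) (by linarith : 0 ≤ X.g i)
          have h5 : X.g i ^ 2 ≤ X.g i ^ 3 := pow_le_pow_right₀ hg (by norm_num)
          linarith)
  obtain ⟨ν, s, hν, -, hs, hly, hN⟩ := hN F.lin F.f (F.V V0) F.ok (F.mapOk hc A3 A4 hV' hvol)
  exact F.nfp ha (by omega) A2 (Nat.le_add_right _ _) hV' hν hs hN
    (F.lyap ha (by positivity) A7 (Nat.le_add_left _ _)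
      fun I mm ℓ η => hL K le_rfl F.lin s I mm ℓ η F.ok hs hly)

end Crest.Agent.T223.Na
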