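import Crest.Agent.T223.RnWr_17_Mg
import Crest.Agent.T223.LxHB3_25
import Crest.Agent.T223.LxIS_83
import Crest.Agent.T223.LmDef_19
import Crest.Agent.T223.LipKah_93
import Crest.Agent.T223.LmD_19
import Crest.Agent.T223.LmAsm_23_Mg
import Crest.Agent.T223.FinCvx_85_Mg
import Crest.Agent.T223.DynJet_65_Mg
import Crest.Agent.T223.DynLy_45_Mg
import Crest.Agent.T223.AndC_22
import Crest.Agent.T223.AndDef_22
import Crest.Agent.T223.NaDef_80
import Crest.Agent.T223.DynBas_20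
import Crest.Agent.T223.CovTr_25
import Crest.Agent.R266.SCV
import Crest.Agent.T223.DynDef_20
import Mathlib
import Crest.Agent.T223.NaSch_80

-- ▼ part T223/Rn3_44
section

/-!
# Row 223, RENEW (helper44): `Os.renewStmt : QCStmt n → RenewStmt n`
-/

namespace Crest.Agent.T223.Os

theorem renewStmt {n : ℕ} (hC : QCStmt n) : RenewStmt n :=
  Rn.renewStmt (Rn.wrapStmt n) hC (Lx.qlHB (Lx.isStep _ _) (Lx.intStmt _ _))
    (Lx.linHBi (Lx.isStep _ _) (Lx.intStmt _ _))

end Crest.Agent.T223.Os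
end

-- ▼ part T223/LmProp_93
section

/-!
# Row 223, module LIMIT, leaf PROP (helper93): completeness of the limit metric
-/

set_option autoImplicit false

open Set Filter Topology Metric Manifold
open scoped ContDiff Manifold

namespace Crest.Agent.T223.Lm

open Crest.Agent.R275.Geo Crest.Agent.R273.Kah_333 Crest.Agent.R273.RMan4_798
open Crest.Agent.R273.RMan_798 Crest.Agent.T223.Br Crest.Agent.T223.Tr Crest.Agent.T223.Lp93

theorem propStmt (n : ℕ) : PropStmt n := by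
  intro M _ _ _ A K0 K p C hP hC H
  have key : ∀ (x : M) (r : ℝ), dK K p x < r → dK K0 p x ≤ C * (1 + C * r) := by
    intro x r hr
    obtain ⟨γ, h0, h1, hs, hl⟩ := exists_path K hr
    have hQ : IsCompact (X := M) (γ '' Icc 0 1) := isCompact_Icc.image_of_continuousOn hs.continuousOn
    obtain ⟨ρ, hρ, hd⟩ := H _ hQ
    have h2 := lipOn_path hρ hC zero_le_one hs (fun t ht => mem_image_of_mem γ ht) hl.le
      ((dK_nonneg K p x).trans hr.le)
    rw [h0, h1] at h2
    have h3 := hd x ⟨1, ⟨zero_le_one, le_rfl⟩, h1⟩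
    exact h3.trans (by gcongr)
  refine ProperSpace.of_seq_closedBall (α := (ofKah K).M) (x := p) (l := atTop) (r := fun r : ℝ => r)
    tendsto_id (Eventually.of_forall fun r => ?_)
  have h1 : IsCompact (X := M) (closedBall (α := (ofKah K0).M) p (C * (1 + C * (r + 1)))) :=
    isCompact_closedBall (α := (ofKah K0).M) _ _
  have h2 : IsClosed (X := M) (closedBall (α := (ofKah K).M) p r) :=
    isClosed_closedBall (α := (ofKah K).M)
  refine h1.of_isClosed_subset h2 fun x hx => ?_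
  have h3 : dK K p x ≤ r := (mem_closedBall' (α := (ofKah K).M)).1 hx
  exact (mem_closedBall' (α := (ofKah K0).M)).2 (key x (r + 1) (lt_of_le_of_lt h3 (lt_add_one r)))

end Crest.Agent.T223.Lm
end

-- ▼ part T223/Lim_19
section

/-!
# Row 223, module LIMIT (helper19): `LimStmt`
-/

namespace Crest.Agent.T223

theorem limStmt (n : ℕ) : LimStmt n :=
  Lm23.limStmt_of (Lm.regStmt n) (Lm.jetStmt n) (Lm.propStmt n)

end Crest.Agent.T223
end

-- ▼ part T223/Fin_95
section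

/-!
# Row 223, FIN (helper95): `finStmt : GeoStmt n → NAStmt n → FinStmt n`
-/

namespace Crest.Agent.T223.Fin95

theorem finStmt {n : ℕ} (hG : Hn.GeoStmt n) (hN : Na.NAStmt n) : FinStmt n :=
  finStmt_of (fun _ _ _ h y hy => cvxPath h y hy) hG hN

end Crest.Agent.T223.Fin95
end

-- ▼ part T223/DynAll_20
section

/-!
# Row 223, module DYN (helper20): the normal form from the Andersén lemma
-/

set_option autoImplicit false

namespace Crest.Agent.T223.Dyn

theorem nfStmt_of_and {n : ℕ} (h : And.AndStmt n) : NFStmt n :=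
  nfStmt (jetStmt n) (divStmt n) (realStmt h) (realKStmt n) (homStmt n)

end Crest.Agent.T223.Dyn
end

-- ▼ part T223/And_22
section

/-!
# Row 223, leaf AND (helper22): proof of the Andersén lemma `andStmt n : AndStmt n`
-/

set_option autoImplicit false
set_option linter.unusedSectionVars false
set_option linter.unusedVariables false

open Set Filter Topology Metric Asymptotics MvPolynomial

namespace Crest.Agent.T223.And

noncomputable section

variable {n : ℕ}

/-- automorphisms of polynomial growth, qualitative tangency -/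
structure PA (D : ℕ) (C : ℝ) (T T' : En n → En n) : Prop where
  one_le : 1 ≤ C
  hol : Differentiable ℂ T
  hol' : Differentiable ℂ T'
  li : Function.LeftInverse T' T
  ri : Function.RightInverse T' T
  gr : ∀ z, ‖T z‖ ≤ C * (1 + ‖z‖) ^ D
  gr' : ∀ z, ‖T' z‖ ≤ C * (1 + ‖z‖) ^ D
  tan : OO 2 (fun z => T z - z)
  tan' : OO 2 (fun z => T' z - z)
  det : ∀ z, (fderiv ℂ T z).det = 1
  det' : ∀ z, (fderiv ℂ T' z).det = 1

theorem PA.symm {D : ℕ} {C : ℝ} {T T' : En n → En n} (h : PA D C T T') : PA D C T' T :=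
  ⟨h.one_le, h.hol', h.hol, h.ri, h.li, h.gr', h.gr, h.tan', h.tan, h.det', h.det⟩

theorem pa_id : PA 1 1 (fun z : En n => z) (fun z => z) := by
  have h1 : ∀ z : En n, ‖z‖ ≤ 1 * (1 + ‖z‖) ^ 1 := fun z => by simp
  have h2 : OO 2 (fun z : En n => z - z) := oo_of_bound (K := 0) (by simp)
  have h3 : ∀ z : En n, (fderiv ℂ (fun z : En n => z) z).det = 1 := fun z => by
    simp [ContinuousLinearMap.det]
  exact ⟨le_rfl, differentiable_id, differentiable_id, fun _ => rfl, fun _ => rfl, h1, h1, h2, h2,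
    h3, h3⟩

theorem gr_comp {D1 D2 : ℕ} {C1 C2 : ℝ} {S T : En n → En n} (h1 : 1 ≤ C1) (h2 : 1 ≤ C2)
    (hS : ∀ z, ‖S z‖ ≤ C1 * (1 + ‖z‖) ^ D1) (hT : ∀ z, ‖T z‖ ≤ C2 * (1 + ‖z‖) ^ D2) (z : En n) :
    ‖T (S z)‖ ≤ (2 * C1) ^ (D2 + 1) * (2 * C2) ^ (D1 + 1) * (1 + ‖z‖) ^ (D1 * D2) := by
  have a1 : 1 ≤ (1 + ‖z‖) ^ D1 := one_le_pow₀ (by simp)
  have a2 : 1 + ‖S z‖ ≤ 2 * C1 * (1 + ‖z‖) ^ D1 := by nlinarith [hS z]
  have a3 : C2 ≤ (2 * C2) ^ (D1 + 1) :=
    (by linarith : C2 ≤ 2 * C2).trans (le_self_pow₀ (by linarith) (by omega))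
  calc ‖T (S z)‖ ≤ C2 * (1 + ‖S z‖) ^ D2 := hT _
    _ ≤ (2 * C2) ^ (D1 + 1) * (2 * C1 * (1 + ‖z‖) ^ D1) ^ D2 := by gcongr
    _ = (2 * C1) ^ D2 * (2 * C2) ^ (D1 + 1) * (1 + ‖z‖) ^ (D1 * D2) := by
      rw [mul_pow (2 * C1), ← pow_mul]; ring
    _ ≤ _ := by gcongr; linarith; omega

theorem tan_comp {S T : En n → En n} (hS : OO 2 (fun z => S z - z))
    (hT : OO 2 (fun z => T z - z)) : OO 2 (fun z => T (S z) - z) := by
  simpa using (hT.comp hS.one_of_tan).add hS

theorem det_comp {S T : En n → En n} {z : En n} (hS : DifferentiableAt ℂ S z)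
    (hT : DifferentiableAt ℂ T (S z)) :
    (fderiv ℂ (fun z => T (S z)) z).det = (fderiv ℂ T (S z)).det * (fderiv ℂ S z).det := by
  rw [fderiv_fun_comp z hT hS, ContinuousLinearMap.det, ContinuousLinearMap.det,
    ContinuousLinearMap.det, ← LinearMap.det_comp]
  rfl

theorem PA.comp {D1 D2 : ℕ} {C1 C2 : ℝ} {S S' T T' : En n → En n} (hS : PA D1 C1 S S')
    (hT : PA D2 C2 T T') : PA (D1 * D2) ((2 * C1) ^ (D2 + 1) * (2 * C2) ^ (D1 + 1))
      (fun z => T (S z)) (fun z => S' (T' z)) := by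
  have h1 := hS.one_le
  have h2 := hT.one_le
  refine ⟨one_le_mul_of_one_le_of_one_le (one_le_pow₀ (by linarith)) (one_le_pow₀ (by linarith)),
    hT.hol.comp hS.hol, hS.hol'.comp hT.hol', fun z => ?_, fun z => ?_,
    gr_comp h1 h2 hS.gr hT.gr, fun z => ?_, tan_comp hS.tan hT.tan, tan_comp hT.tan' hS.tan',
    fun z => ?_, fun z => ?_⟩
  · simp only [hT.li _, hS.li _]
  · simp only [hS.ri _, hT.ri _]
  · rw [mul_comm D1, mul_comm ((2 * C1) ^ _)]
    exact gr_comp h2 h1 hT.gr' hS.gr' z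
  · rw [det_comp (hS.hol _) (hT.hol _), hS.det, hT.det, one_mul]
  · rw [det_comp (hT.hol' _) (hS.hol' _), hS.det', hT.det', one_mul]

theorem shear_det {f : En n → ℂ} {v : En n} (hf : Differentiable ℂ f)
    (hi : ∀ z (t : ℂ), f (z + t • v) = f z) (z : En n) :
    (fderiv ℂ (fun z => z + f z • v) z).det = 1 := by
  have h0 : fderiv ℂ f z v = 0 := by
    have a : HasDerivAt (fun t : ℂ => z + t • v) v 0 := by
      simpa using ((hasDerivAt_id (0 : ℂ)).smul_const v).const_add z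
    have b : HasFDerivAt f (fderiv ℂ f z) (z + (0 : ℂ) • v) := by
      rw [zero_smul, add_zero]; exact (hf z).hasFDerivAt
    have c : HasDerivAt (fun t : ℂ => f (z + t • v)) (fderiv ℂ f z v) 0 :=
      b.comp_hasDerivAt (0 : ℂ) a
    simp only [hi] at c
    exact c.unique (hasDerivAt_const _ _)
  have h1 : HasFDerivAt (fun z => z + f z • v)
      (ContinuousLinearMap.id ℂ _ + (fderiv ℂ f z).smulRight v) z :=
    (hasFDerivAt_id z).add ((hf z).hasFDerivAt.smul_const v)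
  have h2 : ((ContinuousLinearMap.id ℂ _ + (fderiv ℂ f z).smulRight v : En n →L[ℂ] En n) :
      En n →ₗ[ℂ] En n) = LinearMap.transvection (fderiv ℂ f z : En n →ₗ[ℂ] ℂ) v := by
    ext1 w
    rfl
  rw [h1.fderiv, ContinuousLinearMap.det, h2, LinearMap.transvection.det]
  simpa using h0

theorem Sh.bound {k : ℕ} {σ : En n → En n} (h : σ ∈ Sh n k) :
    ∃ K : ℝ, 0 ≤ K ∧ ∀ z, ‖σ z‖ ≤ K * ‖z‖ ^ k := by
  obtain ⟨p, v, hp, -, rfl⟩ := h
  obtain ⟨K, hK, h⟩ := ev_bound hp
  refine ⟨K * ‖v‖, by positivity, fun z => ?_⟩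
  rw [norm_smul]
  calc _ ≤ K * ‖z‖ ^ k * ‖v‖ := by gcongr; exact h z
    _ = _ := by ring

theorem Sh.oo {k : ℕ} {σ : En n → En n} (h : σ ∈ Sh n k) : OO k σ := by
  obtain ⟨K, -, h⟩ := Sh.bound h
  exact oo_of_bound (Eventually.of_forall h)

theorem pa_shear {k : ℕ} {σ : En n → En n} (h : σ ∈ Sh n (k + 2)) {B : ℝ} (hB : 0 ≤ B) :
    ∃ C : ℝ, ∀ c : ℂ, ‖c‖ ≤ B → PA (k + 2) C (fun z => z + c • σ z) (fun z => z + (-c) • σ z) := by
  obtain ⟨K, hK, hb⟩ := Sh.bound h
  have ho := Sh.oo h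
  have hd := Sh.differentiable h
  obtain ⟨p, v, hp, hi, rfl⟩ := h
  have gr : ∀ c : ℂ, ‖c‖ ≤ B → ∀ z : En n,
      ‖z + c • ev p z • v‖ ≤ (1 + B * K) * (1 + ‖z‖) ^ (k + 2) := by
    intro c hc z
    have a1 : ‖z‖ ≤ (1 + ‖z‖) ^ (k + 2) :=
      (by simp : ‖z‖ ≤ 1 + ‖z‖).trans (le_self_pow₀ (by simp) (by omega))
    have a2 : ‖z‖ ^ (k + 2) ≤ (1 + ‖z‖) ^ (k + 2) := by gcongr; simp
    calc _ ≤ ‖z‖ + ‖c‖ * ‖ev p z • v‖ := by rw [← norm_smul]; exact norm_add_le _ _
      _ ≤ (1 + ‖z‖) ^ (k + 2) + B * (K * (1 + ‖z‖) ^ (k + 2)) := by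
        gcongr
        exact (hb z).trans (by gcongr)
      _ = _ := by ring
  have tn : ∀ c : ℂ, OO 2 (fun z : En n => z + c • ev p z • v - z) := by
    intro c
    simpa using (ho.mono (by omega : 2 ≤ k + 2)).smul c
  have dt : ∀ (c : ℂ) z, (fderiv ℂ (fun z : En n => z + c • ev p z • v) z).det = 1 := by
    intro c z
    simp only [smul_smul]
    exact shear_det ((ev_differentiable p).const_mul c) (fun z t => by rw [hi]) z
  refine ⟨1 + B * K, fun c hc => ⟨by nlinarith [mul_nonneg hB hK], differentiable_id.add (hd.const_smul c),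
    differentiable_id.add (hd.const_smul (-c)), fun z => ?_, fun z => ?_, gr c hc,
    gr (-c) (by simpa using hc), tn c, tn (-c), dt c, dt (-c)⟩⟩
  · simp only [smul_smul, hi]
    simp
  · simp only [smul_smul, hi]
    simp

theorem pa_finset {k : ℕ} (s : Finset (En n → En n)) (hs : ∀ σ ∈ s, σ ∈ Sh n (k + 2)) {B : ℝ}
    (hB : 0 ≤ B) : ∃ (D : ℕ) (C : ℝ), ∀ c : (En n → En n) → ℂ, (∀ σ, ‖c σ‖ ≤ B) →
      ∃ T T', PA D C T T' ∧ OO (k + 3) (fun z => T z - z - ∑ σ ∈ s, c σ • σ z) := by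
  classical
  induction s using Finset.induction_on with
  | empty => exact ⟨1, 1, fun c _ => ⟨_, _, pa_id, oo_of_bound (K := 0) (by simp)⟩⟩
  | insert σ s hσ ih =>
    obtain ⟨D, C, h⟩ := ih fun τ hτ => hs τ (Finset.mem_insert_of_mem hτ)
    have h0 := hs σ (Finset.mem_insert_self _ _)
    obtain ⟨C', h'⟩ := pa_shear h0 hB
    refine ⟨D * (k + 2), (2 * C) ^ (k + 2 + 1) * (2 * C') ^ (D + 1), fun c hc => ?_⟩
    obtain ⟨T, T', hT, ho⟩ := h c hc
    refine ⟨_, _, hT.comp (h' (c σ) (hc σ)), ?_⟩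
    have hd : ∀ᶠ z in 𝓝 (0 : En n), DifferentiableAt ℂ σ z :=
      Eventually.of_forall (Sh.differentiable h0)
    have h1 := OO.comp_sub ((Sh.oo h0).fderiv hd) hd hT.tan.one_of_tan oo_id hT.tan
    refine (ho.add (h1.smul (c σ))).congr (Eventually.of_forall fun z => ?_)
    simp only [Finset.sum_insert hσ, smul_sub]
    abel

/-- the hypotheses on the germ -/
structure Hy (F : En n → En n) : Prop where
  hol : DifferentiableOn ℂ F (ball 0 1)
  bd : ∀ z ∈ ball (0 : En n) 1, ‖F z - z‖ ≤ ‖z‖ ^ 2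

theorem Hy.tan {F : En n → En n} (h : Hy F) : OO 2 (fun z => F z - z) := by
  refine oo_of_bound (K := 1) ?_
  filter_upwards [ball_mem_nhds (0 : En n) one_pos] with z hz
  simpa using h.bd z hz

theorem Hy.le_two {F : En n → En n} (h : Hy F) {z : En n} (hz : z ∈ ball (0 : En n) 1) :
    ‖F z‖ ≤ 2 := by
  have h1 := h.bd z hz
  rw [mem_ball_zero_iff] at hz
  have h2 := norm_add_le (F z - z) z
  rw [sub_add_cancel] at h2
  nlinarith [norm_nonneg z]

theorem Hy.ev {F : En n → En n} (h : Hy F) : ∀ᶠ z in 𝓝 (0 : En n), DifferentiableAt ℂ F z := by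
  filter_upwards [ball_mem_nhds (0 : En n) one_pos] with z hz
  exact h.hol.differentiableAt (isOpen_ball.mem_nhds hz)

theorem PA.comp_bd {D : ℕ} {C : ℝ} {T T' F : En n → En n} (hT : PA D C T T') (h : Hy F) {z : En n}
    (hz : z ∈ ball (0 : En n) 1) : ‖T (F z) - z‖ ≤ C * 3 ^ D + 1 := by
  have h1 := hT.one_le
  have h2 := h.le_two hz
  refine (norm_sub_le _ _).trans (add_le_add ((hT.gr _).trans ?_) (mem_ball_zero_iff.1 hz).le)
  gcongr
  linarith

theorem main_succ (n d : ℕ) : ∃ (D : ℕ) (C : ℝ), ∀ F : En n → En n, Hy F →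
    OO (d + 1) (fun z => (fderiv ℂ F z).det - 1) →
    ∃ T T', PA D C T T' ∧ OO (d + 2) (fun z => T (F z) - z) := by
  induction d with
  | zero => exact ⟨1, 1, fun F h _ => ⟨_, _, pa_id, h.tan⟩⟩
  | succ d ih =>
    obtain ⟨D, C, ih⟩ := ih
    obtain ⟨s, B, hB, hs, hc⟩ := coef_bound n (d + 2)
    obtain ⟨D2, C2, h2⟩ := pa_finset s hs (B := B * (|C| * 3 ^ D + 1)) (by positivity)
    refine ⟨D * D2, (2 * C) ^ (D2 + 1) * (2 * C2) ^ (D + 1), fun F hF hdet => ?_⟩
    obtain ⟨T, T', hT, hH⟩ := ih F hF (hdet.mono (by omega))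
    have hC : |C| = C := abs_of_nonneg (by linarith [hT.one_le])
    rw [hC] at h2
    have hC0 := hT.one_le
    set H : En n → En n := fun z => T (F z) - z with hHd
    have hHo : DifferentiableOn ℂ H (ball 0 1) :=
      (hT.hol.comp_differentiableOn hF.hol).sub differentiableOn_id
    have hHe : ∀ᶠ z in 𝓝 (0 : En n), DifferentiableAt ℂ H z := by
      filter_upwards [ball_mem_nhds (0 : En n) one_pos] with z hz
      exact hHo.differentiableAt (isOpen_ball.mem_nhds hz)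
    obtain ⟨p, hp⟩ := hH.lead hHe
    obtain ⟨P, hP, hpP⟩ := diag_poly p
    set Y : En n → En n := ∑ i, fld i (P i) with hY
    have hp' : OO (d + 3) (fun z => H z - Y z) := by
      rw [← hpP]; exact hp
    have hYd : Differentiable ℂ Y := fun z => (fld_sum_hasFDerivAt P z).differentiableAt
    have hYe : ∀ᶠ z in 𝓝 (0 : En n), DifferentiableAt ℂ Y z := Eventually.of_forall hYd
    -- divergence
    have hdiv : ∑ i, pderiv i (P i) = 0 := by
      have a1 := oo_det.comp_two (hH.fderiv hHe)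
      have a2 : OO (d + 2) (fun z => (1 + fderiv ℂ H z).det - 1) := by
        refine hdet.congr ?_
        filter_upwards [hF.ev] with z hz
        have e : 1 + fderiv ℂ H z = fderiv ℂ (fun z => T (F z)) z := by
          have hTF : DifferentiableAt ℂ (fun z => T (F z)) z := (hT.hol _).comp z hz
          rw [hHd, fderiv_fun_sub hTF differentiableAt_fun_id, fderiv_fun_id]
          ext1 v
          simp
        rw [e, det_comp hz (hT.hol _), hT.det, one_mul]
      have a3 := (hp'.fderiv (hHe.mp (hYe.mono fun z h1 h2 => h2.sub h1))).of_le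
        (G := fun z => trE (fderiv ℂ (fun z => H z - Y z) z)) (c := ‖(trE : _ →L[ℂ] ℂ)‖)
        (Eventually.of_forall fun z => trE.le_opNorm _)
      have a4 : OO (d + 2) (ev (∑ i, pderiv i (P i))) := by
        refine ((a2.sub a1).sub a3).congr ?_
        filter_upwards [hHe] with z hz
        rw [fderiv_fun_sub hz (hYd z), map_sub, hY, trE_fld]
        ring
      have a5 : (∑ i, pderiv i (P i)).IsHomogeneous (d + 1) :=
        IsHomogeneous.sum _ _ _ fun i _ => (hP i).pderiv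
      exact ev_ext (hom_zero (fun t z => by rw [ev_hom a5, smul_eq_mul]) a4)
    -- bound
    have hM : ∀ z, ‖Y z‖ ≤ (C * 3 ^ D + 1) * ‖z‖ ^ (d + 2) := by
      refine hom_bound (fun t z => fld_sum_hom hP t z) hp' ?_
      filter_upwards [ball_mem_nhds (0 : En n) one_pos] with z hz
      simpa using hH.schwarz hHo (fun w hw => hT.comp_bd hF hw) hz
    obtain ⟨c, hc1, hc2⟩ := hc (-Y) (Submodule.neg_mem _ (mem_span_Sh hP hdiv)) (C * 3 ^ D + 1)
      (by positivity) (fun z hz => by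
        rw [Pi.neg_apply, norm_neg]
        exact (hM z).trans (mul_le_of_le_one_right (by positivity) (pow_le_one₀ (norm_nonneg _) hz)))
    obtain ⟨S, S', hS, hSo⟩ := h2 c hc1
    refine ⟨_, _, hT.comp hS, ?_⟩
    have hG2 : OO 2 (fun z => T (F z) - z) := hH.mono (by omega)
    have hG1 : OO 1 (fun z => T (F z)) := hG2.one_of_tan
    have b1 : OO (d + 3) (fun w => S w - w + Y w) := by
      refine hSo.congr ?_
      filter_upwards [closedBall_mem_nhds (0 : En n) one_pos] with w hw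
      rw [← hc2 w (mem_closedBall_zero_iff.1 hw), Pi.neg_apply, sub_neg_eq_add]
    have b2 := OO.comp_sub ((oo_of_bound (Eventually.of_forall hM)).fderiv hYe) hYe hG1 oo_id hG2
    refine (((b1.comp hG1).add hp').sub b2).congr (Eventually.of_forall fun z => ?_)
    simp only [hHd]
    abel

theorem main (n m : ℕ) : ∃ (D : ℕ) (C : ℝ), ∀ F : En n → En n, Hy F →
    OO m (fun z => (fderiv ℂ F z).det - 1) →
    ∃ T T', PA D C T T' ∧ OO (m + 1) (fun z => T (F z) - z) := by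
  cases m with
  | zero => exact ⟨1, 1, fun F h _ => ⟨_, _, pa_id, h.tan.mono (by omega)⟩⟩
  | succ d => exact main_succ n d

theorem gr_quant {D : ℕ} {C : ℝ} {T : En n → En n} (hC : 1 ≤ C) (hd : Differentiable ℂ T)
    (gr : ∀ z, ‖T z‖ ≤ C * (1 + ‖z‖) ^ D) (tn : OO 2 (fun z => T z - z)) (z : En n) :
    ‖T z‖ ≤ (C * 3 ^ D + 2) * ‖z‖ * (1 + ‖z‖) ^ D := by
  have a1 : 1 ≤ (1 + ‖z‖) ^ D := one_le_pow₀ (by simp)
  have a2 : (1 : ℝ) ≤ 3 ^ D := one_le_pow₀ (by norm_num)
  rcases lt_or_ge ‖z‖ 1 with h | h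
  · have := tn.one_of_tan.schwarz (R := 1) (M := C * 3 ^ D) hd.differentiableOn
      (fun w hw => (gr w).trans (by
        rw [mem_ball_zero_iff] at hw
        gcongr; linarith)) (mem_ball_zero_iff.2 h)
    simp only [div_one, zero_add, pow_one] at this
    calc ‖T z‖ ≤ C * 3 ^ D * ‖z‖ * 1 := by simpa using this
      _ ≤ _ := by gcongr; linarith
  · calc ‖T z‖ ≤ C * 1 * (1 + ‖z‖) ^ D := by simpa using gr z
      _ ≤ _ := by gcongr; nlinarith

theorem tan_quant {D : ℕ} {C : ℝ} {T : En n → En n} (hC : 1 ≤ C) (hd : Differentiable ℂ T)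
    (gr : ∀ z, ‖T z‖ ≤ C * (1 + ‖z‖) ^ D) (tn : OO 2 (fun z => T z - z)) (z : En n)
    (hz : ‖z‖ ≤ 1) : ‖T z - z‖ ≤ (C * 3 ^ D + 2) * ‖z‖ ^ 2 := by
  have := tn.schwarz (R := 2) (M := C * 3 ^ D + 2) (hd.sub differentiable_id).differentiableOn
    (fun w hw => by
      rw [mem_ball_zero_iff] at hw
      refine (norm_sub_le _ _).trans (add_le_add ((gr w).trans ?_) hw.le)
      gcongr; linarith) (z := z) (mem_ball_zero_iff.2 (by linarith))
  refine this.trans ?_
  gcongr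
  linarith [norm_nonneg z]

theorem and_one (n m : ℕ) : ∃ (D : ℕ) (C : ℝ), 1 ≤ C ∧ ∀ F : En n → En n, Hy F →
    OO m (fun z => (fderiv ℂ F z).det - 1) →
    ∃ Q Q', PAut D C 1 Q Q' ∧ ∀ z ∈ ball (0 : En n) 1,
      ‖Q z - F z‖ ≤ C * ‖z‖ ^ (m + 1) ∧ ‖Q' (F z) - z‖ ≤ C * ‖z‖ ^ (m + 1) := by
  obtain ⟨D, C, h⟩ := main n m
  refine ⟨D, |C| * 3 ^ D + 2, by
    have : 0 ≤ |C| * 3 ^ D := by positivity
    linarith, fun F hF hdet => ?_⟩
  obtain ⟨T, T', hT, ho⟩ := h F hF hdet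
  have hC := hT.one_le
  rw [abs_of_nonneg (by linarith : 0 ≤ C)]
  refine ⟨T', T, ⟨hT.hol', hT.hol, hT.ri, hT.li, ?_, ?_, ?_, ?_, hT.det', hT.det⟩,
    fun z hz => ⟨?_, ?_⟩⟩
  · simpa using gr_quant hC hT.hol' hT.gr' hT.tan'
  · simpa using gr_quant hC hT.hol hT.gr hT.tan
  · simpa using tan_quant hC hT.hol' hT.gr' hT.tan'
  · simpa using tan_quant hC hT.hol hT.gr hT.tan
  · have hG1 : OO 1 (fun z => T (F z)) := (tan_comp hF.tan hT.tan).one_of_tan
    have he : ∀ᶠ z in 𝓝 (0 : En n), DifferentiableAt ℂ T' z := Eventually.of_forall hT.hol'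
    have a1 := OO.comp_sub (oo_zero_fderiv he) he oo_id hG1 (l := m + 1) (by simpa using ho.neg)
    simp only [hT.li _, zero_add] at a1
    have := a1.schwarz (R := 1) (M := C * 3 ^ D + 2) (hT.hol'.differentiableOn.sub hF.hol)
      (fun w hw => by
        refine (norm_sub_le _ _).trans (add_le_add ((hT.gr' w).trans ?_) (hF.le_two hw))
        rw [mem_ball_zero_iff] at hw
        gcongr; linarith) hz
    simpa using this
  · have := ho.schwarz (R := 1) (M := C * 3 ^ D + 2)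
      ((hT.hol.comp_differentiableOn hF.hol).sub differentiableOn_id)
      (fun w hw => (hT.comp_bd hF hw).trans (by linarith)) hz
    simpa using this

theorem fderiv_scale {a : ℂ} (ha : a ≠ 0) {G : En n → En n} {z : En n}
    (hG : DifferentiableAt ℂ G (a • z)) :
    fderiv ℂ (fun z => a⁻¹ • G (a • z)) z = fderiv ℂ G (a • z) := by
  have h1 : HasFDerivAt (fun z : En n => a • z) (a • ContinuousLinearMap.id ℂ (En n)) z :=
    (hasFDerivAt_id z).const_smul a
  have h2 : HasFDerivAt (fun z => a⁻¹ • G (a • z)) _ z :=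
    (hG.hasFDerivAt.comp z h1).const_smul a⁻¹
  rw [h2.fderiv]
  ext1 v
  simp [smul_smul, ha]

theorem PAut.scale {D : ℕ} {C β : ℝ} {Q Q' : En n → En n} (h : PAut D C 1 Q Q') (hβ : 0 < β) :
    PAut D C β (fun z => (β : ℂ)⁻¹ • Q ((β : ℂ) • z)) (fun z => (β : ℂ)⁻¹ • Q' ((β : ℂ) • z)) := by
  have hb : (β : ℂ) ≠ 0 := by exact_mod_cast hβ.ne'
  have hn : ∀ z : En n, ‖(β : ℂ) • z‖ = β * ‖z‖ := fun z => by
    rw [norm_smul]; simp [abs_of_pos hβ]
  have hn' : ∀ z : En n, ‖(β : ℂ)⁻¹ • z‖ = β⁻¹ * ‖z‖ := fun z => by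
    rw [norm_smul]; simp [abs_of_pos hβ]
  have gr : ∀ T : En n → En n, (∀ z, ‖T z‖ ≤ C * ‖z‖ * (1 + 1 * ‖z‖) ^ D) →
      ∀ z, ‖(β : ℂ)⁻¹ • T ((β : ℂ) • z)‖ ≤ C * ‖z‖ * (1 + β * ‖z‖) ^ D := by
    intro T hT z
    have := hT ((β : ℂ) • z)
    rw [hn, one_mul] at this
    rw [hn', inv_mul_le_iff₀ hβ]
    exact this.trans_eq (by ring)
  have tn : ∀ T : En n → En n, (∀ z, 1 * ‖z‖ ≤ 1 → ‖T z - z‖ ≤ C * 1 * ‖z‖ ^ 2) →
      ∀ z, β * ‖z‖ ≤ 1 → ‖(β : ℂ)⁻¹ • T ((β : ℂ) • z) - z‖ ≤ C * β * ‖z‖ ^ 2 := by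
    intro T hT z hz
    have := hT ((β : ℂ) • z) (by rwa [hn, one_mul])
    have e : (β : ℂ)⁻¹ • T ((β : ℂ) • z) - z = (β : ℂ)⁻¹ • (T ((β : ℂ) • z) - (β : ℂ) • z) := by
      rw [smul_sub, inv_smul_smul₀ hb]
    rw [hn] at this
    rw [e, hn', inv_mul_le_iff₀ hβ]
    exact this.trans_eq (by ring)
  have hl : Differentiable ℂ fun z : En n => (β : ℂ) • z := by fun_prop
  have hd : ∀ T : En n → En n, Differentiable ℂ T →
      Differentiable ℂ (fun z => (β : ℂ)⁻¹ • T ((β : ℂ) • z)) := fun T hT => by fun_prop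
  refine ⟨hd Q h.hol, hd Q' h.hol', fun z => ?_, fun z => ?_,
    gr Q h.gr, gr Q' h.gr', tn Q h.tan, tn Q' h.tan', fun z => ?_, fun z => ?_⟩
  · simp only [smul_inv_smul₀ hb, h.li _, inv_smul_smul₀ hb]
  · simp only [smul_inv_smul₀ hb, h.ri _, inv_smul_smul₀ hb]
  · rw [fderiv_scale hb (h.hol _), h.det]
  · rw [fderiv_scale hb (h.hol' _), h.det']

/-- **Andersén lemma** -/
theorem andStmt (n : ℕ) : AndStmt n := by
  intro m
  obtain ⟨D, C, hC, h⟩ := and_one n m
  refine ⟨D, C, hC, fun β F hβ hF hb hdet => ?_⟩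
  have hb0 : (β : ℂ) ≠ 0 := by exact_mod_cast hβ.ne'
  have hn : ∀ z : En n, ‖(β : ℂ) • z‖ = β * ‖z‖ := fun z => by
    rw [norm_smul]; simp [abs_of_pos hβ]
  have hn' : ∀ z : En n, ‖(β : ℂ)⁻¹ • z‖ = β⁻¹ * ‖z‖ := fun z => by
    rw [norm_smul]; simp [abs_of_pos hβ]
  have hin : ∀ w ∈ ball (0 : En n) 1, (β : ℂ)⁻¹ • w ∈ ball (0 : En n) β⁻¹ := fun w hw => by
    rw [mem_ball_zero_iff] at hw ⊢
    rw [hn']
    exact mul_lt_of_lt_one_right (inv_pos.2 hβ) hw
  set F1 : En n → En n := fun w => (β : ℂ)⁻¹⁻¹ • F ((β : ℂ)⁻¹ • w) with hF1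
  have hy : Hy F1 := by
    have hl : Differentiable ℂ fun z : En n => (β : ℂ)⁻¹ • z := by fun_prop
    have h1 : DifferentiableOn ℂ (fun w => F ((β : ℂ)⁻¹ • w)) (ball 0 1) :=
      hF.comp hl.differentiableOn hin
    refine ⟨h1.fun_const_smul _, fun w hw => ?_⟩
    have := hb _ (hin w hw)
    have e : F1 w - w = (β : ℂ) • (F ((β : ℂ)⁻¹ • w) - (β : ℂ)⁻¹ • w) := by
      rw [smul_sub, smul_inv_smul₀ hb0, hF1, inv_inv]
    rw [e, hn]
    rw [hn'] at this
    calc _ ≤ β * (β * (β⁻¹ * ‖w‖) ^ 2) := by gcongr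
      _ = _ := by field_simp
  have ho : OO m (fun z => (fderiv ℂ F1 z).det - 1) := by
    obtain ⟨K, hK⟩ := hdet
    refine ((oo_of_bound hK).comp (oo_id.smul (β : ℂ)⁻¹)).congr ?_
    filter_upwards [ball_mem_nhds (0 : En n) one_pos] with w hw
    rw [hF1, fderiv_scale (inv_ne_zero hb0) (hF.differentiableAt (isOpen_ball.mem_nhds (hin w hw)))]
  obtain ⟨Q, Q', hQ, hb⟩ := h F1 hy ho
  refine ⟨_, _, hQ.scale hβ, fun z hz => ?_⟩
  have hz' : (β : ℂ) • z ∈ ball (0 : En n) 1 := by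
    rw [mem_ball_zero_iff] at hz ⊢
    rw [hn]
    rwa [← lt_inv_mul_iff₀ hβ, mul_one]
  obtain ⟨h1, h2⟩ := hb _ hz'
  have e : F1 ((β : ℂ) • z) = (β : ℂ) • F z := by simp only [hF1, inv_inv, inv_smul_smul₀ hb0]
  rw [e, hn] at h1 h2
  constructor
  · have e1 : (β : ℂ)⁻¹ • Q ((β : ℂ) • z) - F z =
        (β : ℂ)⁻¹ • (Q ((β : ℂ) • z) - (β : ℂ) • F z) := by rw [smul_sub, inv_smul_smul₀ hb0]
    rw [e1, hn', inv_mul_le_iff₀ hβ]
    exact h1.trans_eq (by ring)
  · have e1 : (β : ℂ)⁻¹ • Q' ((β : ℂ) • F z) - z =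
        (β : ℂ)⁻¹ • (Q' ((β : ℂ) • F z) - (β : ℂ) • z) := by rw [smul_sub, inv_smul_smul₀ hb0]
    rw [e1, hn', inv_mul_le_iff₀ hβ]
    exact h2.trans_eq (by ring)

end

end Crest.Agent.T223.And
end

-- ▼ part T223/NaDec_37
section

/-!
# Row 223, module NA, leaf DEC (helper37)

* `D37.three_circ` : Hadamard's three circles theorem on complex lines through the origin
* `D37.cover` : quantitative covering lemma
* `decStmt`
-/

set_option autoImplicit false

open Set Filter Topology Metric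

namespace Crest.Agent.T223.Na

open Crest.Agent.T223.Tr Crest.Agent.T223.Dyn

namespace D37

/-- three circles on the complex lines through the origin -/
theorem three_circ {E F : Type*} [NormedAddCommGroup E] [NormedSpace ℂ E] [NormedAddCommGroup F]
    [NormedSpace ℂ F] {g : E → F} {r ρ R a b : ℝ} (hg : DifferentiableOn ℂ g (ball 0 r))
    (hρ : 0 < ρ) (hρR : ρ < R) (hR : R < r) (ha : ∀ w, ‖w‖ = ρ → ‖g w‖ ≤ a)
    (hb : ∀ w, ‖w‖ ≤ R → ‖g w‖ ≤ b) {z : E} (h1 : ρ ≤ ‖z‖) (h2 : ‖z‖ ≤ R) :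
    ‖g z‖ ≤ a ^ (1 - (Real.log ‖z‖ - Real.log ρ) / (Real.log R - Real.log ρ)) *
      b ^ ((Real.log ‖z‖ - Real.log ρ) / (Real.log R - Real.log ρ)) := by
  have hz : 0 < ‖z‖ := hρ.trans_le h1
  have hR0 : 0 < R := hρ.trans hρR
  set u : E := ((‖z‖⁻¹ : ℝ) : ℂ) • z with hu
  have hu1 : ‖u‖ = 1 := by
    rw [hu, norm_smul, Complex.norm_real, Real.norm_eq_abs, abs_of_pos (inv_pos.2 hz),
      inv_mul_cancel₀ hz.ne']
  have hn : ∀ s : ℂ, ‖Complex.exp s • u‖ = Real.exp s.re := fun s => by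
    rw [norm_smul, hu1, mul_one, Complex.norm_exp]
  have hle : ∀ s : ℂ, s.re ≤ Real.log R → ‖Complex.exp s • u‖ ≤ R := fun s hs => by
    rw [hn]
    exact (Real.exp_le_exp.2 hs).trans_eq (Real.exp_log hR0)
  have hd : ∀ s : ℂ, s.re ≤ Real.log R → DifferentiableAt ℂ (fun s => g (Complex.exp s • u)) s :=
    fun s hs => by
      have h3 : DifferentiableAt ℂ g (Complex.exp s • u) :=
        hg.differentiableAt (isOpen_ball.mem_nhds (mem_ball_zero_iff.2 ((hle s hs).trans_lt hR)))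
      exact h3.comp s (Complex.differentiableAt_exp.smul_const u)
  have hlu : Real.log ρ < Real.log R := Real.log_lt_log hρ hρR
  have key := Complex.HadamardThreeLines.norm_le_interp_of_mem_verticalClosedStrip'
    (f := fun s => g (Complex.exp s • u)) (z := ((Real.log ‖z‖ : ℝ) : ℂ)) (a := a) (b := b) hlu
    ⟨by simpa using Real.log_le_log hρ h1, by simpa using Real.log_le_log hz h2⟩
    (by
      refine DifferentiableOn.diffContOnCl fun s hs => (hd s ?_).differentiableWithinAt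
      have h4 : closure (Complex.HadamardThreeLines.verticalStrip (Real.log ρ) (Real.log R)) ⊆
          {s : ℂ | s.re ≤ Real.log R} :=
        closure_minimal (fun s hs => le_of_lt hs.2)
          (isClosed_le Complex.continuous_re continuous_const)
      exact h4 hs)
    ⟨b, by
      rintro _ ⟨s, hs, rfl⟩
      exact hb _ (hle s hs.2)⟩
    (fun s hs => ha _ (by
      rw [hn, show s.re = Real.log ρ from hs, Real.exp_log hρ]))
    (fun s hs => hb _ (hle s (le_of_eq hs)))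
  have e1 : Complex.exp ((Real.log ‖z‖ : ℝ) : ℂ) • u = z := by
    rw [← Complex.ofReal_exp, Real.exp_log hz, hu, smul_smul, ← Complex.ofReal_mul,
      mul_inv_cancel₀ hz.ne', Complex.ofReal_one, one_smul]
  simpa only [e1, Complex.ofReal_re] using key

variable {n : ℕ}

/-- quantitative covering lemma -/
theorem cover {f : EE n → EE n} {r κ T : ℝ} (hr : 0 < r) (hκ : 1 ≤ κ) (hT : 1 ≤ T)
    (hf : DifferentiableOn ℂ f (ball 0 r)) (h0 : f 0 = 0)
    (hb : ∀ w ∈ ball (0 : EE n) r, ‖f w‖ ≤ κ * ‖w‖) (hL : ∀ v, ‖fderiv ℂ f 0 v‖ ≤ ‖v‖)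
    (hinv : ∀ v, ‖v‖ ≤ T * ‖fderiv ℂ f 0 v‖) {w : EE n} (hw : ‖w‖ ≤ r / (64 * κ * T ^ 2)) :
    ∃ y ∈ ball (0 : EE n) (r / κ), f y = w := by
  set L := fderiv ℂ f 0 with hLd
  have hκ0 : 0 < κ := by linarith
  have hT0 : 0 < T := by linarith
  have hg : DifferentiableOn ℂ (fun x => f x - L x) (ball 0 r) :=
    hf.sub L.differentiable.differentiableOn
  have hev : ∀ᶠ x in 𝓝 (0 : EE n), DifferentiableAt ℂ f x := by
    filter_upwards [ball_mem_nhds (0 : EE n) hr] with x hx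
    exact hf.differentiableAt (isOpen_ball.mem_nhds hx)
  have hO : (fun x => f x - L x) =O[𝓝 0] fun x : EE n => ‖x‖ ^ 2 := by
    have h := isBigO_sub_fderiv hev hev.self_of_nhds.hasFDerivAt
    simpa only [h0, sub_zero] using h
  have hq := schwarz_ord (β := 2 * κ * r) hg (fun x hx => by
    have h1 := hb x hx
    have h2 := hL x
    have h3 := norm_sub_le (f x) (L x)
    have h4 : ‖x‖ < r := mem_ball_zero_iff.1 hx
    have h5 := norm_nonneg x
    nlinarith) hO
  set ε : ℝ := r / (32 * κ * T) with hε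
  have hε0 : 0 < ε := by positivity
  have hεr : ε * (32 * κ * T) = r := by rw [hε]; field_simp
  have hκT : 1 ≤ κ * T := one_le_mul_of_one_le_of_one_le hκ hT
  have h2ε : 2 * ε ≤ r := by nlinarith
  have hD : ∀ x ∈ closedBall (0 : EE n) ε, ‖fderiv ℂ (fun x => f x - L x) x‖ ≤ 1 / (2 * T) := by
    intro x hx
    rw [mem_closedBall_zero_iff] at hx
    have hs : ∀ y ∈ ball x ε, ‖y‖ < 2 * ε := fun y hy => by
      rw [mem_ball, dist_eq_norm] at hy
      have := norm_add_le (y - x) x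
      rw [sub_add_cancel] at this
      linarith
    have hs' : ball x ε ⊆ ball (0 : EE n) r := fun y hy =>
      mem_ball_zero_iff.2 ((hs y hy).trans_le h2ε)
    have h1 := norm_fderiv_le_of_ball (β := 2 * κ * r * (2 * ε / r) ^ 2) hε0 (hg.mono hs')
      (fun y hy => (hq y (hs' hy)).trans (by
        have := (hs y hy).le
        gcongr))
    refine h1.trans (le_of_eq ?_)
    rw [hε]
    field_simp
    norm_num
  have hsub : closedBall (0 : EE n) ε ⊆ ball 0 r := closedBall_subset_ball (by linarith)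
  have hap : ApproximatesLinearOn f L (closedBall 0 ε) ⟨1 / (2 * T), by positivity⟩ := by
    intro x hx y hy
    have h1 := Convex.norm_image_sub_le_of_norm_fderiv_le (𝕜 := ℂ) (f := fun x => f x - L x)
      (fun z hz => hg.differentiableAt (isOpen_ball.mem_nhds (hsub hz))) hD
      (convex_closedBall _ _) hy hx
    have e : f x - f y - L (x - y) = (f x - L x) - (f y - L y) := by
      rw [map_sub]; abel
    rw [e]
    exact h1
  have hinj : Function.Injective L := by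
    refine (injective_iff_map_eq_zero L).2 fun v hv => ?_
    have := hinv v
    rw [hv, norm_zero, mul_zero] at this
    exact norm_le_zero_iff.1 this
  have hsurj : Function.Surjective L :=
    (LinearMap.injective_iff_surjective (f := (L : EE n →ₗ[ℂ] EE n))).1 hinj
  let S : L.NonlinearRightInverse :=
    { toFun := fun y => (hsurj y).choose
      nnnorm := ⟨T, hT0.le⟩
      bound' := fun y => by
        have h := hinv (hsurj y).choose
        rwa [(hsurj y).choose_spec] at h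
      right_inv' := fun y => (hsurj y).choose_spec }
  have hso := hap.surjOn_closedBall_of_nonlinearRightInverse S hε0.le Subset.rfl
  have hw' : w ∈ closedBall (f 0) ((T⁻¹ - 1 / (2 * T)) * ε) := by
    rw [h0, mem_closedBall_zero_iff]
    refine hw.trans (le_of_eq ?_)
    rw [hε]
    field_simp
    norm_num
  obtain ⟨y, hy, hyw⟩ := hso hw'
  refine ⟨y, ?_, hyw⟩
  rw [mem_closedBall_zero_iff] at hy
  rw [mem_ball_zero_iff, lt_div_iff₀ hκ0]
  have : ‖y‖ * κ ≤ ε * κ := by gcongr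
  nlinarith [mul_pos hε0 hκ0]

end D37

open D37

theorem decStmt (n : ℕ) : DecStmt n := by
  intro Φ r κ σ hc hh
  obtain ⟨ε0, C0, hε0, hdec⟩ := hh.dec 0
  have hr := hc.r_pos
  have hκ := hc.one_le
  have hκ0 : 0 < κ := by linarith
  set M : ℝ := max (max C0 (κ * r)) 1 with hM
  have hM1 : 1 ≤ M := le_max_right _ _
  have hM0 : 0 < M := by linarith
  have hMC : C0 ≤ M := (le_max_left _ _).trans (le_max_left _ _)
  have hMκ : κ * r ≤ M := (le_max_right _ _).trans (le_max_left _ _)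
  have hl : 0 ≤ Real.log (64 * κ) := Real.log_nonneg (by linarith)
  set c2 : ℝ := 2 + Real.log (64 * κ) with hc2
  have hc20 : 2 ≤ c2 := by linarith
  refine ⟨ε0 / (2 * c2), M, by positivity, hM1, fun j k x z hjk hx hz => ?_⟩
  have hk0 : (0 : ℝ) ≤ k := Nat.cast_nonneg k
  have hj0 : (0 : ℝ) ≤ j := Nat.cast_nonneg j
  set ρ : ℝ := r / (64 * κ * Real.exp j ^ 2) with hρ
  have hρ0 : 0 < ρ := by positivity
  have hsmall : ∀ w : EE n, ‖w‖ ≤ ρ → ‖Φ j k w‖ ≤ M * Real.exp (-(ε0 * k)) := by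
    intro w hw
    obtain ⟨y, hy, hyw⟩ := cover hr hκ (Real.one_le_exp hj0) (hc.hol 0 j (Nat.zero_le j))
      (hc.zero 0 j (Nat.zero_le j)) (hc.bd 0 j (Nat.zero_le j)) (hh.nrm 0 j (Nat.zero_le j))
      (fun v => by simpa [Lm] using hh.inv 0 j (Nat.zero_le j) v) hw
    rw [← hyw, hc.coc 0 j k (Nat.zero_le j) hjk y hy]
    have hy' : y ∈ ball (0 : EE n) r := ball_subset_ball (div_le_self hr.le hκ) hy
    exact (hdec k (Nat.zero_le k) y hy').trans (by gcongr)
  have hmin1 : min 1 (x / (j + 1)) ≤ 1 := min_le_left _ _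
  have hmin2 : min 1 (x / (j + 1)) ≤ x / (j + 1) := min_le_right _ _
  have hmin0 : 0 ≤ min 1 (x / (j + 1)) := le_min zero_le_one (by positivity)
  rcases le_or_gt ‖z‖ ρ with h1 | h1
  · refine (hsmall z h1).trans (mul_le_mul_of_nonneg_left (Real.exp_le_exp.2 ?_) hM0.le)
    have h2 : ε0 / (2 * c2) ≤ ε0 := div_le_self hε0.le (by linarith)
    have h3 : ε0 / (2 * c2) * k * min 1 (x / (j + 1)) ≤ ε0 * k * 1 := by gcongr
    linarith
  · set R : ℝ := r * Real.exp (-(x / 2)) with hR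
    have hz0 : 0 < ‖z‖ := hρ0.trans h1
    have hRr : R < r := by
      have : Real.exp (-(x / 2)) < 1 := Real.exp_lt_one_iff.2 (by linarith)
      rw [hR]; nlinarith
    have hzR : ‖z‖ < R := hz.trans_lt (by
      rw [hR]
      exact mul_lt_mul_of_pos_left (Real.exp_lt_exp.2 (by linarith)) hr)
    have key := three_circ (a := M * Real.exp (-(ε0 * k))) (b := M) (hc.hol j k hjk) hρ0
      (h1.trans hzR) hRr (fun w hw => hsmall w hw.le) (fun w hw => by
        have h2 := hc.bd j k hjk w (mem_ball_zero_iff.2 (hw.trans_lt hRr))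
        have h3 : κ * ‖w‖ ≤ κ * r := by gcongr; exact hw.trans hRr.le
        linarith) h1.le hzR.le
    set θ : ℝ := (Real.log ‖z‖ - Real.log ρ) / (Real.log R - Real.log ρ) with hθ
    have e1 : (M * Real.exp (-(ε0 * k))) ^ (1 - θ) * M ^ θ =
        M * Real.exp (-(ε0 * k * (1 - θ))) := by
      rw [Real.mul_rpow hM0.le (Real.exp_pos _).le, ← Real.exp_mul, mul_right_comm,
        ← Real.rpow_add hM0, sub_add_cancel, Real.rpow_one, neg_mul]
    rw [e1] at key
    refine key.trans (mul_le_mul_of_nonneg_left (Real.exp_le_exp.2 ?_) hM0.le)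
    have hlR : Real.log R = Real.log r - x / 2 := by
      rw [hR, Real.log_mul hr.ne' (Real.exp_pos _).ne', Real.log_exp]; ring
    have hlρ : Real.log ρ = Real.log r - (Real.log (64 * κ) + 2 * j) := by
      rw [hρ, Real.log_div hr.ne' (by positivity), Real.log_mul (by positivity) (by positivity),
        Real.log_pow, Real.log_exp]
      norm_num
    have hlz : Real.log ‖z‖ ≤ Real.log r - x := by
      have h2 := Real.log_le_log hz0 hz
      rw [Real.log_mul hr.ne' (Real.exp_pos _).ne', Real.log_exp] at h2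
      linarith
    have hD0 : 0 < Real.log R - Real.log ρ := sub_pos.2 (Real.log_lt_log hρ0 (h1.trans hzR))
    have hD1 : Real.log R - Real.log ρ ≤ c2 * (j + 1) := by
      rw [hlR, hlρ, hc2]
      nlinarith
    have h4 : x / (2 * c2 * (j + 1)) ≤ 1 - θ := by
      have e2 : 1 - θ = (Real.log R - Real.log ‖z‖) / (Real.log R - Real.log ρ) := by
        rw [hθ]; field_simp; ring
      have e3 : x / (2 * c2 * (j + 1)) = (x / 2) / (c2 * (j + 1)) := by
        field_simp
      rw [e2, e3]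
      exact div_le_div₀ (by linarith) (by linarith) hD0 hD1
    have h5 : ε0 / (2 * c2) * k * min 1 (x / (j + 1)) ≤ ε0 / (2 * c2) * k * (x / (j + 1)) := by
      gcongr
    have h6 : ε0 / (2 * c2) * k * (x / (j + 1)) = ε0 * k * (x / (2 * c2 * (j + 1))) := by
      field_simp
    have h7 : ε0 * k * (x / (2 * c2 * (j + 1))) ≤ ε0 * k * (1 - θ) := by gcongr
    linarith

end Crest.Agent.T223.Na
end

-- ▼ part T223/NaVol_85
section

/-!
# Row 223, module NA, leaf VOL (helper85): normalisation of the Jacobians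

`volStmt : VolStmt n`.  The normalised Jacobians `J j k = det D(Φ j k) / det Lm j k` converge on
balls of radius `c / (j+1)` to `ν j`; `V j` is a shear with Jacobian `ν j`.
-/

set_option autoImplicit false
set_option linter.unusedVariables false

open Set Filter Topology Metric Asymptotics

namespace Crest.Agent.T223.Na

open Crest.Agent.T223.Tr Crest.Agent.T223.Dyn

namespace Vol85

variable {n : ℕ}

/-- convergence of a product of holomorphic functions -/
theorem prodlim {f : ℕ → EE n → ℂ} {R X : ℝ} {a : ℕ → ℝ}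
    (hf : ∀ k, DifferentiableOn ℂ (f k) (ball 0 R)) (h0 : ∀ z ∈ ball (0 : EE n) R, f 0 z = 1)
    (ha : ∀ k, 0 ≤ a k) (hs : ∀ k, ∑ i ∈ Finset.range k, a i ≤ X) (hX : X * R ≤ 1)
    (hst : ∀ k, ∀ z ∈ ball (0 : EE n) R, ‖f (k + 1) z - f k z‖ ≤ ‖f k z‖ * (a k * ‖z‖)) :
    ∃ ν : EE n → ℂ, DifferentiableOn ℂ ν (ball 0 R) ∧
      (∀ z ∈ ball (0 : EE n) R, Tendsto (fun k => f k z) atTop (𝓝 (ν z))) ∧
      ∀ z ∈ ball (0 : EE n) R, ‖ν z - 1‖ ≤ 3 * X * ‖z‖ := by
  have hX0 : 0 ≤ X := by simpa using hs 0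
  have hb : ∀ z ∈ ball (0 : EE n) R, ∀ k,
      ‖f k z‖ ≤ Real.exp ((∑ i ∈ Finset.range k, a i) * ‖z‖) := by
    intro z hz k
    induction k with
    | zero => simp [h0 z hz]
    | succ k ih =>
      have h1 := hst k z hz
      have h2 : ‖f (k + 1) z‖ ≤ ‖f k z‖ * (a k * ‖z‖ + 1) := by
        have := norm_le_insert' (f (k + 1) z) (f k z)
        nlinarith
      rw [Finset.sum_range_succ, add_mul, Real.exp_add]
      exact h2.trans (mul_le_mul ih (Real.add_one_le_exp _)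
        (by have := ha k; positivity) (Real.exp_pos _).le)
  have hb3 : ∀ z ∈ ball (0 : EE n) R, ∀ k, ‖f k z‖ ≤ 3 := by
    intro z hz k
    have hz' := mem_ball_zero_iff.1 hz
    refine (hb z hz k).trans ((Real.exp_le_exp.2 ?_).trans (Real.exp_one_lt_three).le)
    calc (∑ i ∈ Finset.range k, a i) * ‖z‖ ≤ X * R :=
          mul_le_mul (hs k) hz'.le (norm_nonneg _) hX0
      _ ≤ 1 := hX
  have hg : ∀ k, ∀ z ∈ ball (0 : EE n) R, ‖f (k + 1) z - f k z‖ ≤ 3 * (a k * ‖z‖) :=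
    fun k z hz => (hst k z hz).trans
      (mul_le_mul_of_nonneg_right (hb3 z hz k) (by have := ha k; positivity))
  have hsum : Summable a := summable_of_sum_range_le ha hs
  have hT := tendstoUniformlyOn_tsum_nat (f := fun k z => f (k + 1) z - f k z)
    (u := fun k => 3 * (a k * R)) (s := ball (0 : EE n) R) ((hsum.mul_right R).mul_left 3)
    (fun k z hz => (hg k z hz).trans (by
      have := (mem_ball_zero_iff.1 hz).le
      have := ha k
      gcongr))
  have htel : ∀ k, ∀ z ∈ ball (0 : EE n) R,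
      ∑ i ∈ Finset.range k, (f (i + 1) z - f i z) = f k z - 1 := by
    intro k z hz
    rw [Finset.sum_range_sub (fun i => f i z), h0 z hz]
  have hT' : TendstoUniformlyOn (fun k z => f k z - 1)
      (fun z => ∑' k, (f (k + 1) z - f k z)) atTop (ball (0 : EE n) R) :=
    hT.congr (Eventually.of_forall fun k z hz => htel k z hz)
  have hA := Crest.Agent.R266.SCV.analyticOnNhd_of_tendstoLocallyUniformlyOn isOpen_ball
    hT'.tendstoLocallyUniformlyOn (Eventually.of_forall fun k => (hf k).sub_const 1)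
  refine ⟨fun z => (∑' k, (f (k + 1) z - f k z)) + 1, hA.differentiableOn.add_const 1,
    fun z hz => ?_, fun z hz => ?_⟩
  · simpa using (hT'.tendsto_at hz).add_const 1
  · rw [add_sub_cancel_right]
    refine le_of_tendsto' (hT'.tendsto_at hz).norm fun k => ?_
    rw [← htel k z hz]
    refine (norm_sum_le _ _).trans ((Finset.sum_le_sum fun i _ => hg i z hz).trans ?_)
    rw [← Finset.mul_sum, ← Finset.sum_mul, mul_assoc]
    have := hs k
    gcongr

/-- a shear with prescribed Jacobian -/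
theorem prim (hn : 1 ≤ n) {μ : EE n → ℂ} {R S : ℝ} (hR : 0 < R) (hS : 0 ≤ S)
    (hμ : DifferentiableOn ℂ μ (ball 0 R)) (hb : ∀ z ∈ ball (0 : EE n) R, ‖μ z‖ ≤ S * ‖z‖) :
    ∃ V : EE n → EE n, DifferentiableOn ℂ V (ball 0 (R / 3)) ∧
      (∀ z ∈ ball (0 : EE n) (R / 3), ‖V z - z‖ ≤ 2 * S * ‖z‖ ^ 2) ∧
      ∀ z ∈ ball (0 : EE n) (R / 3), (fderiv ℂ V z).det = 1 + μ z := by
  set i0 : Fin n := ⟨0, hn⟩
  set e : EE n := EuclideanSpace.single i0 1 with he
  have hen : ‖e‖ = 1 := by simp [he]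
  have hz0 : ∀ z : EE n, ‖z i0‖ ≤ ‖z‖ := fun z => PiLp.norm_apply_le z i0
  set T : ℝ → EE n → EE n := fun s z => z - ((1 - (s : ℂ)) * z i0) • e with hT
  have hTn : ∀ s ∈ uIcc (0 : ℝ) 1, ∀ z, ‖T s z‖ ≤ 2 * ‖z‖ := by
    intro s hs z
    rw [uIcc_of_le zero_le_one] at hs
    refine (norm_sub_le _ _).trans ?_
    rw [norm_smul, hen, mul_one, norm_mul]
    have h1 : ‖(1 - (s : ℂ))‖ ≤ 1 := by
      rw [← Complex.ofReal_one, ← Complex.ofReal_sub, Complex.norm_real, Real.norm_eq_abs,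
        abs_le]
      constructor <;> linarith [hs.1, hs.2]
    have := hz0 z
    nlinarith [norm_nonneg (z i0), norm_nonneg (1 - (s : ℂ))]
  have hTm : ∀ s ∈ uIcc (0 : ℝ) 1, ∀ z ∈ ball (0 : EE n) (R / 3), T s z ∈ ball (0 : EE n) R := by
    intro s hs z hz
    rw [mem_ball_zero_iff] at hz ⊢
    linarith [hTn s hs z, norm_nonneg z]
  set I : EE n → ℂ := fun z => ∫ s in (0 : ℝ)..1, μ (T s z) with hI
  have hIa : AnalyticOnNhd ℂ I (ball 0 (R / 3)) := by
    refine Crest.Agent.R266.SCV.analyticOnNhd_intervalIntegral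
      (f := fun q : EE n × ℝ => μ (T q.2 q.1)) isOpen_ball ?_ ?_
    · refine hμ.continuousOn.comp (Continuous.continuousOn ?_) fun q hq => hTm _ hq.2 _ hq.1
      simp only [hT]
      fun_prop
    · intro s hs
      refine hμ.comp (Differentiable.differentiableOn ?_) fun z hz => hTm s hs z hz
      simp only [hT]
      fun_prop
  set h : EE n → ℂ := fun z => z i0 * I z with hh
  have hhd : DifferentiableOn ℂ h (ball 0 (R / 3)) :=
    (Differentiable.differentiableOn (by fun_prop)).mul hIa.differentiableOn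
  refine ⟨fun z => z + h z • e, differentiableOn_id.add (hhd.smul_const e), fun z hz => ?_,
    fun z hz => ?_⟩
  · rw [add_sub_cancel_left, norm_smul, hen, mul_one, hh, norm_mul]
    have h1 : ‖I z‖ ≤ S * (2 * ‖z‖) * |1 - 0| := by
      refine intervalIntegral.norm_integral_le_of_norm_le_const fun s hs => ?_
      have hs' := uIoc_subset_uIcc hs
      exact (hb _ (hTm s hs' z hz)).trans (mul_le_mul_of_nonneg_left (hTn s hs' z) hS)
    have h2 := hz0 z
    calc ‖z i0‖ * ‖I z‖ ≤ ‖z‖ * (S * (2 * ‖z‖) * |1 - 0|) := by gcongr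
      _ = _ := by simp; ring
  · have hz' := mem_ball_zero_iff.1 hz
    have hd := ((hhd z hz).differentiableAt (isOpen_ball.mem_nhds hz)).hasFDerivAt
    have hV : HasFDerivAt (fun z => z + h z • e)
        (ContinuousLinearMap.id ℂ (EE n) + (fderiv ℂ h z).smulRight e) z :=
      (hasFDerivAt_id z).add (hd.smul_const e)
    rw [hV.fderiv]
    have hdet : (ContinuousLinearMap.id ℂ (EE n) + (fderiv ℂ h z).smulRight e).det =
        1 + fderiv ℂ h z e := by
      exact LinearMap.transvection.det (R := ℂ) (V := EE n) (fderiv ℂ h z).toLinearMap e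
    rw [hdet]
    congr 1
    -- the derivative in the direction `e`
    set P : EE n := z - z i0 • e with hP
    have hPn : ‖P‖ ≤ 2 * ‖z‖ := by
      have := hTn 0 left_mem_uIcc z
      simpa [hT, hP] using this
    have hm : DifferentiableOn ℂ (fun w : ℂ => μ (P + w • e)) (ball 0 (R / 3)) := by
      refine hμ.comp (Differentiable.differentiableOn (by fun_prop)) fun w hw => ?_
      rw [mem_ball_zero_iff] at hw ⊢
      have := norm_add_le P (w • e)
      rw [norm_smul, hen, mul_one] at this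
      linarith
    obtain ⟨G, hG⟩ := hm.isExactOn_ball
    have hkey : ∀ w ∈ ball (0 : ℂ) (R / 3), h (P + w • e) = G w - G 0 := by
      intro w hw
      have hw0 : (P + w • e) i0 = w := by simp [hP, he]
      have hTs : ∀ s : ℝ, T s (P + w • e) = P + ((s : ℂ) * w) • e := by
        intro s
        simp only [hT, hw0]
        module
      have hmem : ∀ s ∈ uIcc (0 : ℝ) 1, (s : ℂ) * w ∈ ball (0 : ℂ) (R / 3) := by
        intro s hs
        rw [uIcc_of_le zero_le_one] at hs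
        rw [mem_ball_zero_iff] at hw ⊢
        rw [norm_mul, Complex.norm_real, Real.norm_of_nonneg hs.1]
        nlinarith [norm_nonneg w, hs.1, hs.2]
      simp only [hh, hI, hw0, hTs]
      rw [← intervalIntegral.integral_const_mul]
      have hder : ∀ s ∈ uIcc (0 : ℝ) 1, HasDerivAt (fun s : ℝ => G ((s : ℂ) * w))
          (w * μ (P + ((s : ℂ) * w) • e)) s := by
        intro s hs
        have h1 : HasDerivAt (fun y : ℂ => G (y * w)) (μ (P + ((s : ℂ) * w) • e) * (1 * w))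
            (s : ℂ) := (hG _ (hmem s hs)).comp (s : ℂ) ((hasDerivAt_id (s : ℂ)).mul_const w)
        have h2 := h1.comp_ofReal
        convert h2 using 1
        ring
      have hint : IntervalIntegrable (fun s : ℝ => w * μ (P + ((s : ℂ) * w) • e))
          MeasureTheory.volume 0 1 := by
        refine ContinuousOn.intervalIntegrable (continuousOn_const.mul ?_)
        exact hm.continuousOn.comp (f := fun s : ℝ => (s : ℂ) * w)
          (Continuous.continuousOn (by fun_prop)) hmem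
      rw [intervalIntegral.integral_eq_sub_of_hasDerivAt hder hint]
      simp
    have hzi : z i0 ∈ ball (0 : ℂ) (R / 3) := mem_ball_zero_iff.2 ((hz0 z).trans_lt hz')
    have hPz : P + z i0 • e = z := by simp [hP]
    have h1 : HasDerivAt (fun w : ℂ => h (P + w • e)) (μ z) (z i0) := by
      have h2 := (hG _ hzi).sub_const (G 0)
      simp only [hPz] at h2
      exact h2.congr_of_eventuallyEq (eventually_of_mem (isOpen_ball.mem_nhds hzi) hkey)
    have h3 : HasDerivAt (fun w : ℂ => h (P + w • e)) (fderiv ℂ h z e) (z i0) := by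
      have h4 : HasDerivAt (fun w : ℂ => P + w • e) e (z i0) := by
        simpa using ((hasDerivAt_id (z i0)).smul_const e).const_add P
      have h5 : HasFDerivAt h (fderiv ℂ h z) (P + z i0 • e) := by rw [hPz]; exact hd
      exact h5.comp_hasDerivAt (z i0) h4
    exact h3.unique h1

/-- uniform bound of the inverse determinant -/
theorem det_inv_bound (n : ℕ) (a b : ℝ) : ∃ D : ℝ, 0 ≤ D ∧ ∀ L : EE n →L[ℂ] EE n, ‖L‖ ≤ a →
    (∀ v, ‖v‖ ≤ b * ‖L v‖) → ‖(L.det)⁻¹‖ ≤ D := by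
  have : ProperSpace (EE n →L[ℂ] EE n) := FiniteDimensional.proper ℂ _
  have hcl : IsClosed {L : EE n →L[ℂ] EE n | ∀ v, ‖v‖ ≤ b * ‖L v‖} := by
    simp only [ofPred_forall]
    exact isClosed_iInter fun v => isClosed_le continuous_const (by fun_prop)
  have hK := (isCompact_closedBall (0 : EE n →L[ℂ] EE n) a).inter_right hcl
  obtain ⟨D, hD⟩ := hK.exists_bound_of_continuousOn (f := fun L => (L.det)⁻¹)
    ((ContinuousLinearMap.continuous_det (𝕜 := ℂ) (E := EE n)).continuousOn.inv₀ fun L hL => by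
      have hinj : Function.Injective (L : EE n →ₗ[ℂ] EE n) := by
        rw [injective_iff_map_eq_zero]
        intro v hv
        have := hL.2 v
        have hv' : L v = 0 := hv
        rw [hv', norm_zero, mul_zero] at this
        exact norm_le_zero_iff.1 this
      rw [ContinuousLinearMap.det]
      intro h0
      exact (LinearMap.det_eq_zero_iff_ker_ne_bot.1 h0) (LinearMap.ker_eq_bot.2 hinj))
  exact ⟨max D 0, le_max_right _ _, fun L h1 h2 =>
    (hD L ⟨mem_closedBall_zero_iff.2 h1, h2⟩).trans (le_max_left _ _)⟩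

theorem det_ne {L : EE n →L[ℂ] EE n} (h : Function.Injective L) : L.det ≠ 0 := by
  rw [ContinuousLinearMap.det]
  intro h0
  exact (LinearMap.det_eq_zero_iff_ker_ne_bot.1 h0) (LinearMap.ker_eq_bot.2 h)

theorem geom_le {c y : ℝ} (hc : 0 < c) (hy : 1 ≤ y) (k : ℕ) :
    ∑ i ∈ Finset.range k, Real.exp (-(c / y)) ^ i ≤ (1 + 1 / c) * y := by
  have hy0 : 0 < y := by linarith
  have hq0 : 0 < Real.exp (-(c / y)) := Real.exp_pos _
  have hcy : 0 < c / y := by positivity
  have hq : Real.exp (-(c / y)) * (c / y + 1) ≤ 1 := by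
    have := Real.add_one_le_exp (c / y)
    calc Real.exp (-(c / y)) * (c / y + 1) ≤ Real.exp (-(c / y)) * Real.exp (c / y) := by gcongr
      _ = 1 := by rw [← Real.exp_add]; simp
  have hq1 : Real.exp (-(c / y)) < 1 := by nlinarith
  set q := Real.exp (-(c / y))
  have h1 : (∑ i ∈ Finset.range k, q ^ i) * (1 - q) ≤ 1 := by
    have := geom_sum_mul_neg q k
    rw [this]
    have := pow_pos hq0 k
    linarith
  have hS : 0 ≤ ∑ i ∈ Finset.range k, q ^ i := Finset.sum_nonneg fun i _ => by positivity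
  set S := ∑ i ∈ Finset.range k, q ^ i
  -- `1 - q ≥ (c/y) / (c/y + 1)`
  have h2 : S * (c / y) ≤ c / y + 1 := by nlinarith
  have h3 : S * c ≤ c + y := by
    have := mul_le_mul_of_nonneg_right h2 hy0.le
    field_simp at this
    linarith
  have h4 : S ≤ (c + y) / c := by rw [le_div_iff₀ hc]; exact h3
  refine h4.trans ?_
  rw [div_le_iff₀ hc]
  field_simp
  nlinarith

/-- the normalised Jacobian -/
noncomputable def J (Φ : ℕ → ℕ → EE n → EE n) (j k : ℕ) (z : EE n) : ℂ :=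
  (fderiv ℂ (Φ j k) z).det * ((Lm Φ j k).det)⁻¹

variable {Φ : ℕ → ℕ → EE n → EE n} {r κ : ℝ}

theorem mem_r (hc : Coc Φ r κ) {z : EE n} (hz : z ∈ ball (0 : EE n) (r / κ)) :
    z ∈ ball (0 : EE n) r :=
  ball_subset_ball (div_le_self hc.r_pos.le hc.one_le) hz

theorem map_r (hc : Coc Φ r κ) {j k : ℕ} (hjk : j ≤ k) {z : EE n}
    (hz : z ∈ ball (0 : EE n) (r / κ)) : Φ j k z ∈ ball (0 : EE n) r := by
  have hκ : 0 < κ := by linarith [hc.one_le]
  have h1 := hc.bd j k hjk z (mem_r hc hz)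
  rw [mem_ball_zero_iff] at hz ⊢
  rw [lt_div_iff₀ hκ] at hz
  linarith

theorem det_coc (hc : Coc Φ r κ) {j k l : ℕ} (hjk : j ≤ k) (hkl : k ≤ l) {z : EE n}
    (hz : z ∈ ball (0 : EE n) (r / κ)) :
    (fderiv ℂ (Φ j l) z).det = (fderiv ℂ (Φ k l) (Φ j k z)).det * (fderiv ℂ (Φ j k) z).det := by
  have h1 : Φ j l =ᶠ[𝓝 z] Φ k l ∘ Φ j k :=
    eventually_of_mem (isOpen_ball.mem_nhds hz) fun w hw => (hc.coc j k l hjk hkl w hw).symm
  have h2 := (hc.hol j k hjk z (mem_r hc hz)).differentiableAt (isOpen_ball.mem_nhds (mem_r hc hz))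
  have h3 := (hc.hol k l hkl _ (map_r hc hjk hz)).differentiableAt
    (isOpen_ball.mem_nhds (map_r hc hjk hz))
  rw [h1.fderiv_eq, fderiv_comp z h3 h2, Aut.det_comp']

theorem det_Lm_ne (hc : Coc Φ r κ) {j k : ℕ} (hjk : j ≤ k) : (Lm Φ j k).det ≠ 0 :=
  det_ne (hc.imm j k hjk 0 (mem_ball_self hc.r_pos))

theorem J_coc (hc : Coc Φ r κ) {j k l : ℕ} (hjk : j ≤ k) (hkl : k ≤ l) {z : EE n}
    (hz : z ∈ ball (0 : EE n) (r / κ)) : J Φ j l z = J Φ k l (Φ j k z) * J Φ j k z := by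
  have hκ : 0 < κ := by linarith [hc.one_le]
  have h0 := det_coc hc hjk hkl (mem_ball_self (div_pos hc.r_pos hκ))
  rw [hc.zero j k hjk] at h0
  simp only [J, Lm]
  rw [det_coc hc hjk hkl hz, h0, mul_inv]
  ring

theorem J_zero (hc : Coc Φ r κ) {j k : ℕ} (hjk : j ≤ k) : J Φ j k 0 = 1 :=
  mul_inv_cancel₀ (det_Lm_ne hc hjk)

theorem J_self (hc : Coc Φ r κ) (j : ℕ) {z : EE n} (hz : z ∈ ball (0 : EE n) r) :
    J Φ j j z = 1 := by
  have h : ∀ w ∈ ball (0 : EE n) r, fderiv ℂ (Φ j j) w = ContinuousLinearMap.id ℂ (EE n) := by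
    intro w hw
    have h1 : Φ j j =ᶠ[𝓝 w] id :=
      eventually_of_mem (isOpen_ball.mem_nhds hw) fun y hy => hc.self j y hy
    rw [h1.fderiv_eq, fderiv_id]
  have h2 := J_zero hc (le_refl j)
  simp only [J, Lm] at h2 ⊢
  rw [h z hz]
  rwa [h 0 (mem_ball_self hc.r_pos)] at h2 ⊢

theorem J_diff (hc : Coc Φ r κ) {j k : ℕ} (hjk : j ≤ k) :
    DifferentiableOn ℂ (J Φ j k) (ball 0 r) :=
  (Cov.diff_det isOpen_ball (hc.hol j k hjk)).mul_const _

/-- a Schwarz lemma for maps with prescribed value at the centre -/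
theorem schwarz1 {F : Type*} [NormedAddCommGroup F] [NormedSpace ℂ F] {g : EE n → F} {R β : ℝ}
    (hg : DifferentiableOn ℂ g (ball 0 R)) (h0 : g 0 = 0)
    (hb : ∀ x ∈ ball (0 : EE n) R, ‖g x‖ ≤ β) {x : EE n} (hx : x ∈ ball (0 : EE n) R) :
    ‖g x‖ ≤ β / R * ‖x‖ := by
  have hR : 0 < R := (norm_nonneg x).trans_lt (mem_ball_zero_iff.1 hx)
  have hd := (hg 0 (mem_ball_self hR)).differentiableAt (isOpen_ball.mem_nhds (mem_ball_self hR))
  have ho : g =O[𝓝 0] fun x : EE n => ‖x‖ ^ 1 := by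
    have := hd.isBigO_sub
    simpa [h0] using this.norm_right
  have := schwarz_ord hg hb ho x hx
  rw [pow_one] at this
  exact this.trans_eq (by ring)

theorem J_step {σ : ℕ → ℝ} (hc : Coc Φ r κ) (hh : NAHyp Φ r σ) :
    ∃ A : ℝ, 0 ≤ A ∧ ∀ k, ∀ w ∈ ball (0 : EE n) r, ‖J Φ k (k + 1) w - 1‖ ≤ A * ‖w‖ := by
  obtain ⟨D, hD1, hD⟩ := Cov.det_bound n κ
  obtain ⟨D', hD'0, hD'⟩ := det_inv_bound n κ (Real.exp 1)
  refine ⟨(D * D' + 1) / r, by have := hc.r_pos; positivity, fun k w hw => ?_⟩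
  refine schwarz1 ((J_diff hc (Nat.le_succ k)).sub_const 1)
    (by rw [J_zero hc (Nat.le_succ k), sub_self]) (fun x hx => ?_) hw
  refine (norm_sub_le _ _).trans ?_
  rw [norm_one, J, norm_mul]
  have h1 := hD _ (hc.lip k (k + 1) (Nat.le_succ k) x hx)
  have h2 := hD' (Lm Φ k (k + 1)) (hc.lip k (k + 1) (Nat.le_succ k) 0 (mem_ball_self hc.r_pos))
    (fun v => by simpa using hh.inv k (k + 1) (Nat.le_succ k) v)
  gcongr

theorem phi_dec (hc : Coc Φ r κ) (hd : Dec Φ r) : ∃ c B : ℝ, 0 < c ∧ 0 ≤ B ∧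
    ∀ j i : ℕ, ∀ z ∈ ball (0 : EE n) (r * Real.exp (-1)),
      ‖Φ j (j + i) z‖ ≤ B * Real.exp (-(c / (j + 1))) ^ i * ‖z‖ := by
  obtain ⟨c, C, hc0, hC, h⟩ := hd
  have hρ : 0 < r * Real.exp (-1) := mul_pos hc.r_pos (Real.exp_pos _)
  have hρr : r * Real.exp (-1) ≤ r :=
    mul_le_of_le_one_right hc.r_pos.le (Real.exp_le_one_iff.2 (by norm_num))
  refine ⟨c, C / (r * Real.exp (-1)), hc0, by positivity, fun j i z hz => ?_⟩
  have hj : (1 : ℝ) ≤ j + 1 := by have := Nat.cast_nonneg (α := ℝ) j; linarith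
  have := schwarz1 (β := C * Real.exp (-(c / (j + 1))) ^ i)
    ((hc.hol j (j + i) (Nat.le_add_right j i)).mono (ball_subset_ball hρr))
    (hc.zero j (j + i) (Nat.le_add_right j i)) (fun x hx => by
      refine (h j (j + i) 1 x (Nat.le_add_right j i) one_pos (mem_ball_zero_iff.1 hx).le).trans ?_
      rw [min_eq_right (by rw [div_le_one (by linarith)]; exact hj), ← Real.exp_nat_mul]
      gcongr
      push_cast
      have h1 : 0 ≤ c * j * (1 / (j + 1)) := by positivity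
      have h2 : c * (j + i) * (1 / ((j : ℝ) + 1)) =
          c * j * (1 / (j + 1)) + i * (c / (j + 1)) := by ring
      linarith) hz
  exact this.trans_eq (by ring)

end Vol85

open Vol85 in
theorem volStmt (n : ℕ) : VolStmt n := by
  intro Φ r κ σ hn hc hh hd
  have hκ : 0 < κ := by linarith [hc.one_le]
  have hr := hc.r_pos
  obtain ⟨A, hA, hJ⟩ := J_step hc hh
  obtain ⟨c, B, hc0, hB, hΦ⟩ := phi_dec hc hd
  obtain ⟨X, hX1, hX2, hX3, hX4⟩ : ∃ X : ℝ, 1 ≤ X ∧ A * B * (1 + 1 / c) ≤ X ∧ (r / κ)⁻¹ ≤ X ∧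
      (r * Real.exp (-1))⁻¹ ≤ X :=
    ⟨max (max 1 (A * B * (1 + 1 / c))) (max (r / κ)⁻¹ (r * Real.exp (-1))⁻¹),
      (le_max_left _ _).trans (le_max_left _ _), (le_max_right _ _).trans (le_max_left _ _),
      (le_max_left _ _).trans (le_max_right _ _), (le_max_right _ _).trans (le_max_right _ _)⟩
  have hj : ∀ j : ℕ, (1 : ℝ) ≤ j + 1 := fun j => by
    have := Nat.cast_nonneg (α := ℝ) j; linarith
  have hXj : ∀ j : ℕ, X ≤ X * (j + 1) := fun j => le_mul_of_one_le_right (by linarith) (hj j)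
  have hXp : ∀ j : ℕ, 0 < X * (j + 1) := fun j => by linarith [hXj j]
  have hs1 : ∀ j : ℕ, ball (0 : EE n) (X * (j + 1))⁻¹ ⊆ ball 0 (r / κ) := fun j =>
    ball_subset_ball (inv_le_of_inv_le₀ (by positivity) (hX3.trans (hXj j)))
  have hs2 : ∀ j : ℕ, ball (0 : EE n) (X * (j + 1))⁻¹ ⊆ ball 0 (r * Real.exp (-1)) := fun j =>
    ball_subset_ball (inv_le_of_inv_le₀ (by positivity) (hX4.trans (hXj j)))
  have hν : ∀ j : ℕ, ∃ ν : EE n → ℂ, DifferentiableOn ℂ ν (ball 0 (X * (j + 1))⁻¹) ∧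
      (∀ z ∈ ball (0 : EE n) (X * (j + 1))⁻¹,
        Tendsto (fun i => J Φ j (j + i) z) atTop (𝓝 (ν z))) ∧
      ∀ z ∈ ball (0 : EE n) (X * (j + 1))⁻¹, ‖ν z - 1‖ ≤ 3 * (X * (j + 1)) * ‖z‖ := by
    intro j
    refine prodlim (f := fun i => J Φ j (j + i))
      (a := fun i => A * B * Real.exp (-(c / (j + 1))) ^ i)
      (fun i => (J_diff hc (Nat.le_add_right j i)).mono fun z hz => mem_r hc (hs1 j hz))
      (fun z hz => J_self hc j (mem_r hc (hs1 j hz))) (fun i => by positivity) (fun k => ?_)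
      (mul_inv_cancel₀ (hXp j).ne').le (fun i z hz => ?_)
    · rw [← Finset.mul_sum]
      calc A * B * ∑ i ∈ Finset.range k, Real.exp (-(c / (j + 1))) ^ i
          ≤ A * B * ((1 + 1 / c) * (j + 1)) := by
            have := geom_le hc0 (hj j) k
            gcongr
        _ = A * B * (1 + 1 / c) * (j + 1) := by ring
        _ ≤ X * (j + 1) := by gcongr
    · have h1 := J_coc hc (Nat.le_add_right j i) (Nat.le_succ (j + i)) (hs1 j hz)
      have h2 := hJ (j + i) _ (map_r hc (Nat.le_add_right j i) (hs1 j hz))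
      have h3 := hΦ j i z (hs2 j hz)
      show ‖J Φ j (j + i + 1) z - J Φ j (j + i) z‖ ≤ _
      rw [h1, ← sub_one_mul, norm_mul, mul_comm]
      gcongr
      calc _ ≤ A * ‖Φ j (j + i) z‖ := h2
        _ ≤ A * (B * Real.exp (-(c / (j + 1))) ^ i * ‖z‖) := by gcongr
        _ = _ := by ring
  choose ν hν1 hν2 hν3 using hν
  have hV : ∀ j : ℕ, ∃ V : EE n → EE n, DifferentiableOn ℂ V (ball 0 ((X * (j + 1))⁻¹ / 3)) ∧
      (∀ z ∈ ball (0 : EE n) ((X * (j + 1))⁻¹ / 3),
        ‖V z - z‖ ≤ 2 * (3 * (X * (j + 1))) * ‖z‖ ^ 2) ∧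
      ∀ z ∈ ball (0 : EE n) ((X * (j + 1))⁻¹ / 3), (fderiv ℂ V z).det = 1 + (ν j z - 1) :=
    fun j => prim hn (inv_pos.2 (hXp j)) (by have := hXp j; positivity)
      ((hν1 j).sub_const 1) (hν3 j)
  choose V hV1 hV2 hV3 using hV
  have hlim : ∀ j : ℕ, ∀ z ∈ ball (0 : EE n) (X * (j + 1))⁻¹,
      Tendsto (fun l => J Φ j l z) atTop (𝓝 (ν j z)) := by
    intro j z hz
    rw [← tendsto_add_atTop_iff_nat j]
    simpa only [add_comm j] using hν2 j z hz
  have hthird : ∀ j : ℕ, ball (0 : EE n) ((X * (j + 1))⁻¹ / 3) ⊆ ball 0 (X * (j + 1))⁻¹ :=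
    fun j => ball_subset_ball (by have := inv_pos.2 (hXp j); linarith)
  refine ⟨6 * X, 1, V, by linarith, fun j => ?_, fun j k hjk => ?_⟩
  · have hsub : ball (0 : EE n) (6 * X * ((j : ℝ) + 1) ^ 1)⁻¹ ⊆
        ball 0 ((X * (j + 1))⁻¹ / 3) := by
      refine ball_subset_ball ?_
      have := hXp j
      rw [pow_one, mul_assoc, mul_inv]
      have := inv_pos.2 (hXp j)
      linarith
    exact ⟨(hV1 j).mono hsub, fun z hz => (hV2 j z (hsub hz)).trans_eq (by ring)⟩
  · have hcont : Tendsto (Φ j k) (𝓝 0) (𝓝 0) := by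
      have := ((hc.hol j k hjk 0 (mem_ball_self hr)).differentiableAt
        (isOpen_ball.mem_nhds (mem_ball_self hr))).continuousAt.tendsto
      rwa [hc.zero j k hjk] at this
    have hp : ∀ j : ℕ, 0 < (X * ((j : ℝ) + 1))⁻¹ / 3 := fun j => by
      have := hXp j; positivity
    filter_upwards [ball_mem_nhds (0 : EE n) (hp j), hcont (ball_mem_nhds (0 : EE n) (hp k))]
      with x hx hx'
    rw [hV3 j x hx, hV3 k _ hx', add_sub_cancel, add_sub_cancel]
    have h1 : ν j x = ν k (Φ j k x) * J Φ j k x := by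
      refine tendsto_nhds_unique (hlim j x (hthird j hx))
        (((hlim k _ (hthird k hx')).mul_const (J Φ j k x)).congr' ?_)
      filter_upwards [eventually_ge_atTop k] with l hl
      exact (J_coc hc hjk hl (hs1 j (hthird j hx))).symm
    rw [h1, J]
    have := det_Lm_ne hc hjk
    field_simp

end Crest.Agent.T223.Na
end

-- ▼ part T223/NaFlA_23
section

/-!
# Row 223, module NA (helper23): linear algebra for the flag lemma

`dgL` (the diagonal map as a continuous linear map), `pr` (coordinate truncation), `riesz`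
(bounded extension of a functional), `unip` (unipotent maps), `svd`.
-/

set_option autoImplicit false

open Set Filter Topology Metric
open scoped InnerProductSpace

namespace Crest.Agent.T223.Na.Fl23

open Crest.Agent.T223.Dyn

noncomputable section

variable {n : ℕ}

/-- the standard basis vectors -/
abbrev ee (l : Fin n) : EE n := EuclideanSpace.single l (1 : ℂ)

theorem eq_sum (x : EE n) : x = ∑ l, x l • ee l := by
  ext j
  simp [Finset.sum_apply, Pi.single_apply]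

theorem map_eq_sum {F : Type*} [NormedAddCommGroup F] [NormedSpace ℂ F] (N : EE n →L[ℂ] F)
    (x : EE n) : N x = ∑ l, x l • N (ee l) := by
  conv_lhs => rw [eq_sum x]
  simp

theorem norm_map_le {F : Type*} [NormedAddCommGroup F] [NormedSpace ℂ F] (N : EE n →L[ℂ] F)
    (x : EE n) : ‖N x‖ ≤ ∑ l, ‖x l‖ * ‖N (ee l)‖ := by
  rw [map_eq_sum]
  refine (norm_sum_le _ _).trans (Finset.sum_le_sum fun l _ => ?_)
  rw [norm_smul]


theorem inner_ee (l : Fin n) (x : EE n) : ⟪ee l, x⟫_ℂ = x l := by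
  simp [EuclideanSpace.inner_single_left]

/-- a diagonal map -/
def dia (d : Fin n → ℂ) : EE n →L[ℂ] EE n :=
  LinearMap.toContinuousLinearMap
    { toFun := fun x => WithLp.toLp 2 fun l => d l * x l
      map_add' := fun x y => by ext l; simp [mul_add]
      map_smul' := fun a x => by ext l; simp [mul_left_comm] }

theorem dia_coord (d : Fin n → ℂ) (x : EE n) (l : Fin n) : dia d x l = d l * x l := rfl

theorem dia_ee (d : Fin n → ℂ) (l : Fin n) : dia d (ee l) = d l • ee l := by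
  ext j
  rw [dia_coord]
  by_cases h : j = l
  · subst h; simp
  · simp [h]

theorem norm_dia_le (d : Fin n → ℂ) {B : ℝ} (hB : 0 ≤ B) (x : EE n)
    (h : ∀ l, x l ≠ 0 → ‖d l‖ ≤ B) : ‖dia d x‖ ≤ B * ‖x‖ := by
  have h1 : B * ‖x‖ = ‖(B : ℂ) • x‖ := by rw [norm_smul, Complex.norm_real, Real.norm_of_nonneg hB]
  rw [h1, EuclideanSpace.norm_eq, EuclideanSpace.norm_eq]
  refine Real.sqrt_le_sqrt (Finset.sum_le_sum fun l _ => ?_)
  refine pow_le_pow_left₀ (norm_nonneg _) ?_ 2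
  rw [dia_coord, PiLp.smul_apply, norm_mul, norm_smul, Complex.norm_real, Real.norm_of_nonneg hB]
  by_cases hx : x l = 0
  · simp [hx]
  · exact mul_le_mul_of_nonneg_right (h l hx) (norm_nonneg _)

theorem inner_dia (d : Fin n → ℝ) (x y : EE n) :
    ⟪dia (fun l => (d l : ℂ)) x, y⟫_ℂ = ⟪x, dia (fun l => (d l : ℂ)) y⟫_ℂ := by
  simp only [PiLp.inner_apply, dia_coord, RCLike.inner_apply, map_mul, Complex.conj_ofReal]
  exact Finset.sum_congr rfl fun l _ => by ring

/-- `dg` as a continuous linear map -/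
def dgL (ρ : Fin n → ℝ) : EE n →L[ℂ] EE n := dia fun l => ((Real.exp (-ρ l) : ℝ) : ℂ)


theorem dgL_coord (ρ : Fin n → ℝ) (x : EE n) (l : Fin n) :
    dgL ρ x l = ((Real.exp (-ρ l) : ℝ) : ℂ) * x l := rfl

theorem dgL_cancel (ρ : Fin n → ℝ) (x : EE n) : dgL ρ (dgL (-ρ) x) = x := by
  ext l
  rw [dgL_coord, dgL_coord, ← mul_assoc, ← Complex.ofReal_mul, ← Real.exp_add]
  simp

theorem dgL_mul_neg (ρ : Fin n → ℝ) : dgL ρ * dgL (-ρ) = 1 := by
  ext1 x
  exact dgL_cancel ρ x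

theorem norm_dgL_ee (ρ : Fin n → ℝ) (l : Fin n) : ‖dgL ρ (ee l)‖ = Real.exp (-ρ l) := by
  rw [dgL, dia_ee, norm_smul, Complex.norm_real, Real.norm_of_nonneg (Real.exp_pos _).le]
  simp

theorem adjoint_dgL (ρ : Fin n → ℝ) : ContinuousLinearMap.adjoint (dgL ρ) = dgL ρ := by
  symm
  rw [ContinuousLinearMap.eq_adjoint_iff]
  exact inner_dia _

/-- truncation to the coordinates in `S` -/
def pr (S : Fin n → Prop) [DecidablePred S] : EE n →L[ℂ] EE n :=
  dia fun l => if S l then 1 else 0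

theorem pr_coord (S : Fin n → Prop) [DecidablePred S] (x : EE n) (l : Fin n) :
    pr S x l = if S l then x l else 0 := by
  rw [pr, dia_coord]; split_ifs <;> simp

theorem pr_ee {S : Fin n → Prop} [DecidablePred S] {l : Fin n} (h : S l) : pr S (ee l) = ee l := by
  rw [pr, dia_ee, if_pos h, one_smul]

theorem inner_pr (S : Fin n → Prop) [DecidablePred S] (x : EE n) :
    ⟪x, pr S x⟫_ℂ = ⟪pr S x, pr S x⟫_ℂ := by
  simp only [PiLp.inner_apply, pr_coord]
  refine Finset.sum_congr rfl fun l _ => ?_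
  split_ifs <;> simp

/-- bounded extension of the functional `P w ↦ ⟪w, u⟫` -/
theorem riesz (W : Submodule ℂ (EE n)) (P : EE n →L[ℂ] EE n)
    (hP : ∀ x, ⟪x, P x⟫_ℂ = ⟪P x, P x⟫_ℂ) {c : ℝ} (hc : 0 < c)
    (hW : ∀ w ∈ W, c * ‖w‖ ≤ ‖P w‖) (u : EE n) :
    ∃ z, c * ‖P z‖ ≤ ‖u‖ ∧ ∀ w ∈ W, ⟪w, P z⟫_ℂ = ⟪w, u⟫_ℂ := by
  let Ψ : W →ₗ[ℂ] W :=
    (W.orthogonalProjectionOnto : EE n →ₗ[ℂ] W) ∘ₗ (P : EE n →ₗ[ℂ] EE n) ∘ₗ W.subtype
  have hΨ : ∀ w z : W, ⟪w, Ψ z⟫_ℂ = ⟪(w : EE n), P z⟫_ℂ := fun w z =>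
    W.inner_orthogonalProjectionOnto_eq_of_mem_left w (P z)
  have hinj : Function.Injective Ψ := by
    rw [injective_iff_map_eq_zero]
    intro z hz
    have h0 : ⟪P z, P z⟫_ℂ = 0 := by
      rw [← hP, ← hΨ z z, hz]
      exact inner_zero_right (𝕜 := ℂ) z
    have h1 : P z = 0 := inner_self_eq_zero.1 h0
    have h2 := hW z z.2
    rw [h1, norm_zero] at h2
    have h3 : ‖(z : EE n)‖ ≤ 0 := by
      by_contra h
      linarith [mul_pos hc (not_le.1 h)]
    exact Subtype.ext (norm_le_zero_iff.1 h3)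
  obtain ⟨z, hz⟩ := LinearMap.injective_iff_surjective.1 hinj (W.orthogonalProjectionOnto u)
  have h4 : ∀ w ∈ W, ⟪w, P z⟫_ℂ = ⟪w, u⟫_ℂ := fun w hw => by
    rw [← hΨ ⟨w, hw⟩ z, hz]
    exact W.inner_orthogonalProjectionOnto_eq_of_mem_left ⟨w, hw⟩ u
  refine ⟨z, ?_, h4⟩
  have h5 : ‖P z‖ ^ 2 ≤ ‖(z : EE n)‖ * ‖u‖ := by
    have h6 := norm_inner_le_norm (𝕜 := ℂ) (z : EE n) u
    rw [← h4 z z.2, hP, inner_self_eq_norm_sq_to_K] at h6
    simpa using h6
  have h7 := hW z z.2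
  rcases (norm_nonneg (P z)).eq_or_lt with h | h
  · rw [← h, mul_zero]; exact norm_nonneg _
  · refine le_of_mul_le_mul_right ?_ h
    calc c * ‖P z‖ * ‖P z‖ = c * ‖P z‖ ^ 2 := by ring
      _ ≤ c * (‖(z : EE n)‖ * ‖u‖) := by gcongr
      _ = ‖u‖ * (c * ‖(z : EE n)‖) := by ring
      _ ≤ ‖u‖ * ‖P z‖ := by gcongr

/-- unipotent maps: inverse and bounds -/
theorem unip (lam : Fin n → ℝ) (N : EE n →L[ℂ] EE n) {B : ℝ} (hB : 0 ≤ B)
    (hN : ∀ l j, N (ee l) j ≠ 0 → lam j < lam l) (hb : ∀ l, ‖N (ee l)‖ ≤ B) :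
    ∃ G : EE n →L[ℂ] EE n, G * (1 - N) = 1 ∧ (1 - N) * G = 1 ∧
      ‖G‖ ≤ (1 + n * B) ^ (n + 1) ∧ ‖1 - N‖ ≤ (1 + n * B) ^ (n + 1) := by
  classical
  have hβ : 0 ≤ (n : ℝ) * B := by positivity
  have hNx : ∀ x, ‖N x‖ ≤ n * B * ‖x‖ := fun x => by
    refine (norm_map_le N x).trans ?_
    calc ∑ l, ‖x l‖ * ‖N (ee l)‖ ≤ ∑ _l : Fin n, ‖x‖ * B :=
          Finset.sum_le_sum fun l _ =>
            mul_le_mul (PiLp.norm_apply_le x l) (hb l) (norm_nonneg _) (norm_nonneg _)
      _ = _ := by simp; ring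
  let r : Fin n → ℕ := fun l => (Finset.univ.filter fun j => lam j < lam l).card
  have hr : ∀ j l, lam j < lam l → r j < r l := fun j l h => by
    refine Finset.card_lt_card ⟨fun i hi => ?_, fun hs => ?_⟩
    · simp only [Finset.mem_filter, Finset.mem_univ, true_and] at hi ⊢
      exact hi.trans h
    · have := hs (show j ∈ Finset.univ.filter fun i => lam i < lam l by simpa using h)
      simp at this
  have hrn : ∀ l, r l < n := fun l => by
    have : r l < (Finset.univ : Finset (Fin n)).card :=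
      Finset.card_lt_card ⟨Finset.subset_univ _, fun hs => by simpa using hs (Finset.mem_univ l)⟩
    simpa using this
  have hpow : ∀ m x j, (N ^ m) x j ≠ 0 → r j + m < n := by
    intro m
    induction m with
    | zero => intro x j _; exact hrn j
    | succ m ih =>
      intro x j h
      rw [pow_succ', mul_apply_eq_comp, map_eq_sum N] at h
      have h' : ∑ l, (N ^ m) x l * N (ee l) j ≠ 0 := by
        simpa [Finset.sum_apply] using h
      obtain ⟨l, -, hl⟩ := Finset.exists_ne_zero_of_sum_ne_zero h'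
      have h1 := ih x l (left_ne_zero_of_mul hl)
      have h2 := hr j l (hN l j (right_ne_zero_of_mul hl))
      omega
  have hnil : N ^ n = 0 := by
    ext x j
    by_contra h
    have := hpow n x j h
    omega
  have hG : ∀ m x, ‖(∑ i ∈ Finset.range m, N ^ i) x‖ ≤ (1 + n * B) ^ m * ‖x‖ := by
    intro m
    induction m with
    | zero => intro x; simp
    | succ m ih =>
      intro x
      rw [geom_sum_succ, add_apply, mul_apply_eq_comp,
        one_apply_eq_self]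
      have h1 : 1 ≤ (1 + n * B) ^ m := one_le_pow₀ (by linarith)
      calc _ ≤ n * B * ((1 + n * B) ^ m * ‖x‖) + ‖x‖ :=
            (norm_add_le _ _).trans (add_le_add ((hNx _).trans (by gcongr; exact ih x)) le_rfl)
        _ ≤ n * B * ((1 + n * B) ^ m * ‖x‖) + (1 + n * B) ^ m * ‖x‖ := by
            gcongr; exact le_mul_of_one_le_left (norm_nonneg _) h1
        _ = _ := by ring
  have h1 : 1 ≤ 1 + n * B := by linarith
  refine ⟨∑ i ∈ Finset.range n, N ^ i, ?_, ?_, ?_, ?_⟩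
  · rw [geom_sum_mul_neg, hnil, sub_zero]
  · rw [mul_neg_geom_sum, hnil, sub_zero]
  · refine ContinuousLinearMap.opNorm_le_bound _ (by positivity) fun x => (hG n x).trans ?_
    gcongr
    exact Nat.le_succ n
  · refine ContinuousLinearMap.opNorm_le_bound _ (by positivity) fun x => ?_
    rw [sub_apply, one_apply_eq_self]
    calc _ ≤ ‖x‖ + n * B * ‖x‖ := (norm_sub_le _ _).trans (add_le_add le_rfl (hNx x))
      _ = (1 + n * B) * ‖x‖ := by ring
      _ ≤ _ := by gcongr; exact le_self_pow₀ h1 (Nat.succ_ne_zero n)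

/-- singular value decomposition of an injective map -/
theorem svd (M : EE n →L[ℂ] EE n) (hM : Function.Injective M) :
    ∃ (U V : EE n ≃ₗᵢ[ℂ] EE n) (ρ : Fin n → ℝ), ∀ x, U (M x) = dgL ρ (V x) := by
  let T : EE n →ₗ[ℂ] EE n := (ContinuousLinearMap.adjoint M ∘L M : EE n →L[ℂ] EE n)
  have hT : T.IsSymmetric := fun x y => by
    change ⟪ContinuousLinearMap.adjoint M (M x), y⟫_ℂ = ⟪x, ContinuousLinearMap.adjoint M (M y)⟫_ℂ
    rw [ContinuousLinearMap.adjoint_inner_left, ContinuousLinearMap.adjoint_inner_right]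
  have hn : Module.finrank ℂ (EE n) = n := by simp
  let b := hT.eigenvectorBasis hn
  have hs : ∀ l, 0 < ‖M (b l)‖ := fun l => by
    rw [norm_pos_iff]
    intro h
    exact b.orthonormal.ne_zero l (hM (by rw [h, map_zero]))
  have hs' : ∀ l, ((‖M (b l)‖ : ℝ) : ℂ) ≠ 0 := fun l => Complex.ofReal_ne_zero.2 (hs l).ne'
  let u : Fin n → EE n := fun l => ((‖M (b l)‖ : ℝ) : ℂ)⁻¹ • M (b l)
  have hu : Orthonormal ℂ u := by
    refine ⟨fun l => ?_, fun i j hij => ?_⟩
    · simp only [u, norm_smul, norm_inv, Complex.norm_real, norm_norm]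
      exact inv_mul_cancel₀ (hs l).ne'
    · have h1 : ⟪M (b i), M (b j)⟫_ℂ = 0 := by
        rw [← ContinuousLinearMap.adjoint_inner_right]
        change ⟪b i, T (b j)⟫_ℂ = 0
        rw [hT.apply_eigenvectorBasis hn j, inner_smul_right, b.orthonormal.inner_eq_zero hij,
          mul_zero]
      simp only [u, inner_smul_left, inner_smul_right, h1, mul_zero]
  obtain ⟨ub, hub⟩ := Orthonormal.exists_orthonormalBasis_extension_of_card_eq (𝕜 := ℂ)
    (E := EE n) (ι := Fin n) (by simp) (v := u) (s := univ)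
    (hu.comp Subtype.val Subtype.val_injective)
  refine ⟨ub.repr, b.repr, fun l => -Real.log ‖M (b l)‖, fun x => ?_⟩
  have h2 : ∀ l, ub.repr (M (b l)) = dgL (fun l => -Real.log ‖M (b l)‖) (b.repr (b l)) := fun l => by
    have h3 : M (b l) = ((‖M (b l)‖ : ℝ) : ℂ) • ub l := by
      rw [hub l (mem_univ l)]
      simp only [u]
      rw [smul_inv_smul₀ (hs' l)]
    rw [b.repr_self, dgL, dia_ee, neg_neg, Real.exp_log (hs l)]
    conv_lhs => rw [h3, map_smul, ub.repr_self]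
  rw [← b.sum_repr x]
  simp only [map_sum, map_smul, h2]

theorem adjoint_injective (H : EE n →L[ℂ] EE n) (hH : Function.Injective H) {η : EE n}
    (h : ContinuousLinearMap.adjoint H η = 0) : η = 0 := by
  obtain ⟨x, hx⟩ := (LinearMap.injective_iff_surjective (f := (H : EE n →ₗ[ℂ] EE n))).1 hH η
  have h1 : ⟪η, H x⟫_ℂ = 0 := by
    rw [← ContinuousLinearMap.adjoint_inner_left, h, inner_zero_left]
  change H x = η at hx
  rwa [hx, inner_self_eq_zero] at h1

end

end Crest.Agent.T223.Na.Fl23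
end

-- ▼ part T223/NaFl_23
section

/-!
# Row 223, module NA (helper23): the flag lemma `flagStmt n : FlagStmt n`
-/

set_option autoImplicit false

open Set Filter Topology Metric
open scoped InnerProductSpace

namespace Crest.Agent.T223.Na.Fl23

open Crest.Agent.T223.Dyn ContinuousLinearMap

noncomputable section

variable {n : ℕ}

/-- quadruples `(As, As⁻¹, Ae, Ae⁻¹)` -/
abbrev XX (n : ℕ) : Type :=
  (EE n →L[ℂ] EE n) × (EE n →L[ℂ] EE n) × (EE n →L[ℂ] EE n) × (EE n →L[ℂ] EE n)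

/-- adapted coordinates for `M` with bound `R` -/
def KK (M D : EE n →L[ℂ] EE n) (R : ℝ) : Set (XX n) :=
  closedBall 0 R ∩ {q | q.1 * q.2.1 = 1 ∧ q.2.1 * q.1 = 1 ∧ q.2.2.1 * q.2.2.2 = 1 ∧
    q.2.2.2 * q.2.2.1 = 1 ∧ q.2.2.1 * M = D * q.1}

theorem isCompact_KK (M D : EE n →L[ℂ] EE n) (R : ℝ) : IsCompact (KK M D R) := by
  have : ProperSpace (EE n →L[ℂ] EE n) := FiniteDimensional.proper ℂ _
  refine (isCompact_closedBall _ _).inter_right ?_
  refine (isClosed_eq (by fun_prop) (by fun_prop)).inter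
    ((isClosed_eq (by fun_prop) (by fun_prop)).inter
      ((isClosed_eq (by fun_prop) (by fun_prop)).inter
        ((isClosed_eq (by fun_prop) (by fun_prop)).inter
          (isClosed_eq (by fun_prop) (by fun_prop)))))

/-- a linear isometry as a continuous linear map -/
abbrev cl (U : EE n ≃ₗᵢ[ℂ] EE n) : EE n →L[ℂ] EE n := U.toContinuousLinearEquiv

theorem mem_KK {M : EE n →L[ℂ] EE n} {ρ : Fin n → ℝ} {U V : EE n ≃ₗᵢ[ℂ] EE n}
    (h : ∀ x, U (M x) = dgL ρ (V x)) {R : ℝ} {S G S' G' : EE n →L[ℂ] EE n}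
    (h1 : G * S = 1) (h2 : S * G = 1) (h3 : G' * S' = 1) (h4 : S' * G' = 1)
    (h5 : S * dgL ρ = dgL ρ * S') (b1 : ‖G‖ ≤ R) (b2 : ‖S‖ ≤ R) (b3 : ‖G'‖ ≤ R) (b4 : ‖S'‖ ≤ R) :
    (G' * cl V, cl V.symm * S', G * cl U, cl U.symm * S) ∈ KK M (dgL ρ) R := by
  have hR : 0 ≤ R := (norm_nonneg _).trans b1
  have e1 : ∀ W : EE n ≃ₗᵢ[ℂ] EE n, cl W * cl W.symm = 1 := fun W => by
    ext1 x; simp [cl]
  have e2 : ∀ W : EE n ≃ₗᵢ[ℂ] EE n, cl W.symm * cl W = 1 := fun W => by
    ext1 x; simp [cl]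
  have n1 : ∀ (W : EE n ≃ₗᵢ[ℂ] EE n) (A : EE n →L[ℂ] EE n), ‖A‖ ≤ R → ‖A * cl W‖ ≤ R :=
    fun W A hA => opNorm_le_bound _ hR fun x => by
      simpa [cl] using A.le_of_opNorm_le hA (W x)
  have n2 : ∀ (W : EE n ≃ₗᵢ[ℂ] EE n) (A : EE n →L[ℂ] EE n), ‖A‖ ≤ R → ‖cl W * A‖ ≤ R :=
    fun W A hA => opNorm_le_bound _ hR fun x => by
      simpa [cl] using A.le_of_opNorm_le hA x
  refine ⟨?_, ?_, ?_, ?_, ?_, ?_⟩
  · rw [mem_closedBall_zero_iff]
    simp only [norm_prod_le_iff]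
    exact ⟨n1 _ _ b3, n2 _ _ b4, n1 _ _ b1, n2 _ _ b2⟩
  · change G' * cl V * (cl V.symm * S') = 1
    rw [mul_assoc, ← mul_assoc (cl V), e1, one_mul, h3]
  · change cl V.symm * S' * (G' * cl V) = 1
    rw [mul_assoc, ← mul_assoc S', h4, one_mul, e2]
  · change G * cl U * (cl U.symm * S) = 1
    rw [mul_assoc, ← mul_assoc (cl U), e1, one_mul, h1]
  · change cl U.symm * S * (G * cl U) = 1
    rw [mul_assoc, ← mul_assoc S, h2, one_mul, e2]
  · change G * cl U * M = dgL ρ * (G' * cl V)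
    have e3 : cl U * M = dgL ρ * cl V := by ext1 x; exact h x
    have e4 : G * dgL ρ = dgL ρ * G' := by
      calc G * dgL ρ = G * (dgL ρ * S') * G' := by rw [mul_assoc, mul_assoc, h4, mul_one]
        _ = _ := by rw [← h5, ← mul_assoc, h1, one_mul]
    rw [mul_assoc, e3, ← mul_assoc, e4, mul_assoc]

theorem norm_adjoint_le {A : EE n →L[ℂ] EE n} {R : ℝ} (h : ‖A‖ ≤ R) (x : EE n) :
    ‖adjoint A x‖ ≤ R * ‖x‖ :=
  (adjoint A).le_of_opNorm_le (by rwa [LinearIsometryEquiv.norm_map]) x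

theorem adjoint_mul_apply (A B : EE n →L[ℂ] EE n) (x : EE n) :
    adjoint (A * B) x = adjoint B (adjoint A x) := by
  rw [mul_def, adjoint_comp]; rfl

variable {L : ℕ → ℕ → EE n →L[ℂ] EE n} {σ : ℕ → ℝ}

/-- lower bound at the intermediate time, from the next piece -/
theorem lower (hσ : StrictMono σ)
    (hco : ∀ i j k, i ≤ j → j ≤ k → (L j k).comp (L i j) = L i k)
    (hinj : ∀ j k, j ≤ k → Function.Injective (L j k)) (hcv : Cvx L σ) {t b b' : ℕ}
    (htb : t < b) (hbb : b < b') {lam' : Fin n → ℝ} {cst' : ℝ} {q' : XX n}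
    (hq' : q' ∈ KK (L b b') (dgL fun l => (σ b' - σ b) * lam' l) (Real.exp cst'))
    {μ e : ℝ} (he : 2 * cst' ≤ e * (σ b' - σ b)) (a : EE n) (ha : ∀ k, a k ≠ 0 → lam' k ≤ μ) :
    Real.exp (-((σ b - σ t) * (μ + e))) * ‖adjoint q'.1 a‖ ≤
      ‖adjoint (L t b) (adjoint q'.1 a)‖ := by
  obtain ⟨hb, h1, -, -, -, h5⟩ := hq'
  rw [mem_closedBall_zero_iff] at hb
  simp only [norm_prod_le_iff] at hb
  obtain ⟨-, b2, b3, -⟩ := hb
  have hh : 0 < σ b - σ t := sub_pos.2 (hσ htb)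
  have hl : 0 < σ b' - σ b := sub_pos.2 (hσ hbb)
  set ρ : Fin n → ℝ := fun l => (σ b' - σ b) * lam' l with hρ
  set η := adjoint q'.1 a with hη
  set ζ := adjoint q'.2.2.1 (dgL (-ρ) a) with hζ
  have e1 : adjoint (L b b') ζ = η := by
    rw [hζ, ← adjoint_mul_apply, h5, adjoint_mul_apply, adjoint_dgL, dgL_cancel]
  rcases eq_or_ne η 0 with h0 | h0
  · rw [h0]; simp
  have hζ0 : ζ ≠ 0 := fun h => h0 (by rw [← e1, h, map_zero])
  have hH0 : adjoint (L t b) η ≠ 0 := fun h => h0 (adjoint_injective _ (hinj t b htb.le) h)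
  have e2 : ‖a‖ ≤ Real.exp cst' * ‖η‖ := by
    have : a = adjoint q'.2.1 η := by
      rw [hη, ← adjoint_mul_apply, h1, one_def, adjoint_id]; rfl
    conv_lhs => rw [this]
    exact norm_adjoint_le b2 η
  have e3 : ‖dgL (-ρ) a‖ ≤ Real.exp ((σ b' - σ b) * μ) * ‖a‖ := by
    refine norm_dia_le _ (Real.exp_pos _).le a fun l hl' => ?_
    rw [Complex.norm_real, Real.norm_of_nonneg (Real.exp_pos _).le, Pi.neg_apply, neg_neg]
    exact Real.exp_le_exp.2 (mul_le_mul_of_nonneg_left (ha l hl') hl.le)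
  have e4 : ‖ζ‖ ≤ Real.exp ((σ b' - σ b) * (μ + e)) * ‖η‖ := by
    calc ‖ζ‖ ≤ Real.exp cst' * (Real.exp ((σ b' - σ b) * μ) * (Real.exp cst' * ‖η‖)) :=
          (norm_adjoint_le b3 _).trans (by gcongr; exact e3.trans (by gcongr))
      _ = Real.exp (2 * cst' + (σ b' - σ b) * μ) * ‖η‖ := by
          rw [Real.exp_add, two_mul, Real.exp_add]; ring
      _ ≤ _ := by gcongr; linarith
  have hη0 : 0 < ‖η‖ := norm_pos_iff.2 h0
  have e5 : Real.log ‖ζ‖ ≤ (σ b' - σ b) * (μ + e) + Real.log ‖η‖ := by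
    have := Real.log_le_log (norm_pos_iff.2 hζ0) e4
    rwa [Real.log_mul (Real.exp_pos _).ne' hη0.ne', Real.log_exp] at this
  have e6 := hcv t b b' htb hbb ζ hζ0
  rw [← hco t b b' htb.le hbb.le, adjoint_comp, ContinuousLinearMap.comp_apply, e1] at e6
  have e7 : -((σ b - σ t) * (μ + e)) + Real.log ‖η‖ ≤ Real.log ‖adjoint (L t b) η‖ := by
    refine le_of_mul_le_mul_left ?_ hl
    have := mul_le_mul_of_nonneg_left e5 hh.le
    nlinarith
  have e8 := Real.exp_le_exp.2 e7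
  rwa [Real.exp_add, Real.exp_log hη0, Real.exp_log (norm_pos_iff.2 hH0)] at e8

/-- upper bound at the intermediate time for the singular covectors -/
theorem upper (hσ : StrictMono σ) (hcv : Cvx L σ) {a t b : ℕ} (hat : a < t) (htb : t < b)
    {U V : EE n ≃ₗᵢ[ℂ] EE n} {lam : Fin n → ℝ}
    (h : ∀ x, U (L a b x) = dgL (fun l => (σ b - σ a) * lam l) (V x)) (j : Fin n) :
    ‖adjoint (L t b) (U.symm (ee j))‖ ≤ Real.exp (-((σ b - σ t) * lam j)) := by
  have hl : 0 < σ b - σ a := sub_pos.2 (hσ (hat.trans htb))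
  have e1 : adjoint (L a b) (U.symm (ee j)) =
      V.symm (dgL (fun l => (σ b - σ a) * lam l) (ee j)) := by
    refine ext_inner_right ℂ fun x => ?_
    rw [adjoint_inner_left, ← U.inner_map_map, U.apply_symm_apply, h,
      ← V.inner_map_map (V.symm _) x, V.apply_symm_apply, ← adjoint_inner_left, adjoint_dgL]
  have e2 : ‖U.symm (ee j)‖ = 1 := by simp
  have e3 := hcv a t b hat htb (U.symm (ee j)) (by rw [← norm_pos_iff, e2]; exact one_pos)
  rw [e1, e2, Real.log_one, V.symm.norm_map, norm_dgL_ee, Real.log_exp] at e3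
  refine (Real.le_exp_log _).trans (Real.exp_le_exp.2 (le_of_mul_le_mul_left ?_ hl))
  linarith

/-- the constant -/
def CC (n : ℕ) : ℝ := (n + 1) * (2 * n ^ 2 + 1) + 4 * n + 4

theorem CC_ge (n : ℕ) : 4 * n + 4 ≤ CC n := by
  unfold CC
  have : (0 : ℝ) ≤ (n + 1) * (2 * n ^ 2 + 1) := by positivity
  linarith

/-- transversality -/
theorem transv (hn : 0 < n) {H : EE n →L[ℂ] EE n} {U : EE n ≃ₗᵢ[ℂ] EE n} {lam : Fin n → ℝ}
    {h κ μ hi' : ℝ} (hh : 0 < h) (hκ : 0 < κ) (hC : 4 * n ≤ κ * h) (hlam : ∀ j, 0 ≤ lam j)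
    (hup : ∀ j, ‖H (U.symm (ee j))‖ ≤ Real.exp (-(h * lam j))) (l : Fin n) (hμ : μ + κ ≤ lam l)
    (hμ' : μ ≤ hi') (η : EE n) (hlow : Real.exp (-(h * (μ + κ / 2))) * ‖η‖ ≤ ‖H η‖) :
    (2 * n * Real.exp (h * (hi' + κ)))⁻¹ * ‖U η‖ ≤ ‖pr (fun j => lam j < lam l) (U η)‖ := by
  have hn' : (0 : ℝ) < n := Nat.cast_pos.2 hn
  set y := U η with hy
  set p := ‖pr (fun j => lam j < lam l) y‖ with hp
  have hp0 : 0 ≤ p := norm_nonneg _
  have hy0 : 0 ≤ ‖y‖ := norm_nonneg _
  have e1 : ‖H η‖ ≤ n * (p + Real.exp (-(h * lam l)) * ‖y‖) := by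
    have e2 := norm_map_le (H ∘L cl U.symm) y
    have e3 : (H ∘L cl U.symm) y = H η := by simp [hy, cl]
    rw [e3] at e2
    refine e2.trans ?_
    calc _ ≤ ∑ _j : Fin n, (p + Real.exp (-(h * lam l)) * ‖y‖) := Finset.sum_le_sum fun j _ => ?_
      _ = _ := by simp; ring
    have e4 : ‖(H ∘L cl U.symm) (ee j)‖ ≤ Real.exp (-(h * lam j)) := hup j
    by_cases hj : lam j < lam l
    · have e5 : ‖y j‖ ≤ p := by
        have := PiLp.norm_apply_le (pr (fun j => lam j < lam l) y) j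
        rwa [pr_coord, if_pos hj] at this
      have e6 : Real.exp (-(h * lam j)) ≤ 1 :=
        Real.exp_le_one_iff.2 (neg_nonpos.2 (mul_nonneg hh.le (hlam j)))
      have := mul_le_mul e5 (e4.trans e6) (norm_nonneg _) hp0
      have : 0 ≤ Real.exp (-(h * lam l)) * ‖y‖ := by positivity
      linarith
    · have e6 : Real.exp (-(h * lam j)) ≤ Real.exp (-(h * lam l)) :=
        Real.exp_le_exp.2 (neg_le_neg (mul_le_mul_of_nonneg_left (not_lt.1 hj) hh.le))
      have := mul_le_mul (PiLp.norm_apply_le y j) (e4.trans e6) (norm_nonneg _) hy0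
      linarith
  have e7 : ‖η‖ = ‖y‖ := (U.norm_map η).symm
  rw [e7] at hlow
  set E := Real.exp (-(h * (μ + κ / 2))) with hE
  have hE0 : 0 < E := Real.exp_pos _
  have e8 : 2 * n * Real.exp (-(h * lam l)) ≤ E := by
    have e9 : 2 * n ≤ Real.exp (κ * h / 2) := by
      have := Real.add_one_le_exp (κ * h / 2)
      linarith
    calc 2 * n * Real.exp (-(h * lam l)) ≤ Real.exp (κ * h / 2) * Real.exp (-(h * lam l)) := by
          gcongr
      _ ≤ E := by
          rw [← Real.exp_add]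
          refine Real.exp_le_exp.2 ?_
          have := mul_le_mul_of_nonneg_left hμ hh.le
          linarith
  have e10 : E * ‖y‖ ≤ 2 * n * p := by
    have := mul_le_mul_of_nonneg_right e8 hy0
    linarith
  have e11 : Real.exp (-(h * (hi' + κ))) ≤ E := by
    refine Real.exp_le_exp.2 (neg_le_neg (mul_le_mul_of_nonneg_left ?_ hh.le))
    linarith
  rw [mul_inv, ← Real.exp_neg, mul_assoc, inv_mul_le_iff₀ (by positivity)]
  exact (mul_le_mul_of_nonneg_right e11 hy0).trans e10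

/-- one backward step -/
theorem step (hn : 0 < n) (hσ : StrictMono σ)
    (hco : ∀ i j k, i ≤ j → j ≤ k → (L j k).comp (L i j) = L i k)
    (hinj : ∀ j k, j ≤ k → Function.Injective (L j k)) (hcv : Cvx L σ) {a t b b' : ℕ}
    (hat : a < t) (htb : t < b) (hbb : b < b') {U V : EE n ≃ₗᵢ[ℂ] EE n} {lam lam' : Fin n → ℝ}
    (h : ∀ x, U (L a b x) = dgL (fun l => (σ b - σ a) * lam l) (V x)) (hlam : ∀ l, 0 ≤ lam l)
    {hi' κ cst cst' : ℝ} (hlam' : ∀ l, lam' l ≤ hi') (hhi : 0 ≤ hi') (hκ : 0 < κ)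
    (hc' : 0 ≤ cst') (h1 : CC n ≤ κ * (σ b - σ t))
    (h2 : CC n * (1 + (σ b - σ t) * (hi' + κ)) ≤ cst) (h3 : CC n * cst' ≤ κ * (σ b' - σ b))
    {q' : XX n} (hq' : q' ∈ KK (L b b') (dgL fun l => (σ b' - σ b) * lam' l) (Real.exp cst')) :
    ∃ q ∈ KK (L a b) (dgL fun l => (σ b - σ a) * lam l) (Real.exp cst),
      ∀ k l, lam' k + κ < lam l → q'.1 (q.2.2.2 (ee l)) k = 0 := by
  have hn' : (0 : ℝ) < n := Nat.cast_pos.2 hn
  have hh : 0 < σ b - σ t := sub_pos.2 (hσ htb)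
  have hl : 0 < σ b - σ a := sub_pos.2 (hσ (hat.trans htb))
  have hC := CC_ge n
  set Y := (σ b - σ t) * (hi' + κ) with hY
  have hY0 : 0 ≤ Y := by positivity
  set B := 2 * n * Real.exp Y with hB
  have hB0 : 0 < B := by positivity
  have key : ∀ l, ∃ v : EE n, (∀ j, v j ≠ 0 → lam j < lam l) ∧ ‖v‖ ≤ B ∧
      ∀ k, lam' k + κ < lam l → ⟪U (adjoint q'.1 (ee k)), v⟫_ℂ =
        ⟪U (adjoint q'.1 (ee k)), ee l⟫_ℂ := by
    intro l
    let A : EE n →L[ℂ] EE n := cl U ∘L adjoint q'.1 ∘L pr (fun k => lam' k + κ < lam l)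
    obtain ⟨z, hz1, hz2⟩ := riesz (LinearMap.range (A : EE n →ₗ[ℂ] EE n))
      (pr fun j => lam j < lam l) (inner_pr _) (inv_pos.2 hB0) (by
        rintro _ ⟨x, rfl⟩
        refine transv (μ := min (lam l - κ) hi') hn hh hκ (by linarith) hlam
          (upper hσ hcv hat htb h) l (by linarith [min_le_left (lam l - κ) hi'])
          (min_le_right _ _) _ ?_
        refine lower hσ hco hinj hcv htb hbb hq' (by nlinarith) _ fun k hk => ?_
        change pr (fun k => lam' k + κ < lam l) x k ≠ 0 at hk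
        rw [pr_coord] at hk
        refine le_min ?_ (hlam' k)
        by_contra hk'
        exact hk (if_neg fun h' => hk' (by linarith))) (ee l)
    refine ⟨_, fun j hj => ?_, ?_, fun k hk => hz2 _ ⟨ee k, ?_⟩⟩
    · rw [pr_coord] at hj
      by_contra hj'
      exact hj (if_neg hj')
    · rw [inv_mul_le_iff₀ hB0] at hz1
      simpa using hz1
    · change U (adjoint q'.1 (pr (fun k => lam' k + κ < lam l) (ee k))) = _
      rw [pr_ee (S := fun k => lam' k + κ < lam l) hk]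
  choose v hv1 hv2 hv3 using key
  let N : EE n →L[ℂ] EE n := ∑ l, (EuclideanSpace.proj l : EE n →L[ℂ] ℂ).smulRight (v l)
  have hN : ∀ l, N (ee l) = v l := fun l => by
    simp [N]
  set ρ : Fin n → ℝ := fun l => (σ b - σ a) * lam l with hρ
  let N' : EE n →L[ℂ] EE n := dgL (-ρ) * N * dgL ρ
  have hN' : ∀ l, N' (ee l) = dia (fun j => ((Real.exp (ρ j - ρ l) : ℝ) : ℂ)) (v l) := fun l => by
    ext j
    change dgL (-ρ) (N (dia _ (ee l))) j = _
    rw [dia_ee, map_smul, hN, dgL_coord, dia_coord, PiLp.smul_apply, smul_eq_mul, ← mul_assoc,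
      ← Complex.ofReal_mul, ← Real.exp_add, Pi.neg_apply, neg_neg, sub_eq_add_neg]
  obtain ⟨G, g1, g2, g3, g4⟩ := unip lam N hB0.le (fun l j hj => hv1 l j (hN l ▸ hj))
    fun l => hN l ▸ hv2 l
  obtain ⟨G', g1', g2', g3', g4'⟩ := unip lam N' hB0.le
    (fun l j hj => hv1 l j (by rw [hN', dia_coord] at hj; exact right_ne_zero_of_mul hj))
    fun l => by
      rw [hN']
      refine (norm_dia_le _ zero_le_one _ fun j hj => ?_).trans (by rw [one_mul]; exact hv2 l)
      rw [Complex.norm_real, Real.norm_of_nonneg (Real.exp_pos _).le, Real.exp_le_one_iff,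
        sub_nonpos]
      exact mul_le_mul_of_nonneg_left (hv1 l j hj).le hl.le
  have hR : (1 + n * B) ^ (n + 1) ≤ Real.exp cst := by
    have a1 : 1 + n * B ≤ Real.exp (2 * n ^ 2 + Y) := by
      have a2 := Real.add_one_le_exp (2 * (n : ℝ) ^ 2)
      have a3 := Real.one_le_exp hY0
      rw [Real.exp_add]
      calc 1 + n * B ≤ (2 * n ^ 2 + 1) * Real.exp Y := by rw [hB]; nlinarith
        _ ≤ _ := by gcongr
    calc (1 + n * B) ^ (n + 1) ≤ Real.exp (2 * n ^ 2 + Y) ^ (n + 1) := by gcongr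
      _ = Real.exp ((n + 1 : ℕ) * (2 * n ^ 2 + Y)) := (Real.exp_nat_mul _ _).symm
      _ ≤ _ := by
        refine Real.exp_le_exp.2 (le_trans ?_ h2)
        have a4 : ((n : ℝ) + 1) * (2 * n ^ 2 + 1) ≤ CC n := by unfold CC; linarith
        have a5 : 0 ≤ ((n : ℝ) + 1) * (2 * n ^ 2) * Y := by positivity
        push_cast
        calc ((n : ℝ) + 1) * (2 * n ^ 2 + Y) ≤ (n + 1) * (2 * n ^ 2 + 1) * (1 + Y) := by nlinarith
          _ ≤ _ := by gcongr
  have e5 : (1 - N) * dgL ρ = dgL ρ * (1 - N') := by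
    simp only [N']
    rw [sub_mul, mul_sub, one_mul, mul_one, ← mul_assoc, ← mul_assoc, dgL_mul_neg, one_mul]
  refine ⟨_, mem_KK h g1 g2 g1' g2' e5 (g3.trans hR) (g4.trans hR) (g3'.trans hR) (g4'.trans hR),
    fun k l hk => ?_⟩
  change q'.1 (U.symm (ee l - N (ee l))) k = 0
  rw [← inner_ee, ← adjoint_inner_left, ← U.inner_map_map, U.apply_symm_apply, inner_sub_right, hN,
    hv3 l k hk, sub_self]

end

open Crest.Agent.T223.Dyn in
/-- **the flag lemma** -/
theorem flagStmt (n : ℕ) : FlagStmt n := by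
  have hC := CC_ge n
  have hn0 : (0 : ℝ) ≤ n := Nat.cast_nonneg n
  refine ⟨CC n, by linarith, fun L σ c t fine lo hi κ cst hσ hc hco hinj hcv hf hj => ?_⟩
  have hcc : ∀ i, c i < c (i + 1) := fun i => hc (Nat.lt_succ_self i)
  have hl : ∀ i, 0 < σ (c (i + 1)) - σ (c i) := fun i => sub_pos.2 (hσ (hcc i))
  choose U V ρ hρ using fun i => svd (L (c i) (c (i + 1))) (hinj _ _ (hcc i).le)
  let lam : ℕ → Fin n → ℝ := fun i l => ρ i l / (σ (c (i + 1)) - σ (c i))
  have hlρ : ∀ i, (fun l => (σ (c (i + 1)) - σ (c i)) * lam i l) = ρ i := fun i => by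
    funext l
    exact mul_div_cancel₀ _ (hl i).ne'
  have hsvd : ∀ i x, U i (L (c i) (c (i + 1)) x) =
      dgL (fun l => (σ (c (i + 1)) - σ (c i)) * lam i l) (V i x) := fun i x => by
    rw [hlρ, hρ]
  have hlam : ∀ i, fine i → ∀ l, lo i ≤ lam i l ∧ lam i l ≤ hi i := fun i hi' l => by
    obtain ⟨a1, a2⟩ := (hf i hi').2.2 ((V i).symm (ee l))
    have a3 : ‖L (c i) (c (i + 1)) ((V i).symm (ee l))‖ = Real.exp (-ρ i l) := by
      rw [← (U i).norm_map, hρ, (V i).apply_symm_apply, norm_dgL_ee]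
    have a4 : ‖(V i).symm (ee l)‖ = 1 := by simp
    rw [a3, a4] at a1 a2
    rw [mul_one, Real.exp_le_exp] at a1
    rw [← Real.exp_add, Real.one_le_exp_iff] at a2
    exact ⟨(le_div_iff₀ (hl i)).2 (by linarith), (div_le_iff₀ (hl i)).2 (by linarith)⟩
  let K : ℕ → Set (XX n) := fun i => KK (L (c i) (c (i + 1)))
    (dgL fun l => (σ (c (i + 1)) - σ (c i)) * lam i l) (Real.exp |cst i|)
  have hne : ∀ i, (K i).Nonempty := fun i => by
    have a1 : ‖(1 : EE n →L[ℂ] EE n)‖ ≤ Real.exp |cst i| :=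
      ContinuousLinearMap.norm_id_le.trans (Real.one_le_exp (abs_nonneg _))
    exact ⟨_, mem_KK (hsvd i) (mul_one 1) (mul_one 1) (mul_one 1) (mul_one 1)
      (by rw [one_mul, mul_one]) a1 a1 a1 a1⟩
  have hcst : ∀ i, fine i → 0 ≤ cst i := fun i hi' => by linarith [(hf i hi').2.1]
  obtain ⟨q, hq⟩ := invlim K (fun i q q' => fine i → fine (i + 1) → ∀ k l,
      lam (i + 1) k + κ i < lam i l → q'.1 (q.2.2.2 (ee l)) k = 0)
    (fun i => isCompact_KK _ _ _) hne
    (fun i => by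
      simp only [ofPred_forall]
      refine isClosed_iInter fun _ => isClosed_iInter fun _ => isClosed_iInter fun k =>
        isClosed_iInter fun l => isClosed_iInter fun _ => isClosed_eq ?_ continuous_const
      fun_prop)
    (fun i y hy => by
      by_cases hfi : fine i ∧ fine (i + 1)
      · rcases Nat.eq_zero_or_pos n with rfl | hn
        · obtain ⟨x, hx⟩ := hne i
          exact ⟨x, hx, fun _ _ k => k.elim0⟩
        obtain ⟨j1, j2, j3, j4, j5, j6⟩ := hj i hfi.1 hfi.2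
        have a1 := hlam (i + 1) hfi.2 ⟨0, hn⟩
        simp only [K, abs_of_nonneg (hcst _ hfi.1), abs_of_nonneg (hcst _ hfi.2)] at hy ⊢
        obtain ⟨x, hx, hx'⟩ := step hn hσ hco hinj hcv j1 j2 (hcc (i + 1)) (hsvd i)
          (fun l => (hf i hfi.1).1.trans (hlam i hfi.1 l).1) (fun l => (hlam _ hfi.2 l).2)
          (((hf _ hfi.2).1.trans a1.1).trans a1.2) j3 (hcst _ hfi.2) j4 j5 j6 hy
        exact ⟨x, hx, fun _ _ => hx'⟩
      · obtain ⟨x, hx⟩ := hne i
        exact ⟨x, hx, fun h1 h2 => absurd ⟨h1, h2⟩ hfi⟩)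
  refine ⟨fun i => ContinuousLinearEquiv.equivOfInverse' (q i).1 (q i).2.1 (hq i).1.2.1
      (hq i).1.2.2.1,
    fun i => ContinuousLinearEquiv.equivOfInverse' (q i).2.2.1 (q i).2.2.2 (hq i).1.2.2.2.1
      (hq i).1.2.2.2.2.1, lam, fun i hi' => ?_⟩
  have hb := (hq i).1.1
  rw [mem_closedBall_zero_iff, abs_of_nonneg (hcst i hi')] at hb
  simp only [norm_prod_le_iff] at hb
  refine ⟨(q i).1.le_of_opNorm_le hb.1, (q i).2.1.le_of_opNorm_le hb.2.1,
    (q i).2.2.1.le_of_opNorm_le hb.2.2.1, (q i).2.2.2.le_of_opNorm_le hb.2.2.2, hlam i hi',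
    fun x => DFunLike.congr_fun (hq i).1.2.2.2.2.2 x, fun hi'' k l hkl => ?_⟩
  by_contra hlt
  exact hkl ((hq i).2 hi' hi'' k l (not_le.1 hlt))

end Crest.Agent.T223.Na.Fl23
end

-- ▼ part T223/NaE1_6
section

/-!
# Row 223, module NA, leaf END (helper6): tools of several complex variables

* `three_circ` : three circles theorem on balls, vector valued
* `diffOn_of_unif` : uniform limits of holomorphic maps are holomorphic
* `near_id` : a holomorphic map close to the identity is injective with a large image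
-/

set_option autoImplicit false
set_option linter.unusedSectionVars false

open Set Filter Topology Metric

namespace Crest.Agent.T223.NaE

variable {E F : Type*} [NormedAddCommGroup E] [NormedSpace ℂ E] [NormedAddCommGroup F]
  [NormedSpace ℂ F]

/-- three circles theorem -/
theorem three_circ {f : E → F} {x1 x3 R a b θ : ℝ} (h13 : x1 < x3) (h3R : Real.exp x3 < R)
    (hf : DifferentiableOn ℂ f (ball 0 R)) (hab : a ≤ b) (hθ0 : 0 ≤ θ) (hθ1 : θ ≤ 1)
    (ha : ∀ z, ‖z‖ ≤ Real.exp x1 → ‖f z‖ ≤ Real.exp a)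
    (hb : ∀ z, ‖z‖ ≤ Real.exp x3 → ‖f z‖ ≤ Real.exp b) {z : E}
    (hz : ‖z‖ ≤ Real.exp (θ * x1 + (1 - θ) * x3)) :
    ‖f z‖ ≤ Real.exp (θ * a + (1 - θ) * b) := by
  by_cases h1 : ‖z‖ ≤ Real.exp x1
  · exact (ha z h1).trans (Real.exp_le_exp.2 (by nlinarith))
  push Not at h1
  have hz0 : 0 < ‖z‖ := (Real.exp_pos _).trans h1
  set s : ℝ := Real.log ‖z‖ with hs
  have hs1 : x1 < s := by
    rw [hs, Real.lt_log_iff_exp_lt hz0]; exact h1
  have hs2 : s ≤ θ * x1 + (1 - θ) * x3 := by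
    rw [hs, Real.log_le_iff_le_exp hz0]; exact hz
  have hs3 : s ≤ x3 := by nlinarith
  set v : E := ((‖z‖ : ℂ)⁻¹) • z with hv
  have hvn : ‖v‖ = 1 := by
    rw [hv, norm_smul, norm_inv, Complex.norm_real, norm_norm, inv_mul_cancel₀ hz0.ne']
  set g : ℂ → F := fun w => f (Complex.exp w • v) with hg
  have hn : ∀ w : ℂ, ‖Complex.exp w • v‖ = Real.exp w.re := fun w => by
    rw [norm_smul, hvn, mul_one, Complex.norm_exp]
  have hd : DifferentiableOn ℂ g (Complex.HadamardThreeLines.verticalClosedStrip x1 x3) := by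
    intro w hw
    have hw' : ‖Complex.exp w • v‖ < R := by
      rw [hn]; exact (Real.exp_le_exp.2 hw.2).trans_lt h3R
    have h1 : DifferentiableAt ℂ f (Complex.exp w • v) :=
      hf.differentiableAt (isOpen_ball.mem_nhds (mem_ball_zero_iff.2 hw'))
    have h2 : DifferentiableAt ℂ (fun w : ℂ => Complex.exp w • v) w :=
      Complex.differentiableAt_exp.smul_const v
    exact (h1.comp w h2).differentiableWithinAt
  have hcl : closure (Complex.HadamardThreeLines.verticalStrip x1 x3) ⊆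
      Complex.HadamardThreeLines.verticalClosedStrip x1 x3 := by
    refine closure_minimal (fun w hw => ⟨hw.1.le, hw.2.le⟩) ?_
    exact isClosed_Icc.preimage Complex.continuous_re
  have hdc : DiffContOnCl ℂ g (Complex.HadamardThreeLines.verticalStrip x1 x3) :=
    (hd.mono hcl).diffContOnCl
  have hB : BddAbove ((norm ∘ g) '' Complex.HadamardThreeLines.verticalClosedStrip x1 x3) := by
    refine ⟨Real.exp b, ?_⟩
    rintro _ ⟨w, hw, rfl⟩
    exact hb _ (by rw [hn]; exact Real.exp_le_exp.2 hw.2)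
  have hmem : (s : ℂ) ∈ Complex.HadamardThreeLines.verticalClosedStrip x1 x3 := by
    simp only [Complex.HadamardThreeLines.verticalClosedStrip, mem_preimage, Complex.ofReal_re]
    exact ⟨hs1.le, hs3⟩
  have key := Complex.HadamardThreeLines.norm_le_interp_of_mem_verticalClosedStrip'
    (a := Real.exp a) (b := Real.exp b) h13 hmem hdc hB
    (fun w hw => ha _ (by rw [hn]; exact le_of_eq (by rw [show w.re = x1 from hw])))
    (fun w hw => hb _ (by rw [hn]; exact le_of_eq (by rw [show w.re = x3 from hw])))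
  have hgs : g s = f z := by
    simp only [hg]
    congr 1
    rw [hv, smul_smul, ← Complex.ofReal_exp, hs, Real.exp_log hz0, mul_inv_cancel₀, one_smul]
    exact_mod_cast hz0.ne'
  rw [hgs, ← Real.exp_mul, ← Real.exp_mul, ← Real.exp_add, Complex.ofReal_re] at key
  refine key.trans (Real.exp_le_exp.2 ?_)
  have ht : (s - x1) / (x3 - x1) ≤ 1 - θ := by
    rw [div_le_iff₀ (by linarith)]; nlinarith
  nlinarith

/-- Cauchy estimate for the derivative -/
theorem norm_fderiv_le {g : E → F} {c : E} {s η : ℝ} (hs : 0 < s)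
    (hg : DifferentiableOn ℂ g (ball c s)) (hη : ∀ z ∈ ball c s, ‖g z‖ ≤ η) :
    ‖fderiv ℂ g c‖ ≤ 2 * η / s := by
  refine Complex.norm_fderiv_le_div_of_mapsTo_ball hg (fun z hz => ?_) hs
  rw [mem_closedBall, dist_eq_norm]
  have h1 := hη z hz
  have h2 := hη c (mem_ball_self hs)
  have := norm_sub_le (g z) (g c)
  linarith

/-- uniform limits of holomorphic maps are holomorphic -/
theorem diffOn_of_unif [CompleteSpace F] {G : ℕ → E → F} {f : E → F} {U : Set E} (hU : IsOpen U)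
    (hG : ∀ k, DifferentiableOn ℂ (G k) U) (hf : TendstoUniformlyOn G f atTop U) :
    DifferentiableOn ℂ f U := by
  intro x hx
  obtain ⟨s, hs, hsU⟩ := Metric.isOpen_iff.1 hU x hx
  have hsub : ∀ y ∈ ball x (s / 2), ball y (s / 2) ⊆ U := fun y hy =>
    (ball_subset_ball' (by rw [mem_ball] at hy; linarith)).trans hsU
  have hc : UniformCauchySeqOn (fun k y => fderiv ℂ (G k) y) atTop (ball x (s / 2)) := by
    rw [Metric.uniformCauchySeqOn_iff]
    intro e he
    have h1 := (Metric.uniformCauchySeqOn_iff.1 hf.uniformCauchySeqOn) (e * s / 8) (by positivity)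
    obtain ⟨N, hN⟩ := h1
    refine ⟨N, fun k hk l hl y hy => ?_⟩
    have hyU : U ∈ 𝓝 y := hU.mem_nhds (hsub y hy (mem_ball_self (by positivity)))
    have hk' : DifferentiableAt ℂ (G k) y := (hG k).differentiableAt hyU
    have hl' : DifferentiableAt ℂ (G l) y := (hG l).differentiableAt hyU
    rw [dist_eq_norm, ← fderiv_fun_sub hk' hl']
    have := norm_fderiv_le (g := fun z => G k z - G l z) (c := y) (s := s / 2) (η := e * s / 8)
      (by positivity) (((hG k).sub (hG l)).mono (hsub y hy))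
      (fun z hz => by
        have := hN k hk l hl z (hsub y hy hz)
        rw [dist_eq_norm] at this; exact this.le)
    refine this.trans_lt ?_
    rw [div_lt_iff₀ (by positivity)]; nlinarith [mul_pos he hs]
  have hp : ∀ y ∈ ball x (s / 2), ∃ L, Tendsto (fun k => fderiv ℂ (G k) y) atTop (𝓝 L) :=
    fun y hy => cauchySeq_tendsto_of_complete (hc.cauchySeq hy)
  choose! L hL using hp
  have hu := hc.tendstoUniformlyOn_of_tendsto hL
  have := hasFDerivAt_of_tendstoUniformlyOn (𝕜 := ℂ) (f := G) (g := f) isOpen_ball hu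
    (fun k y hy => ((hG k).differentiableAt
      (hU.mem_nhds (hsub y hy (mem_ball_self (by positivity))))).hasFDerivAt)
    (fun y hy => hf.tendsto_at (hsub y hy (mem_ball_self (by positivity))))
    (mem_ball_self (by positivity))
  exact this.differentiableAt.differentiableWithinAt

/-- a holomorphic map whose derivative is close to the identity -/
theorem near_id' [CompleteSpace E] {h : E → E} {s : ℝ}
    (hh : DifferentiableOn ℂ h (ball 0 s))
    (hd : ∀ z ∈ ball (0 : E) s, ‖fderiv ℂ h z - ContinuousLinearMap.id ℂ E‖ ≤ 1 / 2) :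
    InjOn h (ball 0 s) ∧ (∀ z ∈ ball (0 : E) s, Function.Injective (fderiv ℂ h z)) ∧
      ∀ t, 0 ≤ t → t < s → closedBall (h 0) (t / 2) ⊆ h '' closedBall 0 t := by
  have hA : ApproximatesLinearOn h
      ((ContinuousLinearEquiv.refl ℂ E : E ≃L[ℂ] E) : E →L[ℂ] E) (ball 0 s) (1 / 2) := by
    intro x hx y hy
    have := (convex_ball (0 : E) s).norm_image_sub_le_of_norm_fderiv_le' (𝕜 := ℂ) (f := h)
      (φ := ContinuousLinearMap.id ℂ E) (C := 1 / 2)
      (fun z hz => hh.differentiableAt (isOpen_ball.mem_nhds hz)) hd hy hx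
    simpa using this
  refine ⟨fun x hx y hy hxy => ?_, fun z hz => ?_, fun t ht hts => ?_⟩
  · have := hA x hx y hy
    rw [hxy, sub_self, zero_sub, norm_neg] at this
    simp only [ContinuousLinearEquiv.coe_refl, ContinuousLinearMap.id_apply] at this
    have h2 : ‖x - y‖ ≤ 0 := by
      have : ‖x - y‖ ≤ 1 / 2 * ‖x - y‖ := by simpa using this
      linarith
    exact sub_eq_zero.1 (norm_le_zero_iff.1 h2)
  · rw [injective_iff_map_eq_zero]
    intro v hv
    have h1 := (fderiv ℂ h z - ContinuousLinearMap.id ℂ E).le_of_opNorm_le (hd z hz) v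
    rw [sub_apply, hv, zero_sub, norm_neg, ContinuousLinearMap.id_apply] at h1
    exact norm_le_zero_iff.1 (by linarith)
  · by_cases hE : Subsingleton E
    · intro y _
      exact ⟨0, by simpa using ht, Subsingleton.elim _ _⟩
    have : Nontrivial E := not_subsingleton_iff_nontrivial.1 hE
    have h1 := hA.surjOn_closedBall_of_nonlinearRightInverse
      (ContinuousLinearEquiv.refl ℂ E).toNonlinearRightInverse (b := 0) ht
      (closedBall_subset_ball hts)
    have h2 : ((ContinuousLinearEquiv.refl ℂ E).toNonlinearRightInverse.nnnorm : ℝ) = 1 := by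
      simp [ContinuousLinearEquiv.toNonlinearRightInverse]
    rw [h2] at h1
    have h3 : ((1 : ℝ)⁻¹ - ((1 / 2 : NNReal) : ℝ)) * t = t / 2 := by push_cast; ring
    rw [h3] at h1
    exact h1

/-- a holomorphic map close to the identity -/
theorem near_id [CompleteSpace E] {h : E → E} {s : ℝ} (hs : 0 < s)
    (hh : DifferentiableOn ℂ h (ball 0 s)) (hn : ∀ z ∈ ball (0 : E) s, ‖h z - z‖ ≤ s / 8) :
    InjOn h (ball 0 (s / 2)) ∧ (∀ z ∈ ball (0 : E) (s / 2), Function.Injective (fderiv ℂ h z)) ∧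
      ∀ t, 0 ≤ t → t < s / 2 → closedBall (h 0) (t / 2) ⊆ h '' closedBall 0 t := by
  refine near_id' (hh.mono (ball_subset_ball (by linarith))) fun z hz => ?_
  have hsub : ball z (s / 2) ⊆ ball (0 : E) s :=
    ball_subset_ball' (by rw [mem_ball] at hz; linarith)
  have hz' : DifferentiableAt ℂ h z :=
    hh.differentiableAt (isOpen_ball.mem_nhds (hsub (mem_ball_self (by positivity))))
  have h1 := norm_fderiv_le (g := fun w => h w - w) (c := z) (s := s / 2) (η := s / 8)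
    (by positivity) ((hh.mono hsub).sub differentiableOn_id) (fun w hw => hn w (hsub hw))
  rw [fderiv_fun_sub hz' differentiableAt_fun_id, fderiv_fun_id] at h1
  refine h1.trans (le_of_eq ?_)
  field_simp; norm_num

end Crest.Agent.T223.NaE
end

-- ▼ part T223/NaE2_6
section

/-!
# Row 223, module NA, leaf END (helper6): shadowing, maps tangent to the identity
-/

set_option autoImplicit false
set_option linter.unusedSectionVars false

open Set Filter Topology Metric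

namespace Crest.Agent.T223.NaE

open Crest.Agent.T223.Tr Crest.Agent.T223.Dyn Crest.Agent.T223.Na

section Shadow

variable {E : Type*} [NormedAddCommGroup E]

/-- the composition of the first `i` automorphisms -/
def OO (P : ℕ → E ≃ E) : ℕ → E ≃ E
  | 0 => Equiv.refl E
  | i + 1 => (OO P i).trans (P i)

theorem OO_symm_succ (P : ℕ → E ≃ E) (i : ℕ) (p : E) :
    (OO P (i + 1)).symm p = (OO P i).symm ((P i).symm p) := rfl

theorem shadow {P : ℕ → E ≃ E} {a : ℕ → E} {d w : ℕ → ℝ} {l : ℕ}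
    (S1 : ∀ k, l ≤ k → ∀ p, ‖p - a (k + 1)‖ ≤ d (k + 1) → ‖(P k).symm p - a k‖ ≤ d k)
    (S2 : ∀ k, l ≤ k → ∀ p q, ‖p - a (k + 1)‖ ≤ d (k + 1) → ‖q - a (k + 1)‖ ≤ d (k + 1) →
      ‖(P k).symm p - (P k).symm q‖ ≤ Real.exp (w (k + 1) - w k) * ‖p - q‖)
    {i k : ℕ} (hi : l ≤ i) (hk : i ≤ k) :
    (∀ p, ‖p - a k‖ ≤ d k → ‖OO P i ((OO P k).symm p) - a i‖ ≤ d i) ∧
    ∀ p q, ‖p - a k‖ ≤ d k → ‖q - a k‖ ≤ d k →
      ‖OO P i ((OO P k).symm p) - OO P i ((OO P k).symm q)‖ ≤ Real.exp (w k - w i) * ‖p - q‖ := by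
  induction k, hk using Nat.le_induction with
  | base => exact ⟨fun p hp => by simpa using hp, fun p q _ _ => by simp⟩
  | succ k hk ih =>
    refine ⟨fun p hp => ?_, fun p q hp hq => ?_⟩
    · rw [OO_symm_succ]; exact ih.1 _ (S1 k (hi.trans hk) p hp)
    · rw [OO_symm_succ, OO_symm_succ]
      refine (ih.2 _ _ (S1 k (hi.trans hk) p hp) (S1 k (hi.trans hk) q hq)).trans ?_
      refine (mul_le_mul_of_nonneg_left (S2 k (hi.trans hk) p q hp hq)
        (Real.exp_pos _).le).trans (le_of_eq ?_)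
      rw [← mul_assoc, ← Real.exp_add]; congr 2; ring

theorem shadow_lim [CompleteSpace E] {P : ℕ → E ≃ E} {a : ℕ → E} {d w : ℕ → ℝ} {l : ℕ}
    (hd : ∀ k, 0 ≤ d k)
    (S1 : ∀ k, l ≤ k → ∀ p, ‖p - a (k + 1)‖ ≤ d (k + 1) → ‖(P k).symm p - a k‖ ≤ d k)
    (S2 : ∀ k, l ≤ k → ∀ p q, ‖p - a (k + 1)‖ ≤ d (k + 1) → ‖q - a (k + 1)‖ ≤ d (k + 1) →
      ‖(P k).symm p - (P k).symm q‖ ≤ Real.exp (w (k + 1) - w k) * ‖p - q‖)
    (hc' : Continuous (OO P l).symm)
    (h0 : Tendsto (fun k => Real.exp (w k - w l) * d k) atTop (𝓝 0)) {k : ℕ} (hk : l ≤ k) :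
    ‖OO P l (limUnder atTop fun k => (OO P k).symm (a k)) - OO P l ((OO P k).symm (a k))‖ ≤
      Real.exp (w k - w l) * d k := by
  set b : ℕ → E := fun k => OO P l ((OO P k).symm (a k)) with hb
  have key : ∀ k k', l ≤ k → k ≤ k' → ‖b k' - b k‖ ≤ Real.exp (w k - w l) * d k := by
    intro k k' hk hk'
    have h1 := (shadow S1 S2 hk hk').1 (a k') (by simpa using hd k')
    have h2 := (shadow S1 S2 le_rfl hk).2 _ (a k) h1 (by simpa using hd k)
    rw [Equiv.symm_apply_apply] at h2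
    exact h2.trans (mul_le_mul_of_nonneg_left h1 (Real.exp_pos _).le)
  have hcau : CauchySeq b := by
    rw [Metric.cauchySeq_iff']
    intro e he
    obtain ⟨K, hK⟩ := eventually_atTop.1 ((h0.eventually (gt_mem_nhds he)).and
      (eventually_ge_atTop l))
    refine ⟨K, fun k' hk' => ?_⟩
    rw [dist_eq_norm]
    exact (key K k' (hK K le_rfl).2 hk').trans_lt (hK K le_rfl).1
  obtain ⟨β, hβ⟩ := cauchySeq_tendsto_of_complete hcau
  have hx : Tendsto (fun k => (OO P k).symm (a k)) atTop (𝓝 ((OO P l).symm β)) := by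
    have := (hc'.tendsto β).comp hβ
    refine this.congr fun k => ?_
    simp [hb]
  rw [hx.limUnder_eq, Equiv.apply_symm_apply]
  refine le_of_tendsto ((hβ.sub_const (b k)).norm) ?_
  filter_upwards [eventually_ge_atTop k] with k' hk' using key k k' hk hk'

end Shadow

variable {n : ℕ}

theorem OO_eq_orb (P : ℕ → EE n ≃ EE n) (i : ℕ) (x : EE n) :
    OO P i x = orb (fun j => (P j : EE n → EE n)) i x := by
  induction i with
  | zero => rfl
  | succ i ih => simp [OO, orb, ih]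

theorem OO_diff {P : ℕ → EE n ≃ EE n} (h : ∀ i, Differentiable ℂ (P i)) (i : ℕ) :
    Differentiable ℂ (OO P i) := by
  induction i with
  | zero => exact differentiable_id
  | succ i ih => exact (h i).comp ih

theorem OO_diff' {P : ℕ → EE n ≃ EE n} (h : ∀ i, Differentiable ℂ (P i).symm) (i : ℕ) :
    Differentiable ℂ (OO P i).symm := by
  induction i with
  | zero => exact differentiable_id
  | succ i ih => exact ih.comp (h i)

theorem OO_zero {P : ℕ → EE n ≃ EE n} (h : ∀ i, P i 0 = 0) (i : ℕ) : OO P i 0 = 0 := by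
  induction i with
  | zero => rfl
  | succ i ih => simp [OO, ih, h]

theorem inj_fderiv_symm {O : EE n ≃ EE n} (h : Differentiable ℂ O) (h' : Differentiable ℂ O.symm)
    (x : EE n) : Function.Injective (fderiv ℂ O.symm x) := by
  have h1 : fderiv ℂ (O ∘ O.symm) x = (fderiv ℂ O (O.symm x)).comp (fderiv ℂ O.symm x) :=
    fderiv_comp x (h _) (h' _)
  rw [O.self_comp_symm, fderiv_id] at h1
  intro v v' hv
  have h2 := congrArg (fun T : EE n →L[ℂ] EE n => T v) h1
  have h3 := congrArg (fun T : EE n →L[ℂ] EE n => T v') h1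
  simp only [ContinuousLinearMap.id_apply, ContinuousLinearMap.comp_apply] at h2 h3
  rw [h2, h3, hv]

theorem det_ne_of_inj {T : EE n →L[ℂ] EE n} (h : Function.Injective T) : T.det ≠ 0 := by
  have := (LinearEquiv.ofInjectiveEndo (T : EE n →ₗ[ℂ] EE n) h).isUnit_det'
  exact this.ne_zero

/-- an injective endomorphism as an equivalence -/
noncomputable def Le (T : EE n →L[ℂ] EE n) : EE n ≃L[ℂ] EE n := by
  classical
  exact if h : Function.Injective T then
    (LinearEquiv.ofInjectiveEndo (T : EE n →ₗ[ℂ] EE n) h).toContinuousLinearEquiv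
  else ContinuousLinearEquiv.refl ℂ _

theorem Le_apply {T : EE n →L[ℂ] EE n} (h : Function.Injective T) (x : EE n) : Le T x = T x := by
  simp [Le, h]

theorem inj_of_lower {T : EE n →L[ℂ] EE n} {C : ℝ} (h : ∀ v, ‖v‖ ≤ C * ‖T v‖) :
    Function.Injective T := by
  rw [injective_iff_map_eq_zero]
  intro v hv
  have := h v
  rw [hv, norm_zero, mul_zero] at this
  exact norm_le_zero_iff.1 this

theorem Le_symm_le {T : EE n →L[ℂ] EE n} {C : ℝ} (h : ∀ v, ‖v‖ ≤ C * ‖T v‖) (x : EE n) :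
    ‖(Le T).symm x‖ ≤ C * ‖x‖ := by
  have := h ((Le T).symm x)
  rwa [← Le_apply (inj_of_lower h), ContinuousLinearEquiv.apply_symm_apply] at this

section Tan

variable {X : ℝ} {g : EE n → EE n}

theorem tan_zero (hX : 0 < X) (h : Tan X g) : g 0 = 0 := by
  have := h.2 0 (mem_ball_self (inv_pos.2 hX))
  simpa using this

theorem tan_norm (hX : 0 < X) (h : Tan X g) {z : EE n} (hz : ‖z‖ < X⁻¹) : ‖g z‖ ≤ 2 * ‖z‖ := by
  have h1 := h.2 z (mem_ball_zero_iff.2 hz)
  have h2 : X * ‖z‖ ≤ 1 := by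
    have := mul_le_mul_of_nonneg_left hz.le hX.le
    rwa [mul_inv_cancel₀ hX.ne'] at this
  have h3 : ‖g z‖ ≤ ‖g z - z‖ + ‖z‖ := by simpa using norm_add_le (g z - z) z
  nlinarith [norm_nonneg z]

theorem tan_near (hX : 0 < X) (h : Tan X g) {z : EE n} (hz : z ∈ ball (0 : EE n) (X⁻¹ / 8)) :
    ‖g z - z‖ ≤ X⁻¹ / 8 / 8 := by
  have hXi := inv_pos.2 hX
  rw [mem_ball_zero_iff] at hz
  refine (h.2 z (mem_ball_zero_iff.2 (by linarith))).trans ?_
  have : ‖z‖ ^ 2 ≤ (X⁻¹ / 8) ^ 2 := by gcongr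
  refine (mul_le_mul_of_nonneg_left this hX.le).trans (le_of_eq ?_)
  field_simp

theorem tan_emb (hX : 0 < X) (h : Tan X g) :
    InjOn g (ball 0 (X⁻¹ / 16)) ∧
      ∀ t, 0 ≤ t → t < X⁻¹ / 16 → closedBall (0 : EE n) (t / 2) ⊆ g '' closedBall 0 t := by
  have hXi := inv_pos.2 hX
  have := near_id (h := g) (s := X⁻¹ / 8) (by positivity)
    (h.1.mono (ball_subset_ball (by linarith))) (fun z hz => tan_near hX h hz)
  rw [tan_zero hX h, show X⁻¹ / 8 / 2 = X⁻¹ / 16 by ring] at this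
  exact ⟨this.1, this.2.2⟩

theorem tan_lip (hX : 0 < X) (h : Tan X g) {p q : EE n} (hp : ‖p‖ < X⁻¹ / 16)
    (hq : ‖q‖ < X⁻¹ / 16) : ‖g p - g q‖ ≤ 2 * ‖p - q‖ := by
  have hXi := inv_pos.2 hX
  refine (convex_ball (0 : EE n) (X⁻¹ / 16)).norm_image_sub_le_of_norm_fderiv_le (𝕜 := ℂ)
    (fun z hz => h.1.differentiableAt (isOpen_ball.mem_nhds
      (ball_subset_ball (by linarith) hz))) (fun z hz => ?_) (mem_ball_zero_iff.2 hq)
    (mem_ball_zero_iff.2 hp)
  have hsub : ball z (X⁻¹ / 16) ⊆ ball (0 : EE n) (X⁻¹ / 8) :=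
    ball_subset_ball' (by rw [mem_ball] at hz; linarith)
  have hz' : DifferentiableAt ℂ g z :=
    h.1.differentiableAt (isOpen_ball.mem_nhds (ball_subset_ball (by linarith) hz))
  have h1 := norm_fderiv_le (g := fun w => g w - w) (c := z) (s := X⁻¹ / 16) (η := X⁻¹ / 8 / 8)
    (by positivity)
    ((h.1.mono (hsub.trans (ball_subset_ball (by linarith)))).sub differentiableOn_id)
    (fun w hw => tan_near hX h (hsub hw))
  rw [fderiv_fun_sub hz' differentiableAt_fun_id, fderiv_fun_id] at h1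
  have h2 : 2 * (X⁻¹ / 8 / 8) / (X⁻¹ / 16) = 1 / 2 := by field_simp; norm_num
  have h3 : ‖fderiv ℂ g z‖ ≤ ‖fderiv ℂ g z - ContinuousLinearMap.id ℂ (EE n)‖ +
      ‖ContinuousLinearMap.id ℂ (EE n)‖ := by
    simpa using norm_add_le (fderiv ℂ g z - ContinuousLinearMap.id ℂ (EE n))
      (ContinuousLinearMap.id ℂ (EE n))
  have h4 := ContinuousLinearMap.norm_id_le (𝕜 := ℂ) (E := EE n)
  linarith

end Tan

section Phi

variable {Φ : ℕ → ℕ → EE n → EE n} {r κ : ℝ} {σ : ℕ → ℝ}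

theorem tan_phi (hc : Coc Φ r κ) (hh : NAHyp Φ r σ) {j k : ℕ} (hjk : j ≤ k) :
    Tan ((κ + 1) / r * Real.exp ((k : ℝ) - j)) (fun z => (Le (Lm Φ j k)).symm (Φ j k z)) := by
  have hr := hc.r_pos
  have hκ := hc.one_le
  have he : 1 ≤ Real.exp ((k : ℝ) - j) :=
    Real.one_le_exp (sub_nonneg.2 (by exact_mod_cast hjk))
  have hsub : ball (0 : EE n) ((κ + 1) / r * Real.exp ((k : ℝ) - j))⁻¹ ⊆ ball 0 r := by
    refine ball_subset_ball ?_
    rw [inv_le_comm₀ (by positivity) hr, inv_eq_one_div]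
    calc 1 / r ≤ (κ + 1) / r * 1 := by rw [mul_one]; gcongr; linarith
      _ ≤ _ := by gcongr
  refine ⟨(Le (Lm Φ j k)).symm.differentiable.comp_differentiableOn
    ((hc.hol j k hjk).mono hsub), fun z hz => ?_⟩
  have hinj := inj_of_lower (hh.inv j k hjk)
  have h1 : (Le (Lm Φ j k)).symm (Φ j k z) - z =
      (Le (Lm Φ j k)).symm (Φ j k z - Lm Φ j k z) := by
    rw [map_sub, ← Le_apply hinj, ContinuousLinearEquiv.symm_apply_apply]
  rw [h1]
  refine (Le_symm_le (hh.inv j k hjk) _).trans ?_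
  have hd : HasFDerivAt (Φ j k) (Lm Φ j k) 0 :=
    ((hc.hol j k hjk).differentiableAt (ball_mem_nhds _ hr)).hasFDerivAt
  have h2 := Complex.dist_le_mul_div_pow_of_mapsTo_ball_of_isLittleO
    (f := fun w => Φ j k w - Lm Φ j k w) (c := 0) (z := z) (R₁ := r) (R₂ := (κ + 1) * r) (n := 1)
    ((hc.hol j k hjk).sub (Lm Φ j k).differentiable.differentiableOn)
    (fun w hw => by
      simp only [hc.zero j k hjk, map_zero, sub_zero, mem_closedBall_zero_iff]
      have h3 := hc.bd j k hjk w hw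
      have h4 := hh.nrm j k hjk w
      have h5 := norm_sub_le (Φ j k w) (Lm Φ j k w)
      rw [mem_ball_zero_iff] at hw
      nlinarith)
    (by
      have := hd.isLittleO
      simp only [hc.zero j k hjk, map_zero, sub_zero, pow_one] at this ⊢
      exact this.norm_right) (hsub hz)
  simp only [hc.zero j k hjk, map_zero, sub_zero, dist_zero_right] at h2
  refine (mul_le_mul_of_nonneg_left h2 (Real.exp_pos _).le).trans (le_of_eq ?_)
  rw [show 1 + 1 = 2 from rfl]
  field_simp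

/-- the transition maps are injective on a uniform ball -/
theorem phi_inj (hc : Coc Φ r κ) (hh : NAHyp Φ r σ) :
    ∃ ρ, 0 < ρ ∧ ∀ j k, j ≤ k → InjOn (Φ j k) (ball 0 ρ) := by
  have hr := hc.r_pos
  have hκ := hc.one_le
  set X := (κ + 1) / r * Real.exp 1 with hX
  have hX0 : 0 < X := by positivity
  refine ⟨min (r / κ) (X⁻¹ / 16 / κ), by positivity, fun j k hjk => ?_⟩
  have hs1 : ball (0 : EE n) (min (r / κ) (X⁻¹ / 16 / κ)) ⊆ ball 0 (r / κ) :=
    ball_subset_ball (min_le_left _ _)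
  have hs2 : ball (0 : EE n) (r / κ) ⊆ ball 0 r := ball_subset_ball (div_le_self hr.le hκ)
  induction k, hjk using Nat.le_induction with
  | base =>
    intro x hx y hy hxy
    rwa [hc.self j x (hs2 (hs1 hx)), hc.self j y (hs2 (hs1 hy))] at hxy
  | succ k hk ih =>
    have ht := tan_phi hc hh (Nat.le_succ k)
    rw [show ((k.succ : ℕ) : ℝ) - k = 1 by push_cast; ring] at ht
    have hm : ∀ x ∈ ball (0 : EE n) (min (r / κ) (X⁻¹ / 16 / κ)),
        Φ j k x ∈ ball (0 : EE n) (X⁻¹ / 16) := fun x hx => by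
      have h1 := hc.bd j k hk x (hs2 (hs1 hx))
      have h2 : ‖x‖ < X⁻¹ / 16 / κ := (mem_ball_zero_iff.1 hx).trans_le (min_le_right _ _)
      rw [lt_div_iff₀ (by linarith)] at h2
      rw [mem_ball_zero_iff]; linarith
    intro x hx y hy hxy
    rw [← hc.coc j k (k + 1) hk (Nat.le_succ k) x (hs1 hx),
      ← hc.coc j k (k + 1) hk (Nat.le_succ k) y (hs1 hy)] at hxy
    exact ih hx hy ((tan_emb hX0 ht).1 (hm x hx) (hm y hy) (by simp only [hxy]))

/-- the transition maps are open at the origin -/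
theorem phi_nhds (hc : Coc Φ r κ) (hh : NAHyp Φ r σ) {j k : ℕ} (hjk : j ≤ k) {t : ℝ}
    (ht : 0 < t) : Φ j k '' ball 0 t ∈ 𝓝 (0 : EE n) := by
  have hr := hc.r_pos
  have hκ := hc.one_le
  set X := (κ + 1) / r * Real.exp ((k : ℝ) - j) with hX
  have hX0 : 0 < X := by positivity
  have hXi := inv_pos.2 hX0
  set t' := min (t / 2) (X⁻¹ / 32) with ht'
  have ht0 : 0 < t' := by positivity
  have h1 := (tan_emb hX0 (tan_phi hc hh hjk)).2 t' ht0.le
    ((min_le_right _ _).trans_lt (by linarith))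
  have h2 : (Le (Lm Φ j k)).symm ⁻¹' closedBall (0 : EE n) (t' / 2) ∈ 𝓝 (0 : EE n) := by
    refine (Le (Lm Φ j k)).symm.continuous.continuousAt.preimage_mem_nhds ?_
    rw [map_zero]; exact closedBall_mem_nhds _ (by positivity)
  refine mem_of_superset h2 fun y hy => ?_
  obtain ⟨z, hz, hzy⟩ := h1 hy
  exact ⟨z, closedBall_subset_ball ((min_le_left _ _).trans_lt (by linarith)) hz,
    (Le (Lm Φ j k)).symm.injective hzy⟩

end Phi

end Crest.Agent.T223.NaE
private theorem rz_2d78ac2d55 : type_of% @_root_.Crest.Agent.T223.NaE.OO.eq_def := @_root_.Crest.Agent.T223.NaE.OO.eq_def -- L22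
private theorem rz_98cb686a2f : type_of% @_root_.Crest.Agent.T223.NaE.OO.eq_1 := @_root_.Crest.Agent.T223.NaE.OO.eq_1 -- L22
end

-- ▼ part T223/NaE3_6
section

/-!
# Row 223, module NA, leaf END (helper6): the limit maps for one normal form package
-/

set_option autoImplicit false
set_option linter.unusedSectionVars false

open Set Filter Topology Metric

namespace Crest.Agent.T223.NaE

open Crest.Agent.T223.Tr Crest.Agent.T223.Dyn Crest.Agent.T223.Na

variable {n : ℕ} {Φ : ℕ → ℕ → EE n → EE n} {r κ : ℝ} {σ : ℕ → ℝ}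

theorem ev_lin {a : ℝ} (ha : 0 < a) (C : ℝ) : ∃ k0 : ℕ, ∀ k : ℕ, k0 ≤ k → C ≤ a * k := by
  obtain ⟨k0, hk0⟩ := exists_nat_ge (C / a)
  refine ⟨k0, fun k hk => ?_⟩
  have : C / a ≤ k := hk0.trans (by exact_mod_cast hk)
  rwa [div_le_iff₀ ha, mul_comm] at this

theorem ev_exp {a : ℝ} (ha : 0 < a) (C : ℝ) :
    ∃ k0 : ℕ, ∀ k : ℕ, k0 ≤ k → C ≤ Real.exp (a * k) := by
  obtain ⟨k0, hk0⟩ := ev_lin ha C
  exact ⟨k0, fun k hk => by linarith [hk0 k hk, Real.add_one_le_exp (a * k)]⟩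

theorem two_le_exp {x : ℝ} (hx : 1 ≤ x) : 2 ≤ Real.exp x := by
  linarith [Real.add_one_le_exp x]

theorem four_le_exp {x : ℝ} (hx : 2 ≤ x) : 4 ≤ Real.exp x := by
  have h1 := two_le_exp (x := x / 2) (by linarith)
  have h2 : Real.exp x = Real.exp (x / 2) * Real.exp (x / 2) := by
    rw [← Real.exp_add]; congr 1; ring
  nlinarith

theorem big_le_exp {x : ℝ} (hx : 8 ≤ x) : 256 ≤ Real.exp x := by
  have h1 := four_le_exp (x := x / 4) (by linarith)
  have h2 : Real.exp x = Real.exp (x / 4) ^ 4 := by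
    rw [← Real.exp_nat_mul]; congr 1; push_cast; ring
  rw [h2]
  calc (256 : ℝ) = 4 ^ 4 := by norm_num
    _ ≤ _ := by gcongr

/-- `exp a ≤ exp b / C` from `C ≤ exp x` and `a + x ≤ b` -/
theorem exp_le_div {a b x C : ℝ} (hC : 0 < C) (hx : C ≤ Real.exp x) (h : a + x ≤ b) :
    Real.exp a ≤ Real.exp b / C := by
  rw [le_div_iff₀ hC]
  calc Real.exp a * C ≤ Real.exp a * Real.exp x := by gcongr
    _ = Real.exp (a + x) := (Real.exp_add _ _).symm
    _ ≤ _ := Real.exp_le_exp.2 h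

/-- cleaned form of the decay -/
structure Tiny (Φ : ℕ → ℕ → EE n → EE n) (r c : ℝ) : Prop where
  pos : 0 < c
  le : c ≤ 1
  sm : ∀ δ : ℝ, 0 < δ → δ ≤ 1 → ∃ k0 : ℕ, ∀ j : ℕ, k0 ≤ j → ∀ z : EE n,
    ‖z‖ ≤ 4 * Real.exp (-(δ * j)) → ∀ k : ℕ, j ≤ k → ‖Φ j k z‖ ≤ Real.exp (-(c * δ * k))
  ch : ∀ j : ℕ, ∃ k0 : ℕ, j ≤ k0 ∧ ∀ k : ℕ, k0 ≤ k → ∀ z : EE n, ‖z‖ ≤ r * Real.exp (-1) →
    ‖Φ j k z‖ ≤ Real.exp (-(c / (j + 1) * k))

theorem exists_tiny (hr : 0 < r) (hD : Dec Φ r) : ∃ c, Tiny Φ r c := by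
  obtain ⟨c0, C, hc0, hC, h⟩ := hD
  refine ⟨min 1 (c0 / 4), by positivity, min_le_left _ _, fun δ hδ hδ1 => ?_, fun j => ?_⟩
  · obtain ⟨k1, hk1⟩ := ev_exp (a := δ / 2) (by positivity) (4 * Real.exp (δ / 2) / r)
    obtain ⟨k2, hk2⟩ := ev_exp (a := c0 * δ / 4) (by positivity) C
    refine ⟨max k1 k2, fun j hj z hz k hk => ?_⟩
    have hj1 : (0 : ℝ) < j + 1 := by positivity
    have h1 := h j k (δ * (j + 1) / 2) z hk (by positivity) (hz.trans (by
      have h2 := hk1 j ((le_max_left _ _).trans hj)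
      rw [div_le_iff₀ hr] at h2
      have h3 : Real.exp (-(δ * (j + 1) / 2)) * Real.exp (δ / 2) =
          Real.exp (-(δ * j)) * Real.exp (δ / 2 * j) := by
        rw [← Real.exp_add, ← Real.exp_add]; congr 1; ring
      have h4 := Real.exp_pos (δ / 2)
      have h5 := Real.exp_pos (-(δ * j))
      refine le_of_mul_le_mul_right ?_ h4
      rw [mul_assoc r, h3]
      nlinarith))
    have h2 : δ * (j + 1) / 2 / (j + 1) = δ / 2 := by field_simp
    rw [h2, min_eq_right (by linarith)] at h1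
    refine h1.trans ?_
    have h3 := hk2 k (((le_max_right _ _).trans hj).trans hk)
    refine (mul_le_mul_of_nonneg_right h3 (Real.exp_pos _).le).trans ?_
    rw [← Real.exp_add]
    refine Real.exp_le_exp.2 ?_
    have h4 : min 1 (c0 / 4) * δ * k ≤ c0 / 4 * δ * k := by gcongr; exact min_le_right _ _
    nlinarith
  · have hj1 : (0 : ℝ) < j + 1 := by positivity
    obtain ⟨k2, hk2⟩ := ev_exp (a := c0 / 2 / (j + 1)) (by positivity) C
    refine ⟨max j k2, le_max_left _ _, fun k hk z hz => ?_⟩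
    have h1 := h j k 1 z ((le_max_left _ _).trans hk) one_pos hz
    rw [min_eq_right (by rw [div_le_one hj1]; linarith [(Nat.cast_nonneg j : (0 : ℝ) ≤ j)])] at h1
    refine h1.trans ?_
    have h3 := hk2 k ((le_max_right _ _).trans hk)
    refine (mul_le_mul_of_nonneg_right h3 (Real.exp_pos _).le).trans ?_
    rw [← Real.exp_add]
    refine Real.exp_le_exp.2 ?_
    have h4 : min 1 (c0 / 4) / (j + 1) * k ≤ c0 / 2 / (j + 1) * k := by
      gcongr; exact (min_le_right _ _).trans (by linarith)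
    have h5 : c0 * k * (1 / (j + 1)) = 2 * (c0 / 2 / (j + 1) * k) := by field_simp
    linarith

/-- a normal form package adapted to orbits of exponent `e` -/
structure Gd (Φ : ℕ → ℕ → EE n → EE n) (e : ℝ) (c : ℕ → ℕ) (N : ℕ → EE n → EE n)
    (P : ℕ → EE n ≃ EE n) : Prop where
  mono : StrictMono c
  big : ∀ i, 16 ≤ e * c i
  hol : ∀ i, Differentiable ℂ (P i)
  hol' : ∀ i, Differentiable ℂ (P i).symm
  zero : ∀ i, P i 0 = 0
  tan : ∀ i, Tan (Real.exp (e / 2 * c i)) (N i)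
  S1 : ∀ i u p, ‖u‖ ≤ Real.exp (-(e * c i)) →
    ‖p - N (i + 1) (Φ (c i) (c (i + 1)) u)‖ ≤ Real.exp (-(3 * c (i + 1))) →
    ‖(P i).symm p - N i u‖ ≤ Real.exp (-(3 * c i))
  S2 : ∀ i u p q, ‖u‖ ≤ Real.exp (-(e * c i)) →
    ‖p - N (i + 1) (Φ (c i) (c (i + 1)) u)‖ ≤ Real.exp (-(3 * c (i + 1))) →
    ‖q - N (i + 1) (Φ (c i) (c (i + 1)) u)‖ ≤ Real.exp (-(3 * c (i + 1))) →
    ‖(P i).symm p - (P i).symm q‖ ≤ Real.exp (2 * c (i + 1) - 2 * c i) * ‖p - q‖
  hit : ∀ (R : ℝ) (i0 : ℕ), ∃ i, i0 ≤ i ∧ ∀ x : EE n, ‖x‖ ≤ R →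
    ‖OO P i x‖ ≤ Real.exp (e / 2 * c i)

theorem prep (hh : NAHyp Φ r σ)
    (H : ∀ (m : ℕ) (β : ℝ) (J0 : ℕ), 0 < β → NFP Φ m β J0) {e : ℝ} (he : 0 < e) (he1 : e ≤ 1)
    (J0 : ℕ) : ∃ c N P, J0 ≤ c 0 ∧ Gd Φ e c N P := by
  obtain ⟨m, hm⟩ := ev_lin he 6
  obtain ⟨J1, hJ1⟩ := ev_lin he 16
  obtain ⟨c, N, Q, hc, hJ, hdbl, hN, hQ, hQ', hQt, hQt', happ, hhit⟩ :=
    H m (e / 2) (max J0 J1) (by positivity)
  have hbig : ∀ i, 16 ≤ e * c i := fun i =>
    hJ1 _ (((le_max_right _ _).trans hJ).trans (hc.monotone (Nat.zero_le i)))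
  have hle : ∀ i, c i ≤ c (i + 1) := fun i => (hc (Nat.lt_succ_self i)).le
  have hinj : ∀ i, Function.Injective (Lm Φ (c i) (c (i + 1))) := fun i =>
    inj_of_lower (hh.inv _ _ (hle i))
  set P : ℕ → EE n ≃ EE n := fun i => (Q i).trans (Le (Lm Φ (c i) (c (i + 1)))).toEquiv with hP
  have hPa : ∀ i x, P i x = Lm Φ (c i) (c (i + 1)) (Q i x) := fun i x => Le_apply (hinj i) _
  have hPs : ∀ i p, (P i).symm p = (Q i).symm ((Le (Lm Φ (c i) (c (i + 1)))).symm p) :=
    fun i p => rfl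
  have key : ∀ i u, ‖u‖ ≤ Real.exp (-(e * c i)) →
      ‖Q i (N i u)‖ < (Real.exp (e / 2 * c i))⁻¹ / 16 ∧ ∀ p,
      ‖p - N (i + 1) (Φ (c i) (c (i + 1)) u)‖ ≤ Real.exp (-(3 * c (i + 1))) →
      ‖(Le (Lm Φ (c i) (c (i + 1)))).symm p - Q i (N i u)‖ ≤ Real.exp (-(3 * c i)) / 2 ∧
      ‖(Le (Lm Φ (c i) (c (i + 1)))).symm p‖ < (Real.exp (e / 2 * c i))⁻¹ / 16 := by
    intro i u hu
    have hb := hbig i
    have hy : (16 : ℝ) ≤ c i := by nlinarith [(Nat.cast_nonneg (c i) : (0 : ℝ) ≤ c i)]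
    have hy1 : (c i : ℝ) + 1 ≤ c (i + 1) := by exact_mod_cast hc (Nat.lt_succ_self i)
    have hy2 : (c (i + 1) : ℝ) ≤ 2 * c i := by exact_mod_cast hdbl i
    have hX := Real.exp_pos (e / 2 * c i)
    have hXi : (Real.exp (e / 2 * c i))⁻¹ = Real.exp (-(e / 2 * c i)) := (Real.exp_neg _).symm
    have hX' := Real.exp_pos (-(e / 2 * c i))
    have h1 : Real.exp (-(e * c i)) ≤ Real.exp (-(e / 2 * c i)) / 256 :=
      exp_le_div (by norm_num) (big_le_exp (x := e / 2 * c i) (by linarith)) (by linarith)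
    have h2 : Real.exp (-(3 * c i)) ≤ Real.exp (-(e * c i)) :=
      Real.exp_le_exp.2 (by nlinarith)
    have h3 := tan_norm hX (hN i) (z := u) (by rw [hXi]; linarith)
    have h4 := tan_norm hX (hQt i) (z := N i u) (by rw [hXi]; linarith)
    refine ⟨by rw [hXi]; linarith, fun p hp => ?_⟩
    have h5 := happ i u (by linarith)
    have h6 : (Le (Lm Φ (c i) (c (i + 1)))).symm p - Q i (N i u) =
        (Le (Lm Φ (c i) (c (i + 1)))).symm (p - Lm Φ (c i) (c (i + 1)) (Q i (N i u))) := by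
      rw [map_sub, ← Le_apply (hinj i), ContinuousLinearEquiv.symm_apply_apply]
    have h7 := Le_symm_le (hh.inv _ _ (hle i)) (p - Lm Φ (c i) (c (i + 1)) (Q i (N i u)))
    have h8 := norm_sub_le_norm_sub_add_norm_sub p (N (i + 1) (Φ (c i) (c (i + 1)) u))
      (Lm Φ (c i) (c (i + 1)) (Q i (N i u)))
    have h9 : ‖u‖ ^ (m + 1) ≤ Real.exp (-(6 * c i)) := by
      calc ‖u‖ ^ (m + 1) ≤ Real.exp (-(e * c i)) ^ (m + 1) := by gcongr
        _ = Real.exp ((m + 1 : ℕ) * -(e * c i)) := (Real.exp_nat_mul _ _).symm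
        _ ≤ _ := Real.exp_le_exp.2 (by
          have := hm (m + 1) (Nat.le_succ m)
          nlinarith)
    have h10 : Real.exp ((c (i + 1) : ℝ) - c i) * Real.exp (-(3 * c (i + 1))) ≤
        Real.exp (-(3 * c i)) / 4 := by
      rw [← Real.exp_add]
      exact exp_le_div (by norm_num) (four_le_exp le_rfl) (by linarith)
    have h11 : Real.exp ((c (i + 1) : ℝ) - c i) *
        (Real.exp (e / 2 * c i) * Real.exp (-(6 * c i))) ≤ Real.exp (-(3 * c i)) / 4 := by
      rw [← Real.exp_add, ← Real.exp_add]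
      exact exp_le_div (by norm_num) (four_le_exp le_rfl) (by nlinarith)
    have h12 : ‖(Le (Lm Φ (c i) (c (i + 1)))).symm p - Q i (N i u)‖ ≤
        Real.exp (-(3 * c i)) / 2 := by
      rw [h6]
      refine h7.trans ?_
      have h13 : ‖p - Lm Φ (c i) (c (i + 1)) (Q i (N i u))‖ ≤ Real.exp (-(3 * c (i + 1))) +
          Real.exp (e / 2 * c i) * Real.exp (-(6 * c i)) := by
        have := mul_le_mul_of_nonneg_left h9 hX.le
        linarith
      have := mul_le_mul_of_nonneg_left h13 (Real.exp_pos ((c (i + 1) : ℝ) - c i)).le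
      rw [mul_add] at this
      linarith
    refine ⟨h12, ?_⟩
    have h14 := norm_le_insert' ((Le (Lm Φ (c i) (c (i + 1)))).symm p) (Q i (N i u))
    rw [hXi]; linarith
  refine ⟨c, N, P, (le_max_left _ _).trans hJ, hc, hbig, fun i => ?_, fun i => ?_, fun i => ?_, hN,
    fun i u p hu hp => ?_, fun i u p q hu hp hq => ?_, fun R i0 => ?_⟩
  · exact (Le (Lm Φ (c i) (c (i + 1)))).differentiable.comp (hQ i)
  · exact (hQ' i).comp (Le (Lm Φ (c i) (c (i + 1)))).symm.differentiable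
  · rw [hPa, tan_zero (Real.exp_pos _) (hQt i), map_zero]
  · obtain ⟨h1, h2⟩ := key i u hu
    obtain ⟨h3, h4⟩ := h2 p hp
    have h5 := tan_lip (Real.exp_pos _) (hQt' i) h4 h1
    rw [Equiv.symm_apply_apply] at h5
    rw [hPs]; linarith
  · obtain ⟨-, h2⟩ := key i u hu
    have h5 := tan_lip (Real.exp_pos _) (hQt' i) (h2 p hp).2 (h2 q hq).2
    rw [← map_sub (Le (Lm Φ (c i) (c (i + 1)))).symm] at h5
    have h6 := Le_symm_le (hh.inv _ _ (hle i)) (p - q)
    have hy1 : (c i : ℝ) + 1 ≤ c (i + 1) := by exact_mod_cast hc (Nat.lt_succ_self i)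
    have h7 := two_le_exp (x := (c (i + 1) : ℝ) - c i) (by linarith)
    have h8 : Real.exp (2 * (c (i + 1) : ℝ) - 2 * c i) =
        Real.exp ((c (i + 1) : ℝ) - c i) * Real.exp ((c (i + 1) : ℝ) - c i) := by
      rw [← Real.exp_add]; congr 1; ring
    rw [hPs, hPs, h8, mul_assoc]
    refine h5.trans ?_
    exact mul_le_mul h7 h6 (norm_nonneg _) (Real.exp_pos _).le
  · obtain ⟨i, hi, h⟩ := hhit R i0
    refine ⟨i, hi, fun x hx => ?_⟩
    rw [OO_eq_orb]
    have : (fun j => (P j : EE n → EE n)) = fun j y => Lm Φ (c j) (c (j + 1)) (Q j y) :=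
      funext fun j => funext fun y => hPa j y
    rw [this]; exact h x hx

/-- the limit maps -/
noncomputable def chi (Φ : ℕ → ℕ → EE n → EE n) (c : ℕ → ℕ) (N : ℕ → EE n → EE n)
    (P : ℕ → EE n ≃ EE n) (j : ℕ) (z : EE n) : EE n :=
  limUnder atTop fun k => (OO P k).symm (N k (Φ j (c k) z))

variable {e : ℝ} {c : ℕ → ℕ} {N : ℕ → EE n → EE n} {P : ℕ → EE n ≃ EE n}

theorem chi_coc (hc : Coc Φ r κ) (G : Gd Φ e c N P) {j k : ℕ} (hjk : j ≤ k) {w : EE n}
    (hw : w ∈ ball (0 : EE n) (r / κ)) : chi Φ c N P k (Φ j k w) = chi Φ c N P j w := by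
  unfold chi limUnder
  congr 1
  refine Filter.map_congr ?_
  filter_upwards [eventually_ge_atTop k] with i hi
  rw [hc.coc j k (c i) hjk (hi.trans (G.mono.id_le i)) w hw]

theorem chi_zero (hc : Coc Φ r κ) (G : Gd Φ e c N P) (j : ℕ) : chi Φ c N P j 0 = 0 := by
  refine Tendsto.limUnder_eq (tendsto_const_nhds.congr' ?_)
  filter_upwards [eventually_ge_atTop j] with i hi
  rw [hc.zero j (c i) (hi.trans (G.mono.id_le i)), tan_zero (Real.exp_pos _) (G.tan i),
    eq_comm, Equiv.symm_apply_eq, OO_zero G.zero]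

theorem tendsto_eta (G : Gd Φ e c N P) (l : ℕ) :
    Tendsto (fun k => Real.exp (2 * (c k : ℝ) - 2 * c l) * Real.exp (-(3 * c k))) atTop (𝓝 0) := by
  have h1 : Tendsto (fun k => (c k : ℝ)) atTop atTop :=
    tendsto_natCast_atTop_atTop.comp G.mono.tendsto_atTop
  have h2 := Real.tendsto_exp_neg_atTop_nhds_zero.comp h1
  refine squeeze_zero (fun k => by positivity) (fun k => ?_) h2
  rw [← Real.exp_add]
  exact Real.exp_le_exp.2 (by linarith [(Nat.cast_nonneg (c l) : (0 : ℝ) ≤ c l)])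

theorem chi_loc (hc : Coc Φ r κ) (G : Gd Φ e c N P) {j l : ℕ} (hj : j ≤ c l) {z : EE n}
    (hz : z ∈ ball (0 : EE n) (r / κ))
    (hd : ∀ k, l ≤ k → ‖Φ j (c k) z‖ ≤ Real.exp (-(e * c k))) {k : ℕ} (hk : l ≤ k) :
    ‖OO P l (chi Φ c N P j z) - OO P l ((OO P k).symm (N k (Φ j (c k) z)))‖ ≤
      Real.exp (2 * (c k : ℝ) - 2 * c l) * Real.exp (-(3 * c k)) := by
  have hco : ∀ k, l ≤ k → Φ j (c (k + 1)) z = Φ (c k) (c (k + 1)) (Φ j (c k) z) := fun k hk =>
    (hc.coc j (c k) (c (k + 1)) (hj.trans (G.mono.monotone hk))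
      (G.mono (Nat.lt_succ_self k)).le z hz).symm
  refine shadow_lim (a := fun k => N k (Φ j (c k) z)) (d := fun k => Real.exp (-(3 * c k)))
    (w := fun k => 2 * (c k : ℝ)) (fun k => (Real.exp_pos _).le) (fun k hk p hp => ?_)
    (fun k hk p q hp hq => ?_) (OO_diff' G.hol' l).continuous (tendsto_eta G l) hk
  · rw [hco k hk] at hp
    exact G.S1 k _ p (hd k hk) hp
  · rw [hco k hk] at hp hq
    exact G.S2 k _ p q (hd k hk) hp hq

theorem chi_loc0 (hc : Coc Φ r κ) (G : Gd Φ e c N P) {j l : ℕ} (hj : j ≤ c l) {z : EE n}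
    (hz : z ∈ ball (0 : EE n) (r / κ))
    (hd : ∀ k, l ≤ k → ‖Φ j (c k) z‖ ≤ Real.exp (-(e * c k))) :
    ‖OO P l (chi Φ c N P j z) - N l (Φ j (c l) z)‖ ≤ Real.exp (-(3 * c l)) := by
  simpa using chi_loc hc G hj hz hd le_rfl

theorem chi_diff (hc : Coc Φ r κ) (G : Gd Φ e c N P) {j l : ℕ} (hj : j ≤ c l) {U : Set (EE n)}
    (hU : IsOpen U) (hUr : U ⊆ ball (0 : EE n) (r / κ))
    (hd : ∀ z ∈ U, ∀ k, l ≤ k → ‖Φ j (c k) z‖ ≤ Real.exp (-(e * c k))) :
    DifferentiableOn ℂ (fun z => OO P l (chi Φ c N P j z)) U := by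
  refine diffOn_of_unif
    (G := fun k z => OO P l ((OO P (k + l)).symm (N (k + l) (Φ j (c (k + l)) z)))) hU
    (fun k => ?_) ?_
  · refine ((OO_diff G.hol l).comp (OO_diff' G.hol' (k + l))).comp_differentiableOn ?_
    refine (G.tan (k + l)).1.comp ((hc.hol j _ (hj.trans (G.mono.monotone (Nat.le_add_left _ _)))).mono
      (hUr.trans (ball_subset_ball (div_le_self hc.r_pos.le hc.one_le)))) fun z hz => ?_
    rw [mem_ball_zero_iff, ← Real.exp_neg]
    refine (hd z hz _ (Nat.le_add_left _ _)).trans_lt (Real.exp_lt_exp.2 ?_)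
    linarith [G.big (k + l)]
  · rw [Metric.tendstoUniformlyOn_iff]
    intro ε hε
    have h1 := ((tendsto_eta G l).comp (tendsto_add_atTop_nat l)).eventually (gt_mem_nhds hε)
    filter_upwards [h1] with k hk z hz
    rw [dist_eq_norm]
    exact (chi_loc hc G hj (hUr hz) (hd z hz) (Nat.le_add_left _ _)).trans_lt hk

end Crest.Agent.T223.NaE
end

-- ▼ part T223/NaE4_6
section

/-!
# Row 223, module NA, leaf END (helper6): `endNaStmt`
-/

set_option autoImplicit false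
set_option linter.unusedSectionVars false

open Set Filter Topology Metric

namespace Crest.Agent.T223.NaE

open Crest.Agent.T223.Tr Crest.Agent.T223.Dyn Crest.Agent.T223.Na

variable {n : ℕ} {Φ : ℕ → ℕ → EE n → EE n} {r κ : ℝ} {σ : ℕ → ℝ}

/-- the limit maps of one construction -/
structure Core (Φ : ℕ → ℕ → EE n → EE n) (r κ c0 δ : ℝ) (c : ℕ → ℕ) (χ : ℕ → EE n → EE n) :
    Prop where
  mono : StrictMono c
  coc : ∀ j k, j ≤ k → ∀ w ∈ ball (0 : EE n) (r / κ), χ k (Φ j k w) = χ j w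
  zero : ∀ j, χ j 0 = 0
  hol : ∀ l, DifferentiableOn ℂ (χ (c l)) (ball 0 (2 * Real.exp (-(δ * c l))))
  inj : ∀ l, InjOn (χ (c l)) (ball 0 (2 * Real.exp (-(δ * c l))))
  imm : ∀ l, ∀ z ∈ ball (0 : EE n) (2 * Real.exp (-(δ * c l))),
    Function.Injective (fderiv ℂ (χ (c l)) z)
  bdd : ∀ l, ∃ R : ℝ, ∀ z ∈ ball (0 : EE n) (2 * Real.exp (-(δ * c l))), ‖χ (c l) z‖ ≤ R
  onto : ∀ (R : ℝ) (l0 : ℕ), ∃ l, l0 ≤ l ∧
    closedBall (0 : EE n) R ⊆ χ (c l) '' closedBall 0 (Real.exp (-(c0 / 8 * c l)))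

theorem core (hc : Coc Φ r κ) (hh : NAHyp Φ r σ)
    (H : ∀ (m : ℕ) (β : ℝ) (J0 : ℕ), 0 < β → NFP Φ m β J0) {c0 : ℝ} (T : Tiny Φ r c0) {δ : ℝ}
    (hδ : 0 < δ) (hδc : δ ≤ c0 / 8) : ∃ c χ, Core Φ r κ c0 δ c χ := by
  have hr := hc.r_pos
  have hκ := hc.one_le
  have hc0 := T.pos
  have hc1 := T.le
  have hrκ : 0 < r / κ := by positivity
  set e := c0 * δ with he
  have he0 : 0 < e := by positivity
  have heδ : e ≤ δ := by rw [he]; nlinarith
  obtain ⟨k1, hk1⟩ := T.sm δ hδ (by linarith)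
  obtain ⟨k2, hk2⟩ := ev_exp hδ (4 / (r / κ))
  obtain ⟨c, N, P, hJ, G⟩ := prep hh H he0 (by linarith) (max k1 k2)
  have hcl : ∀ l, max k1 k2 ≤ c l := fun l => hJ.trans (G.mono.monotone (Nat.zero_le l))
  set s : ℕ → ℝ := fun l => 4 * Real.exp (-(δ * c l)) with hs
  have hs0 : ∀ l, 0 < s l := fun l => by positivity
  have hsr : ∀ l, ball (0 : EE n) (s l) ⊆ ball 0 (r / κ) := fun l => by
    refine ball_subset_ball ?_
    have h1 := hk2 (c l) ((le_max_right _ _).trans (hcl l))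
    rw [div_le_iff₀ hrκ] at h1
    simp only [hs, Real.exp_neg]
    rw [← div_eq_mul_inv, div_le_iff₀ (Real.exp_pos _)]
    linarith
  have hdec : ∀ l, ∀ z ∈ ball (0 : EE n) (s l), ∀ k, l ≤ k →
      ‖Φ (c l) (c k) z‖ ≤ Real.exp (-(e * c k)) := fun l z hz k hk =>
    hk1 (c l) ((le_max_left _ _).trans (hcl l)) z (mem_ball_zero_iff.1 hz).le (c k)
      (G.mono.monotone hk)
  set χ := chi Φ c N P with hχ
  set h : ℕ → EE n → EE n := fun l z => OO P l (χ (c l) z) with hh'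
  have hχh : ∀ l, χ (c l) = fun z => (OO P l).symm (h l z) := fun l => by
    funext z; simp [hh']
  have hhol : ∀ l, DifferentiableOn ℂ (h l) (ball 0 (s l)) := fun l =>
    chi_diff hc G le_rfl isOpen_ball (hsr l) (hdec l)
  have hnear : ∀ l, ∀ z ∈ ball (0 : EE n) (s l), ‖h l z - z‖ ≤ s l / 8 := by
    intro l z hz
    have hb := G.big l
    have hy0 : (0 : ℝ) ≤ c l := Nat.cast_nonneg _
    have hb' : 16 ≤ δ * c l := hb.trans (by gcongr)
    have hbe : e * c l ≤ δ * c l := by gcongr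
    have hy : δ * c l ≤ c l := by nlinarith
    have h1 := chi_loc0 hc G le_rfl (hsr l hz) (hdec l z hz)
    rw [hc.self (c l) z (ball_subset_ball (div_le_self hr.le hκ) (hsr l hz))] at h1
    have hz' := mem_ball_zero_iff.1 hz
    have h2 : Real.exp (-(δ * c l)) ≤ Real.exp (-(e / 2 * c l)) / 256 :=
      exp_le_div (by norm_num) (big_le_exp (x := δ / 2 * c l) (by linarith)) (by linarith)
    have h3 := (G.tan l).2 z (by
      rw [mem_ball_zero_iff, ← Real.exp_neg]
      simp only [hs] at hz'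
      linarith [Real.exp_pos (-(e / 2 * c l))])
    have h4 : Real.exp (-(3 * c l)) ≤ Real.exp (-(δ * c l)) / 4 :=
      exp_le_div (by norm_num) (four_le_exp le_rfl) (by linarith)
    have h5 : Real.exp (e / 2 * c l) * ‖z‖ ≤ 1 / 64 := by
      have h6 : Real.exp (e / 2 * c l) * Real.exp (-(e / 2 * c l)) = 1 := by
        rw [← Real.exp_add]; simp
      have h7 : ‖z‖ ≤ Real.exp (-(e / 2 * c l)) / 64 := by simp only [hs] at hz'; linarith
      have := mul_le_mul_of_nonneg_left h7 (Real.exp_pos (e / 2 * c l)).le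
      rw [mul_div_assoc', h6] at this
      exact this
    have h8 : Real.exp (e / 2 * c l) * ‖z‖ ^ 2 ≤ 1 / 64 * ‖z‖ := by
      rw [pow_two, ← mul_assoc]; gcongr
    have h9 := norm_sub_le_norm_sub_add_norm_sub (h l z) (N l z) z
    simp only [hs] at hz' ⊢
    linarith [Real.exp_pos (-(δ * c l))]
  have hemb := fun l => near_id (hs0 l) (hhol l) (hnear l)
  have hs2 : ∀ l, s l / 2 = 2 * Real.exp (-(δ * c l)) := fun l => by simp only [hs]; ring
  have hsub : ∀ l, ball (0 : EE n) (s l / 2) ⊆ ball 0 (s l) := fun l =>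
    ball_subset_ball (by linarith [hs0 l])
  have hh0 : ∀ l, h l 0 = 0 := fun l => by
    simp only [hh', hχ, chi_zero hc G, OO_zero G.zero]
  refine ⟨c, χ, G.mono, fun j k hjk w hw => chi_coc hc G hjk hw, chi_zero hc G, fun l => ?_,
    fun l => ?_, fun l z hz => ?_, fun l => ?_, fun R l0 => ?_⟩
  · rw [hχh, ← hs2]
    exact (OO_diff' G.hol' l).comp_differentiableOn ((hhol l).mono (hsub l))
  · rw [← hs2]
    intro x hx y hy hxy
    exact (hemb l).1 hx hy (by simp only [hh', hxy])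
  · rw [← hs2] at hz
    have h1 : DifferentiableAt ℂ (h l) z :=
      (hhol l).differentiableAt (isOpen_ball.mem_nhds (hsub l hz))
    rw [hχh, fderiv_fun_comp z (OO_diff' G.hol' l _) h1]
    exact (inj_fderiv_symm (OO_diff G.hol l) (OO_diff' G.hol' l) _).comp ((hemb l).2.1 z hz)
  · obtain ⟨R, hR⟩ := ((isCompact_closedBall (0 : EE n) (2 * s l)).image
      (OO_diff' G.hol' l).continuous).isBounded.exists_norm_le
    refine ⟨R, fun z hz => hR _ ⟨h l z, ?_, by rw [hχh]⟩⟩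
    rw [← hs2] at hz
    have h1 := hnear l z (hsub l hz)
    have h2 := mem_ball_zero_iff.1 hz
    have h3 : ‖h l z‖ ≤ ‖h l z - z‖ + ‖z‖ := by simpa using norm_add_le (h l z - z) z
    rw [mem_closedBall_zero_iff]; linarith [hs0 l]
  · -- a fixed ball whose orbits have the exponent `c0`
    set t0 := min (r / κ) (r * Real.exp (-1)) with ht0
    have ht00 : 0 < t0 := by positivity
    obtain ⟨t1, ht1, ht1s⟩ := Metric.mem_nhds_iff.1 (phi_nhds hc hh (Nat.zero_le (c 0)) ht00)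
    set t2 := min (t1 / 2) (s 0 / 4) with ht2
    have ht20 : 0 < t2 := by have := hs0 0; positivity
    have hball : ∀ x : EE n, ‖x‖ ≤ t2 / 2 → ∃ z ∈ ball (0 : EE n) t0, χ 0 z = x := by
      intro x hx
      obtain ⟨w, hw, hwx⟩ := (hemb 0).2.2 t2 ht20.le
        ((min_le_right _ _).trans_lt (by linarith [hs0 0]))
        (show x ∈ closedBall (h 0 0) (t2 / 2) by rw [hh0]; exact mem_closedBall_zero_iff.2 hx)
      obtain ⟨z, hz, rfl⟩ := ht1s
        (closedBall_subset_ball ((min_le_left _ _).trans_lt (by linarith)) hw)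
      refine ⟨z, hz, ?_⟩
      rw [← hwx, hχ, ← chi_coc hc G (Nat.zero_le (c 0)) (ball_subset_ball (min_le_left _ _) hz)]
      rfl
    obtain ⟨k3, -, hk3⟩ := T.ch 0
    set x1 := Real.log (t2 / 2) with hx1
    set ρ := Real.log (max R (t2 / 2)) + 1 with hρ
    have hρ1 : x1 < ρ := by
      have := Real.log_le_log (by positivity : 0 < t2 / 2) (le_max_right R (t2 / 2))
      linarith
    obtain ⟨l, hl, hhit⟩ := G.hit (Real.exp (2 * ρ - x1)) (max l0 k3)
    refine ⟨l, (le_max_left _ _).trans hl, fun x hx => ?_⟩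
    have hb := G.big l
    have hy0 : (0 : ℝ) ≤ c l := Nat.cast_nonneg _
    have hb1 : e * c l ≤ c0 / 8 * c l := by gcongr; linarith
    have hb2 : δ * c l ≤ c0 / 8 * c l := by gcongr
    have hb3 : c0 * c l ≤ c l := by nlinarith
    have hsm : ∀ y : EE n, ‖y‖ ≤ Real.exp x1 → ‖OO P l y‖ ≤ Real.exp (2 - c0 * c l) := by
      intro y hy
      rw [hx1, Real.exp_log (by positivity)] at hy
      obtain ⟨z, hz, rfl⟩ := hball y hy
      have hd : ∀ k, l ≤ k → ‖Φ 0 (c k) z‖ ≤ Real.exp (-(c0 * c k)) := fun k hk => by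
        have := hk3 (c k) ((((le_max_right _ _).trans hl).trans hk).trans (G.mono.id_le k)) z
          ((mem_ball_zero_iff.1 hz).le.trans (min_le_right _ _))
        simpa using this
      have h1 := chi_loc0 hc G (Nat.zero_le (c l)) (ball_subset_ball (min_le_left _ _) hz)
        (fun k hk => (hd k hk).trans (Real.exp_le_exp.2 (neg_le_neg (by gcongr; linarith))))
      have h2 := tan_norm (Real.exp_pos _) (G.tan l) (z := Φ 0 (c l) z) (by
        rw [← Real.exp_neg]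
        exact (hd l le_rfl).trans_lt (Real.exp_lt_exp.2 (by linarith)))
      have h3 : Real.exp (-(3 * c l)) ≤ Real.exp (-(c0 * c l)) := Real.exp_le_exp.2 (by linarith)
      have h4 : Real.exp (-(c0 * c l)) ≤ Real.exp (2 - c0 * c l) / 4 :=
        exp_le_div (by norm_num) (four_le_exp le_rfl) (by linarith)
      have h5 := norm_le_insert' (OO P l (chi Φ c N P 0 z)) (N l (Φ 0 (c l) z))
      have h6 := hd l le_rfl
      have h7 := Real.exp_pos (2 - c0 * c l)
      simp only [hχ]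
      linarith
    have h3 := three_circ (f := OO P l) (x1 := x1) (x3 := 2 * ρ - x1)
      (R := Real.exp (2 * ρ - x1) + 1) (θ := 1 / 2) (by linarith) (by linarith)
      (OO_diff G.hol l).differentiableOn (by linarith) (by norm_num) (by norm_num) hsm hhit
      (z := x) (by
        have h1 : 1 / 2 * x1 + (1 - 1 / 2) * (2 * ρ - x1) = ρ := by ring
        have h2 : 0 < max R (t2 / 2) := lt_max_of_lt_right (by positivity)
        rw [h1]
        calc ‖x‖ ≤ max R (t2 / 2) := (mem_closedBall_zero_iff.1 hx).trans (le_max_left _ _)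
          _ = Real.exp (Real.log (max R (t2 / 2))) := (Real.exp_log h2).symm
          _ ≤ _ := Real.exp_le_exp.2 (by linarith))
    have h4 : ‖OO P l x‖ ≤ Real.exp (-(c0 / 8 * c l)) / 2 :=
      h3.trans (exp_le_div (by norm_num) (two_le_exp le_rfl) (by linarith))
    obtain ⟨z, hz, hzx⟩ := (hemb l).2.2 (Real.exp (-(c0 / 8 * c l))) (Real.exp_pos _).le
      (by
        rw [hs2]
        have := Real.exp_le_exp.2 (neg_le_neg hb2)
        linarith [Real.exp_pos (-(δ * c l))])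
      (show OO P l x ∈ closedBall (h l 0) _ by rw [hh0]; exact mem_closedBall_zero_iff.2 h4)
    exact ⟨z, hz, (OO P l).injective hzx⟩

/-- all orbits have one and the same exponent -/
theorem unif_dec (hc : Coc Φ r κ) (hh : NAHyp Φ r σ)
    (H : ∀ (m : ℕ) (β : ℝ) (J0 : ℕ), 0 < β → NFP Φ m β J0) {c0 : ℝ} (T : Tiny Φ r c0) {ρ : ℝ}
    (hρ1 : ρ ≤ r / κ / κ) (hρ2 : ρ ≤ r * Real.exp (-1)) (j : ℕ) :
    ∃ k0, j ≤ k0 ∧ ∀ k, k0 ≤ k → ∀ z ∈ ball (0 : EE n) ρ,
      ‖Φ j k z‖ ≤ Real.exp (-(c0 * (c0 / 8) * k)) := by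
  have hr := hc.r_pos
  have hκ := hc.one_le
  have hc0 := T.pos
  have hc1 := T.le
  have hρ3 : ρ ≤ r / κ := hρ1.trans (div_le_self (by positivity) hκ)
  set δ := min (c0 / (j + 1)) (c0 / 8) with hδ
  obtain ⟨c, χ, K⟩ := core hc hh H T (δ := δ) (by positivity) (min_le_right _ _)
  obtain ⟨k1, hjk1, hk1⟩ := T.ch j
  obtain ⟨k2, hk2⟩ := T.sm (c0 / 8) (by positivity) (by linarith)
  have hin : ∀ l, k1 ≤ l → ∀ z ∈ ball (0 : EE n) ρ,
      Φ j (c l) z ∈ ball (0 : EE n) (2 * Real.exp (-(δ * c l))) := fun l hl z hz => by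
    have h1 := hk1 (c l) (hl.trans (K.mono.id_le l)) z ((mem_ball_zero_iff.1 hz).le.trans hρ2)
    have h2 : Real.exp (-(c0 / (j + 1) * c l)) ≤ Real.exp (-(δ * c l)) :=
      Real.exp_le_exp.2 (neg_le_neg (by gcongr; exact min_le_left _ _))
    rw [mem_ball_zero_iff]
    linarith [Real.exp_pos (-(δ * c l))]
  obtain ⟨R, hR⟩ := K.bdd k1
  obtain ⟨l, hl, hon⟩ := K.onto R (max k1 k2)
  have hl1 : k1 ≤ l := (le_max_left _ _).trans hl
  have hjl : j ≤ c l := (hjk1.trans hl1).trans (K.mono.id_le l)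
  refine ⟨c l, hjl, fun k hk z hz => ?_⟩
  have hz' : z ∈ ball (0 : EE n) (r / κ) := ball_subset_ball hρ3 hz
  have h1 : ‖χ j z‖ ≤ R := by
    rw [← K.coc j (c k1) (hjk1.trans (K.mono.id_le k1)) z hz']
    exact hR _ (hin k1 le_rfl z hz)
  obtain ⟨w, hw, hwz⟩ := hon (mem_closedBall_zero_iff.2 h1)
  have hw1 := mem_closedBall_zero_iff.1 hw
  have h2 : w = Φ j (c l) z := by
    refine K.inj l ?_ (hin l hl1 z hz) (by rw [hwz, K.coc j (c l) hjl z hz'])
    have h2 : Real.exp (-(c0 / 8 * c l)) ≤ Real.exp (-(δ * c l)) :=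
      Real.exp_le_exp.2 (neg_le_neg (by gcongr; exact min_le_right _ _))
    rw [mem_ball_zero_iff]
    linarith [Real.exp_pos (-(δ * c l))]
  rw [← hc.coc j (c l) k hjl hk z hz', ← h2]
  exact hk2 (c l) (((le_max_right _ _).trans hl).trans (K.mono.id_le l)) w
    (by linarith [Real.exp_pos (-(c0 / 8 * c l))]) k hk

/-- **leaf END of the module NA** -/
theorem endNaStmt (n : ℕ) : EndNaStmt n := by
  intro Φ r κ σ hc hh hD H
  have hr := hc.r_pos
  have hκ := hc.one_le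
  obtain ⟨c0, T⟩ := exists_tiny hr hD
  have hc0 := T.pos
  have hc1 := T.le
  obtain ⟨ρ1, hρ1, hinj⟩ := phi_inj hc hh
  set ρ := min ρ1 (min (r / κ / κ) (r * Real.exp (-1))) with hρ
  have hρ0 : 0 < ρ := by positivity
  have hρa : ρ ≤ r / κ / κ := (min_le_right _ _).trans (min_le_left _ _)
  have hρb : ρ ≤ r / κ := hρa.trans (div_le_self (by positivity) hκ)
  have hρc : ρ ≤ r := hρb.trans (div_le_self hr.le hκ)
  set δ := c0 * (c0 / 8) with hδ
  obtain ⟨c, χ, K⟩ := core hc hh H T (δ := δ) (by positivity) (by rw [hδ]; nlinarith)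
  have key : ∀ j, ∃ l, j ≤ c l ∧ MapsTo (Φ j (c l)) (ball 0 ρ)
      (ball (0 : EE n) (2 * Real.exp (-(δ * c l)))) := fun j => by
    obtain ⟨k0, hj, hk0⟩ := unif_dec hc hh H T hρa ((min_le_right _ _).trans (min_le_right _ _)) j
    refine ⟨k0, hj.trans (K.mono.id_le k0), fun z hz => ?_⟩
    have := hk0 (c k0) (K.mono.id_le k0) z hz
    rw [mem_ball_zero_iff]
    linarith [Real.exp_pos (-(δ * c k0))]
  have heq : ∀ j l, j ≤ c l → EqOn (χ j) (χ (c l) ∘ Φ j (c l)) (ball 0 ρ) := fun j l hj z hz =>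
    (K.coc j (c l) hj z (ball_subset_ball hρb hz)).symm
  refine ⟨ρ, χ, hρ0, hρc, fun j => ?_, fun j => ?_, fun j w hw => ?_, K.zero,
    fun j k hjk w hw => K.coc j k hjk w (ball_subset_ball (by gcongr) hw), fun R => ?_⟩
  · obtain ⟨l, hj, hm⟩ := key j
    exact ((K.hol l).comp ((hc.hol j _ hj).mono (ball_subset_ball hρc)) hm).congr (heq j l hj)
  · obtain ⟨l, hj, hm⟩ := key j
    exact (((K.inj l).comp ((hinj j _ hj).mono (ball_subset_ball (min_le_left _ _))) hm)).congr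
      (heq j l hj).symm
  · obtain ⟨l, hj, hm⟩ := key j
    have h1 : χ j =ᶠ[𝓝 w] χ (c l) ∘ Φ j (c l) :=
      (heq j l hj).eventuallyEq_of_mem (isOpen_ball.mem_nhds hw)
    have hw' : w ∈ ball (0 : EE n) r := ball_subset_ball hρc hw
    rw [h1.fderiv_eq, fderiv_comp w ((K.hol l).differentiableAt (isOpen_ball.mem_nhds (hm hw)))
      ((hc.hol j _ hj).differentiableAt (isOpen_ball.mem_nhds hw'))]
    exact det_ne_of_inj ((K.imm l _ (hm hw)).comp (hc.imm j _ hj w hw'))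
  · obtain ⟨k0, hk0⟩ := ev_exp (a := c0 / 8) (by positivity) (2 / (ρ / κ))
    obtain ⟨l, hl, hon⟩ := K.onto R k0
    refine ⟨c l, hon.trans (image_mono (closedBall_subset_ball ?_))⟩
    have hρκ : 0 < ρ / κ := by positivity
    have h1 := hk0 (c l) (hl.trans (K.mono.id_le l))
    rw [div_le_iff₀ hρκ] at h1
    rw [Real.exp_neg, inv_eq_one_div, div_lt_iff₀ (Real.exp_pos _)]
    linarith

end Crest.Agent.T223.NaE
end

-- ▼ part T223/NaAll_80

/-!
# Row 223, module NA (helper80): the non-autonomous basin theorem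
-/

set_option autoImplicit false

namespace Crest.Agent.T223.Na

theorem naStmt {n : ℕ} (hn : 1 ≤ n) : NAStmt n :=
  naStmt_of hn (decStmt n) (volStmt n)
    (schedStmt (Fl23.flagStmt n) (Dyn.nfStmt_of_and (And.andStmt n)) (Dyn.lyapStmt n))
    (NaE.endNaStmt n)

end Crest.Agent.T223.Na
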