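import Crest.Agent.T223.Cut_61_Mg
import Crest.Agent.T223.TrRic_90
import Crest.Agent.T223.LbDef_78

/-!
# Row 223, module NFORM (helper79), part 4: `nfStmt`
-/

set_option autoImplicit false

open Set Filter Topology
open scoped ContDiff ComplexOrder

namespace Crest.Agent.T223.Nf

open Crest.Agent.R275.Geo Crest.Agent.R275.Core144
open Crest.Agent.R273.Kah_333 Crest.Agent.R273.Vol_333 Crest.Agent.R273.RMan4_798
open Crest.Agent.T223.Br

variable {n : ℕ}

/-- positive bisectional curvature gives a semipositive anticanonical metric -/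
theorem semipos_of_BKpos {M : Type} [TopologicalSpace M] {A : Atl n M} {K : Kah A}
    (hK : BKpos K) : (volK K).Semipos :=
  semipos_of_cur fun i _ hx =>
    (Tr.ricPos_of_BKpos hK i _ ((A.e i).map_source hx)).posSemidef

/-- **NF** from Hoermander's theorem and a strictly plurisubharmonic function of linear growth -/
theorem nfStmt (hn : 1 ≤ n) (H : Hm.HoerStmt) (hL : Lb.LbStmt n) : U0.NFStmt n := by
  have key : Ref.NFcStmt n := by
    intro M _ _ _ _ _ A _ P K p hK x
    obtain ⟨φ, hφ, hb, hp⟩ := (hL M A K hK).2.2 p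
    obtain ⟨i, hi⟩ := A.cover x
    have hpd : ∀ j, ∀ y ∈ (A.e j).source, (hsf A φ j y).PosDef := fun j y hy =>
      hp j _ ((A.e j).map_source hy)
    obtain ⟨s, C, h1, h2, h3⟩ := nform H hn P K hK.proper (Ref.cut_of_hyp hK)
      (semipos_of_BKpos hK.bk) p hφ (fun j y hy => (hpd j y hy).posSemidef) hi (hpd i x hi)
      zero_le_one (fun y => by
        rw [one_mul]
        exact (le_abs_self _).trans (hb y))
    refine ⟨s, C, h1, (U0.nsq_pos_iff K h1 hi).2 h2, fun y => ?_⟩
    obtain ⟨j, hj⟩ := A.cover y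
    rw [U0.nsq_eq K h1 hj]
    exact h3 j y hj
  exact Ref.nfStmt_of key

end Crest.Agent.T223.Nf
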