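import Crest.Agent.T223.BrDef_13
import Crest.Prelude.Def_SubmanifoldKahler
import Crest.Agent.N222.D.Sub
import Crest.Agent.R260.NN6_900
import Crest.Agent.R273.RMan4_798
import Crest.Agent.T223.BrDef2_13
import Crest.Agent.T223.U0Def_15
import Crest.Agent.T223.U0S_15
import Crest.Agent.T223.LbDef_78
import Crest.Agent.T223.TrRic_90
import Crest.Agent.T223.OsLaDef_10
import Crest.Agent.T223.OsKitA_61
import Crest.Agent.T223.Bx_45
import Crest.Agent.T223.Tch_45

-- ▼ part T223/Br1_13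
section

/-!
# Row 223 (S0345), bridge, part 1 (helper13): linear algebra of the induced hermitian metric

For a real linear map `A : ℂⁿ → E`: `pr A X v = ⟪X, A v⟫ + i ⟪X, A (i v)⟫`, `gL A a b = pr A (A e_a) e_b`.
-/

set_option autoImplicit false

open Set Filter Topology Complex
open scoped ContDiff Matrix ComplexConjugate RealInnerProductSpace ComplexOrder

namespace Crest.Agent.T223.Br

open Crest.Agent.R275.Geo Crest.Agent.R275.EDR890 Crest.Agent.R273.Ric_798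

noncomputable section

variable {n : ℕ}

/-- the unit vectors of `ℂⁿ` -/
abbrev ee (a : Fin n) : Cn n := EuclideanSpace.single a (1 : ℂ)

theorem eq_sum_ee (v : Cn n) : v = ∑ a, v a • ee a := by
  ext b
  simp [Finset.sum_apply, Pi.single_apply]

theorem single_I (a : Fin n) : (EuclideanSpace.single a I : Cn n) = I • ee a := by
  ext c
  simp

theorem II_smul (v : Cn n) : I • I • v = -v := by
  rw [smul_smul, I_mul_I, neg_smul, one_smul]

theorem csmul_eq (c : ℂ) (v : Cn n) : c • v = c.re • v + c.im • (I • v) := by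
  ext a
  simp only [PiLp.smul_apply, PiLp.add_apply, smul_eq_mul, real_smul]
  conv_lhs => rw [← re_add_im c]
  ring

theorem map_sum_of_add {φ : Cn n → ℂ} (ha : ∀ u v, φ (u + v) = φ u + φ v) (f : Fin n → Cn n) :
    φ (∑ a, f a) = ∑ a, φ (f a) :=
  map_sum (AddMonoidHom.mk' φ ha) f Finset.univ

theorem sum_lin {φ : Cn n → ℂ} (ha : ∀ u v, φ (u + v) = φ u + φ v)
    (hs : ∀ (c : ℝ) v, φ (c • v) = c * φ v) (hI : ∀ v, φ (I • v) = I * φ v) (v : Cn n) :
    φ v = ∑ a, v a * φ (ee a) := by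
  conv_lhs => rw [eq_sum_ee v]
  rw [map_sum_of_add ha]
  refine Finset.sum_congr rfl fun a _ => ?_
  rw [csmul_eq, ha, hs, hs, hI]
  conv_rhs => rw [← re_add_im (v a)]
  ring

theorem sum_anti {φ : Cn n → ℂ} (ha : ∀ u v, φ (u + v) = φ u + φ v)
    (hs : ∀ (c : ℝ) v, φ (c • v) = c * φ v) (hI : ∀ v, φ (I • v) = -I * φ v) (v : Cn n) :
    φ v = ∑ a, conj (v a) * φ (ee a) := by
  conv_lhs => rw [eq_sum_ee v]
  rw [map_sum_of_add ha]
  refine Finset.sum_congr rfl fun a _ => ?_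
  rw [csmul_eq, ha, hs, hs, hI]
  conv_rhs => rw [← re_add_im (v a)]
  simp only [map_add, map_mul, conj_ofReal, conj_I]
  ring

variable {E : Type} [NormedAddCommGroup E] [InnerProductSpace ℝ E]

/-- the pairing of an ambient vector with a tangent vector, conjugate linear in the latter -/
def pr (A : Cn n →L[ℝ] E) (X : E) (v : Cn n) : ℂ :=
  ((⟪X, A v⟫ : ℝ) : ℂ) + I * ((⟪X, A (I • v)⟫ : ℝ) : ℂ)

/-- the hermitian matrix induced by `A` -/
def gL (A : Cn n →L[ℝ] E) : Matrix (Fin n) (Fin n) ℂ :=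
  Matrix.of fun a b => pr A (A (ee a)) (ee b)

/-- multiplication by `i` is orthogonal for the induced metric -/
def Orth (A : Cn n →L[ℝ] E) : Prop := ∀ u v, ⟪A (I • u), A (I • v)⟫ = ⟪A u, A v⟫

variable {A : Cn n →L[ℝ] E}

theorem pr_re (X : E) (v : Cn n) : (pr A X v).re = ⟪X, A v⟫ := by simp [pr]


theorem pr_add_left (X Y : E) (v : Cn n) : pr A (X + Y) v = pr A X v + pr A Y v := by
  simp only [pr, inner_add_left, ofReal_add]
  ring

theorem pr_smul_left (c : ℝ) (X : E) (v : Cn n) : pr A (c • X) v = c * pr A X v := by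
  simp only [pr, real_inner_smul_left, ofReal_mul]
  ring

theorem pr_sum (X : E) (v : Cn n) : pr A X v = ∑ b, conj (v b) * pr A X (ee b) := by
  refine sum_anti (φ := pr A X) (fun u v => ?_) (fun c v => ?_) (fun v => ?_) v
  · simp only [pr, smul_add, map_add, inner_add_right, ofReal_add]
    ring
  · rw [pr, pr, smul_comm I c v, map_smul, map_smul, real_inner_smul_right, real_inner_smul_right]
    push_cast
    ring
  · rw [pr, pr, II_smul, map_neg, inner_neg_right]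
    push_cast
    linear_combination ((⟪X, A (I • v)⟫ : ℝ) : ℂ) * I_mul_I

theorem Orth.skew (h : Orth A) (u v : Cn n) : ⟪A (I • u), A v⟫ = -⟪A u, A (I • v)⟫ := by
  rw [← h (I • u) v, II_smul, map_neg, inner_neg_left]

theorem Orth.self (h : Orth A) (u : Cn n) : ⟪A u, A (I • u)⟫ = 0 := by
  have h1 := h.skew u u
  rw [real_inner_comm] at h1
  linarith

theorem Orth.pr_I (h : Orth A) (u v : Cn n) : pr A (A (I • u)) v = I * pr A (A u) v := by
  rw [pr, pr, h u v, h.skew]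
  push_cast
  linear_combination (-(⟪A u, A (I • v)⟫ : ℝ) : ℂ) * I_mul_I

theorem Orth.pr_sum_left (h : Orth A) (u v : Cn n) :
    pr A (A u) v = ∑ a, u a * pr A (A (ee a)) v :=
  sum_lin (φ := fun u => pr A (A u) v) (fun u u' => by simp only [map_add, pr_add_left])
    (fun c u => by simp only [map_smul, pr_smul_left]) (fun u => h.pr_I u v) u

theorem Orth.pr_eq (h : Orth A) (u v : Cn n) :
    pr A (A u) v = ∑ a, ∑ b, u a * conj (v b) * gL A a b := by
  rw [h.pr_sum_left]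
  refine Finset.sum_congr rfl fun a _ => ?_
  rw [pr_sum, Finset.mul_sum]
  refine Finset.sum_congr rfl fun b _ => ?_
  simp only [gL, Matrix.of_apply]
  ring

theorem Orth.pr_conj (h : Orth A) (u v : Cn n) : conj (pr A (A u) v) = pr A (A v) u := by
  have h1 : ⟪A v, A (I • u)⟫ = -⟪A u, A (I • v)⟫ := by rw [real_inner_comm, h.skew]
  rw [pr, pr, h1, real_inner_comm (A u) (A v)]
  simp only [map_add, map_mul, conj_ofReal, conj_I]
  push_cast
  ring

theorem Orth.pr_self (h : Orth A) (u : Cn n) : pr A (A u) u = ((‖A u‖ ^ 2 : ℝ) : ℂ) := by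
  rw [pr, h.self, real_inner_self_eq_norm_sq]
  simp

theorem Orth.posDef (h : Orth A) (hA : Function.Injective A) : (gL A).PosDef := by
  refine Matrix.PosDef.of_dotProduct_mulVec_pos ?_ ?_
  · ext a b
    simp only [Matrix.conjTranspose_apply, gL, Matrix.of_apply]
    exact h.pr_conj _ _
  · intro x hx
    set u : Cn n := WithLp.toLp 2 (star x) with hu
    have h1 : star x ⬝ᵥ (gL A).mulVec x = pr A (A u) u := by
      rw [h.pr_eq]
      simp only [dotProduct, Matrix.mulVec, Finset.mul_sum, hu, Pi.star_apply, RCLike.star_def,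
        conj_conj]
      refine Finset.sum_congr rfl fun a _ => Finset.sum_congr rfl fun b _ => ?_
      ring
    rw [h1, h.pr_self]
    have h2 : A u ≠ 0 := by
      intro h0
      have h3 : u = 0 := hA (by rw [h0, map_zero])
      apply hx
      have h4 : star x = 0 := (WithLp.toLp_eq_zero 2).1 h3
      simpa using h4
    have h5 : 0 < ‖A u‖ ^ 2 := by positivity
    exact_mod_cast h5

/-- the real metric of the transposed matrix is the induced one -/
theorem Orth.G_eq (h : Orth A) {K : Cn n → Matrix (Fin n) (Fin n) ℂ} {z : Cn n}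
    (hK : K z = (gL A)ᵀ) (u v : Cn n) : G K z u v = ⟪A u, A v⟫ := by
  rw [← pr_re, h.pr_eq, G, hK]
  congr 1
  simp only [dotProduct, Matrix.mulVec, Finset.mul_sum, Pi.star_apply, RCLike.star_def,
    Matrix.transpose_apply]
  rw [Finset.sum_comm]
  refine Finset.sum_congr rfl fun a _ => Finset.sum_congr rfl fun b _ => ?_
  ring

/-- transformation law -/
theorem gL_tr {A' : Cn n →L[ℝ] E} (h : Orth A') (T : Cn n →L[ℂ] Cn n) (hT : ∀ u, A u = A' (T u))
    (Jm : Matrix (Fin n) (Fin n) ℂ) (hJ : ∀ b a, Jm b a = T (ee a) b) :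
    gL A = Jmᵀ * gL A' * Jm.map conj := by
  ext a b
  have h1 : gL A a b = pr A' (A' (T (ee a))) (T (ee b)) := by
    simp only [gL, Matrix.of_apply, pr, hT, map_smul]
  rw [h1, h.pr_eq]
  simp only [Matrix.mul_apply, Matrix.transpose_apply, Matrix.map_apply, Finset.sum_mul, hJ]
  rw [Finset.sum_comm]
  refine Finset.sum_congr rfl fun d _ => Finset.sum_congr rfl fun c _ => ?_
  ring

/-- the quadratic term of the curvature -/
theorem Orth.quad (h : Orth A) (hA : Function.Injective A) (γ : Cn n) :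
    ∑ q, ∑ p, pr A (A γ) (ee q) * (gL A)⁻¹ q p * conj (pr A (A γ) (ee p))
      = ((‖A γ‖ ^ 2 : ℝ) : ℂ) := by
  have hdet : IsUnit (gL A).det := (h.posDef hA).det_pos.ne'.isUnit
  have h1 : ∀ p, ∑ q, pr A (A γ) (ee q) * (gL A)⁻¹ q p = γ p := by
    intro p
    have h2 : ∀ q, pr A (A γ) (ee q) = ∑ a, γ a * gL A a q := fun q => h.pr_sum_left γ _
    simp only [h2, Finset.sum_mul]
    rw [Finset.sum_comm]
    have h3 : ∀ a, ∑ q, γ a * gL A a q * (gL A)⁻¹ q p = γ a * (gL A * (gL A)⁻¹) a p := by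
      intro a
      rw [Matrix.mul_apply, Finset.mul_sum]
      exact Finset.sum_congr rfl fun q _ => by ring
    simp only [h3, Matrix.mul_nonsing_inv _ hdet, Matrix.one_apply]
    simp
  rw [Finset.sum_comm]
  simp only [← Finset.sum_mul, h1]
  rw [← h.pr_self, ← h.pr_conj, pr_sum, map_sum]
  refine Finset.sum_congr rfl fun p _ => ?_
  simp

end

end Crest.Agent.T223.Br
end

-- ▼ part T223/Br2_13
section

/-!
# Row 223 (S0345), bridge, part 2 (helper13): Kaehler immersions `h : ℂⁿ ⊇ U → E`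

First derivatives of the induced hermitian matrix (Kaehler identities) and its bisectional
curvature in terms of the normal parts of the second derivatives (Gauss equation).
-/

set_option autoImplicit false

open Set Filter Topology Complex
open scoped ContDiff Matrix ComplexConjugate RealInnerProductSpace ComplexOrder

namespace Crest.Agent.T223.Br

open Crest.Agent.R275.Geo Crest.Agent.R275.EDR890 Crest.Agent.R273.Ric_798

noncomputable section

section Calc

variable {X F : Type} [NormedAddCommGroup X] [NormedSpace ℝ X] [NormedAddCommGroup F]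
  [NormedSpace ℝ F]

theorem cd_fd {k : X → F} {z : X} (hk : ContDiffAt ℝ ∞ k z) : ContDiffAt ℝ ∞ (fderiv ℝ k) z :=
  hk.fderiv_right (m := ∞) (by simp)

theorem cd_fd_apply {k : X → F} {z : X} (hk : ContDiffAt ℝ ∞ k z) (a : X) :
    ContDiffAt ℝ ∞ (fun y => fderiv ℝ k y a) z :=
  (cd_fd hk).clm_apply contDiffAt_const

theorem cd_diff {k : X → F} {z : X} (hk : ContDiffAt ℝ ∞ k z) : DifferentiableAt ℝ k z :=
  hk.differentiableAt (by simp)

theorem fd_apply {k : X → F} {z : X} (hk : ContDiffAt ℝ ∞ k z) (a x : X) :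
    fderiv ℝ (fun y => fderiv ℝ k y a) z x = fderiv ℝ (fderiv ℝ k) z x a := by
  rw [fderiv_clm_apply (cd_diff (cd_fd hk)) (differentiableAt_const a)]
  simp

theorem fd_symm {k : X → F} {z : X} (hk : ContDiffAt ℝ ∞ k z) (a x : X) :
    fderiv ℝ (fderiv ℝ k) z x a = fderiv ℝ (fderiv ℝ k) z a x :=
  ((hk.of_le (m := 2) (WithTop.coe_le_coe.2 (le_top : (2 : ℕ∞) ≤ ⊤))).isSymmSndFDerivAt (by simp)) x a

theorem fd_cx {a b : X → ℝ} {z : X} (ha : DifferentiableAt ℝ a z) (hb : DifferentiableAt ℝ b z)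
    (c : ℂ) (x : X) :
    fderiv ℝ (fun y => ((a y : ℝ) : ℂ) + c * ((b y : ℝ) : ℂ)) z x
      = ((fderiv ℝ a z x : ℝ) : ℂ) + c * ((fderiv ℝ b z x : ℝ) : ℂ) := by
  have h1 : HasFDerivAt (fun y => ((a y : ℝ) : ℂ)) (ofRealCLM.comp (fderiv ℝ a z)) z :=
    ofRealCLM.hasFDerivAt.comp z ha.hasFDerivAt
  have h2 : HasFDerivAt (fun y => ((b y : ℝ) : ℂ)) (ofRealCLM.comp (fderiv ℝ b z)) z :=
    ofRealCLM.hasFDerivAt.comp z hb.hasFDerivAt
  rw [(h1.fun_add (h2.const_mul c)).fderiv]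
  simp

end Calc

variable {n : ℕ} {E : Type} [NormedAddCommGroup E] [InnerProductSpace ℝ E]

/-- second derivative -/
def d2 (h : Cn n → E) (z a b : Cn n) : E := fderiv ℝ (fderiv ℝ h) z a b

/-- third derivative -/
def d3 (h : Cn n → E) (z x a b : Cn n) : E := fderiv ℝ (fun y => d2 h y a b) z x

/-- an immersion for which the standard complex structure is orthogonal and parallel -/
structure KI (h : Cn n → E) (U : Set (Cn n)) : Prop where
  op : IsOpen U
  sm : ContDiffOn ℝ ∞ h U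
  inj : ∀ z ∈ U, Function.Injective (fderiv ℝ h z)
  orth : ∀ z ∈ U, Orth (fderiv ℝ h z)
  par : ∀ z ∈ U, ∀ w v u : Cn n,
    ⟪d2 h z w (I • v), fderiv ℝ h z u⟫ = -⟪d2 h z w v, fderiv ℝ h z (I • u)⟫

/-- the induced hermitian matrix -/
def gm (h : Cn n → E) (z : Cn n) : Matrix (Fin n) (Fin n) ℂ := gL (fderiv ℝ h z)

/-- the Christoffel symbols of the first kind -/
def Pf (h : Cn n → E) (z x u v : Cn n) : ℂ := pr (fderiv ℝ h z) (d2 h z x u) v

variable {h : Cn n → E} {U : Set (Cn n)} {z : Cn n}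

theorem cd_d2 (hh : ContDiffAt ℝ ∞ h z) (a b : Cn n) : ContDiffAt ℝ ∞ (fun y => d2 h y a b) z :=
  ((cd_fd (cd_fd hh)).clm_apply contDiffAt_const).clm_apply contDiffAt_const

theorem cd_pr (hh : ContDiffAt ℝ ∞ h z) {k : Cn n → E} (hk : ContDiffAt ℝ ∞ k z) (v : Cn n) :
    ContDiffAt ℝ ∞ (fun y => pr (fderiv ℝ h y) (k y) v) z := by
  unfold pr
  exact (ofRealCLM.contDiff.contDiffAt.comp z (hk.inner ℝ (cd_fd_apply hh v))).add
    (contDiffAt_const.mul
      (ofRealCLM.contDiff.contDiffAt.comp z (hk.inner ℝ (cd_fd_apply hh (I • v)))))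

theorem fd_inner (hh : ContDiffAt ℝ ∞ h z) {k : Cn n → E} (hk : ContDiffAt ℝ ∞ k z)
    (v x : Cn n) : fderiv ℝ (fun y => ⟪k y, fderiv ℝ h y v⟫) z x
      = ⟪fderiv ℝ k z x, fderiv ℝ h z v⟫ + ⟪k z, d2 h z x v⟫ := by
  rw [fderiv_inner_apply ℝ (cd_diff hk) (cd_diff (cd_fd_apply hh v)), fd_apply hh, add_comm]
  rfl

namespace KI

theorem cd (H : KI h U) (hz : z ∈ U) : ContDiffAt ℝ ∞ h z := H.sm.contDiffAt (H.op.mem_nhds hz)

theorem d2_symm (H : KI h U) (hz : z ∈ U) (a b : Cn n) : d2 h z a b = d2 h z b a :=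
  fd_symm (H.cd hz) b a

theorem d3_swap23 (H : KI h U) (hz : z ∈ U) (x a b : Cn n) : d3 h z x a b = d3 h z x b a := by
  have : (fun y => d2 h y a b) =ᶠ[𝓝 z] fun y => d2 h y b a := by
    filter_upwards [H.op.mem_nhds hz] with y hy
    exact H.d2_symm hy a b
  rw [d3, d3, this.fderiv_eq]

theorem d3_swap12 (H : KI h U) (hz : z ∈ U) (x a b : Cn n) : d3 h z x a b = d3 h z a x b := by
  have h1 : ∀ c : Cn n, (fun y => d2 h y c b) =ᶠ[𝓝 z]
      fun y => fderiv ℝ (fun y' => fderiv ℝ h y' b) y c := by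
    intro c
    filter_upwards [H.op.mem_nhds hz] with y hy
    exact (fd_apply (H.cd hy) b c).symm
  have hk := cd_fd_apply (H.cd hz) b
  rw [d3, d3, (h1 a).fderiv_eq, (h1 x).fderiv_eq, fd_apply hk, fd_apply hk, fd_symm hk]

theorem gm_sm (H : KI h U) (a b : Fin n) : ContDiffOn ℝ ∞ (fun y => gm h y a b) U :=
  fun _ hz => (cd_pr (H.cd hz) (cd_fd_apply (H.cd hz) _) _).contDiffWithinAt

theorem cd_Pf (H : KI h U) (hz : z ∈ U) (x u v : Cn n) :
    ContDiffAt ℝ ∞ (fun y => Pf h y x u v) z :=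
  cd_pr (H.cd hz) (cd_d2 (H.cd hz) x u) v

theorem Pf_symm (H : KI h U) (hz : z ∈ U) (x u v : Cn n) : Pf h z x u v = Pf h z u x v := by
  rw [Pf, Pf, H.d2_symm hz]

theorem Pf_I (H : KI h U) (hz : z ∈ U) (x u v : Cn n) :
    Pf h z x (I • u) v = I * Pf h z x u v := by
  rw [Pf, Pf, pr, pr, H.par z hz, H.par z hz, II_smul, map_neg, inner_neg_right]
  push_cast
  linear_combination (-(⟪d2 h z x u, fderiv ℝ h z (I • v)⟫ : ℝ) : ℂ) * I_mul_I

theorem Pf_I' (H : KI h U) (hz : z ∈ U) (x u v : Cn n) :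
    Pf h z (I • x) u v = I * Pf h z x u v := by
  rw [H.Pf_symm hz, H.Pf_I hz, H.Pf_symm hz]

theorem Pf_sum2 (H : KI h U) (hz : z ∈ U) (x u v : Cn n) :
    Pf h z x u v = ∑ a, u a * Pf h z x (ee a) v :=
  sum_lin (φ := fun u => Pf h z x u v)
    (fun u u' => by simp only [Pf, d2, map_add, pr_add_left])
    (fun c u => by simp only [Pf, d2, map_smul, pr_smul_left]) (fun u => H.Pf_I hz x u v) u

theorem Pf_sum12 (H : KI h U) (hz : z ∈ U) (x u v : Cn n) :
    Pf h z x u v = ∑ a, ∑ c, u a * x c * Pf h z (ee c) (ee a) v := by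
  rw [H.Pf_sum2 hz]
  refine Finset.sum_congr rfl fun a _ => ?_
  rw [H.Pf_symm hz, H.Pf_sum2 hz, Finset.mul_sum]
  refine Finset.sum_congr rfl fun c _ => ?_
  rw [H.Pf_symm hz]
  ring

/-- first derivative of the hermitian form -/
theorem fd_H (H : KI h U) (hz : z ∈ U) (u v x : Cn n) :
    fderiv ℝ (fun y => pr (fderiv ℝ h y) (fderiv ℝ h y u) v) z x
      = Pf h z x u v + conj (Pf h z x v u) := by
  have hh := H.cd hz
  have hu := cd_fd_apply hh u
  unfold pr
  rw [fd_cx (cd_diff (hu.inner ℝ (cd_fd_apply hh v))) (cd_diff (hu.inner ℝ (cd_fd_apply hh _))),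
    fd_inner hh hu, fd_inner hh hu, fd_apply hh, real_inner_comm (d2 h z x v),
    real_inner_comm (d2 h z x (I • v)), H.par z hz]
  simp only [Pf, pr, d2, map_add, map_mul, conj_ofReal, conj_I]
  push_cast
  ring

theorem wd_false (H : KI h U) (hz : z ∈ U) (a b c : Fin n) :
    wd (false, c) (fun y => gm h y a b) z = Pf h z (ee c) (ee a) (ee b) := by
  change (1 / 2 : ℂ) • (fderiv ℝ (fun y => pr (fderiv ℝ h y) (fderiv ℝ h y (ee a)) (ee b)) z (ee c)
    + (-I) • fderiv ℝ (fun y => pr (fderiv ℝ h y) (fderiv ℝ h y (ee a)) (ee b)) z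
      (EuclideanSpace.single c I)) = _
  rw [single_I, H.fd_H hz, H.fd_H hz, H.Pf_I' hz, H.Pf_I' hz]
  simp only [smul_eq_mul, map_mul, conj_I]
  linear_combination (1 / 2 * (conj (Pf h z (ee c) (ee b) (ee a)) - Pf h z (ee c) (ee a) (ee b)))
    * I_mul_I

theorem wd_true (H : KI h U) (hz : z ∈ U) (a b c : Fin n) :
    wd (true, c) (fun y => gm h y a b) z = conj (Pf h z (ee c) (ee b) (ee a)) := by
  change (1 / 2 : ℂ) • (fderiv ℝ (fun y => pr (fderiv ℝ h y) (fderiv ℝ h y (ee a)) (ee b)) z (ee c)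
    + I • fderiv ℝ (fun y => pr (fderiv ℝ h y) (fderiv ℝ h y (ee a)) (ee b)) z
      (EuclideanSpace.single c I)) = _
  rw [single_I, H.fd_H hz, H.fd_H hz, H.Pf_I' hz, H.Pf_I' hz]
  simp only [smul_eq_mul, map_mul, conj_I]
  linear_combination (1 / 2 * (Pf h z (ee c) (ee a) (ee b) - conj (Pf h z (ee c) (ee b) (ee a))))
    * I_mul_I

theorem closed (H : KI h U) (hz : z ∈ U) (a b c : Fin n) :
    wd (false, c) (fun y => gm h y a b) z = wd (false, a) (fun y => gm h y c b) z := by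
  rw [H.wd_false hz, H.wd_false hz, H.Pf_symm hz]

theorem closed' (H : KI h U) (hz : z ∈ U) (a b c : Fin n) :
    wd (true, c) (fun y => gm h y a b) z = wd (true, b) (fun y => gm h y a c) z := by
  rw [H.wd_true hz, H.wd_true hz, H.Pf_symm hz]

/-- the second order term of the curvature -/
theorem second (H : KI h U) (hz : z ∈ U) (v w : Cn n) :
    (∑ a, ∑ b, ∑ c, ∑ d, wdM (false, c) (wdM (true, d) (gm h)) z a b * v a * conj (v b) * w c
      * conj (w d)).re
      = 1 / 2 * (⟪d2 h z v (I • w), d2 h z w (I • v)⟫ - ⟪d2 h z w v, d2 h z (I • w) (I • v)⟫) := by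
  have hh := H.cd hz
  have hc : ∀ x u v : Cn n, DifferentiableAt ℝ (fun y => conj (Pf h y x u v)) z := fun x u v =>
    (conjCLE : ℂ →L[ℝ] ℂ).differentiableAt.comp z (cd_diff (H.cd_Pf hz x u v))
  have h1 : ∀ a b c d : Fin n, wdM (false, c) (wdM (true, d) (gm h)) z a b
      = wd (false, c) (fun y => conj (Pf h y (ee d) (ee b) (ee a))) z := by
    intro a b c d
    refine wd_congr ?_ _
    filter_upwards [H.op.mem_nhds hz] with y hy
    exact H.wd_true hy a b d
  have h2 : (fun y => conj (Pf h y w v v)) =ᶠ[𝓝 z] fun y => ∑ a, ∑ b, ∑ d,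
      (v a * conj (v b) * conj (w d)) • conj (Pf h y (ee d) (ee b) (ee a)) := by
    filter_upwards [H.op.mem_nhds hz] with y hy
    rw [Pf, pr_sum, map_sum]
    refine Finset.sum_congr rfl fun a _ => ?_
    have h3 := H.Pf_sum12 hy w v (ee a)
    rw [Pf] at h3
    rw [h3]
    simp only [map_mul, conj_conj, map_sum, Finset.mul_sum, smul_eq_mul]
    refine Finset.sum_congr rfl fun b _ => Finset.sum_congr rfl fun d _ => ?_
    ring
  have h3 : ∀ c : Fin n, wd (false, c) (fun y => conj (Pf h y w v v)) z = ∑ a, ∑ b, ∑ d,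
      (v a * conj (v b) * conj (w d)) *
        wd (false, c) (fun y => conj (Pf h y (ee d) (ee b) (ee a))) z := by
    intro c
    have d1 : ∀ a b d : Fin n, DifferentiableAt ℝ (fun y =>
        (v a * conj (v b) * conj (w d)) • conj (Pf h y (ee d) (ee b) (ee a))) z :=
      fun a b d => (hc (ee d) (ee b) (ee a)).const_smul (v a * conj (v b) * conj (w d))
    rw [wd_congr h2, wd_sum _ fun a _ => DifferentiableAt.fun_sum fun b _ =>
      DifferentiableAt.fun_sum fun d _ => d1 a b d]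
    refine Finset.sum_congr rfl fun a _ => ?_
    rw [wd_sum _ fun b _ => DifferentiableAt.fun_sum fun d _ => d1 a b d]
    refine Finset.sum_congr rfl fun b _ => ?_
    rw [wd_sum _ fun d _ => d1 a b d]
    refine Finset.sum_congr rfl fun d _ => ?_
    rw [wd_const_smul _ (hc _ _ _), smul_eq_mul]
  have h4 : ∑ a, ∑ b, ∑ c, ∑ d, wdM (false, c) (wdM (true, d) (gm h)) z a b * v a * conj (v b) * w c
      * conj (w d) = ∑ c, w c * wd (false, c) (fun y => conj (Pf h y w v v)) z := by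
    simp only [h3, h1, Finset.mul_sum]
    conv_rhs => rw [Finset.sum_comm]
    refine Finset.sum_congr rfl fun a _ => ?_
    conv_rhs => rw [Finset.sum_comm]
    refine Finset.sum_congr rfl fun b _ => Finset.sum_congr rfl fun c _ =>
      Finset.sum_congr rfl fun d _ => ?_
    ring
  have h5 := wdL_vec false (fderiv ℝ (fun y => conj (Pf h y w v v)) z) w
  simp only [cI_false, cj_false, smul_eq_mul] at h5
  have h6 : (fun y => conj (Pf h y w v v)) = fun y => ((⟪d2 h y w v, fderiv ℝ h y v⟫ : ℝ) : ℂ)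
      + (-I) * ((⟪d2 h y w v, fderiv ℝ h y (I • v)⟫ : ℝ) : ℂ) := by
    funext y
    simp only [Pf, pr, map_add, map_mul, conj_ofReal, conj_I]
  have hk := cd_d2 hh w v
  have h7 : ∀ x, fderiv ℝ (fun y => conj (Pf h y w v v)) z x =
      ((⟪d3 h z x w v, fderiv ℝ h z v⟫ + ⟪d2 h z w v, d2 h z x v⟫ : ℝ) : ℂ) + (-I) *
      ((⟪d3 h z x w v, fderiv ℝ h z (I • v)⟫ + ⟪d2 h z w v, d2 h z x (I • v)⟫ : ℝ) : ℂ) := by
    intro x
    rw [h6, fd_cx (cd_diff (hk.inner ℝ (cd_fd_apply hh v))) (cd_diff (hk.inner ℝ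
      (cd_fd_apply hh _))), fd_inner hh hk, fd_inner hh hk]
    rfl
  -- the differentiated parallelism
  have h8 : (fun y => ⟪d2 h y v (I • w), fderiv ℝ h y (I • v)⟫) =ᶠ[𝓝 z]
      fun y => ⟪d2 h y v w, fderiv ℝ h y v⟫ := by
    filter_upwards [H.op.mem_nhds hz] with y hy
    rw [H.par y hy, II_smul, map_neg, inner_neg_right, neg_neg]
  have h9 : fderiv ℝ (fun y => ⟪d2 h y v (I • w), fderiv ℝ h y (I • v)⟫) z w =
      fderiv ℝ (fun y => ⟪d2 h y v w, fderiv ℝ h y v⟫) z w := by rw [h8.fderiv_eq]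
  rw [fd_inner hh (cd_d2 hh _ _), fd_inner hh (cd_d2 hh _ _)] at h9
  change ⟪d3 h z w v (I • w), _⟫ + _ = ⟪d3 h z w v w, _⟫ + _ at h9
  rw [H.d3_swap23 hz w v (I • w), H.d3_swap12 hz w (I • w) v, H.d3_swap23 hz w v w,
    H.d2_symm hz v w] at h9
  change (∑ a, ∑ b, ∑ c, ∑ d, wdM (false, c) (wdM (true, d) (gm h)) z a b * v a * conj (v b) * w c
      * conj (w d)).re = _
  rw [h4]
  change (∑ c, w c * wdL (false, c) (fderiv ℝ (fun y => conj (Pf h y w v v)) z)).re = _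
  rw [← h5, h7, h7]
  simp only [mul_re, add_re, ofReal_re, ofReal_im, neg_re, neg_im, I_re, I_im, mul_im, add_im,
    one_div, inv_re, inv_im, re_ofNat, im_ofNat, normSq_ofNat]
  linarith

theorem sum5 (x y : Fin n → Fin n → Fin n → ℂ) :
    ∑ a, ∑ b, ∑ c, ∑ d, ∑ p, x a c p * y b d p
      = ∑ p, (∑ a, ∑ c, x a c p) * (∑ b, ∑ d, y b d p) := by
  simp only [Finset.sum_mul]
  simp only [Finset.mul_sum]
  conv_rhs => rw [Finset.sum_comm]
  refine Finset.sum_congr rfl fun a _ => ?_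
  conv_lhs => rw [Finset.sum_comm]
  conv_rhs => rw [Finset.sum_comm]
  refine Finset.sum_congr rfl fun c _ => ?_
  conv_rhs => rw [Finset.sum_comm]
  refine Finset.sum_congr rfl fun b _ => ?_
  rw [Finset.sum_comm]

/-- the quadratic term of the curvature -/
theorem quad (H : KI h U) (hz : z ∈ U) (v w γ : Cn n)
    (hγ : ∀ u, ⟪d2 h z w v, fderiv ℝ h z u⟫ = ⟪fderiv ℝ h z γ, fderiv ℝ h z u⟫) :
    ∑ a, ∑ b, ∑ c, ∑ d, (wdM (false, c) (gm h) z * (gm h z)⁻¹ * wdM (true, d) (gm h) z) a b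
      * v a * conj (v b) * w c * conj (w d) = ((‖fderiv ℝ h z γ‖ ^ 2 : ℝ) : ℂ) := by
  rw [← (H.orth z hz).quad (H.inj z hz) γ]
  have h1 : ∀ q, pr (fderiv ℝ h z) (fderiv ℝ h z γ) (ee q)
      = ∑ a, ∑ c, v a * w c * Pf h z (ee c) (ee a) (ee q) := by
    intro q
    rw [← H.Pf_sum12 hz, Pf, pr, pr, hγ, hγ]
  have h2 := sum5 (fun a c p => v a * w c * ∑ q, Pf h z (ee c) (ee a) (ee q) * (gm h z)⁻¹ q p)
    (fun b d p => conj (v b * w d * Pf h z (ee d) (ee b) (ee p)))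
  rw [Finset.sum_comm (f := fun q p => pr (fderiv ℝ h z) (fderiv ℝ h z γ) (ee q) *
    (gL (fderiv ℝ h z))⁻¹ q p * conj (pr (fderiv ℝ h z) (fderiv ℝ h z γ) (ee p)))]
  refine Eq.trans ?_ (h2.trans ?_)
  · refine Finset.sum_congr rfl fun a _ => Finset.sum_congr rfl fun b _ =>
      Finset.sum_congr rfl fun c _ => Finset.sum_congr rfl fun d _ => ?_
    rw [Matrix.mul_apply]
    simp only [Finset.sum_mul]
    refine Finset.sum_congr rfl fun p _ => ?_
    rw [Matrix.mul_apply]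
    simp only [wdM, Matrix.of_apply, H.wd_false hz, H.wd_true hz, map_mul]
    ring
  · refine Finset.sum_congr rfl fun p _ => ?_
    rw [← Finset.sum_mul]
    congr 1
    · simp only [h1, Finset.sum_mul, Finset.mul_sum]
      conv_rhs => rw [Finset.sum_comm]
      refine Finset.sum_congr rfl fun a _ => ?_
      conv_rhs => rw [Finset.sum_comm]
      refine Finset.sum_congr rfl fun c _ => Finset.sum_congr rfl fun q _ => ?_
      rw [gm]
      ring
    · rw [h1]
      simp only [map_sum]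

/-- **Gauss equation** for the bisectional curvature; `π` is the orthogonal projection onto the
tangent space -/
theorem bis_eq (H : KI h U) (hz : z ∈ U) (π : E → E) (h1 : ∀ X, ∃ u, π X = fderiv ℝ h z u)
    (h2 : ∀ X u, ⟪X - π X, fderiv ℝ h z u⟫ = 0) (v w : Cn n) :
    bis (gm h) z v w = 1 / 2 *
      (⟪d2 h z v w - π (d2 h z v w), d2 h z (I • v) (I • w) - π (d2 h z (I • v) (I • w))⟫
        - ⟪d2 h z v (I • w) - π (d2 h z v (I • w)), d2 h z (I • v) w - π (d2 h z (I • v) w)⟫) := by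
  have h3 : ∀ X u, ⟪X, fderiv ℝ h z u⟫ = ⟪π X, fderiv ℝ h z u⟫ := by
    intro X u
    have := h2 X u
    rw [inner_sub_left] at this
    linarith
  have h4 : ∀ X Y, ⟪X - π X, Y - π Y⟫ = ⟪X, Y⟫ - ⟪π X, Y⟫ := by
    intro X Y
    obtain ⟨u, hu⟩ := h1 Y
    rw [inner_sub_right, hu, h2, inner_sub_left]
    ring
  obtain ⟨γ, hγ⟩ := h1 (d2 h z w v)
  have hγ' : ∀ u, ⟪d2 h z w v, fderiv ℝ h z u⟫ = ⟪fderiv ℝ h z γ, fderiv ℝ h z u⟫ := by
    intro u
    rw [h3, hγ]
  have h5 : bis (gm h) z v w = -(1 / 2 * (⟪d2 h z v (I • w), d2 h z w (I • v)⟫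
      - ⟪d2 h z w v, d2 h z (I • w) (I • v)⟫)) + ‖fderiv ℝ h z γ‖ ^ 2 := by
    rw [← H.second hz v w, ← ofReal_re (‖fderiv ℝ h z γ‖ ^ 2), ← H.quad hz v w γ hγ', ← neg_re,
      ← add_re, bis]
    congr 1
    simp only [Rm, Matrix.add_apply, Matrix.neg_apply, ← Finset.sum_neg_distrib,
      ← Finset.sum_add_distrib]
    refine Finset.sum_congr rfl fun a _ => Finset.sum_congr rfl fun b _ =>
      Finset.sum_congr rfl fun c _ => Finset.sum_congr rfl fun d _ => ?_
    ring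
  have h6 : ⟪π (d2 h z v w), d2 h z (I • v) (I • w)⟫ = -‖fderiv ℝ h z γ‖ ^ 2 := by
    rw [H.d2_symm hz v w, hγ, real_inner_comm, H.par z hz, H.d2_symm hz (I • v) w, H.par z hz,
      II_smul, map_neg, inner_neg_right, hγ', real_inner_self_eq_norm_sq]
    ring
  have h7 : ⟪π (d2 h z v (I • w)), d2 h z (I • v) w⟫ = ‖fderiv ℝ h z γ‖ ^ 2 := by
    obtain ⟨δ, hδ⟩ := h1 (d2 h z v (I • w))
    rw [hδ, real_inner_comm, H.d2_symm hz (I • v) w, H.par z hz, hγ', ← (H.orth z hz).skew,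
      ← hδ, real_inner_comm, ← h3, H.par z hz, II_smul, map_neg, inner_neg_right,
      H.d2_symm hz v w, hγ', real_inner_self_eq_norm_sq]
    ring
  rw [h5, h4, h4, h6, h7, H.d2_symm hz w (I • v), H.d2_symm hz w v, H.d2_symm hz (I • w) (I • v)]
  ring

end KI

end

end Crest.Agent.T223.Br
end

-- ▼ part T223/Br3_13
section

/-!
# Row 223 (S0345), bridge, part 3 (helper13): the complex structure in a local parametrisation

`Jc J f y` is the complex structure read in the parametrisation `f`; it is integrable because `J`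
is parallel, so Newlander-Nirenberg gives holomorphic parametrisations (`exists_hp`).
-/

set_option autoImplicit false

open Set Filter Topology Complex
open scoped ContDiff RealInnerProductSpace
open Crest.GeometryTopology.Submanifold

namespace Crest.Agent.T223.Br

open Crest.Agent.R241.Geo Crest.Agent.R275.Geo Crest.Agent.R273.RMan4_798

noncomputable section

variable {m N : ℕ} {S : Set (Euc N)} {p : Euc N} {f : Euc m → Euc N} {V : Set (Euc m)}
  {J : Euc N → Euc N →L[ℝ] Euc N}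

theorem sum_std (u : Euc m) : ∑ i, u i • stdVec m i = u := by
  ext j
  simp [stdVec, Finset.sum_apply, Pi.single_apply]

theorem mem_tan (f : Euc m → Euc N) (x v : Euc m) : fderiv ℝ f x v ∈ tangentAt f x := by
  rw [tangentAt_eq_range]
  exact ⟨v, rfl⟩

theorem of_mem_tan {x : Euc m} {X : Euc N} (h : X ∈ tangentAt f x) : ∃ v, fderiv ℝ f x v = X := by
  rw [tangentAt_eq_range] at h
  exact h

theorem fd_tr (f : Euc m → Euc N) (y : Euc m) :
    fderiv ℝ (fun z => f (z + y)) 0 = fderiv ℝ f y := by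
  rw [fderiv_comp_add_right, zero_add]

theorem fd2_tr (f : Euc m → Euc N) (y : Euc m) :
    fderiv ℝ (fderiv ℝ (fun z => f (z + y))) 0 = fderiv ℝ (fderiv ℝ f) y := by
  have : fderiv ℝ (fun z => f (z + y)) = fun z => fderiv ℝ f (z + y) := by
    funext z
    rw [fderiv_comp_add_right]
  rw [this, fderiv_comp_add_right, zero_add]

theorem coords_fd {x : Euc m} (hx : Function.Injective (fderiv ℝ f x)) (a : Euc m) (i : Fin m) :
    coords f x (fderiv ℝ f x a) i = a i := by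
  have hdet : IsUnit (metricMat f x).det := (N222.D.egr_posDef hx).det_pos.ne'.isUnit
  have h1 : ∀ j, ⟪fderiv ℝ f x a, pd f x j⟫ = ∑ k, metricMat f x j k * a k := by
    intro j
    rw [N222.D.egr_fderiv_sum f x a, sum_inner]
    refine Finset.sum_congr rfl fun k _ => ?_
    rw [real_inner_smul_left, metricMat, Matrix.of_apply, real_inner_comm, mul_comm]
  simp only [coords, h1, Finset.mul_sum]
  rw [Finset.sum_comm]
  have h2 : ∀ k, ∑ j, (metricMat f x)⁻¹ i j * (metricMat f x j k * a k)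
      = ((metricMat f x)⁻¹ * metricMat f x) i k * a k := by
    intro k
    rw [Matrix.mul_apply, Finset.sum_mul]
    exact Finset.sum_congr rfl fun j _ => by ring
  simp only [h2, Matrix.nonsing_inv_mul _ hdet, Matrix.one_apply]
  simp

theorem coordVec_fd {x : Euc m} (hx : Function.Injective (fderiv ℝ f x)) (a : Euc m) :
    coordVec f x (fderiv ℝ f x a) = a := by
  simp only [coordVec, coords_fd hx, sum_std]

theorem hess_eq' {x : Euc m} (hx : ContDiffAt ℝ ∞ f x) (i j : Fin m) :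
    hess f x i j = fderiv ℝ (fderiv ℝ f) x (stdVec m i) (stdVec m j) :=
  fd_apply hx _ _

theorem bil_expand {F : Type} [NormedAddCommGroup F] [NormedSpace ℝ F]
    (B : Euc m →L[ℝ] Euc m →L[ℝ] F) (a b : Euc m) :
    B a b = ∑ i, ∑ j, (a i * b j) • B (stdVec m i) (stdVec m j) := by
  conv_lhs => rw [← sum_std a, ← sum_std b]
  simp only [map_sum, map_smul, _root_.sum_apply, _root_.smul_apply,
    Finset.smul_sum, smul_smul]
  rw [Finset.sum_comm]
  refine Finset.sum_congr rfl fun i _ => Finset.sum_congr rfl fun j _ => ?_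
  rw [mul_comm]

theorem sffVec_fd {x : Euc m} (hc : ContDiffAt ℝ ∞ f x) (hx : Function.Injective (fderiv ℝ f x))
    (a b : Euc m) : sffVec f x (fderiv ℝ f x a) (fderiv ℝ f x b) =
      fderiv ℝ (fderiv ℝ f) x a b
        - (tangentAt f x).starProjection (fderiv ℝ (fderiv ℝ f) x a b) := by
  rw [bil_expand (fderiv ℝ (fderiv ℝ f) x) a b]
  simp only [sffVec, coords_fd hx, sff, normalPart, hess_eq' hc, map_sum, map_smul, smul_sub,
    Finset.sum_sub_distrib]

section Kahler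

variable (hJ : IsKahlerStructure m N S J) (hf : IsLocalParam m N S p f V) {y : Euc m} (hy : y ∈ V)
include hJ hf hy

theorem J_maps (v : Euc m) : ∃ u, fderiv ℝ f y u = J (f y) (fderiv ℝ f y v) := by
  have h := hJ.mapsTo _ (lp_mem hf hy) _ _ (lp_translate hf hy) _ (mem_tan _ 0 v)
  obtain ⟨u, hu⟩ := of_mem_tan h
  rw [fd_tr] at hu
  exact ⟨u, hu⟩

theorem J_sq (v : Euc m) : J (f y) (J (f y) (fderiv ℝ f y v)) = -fderiv ℝ f y v := by
  have h := hJ.sq _ (lp_mem hf hy) _ _ (lp_translate hf hy) _ (mem_tan _ 0 v)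
  rwa [fd_tr] at h

theorem J_orth (u v : Euc m) : ⟪J (f y) (fderiv ℝ f y u), J (f y) (fderiv ℝ f y v)⟫
    = ⟪fderiv ℝ f y u, fderiv ℝ f y v⟫ := by
  have h := hJ.orthogonal _ (lp_mem hf hy) _ _ (lp_translate hf hy) _ (mem_tan _ 0 u) _
    (mem_tan _ 0 v)
  rwa [fd_tr] at h

theorem J_skew (u v : Euc m) : ⟪J (f y) (fderiv ℝ f y u), fderiv ℝ f y v⟫
    = -⟪fderiv ℝ f y u, J (f y) (fderiv ℝ f y v)⟫ := by
  obtain ⟨u', hu'⟩ := J_maps hJ hf hy u
  rw [← hu', ← J_orth hJ hf hy, hu', J_sq hJ hf hy, inner_neg_left]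

theorem J_cd : ContDiffAt ℝ ∞ (fun x => J (f x)) y :=
  (hJ.smooth p (lp_base_mem hf) f V hf).contDiffAt (hf.isOpen.mem_nhds hy)

theorem fd_Jdf (u v : Euc m) : fderiv ℝ (fun x => J (f x) (fderiv ℝ f x v)) y u =
    fderiv ℝ (fun x => J (f x)) y u (fderiv ℝ f y v) + J (f y) (fderiv ℝ (fderiv ℝ f) y u v) := by
  have hc := lp_contDiffAt hf hy
  rw [fderiv_clm_apply (cd_diff (J_cd hJ hf hy)) (cd_diff (cd_fd_apply hc v))]
  simp only [_root_.add_apply, ContinuousLinearMap.comp_apply,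
    ContinuousLinearMap.flip_apply, fd_apply hc]
  rw [add_comm]

/-- parallelism, weak form, at every point of the domain -/
theorem J_par (u v w : Euc m) :
    ⟪fderiv ℝ (fun x => J (f x) (fderiv ℝ f x v)) y u, fderiv ℝ f y w⟫
      = -⟪fderiv ℝ (fderiv ℝ f) y u v, J (f y) (fderiv ℝ f y w)⟫ := by
  have ht := lp_translate hf hy
  set T := tangentAt (fun z => f (z + y)) 0 with hT
  have hTm : ∀ a, fderiv ℝ f y a ∈ T := fun a => by
    have := mem_tan (fun z => f (z + y)) 0 a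
    rwa [fd_tr] at this
  have hπ : ∀ X a, ⟪T.starProjection X, fderiv ℝ f y a⟫ = ⟪X, fderiv ℝ f y a⟫ := by
    intro X a
    rw [Submodule.inner_starProjection_left_eq_right,
      Submodule.starProjection_eq_self_iff.2 (hTm a)]
  have h0 : ∀ i j, ⟪fderiv ℝ (fun x => J (f x)) y (stdVec m i) (fderiv ℝ f y (stdVec m j))
      + J (f y) (fderiv ℝ (fderiv ℝ f) y (stdVec m i) (stdVec m j)), fderiv ℝ f y w⟫
      = -⟪fderiv ℝ (fderiv ℝ f) y (stdVec m i) (stdVec m j), J (f y) (fderiv ℝ f y w)⟫ := by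
    intro i j
    have h := hJ.parallel _ (lp_mem hf hy) _ _ ht i j
    rw [hess_eq' (lp_contDiffAt ht ht.zero_mem), fd2_tr] at h
    have e1 : fderiv ℝ (fun x => J (f (x + y)) (pd (fun z => f (z + y)) x j)) 0 =
        fderiv ℝ (fun x => J (f x) (fderiv ℝ f x (stdVec m j))) y := by
      have e0 := fderiv_comp_add_right (𝕜 := ℝ)
        (f := fun x => J (f x) (fderiv ℝ f x (stdVec m j))) (x := 0) y
      rw [zero_add] at e0
      rw [← e0]
      congr 1
      funext x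
      rw [pd, fderiv_comp_add_right]
    rw [e1, fd_Jdf hJ hf hy] at h
    change T.starProjection _ = J (f y) (T.starProjection _) at h
    obtain ⟨a, ha⟩ := of_mem_tan (T.starProjection_apply_mem
      (fderiv ℝ (fderiv ℝ f) y (stdVec m i) (stdVec m j)))
    rw [fd_tr] at ha
    obtain ⟨w', hw'⟩ := J_maps hJ hf hy w
    rw [← hπ, h, ← ha, J_skew hJ hf hy, ha, ← hw', hπ]
  rw [fd_Jdf hJ hf hy, bil_expand (fderiv ℝ (fderiv ℝ f) y) u v]
  have e2 : fderiv ℝ (fun x => J (f x)) y u (fderiv ℝ f y v) = ∑ i, ∑ j, (u i * v j) •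
      fderiv ℝ (fun x => J (f x)) y (stdVec m i) (fderiv ℝ f y (stdVec m j)) :=
    bil_expand ((fderiv ℝ (fun x => J (f x)) y).flip.comp (fderiv ℝ f y)).flip u v
  rw [e2]
  simp only [map_sum, map_smul, ← Finset.sum_add_distrib, ← smul_add, sum_inner,
    real_inner_smul_left, h0, ← Finset.sum_neg_distrib, mul_neg]

end Kahler

/-- the complex structure read in the parametrisation `f` -/
def Jc (J : Euc N → Euc N →L[ℝ] Euc N) (f : Euc m → Euc N) (y : Euc m) : Euc m →L[ℝ] Euc m :=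
  (pinv (fderiv ℝ f y)).comp ((J (f y)).comp (fderiv ℝ f y))

section Nij

variable (hJ : IsKahlerStructure m N S J) (hf : IsLocalParam m N S p f V)
include hJ hf

theorem fd_Jc {y : Euc m} (hy : y ∈ V) (v : Euc m) :
    fderiv ℝ f y (Jc J f y v) = J (f y) (fderiv ℝ f y v) := by
  obtain ⟨u, hu⟩ := J_maps hJ hf hy v
  change fderiv ℝ f y (pinv (fderiv ℝ f y) (J (f y) (fderiv ℝ f y v))) = _
  rw [← hu, pinv_comp_self (hf.injective_fderiv y hy)]

theorem Jc_cd {y : Euc m} (hy : y ∈ V) : ContDiffAt ℝ ∞ (Jc J f) y := by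
  have h1 := cd_fd (lp_contDiffAt hf hy)
  have h2 : ContDiffAt ℝ ∞ (fun x => pinv (fderiv ℝ f x)) y :=
    ContDiffAt.comp (g := pinv) (f := fderiv ℝ f) y
      (contDiffAt_pinv (hf.injective_fderiv y hy)) h1
  exact h2.clm_comp ((J_cd hJ hf hy).clm_comp h1)

theorem Jc_sq {y : Euc m} (hy : y ∈ V) (v : Euc m) : Jc J f y (Jc J f y v) = -v := by
  apply hf.injective_fderiv y hy
  rw [fd_Jc hJ hf hy, fd_Jc hJ hf hy, J_sq hJ hf hy, map_neg]

theorem DJc {y : Euc m} (hy : y ∈ V) (u v w : Euc m) :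
    ⟪fderiv ℝ f y (fderiv ℝ (Jc J f) y u v), fderiv ℝ f y w⟫
      = -⟪fderiv ℝ (fderiv ℝ f) y u v, fderiv ℝ f y (Jc J f y w)⟫
        - ⟪fderiv ℝ (fderiv ℝ f) y u (Jc J f y v), fderiv ℝ f y w⟫ := by
  have hc := lp_contDiffAt hf hy
  have hJc := Jc_cd hJ hf hy
  have e1 : (fun x => J (f x) (fderiv ℝ f x v)) =ᶠ[𝓝 y] fun x => fderiv ℝ f x (Jc J f x v) := by
    filter_upwards [hf.isOpen.mem_nhds hy] with x hx
    exact (fd_Jc hJ hf hx v).symm
  have h := J_par hJ hf hy u v w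
  rw [e1.fderiv_eq, fderiv_clm_apply (cd_diff (cd_fd hc))
    (cd_diff (hJc.clm_apply contDiffAt_const)),
    fderiv_clm_apply (cd_diff hJc) (differentiableAt_const v)] at h
  simp only [_root_.add_apply, ContinuousLinearMap.comp_apply,
    ContinuousLinearMap.flip_apply, fderiv_fun_const, Pi.zero_apply,
    _root_.zero_apply, map_zero, zero_add, inner_add_left] at h
  rw [fd_Jc hJ hf hy w]
  linarith

theorem nij_zero {y : Euc m} (hy : y ∈ V) (v w : Euc m) :
    R260.ACM_580.Nij (Jc J f) y v w = 0 := by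
  have hs := fd_symm (lp_contDiffAt hf hy)
  have hk : ∀ a x, ⟪fderiv ℝ f y (Jc J f y a), fderiv ℝ f y x⟫
      = -⟪fderiv ℝ f y a, fderiv ℝ f y (Jc J f y x)⟫ := by
    intro a x
    rw [fd_Jc hJ hf hy, fd_Jc hJ hf hy, J_skew hJ hf hy]
  have h0 : ∀ x, ⟪fderiv ℝ f y (R260.ACM_580.Nij (Jc J f) y v w), fderiv ℝ f y x⟫ = 0 := by
    intro x
    simp only [R260.ACM_580.Nij, map_add, map_sub, inner_add_left, inner_sub_left]
    rw [hk, hk, DJc hJ hf hy, DJc hJ hf hy, DJc hJ hf hy, DJc hJ hf hy, Jc_sq hJ hf hy]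
    simp only [map_neg, inner_neg_right]
    rw [hs (Jc J f y v) (Jc J f y w), hs w (Jc J f y v), hs v (Jc J f y w), hs v w]
    ring
  apply hf.injective_fderiv y hy
  rw [map_zero]
  exact inner_self_eq_zero.1 (h0 _)

end Nij

/-- reparametrisation -/
theorem lp_comp (hf : IsLocalParam m N S p f V) (Ψ : OpenPartialHomeomorph (Euc m) (Euc m))
    (h0 : 0 ∈ Ψ.source) (h0' : Ψ 0 = 0) (hV : ∀ y ∈ Ψ.source, Ψ y ∈ V)
    (hs : ∀ y ∈ Ψ.source, ContDiffAt ℝ ∞ Ψ y)
    (hi : ∀ y ∈ Ψ.source, Function.Injective (fderiv ℝ Ψ y)) :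
    IsLocalParam m N S p (fun y => f (Ψ y)) Ψ.source where
  isOpen := Ψ.open_source
  zero_mem := h0
  map_zero := by rw [h0', hf.map_zero]
  contDiffOn y hy :=
    (ContDiffAt.comp (g := f) y (lp_contDiffAt hf (hV y hy)) (hs y hy)).contDiffWithinAt
  injOn a ha b hb hab := Ψ.injOn ha hb (hf.injOn (hV a ha) (hV b hb) hab)
  injective_fderiv y hy := by
    rw [fderiv_fun_comp y (cd_diff (lp_contDiffAt hf (hV y hy))) (cd_diff (hs y hy))]
    exact (hf.injective_fderiv _ (hV y hy)).comp (hi y hy)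
  image_open W hW hWo := by
    obtain ⟨U, hU, hU'⟩ := hf.image_open (Ψ '' W) (by
      rintro _ ⟨y, hy, rfl⟩
      exact hV y (hW hy)) (Ψ.isOpen_image_of_subset_source hWo hW)
    exact ⟨U, hU, by rw [← hU', image_image]⟩

/-- holomorphic local parametrisations with a small domain -/
structure HP {n : ℕ} (S : Set (Euc N)) (J : Euc N → Euc N →L[ℝ] Euc N) (p : Euc N)
    (f : Euc (2 * n) → Euc N) (V : Set (Euc (2 * n))) : Prop where
  lp : IsLocalParam (2 * n) N S p f V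
  hol : ∀ y ∈ V, ∀ v : Cn n, J (f y) (fderiv ℝ f y (eR n v)) = fderiv ℝ f y (eR n (I • v))
  small : ∀ y ∈ V, ‖(eR n).symm y‖ < 1 / 2

theorem exists_hp {n : ℕ} (hS : IsSubmanifold (2 * n) N S) (hJ : IsKahlerStructure (2 * n) N S J)
    (hp : p ∈ S) : ∃ (f : Euc (2 * n) → Euc N) (V : Set (Euc (2 * n))), HP S J p f V := by
  obtain ⟨f, V, hf⟩ := hS p hp
  obtain ⟨W, hW, h0W, hWV, F, hF, hFW⟩ := R260.NN6_900.nnat n (Euc (2 * n))
    finrank_euclideanSpace_fin V hf.isOpen 0 hf.zero_mem (Jc J f)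
    (fun y hy => (Jc_cd hJ hf hy).contDiffWithinAt) (fun y hy v => Jc_sq hJ hf hy v)
    (fun y hy v w => nij_zero hJ hf hy v w)
  have hFa : ∀ y ∈ W, ContDiffAt ℝ ∞ F y := fun y hy => hF.contDiffAt (hW.mem_nhds hy)
  have hFd : ∀ y ∈ W, ∃ T : Euc (2 * n) ≃L[ℝ] Cn n,
      HasFDerivAt F (T : Euc (2 * n) →L[ℝ] Cn n) y := by
    intro y hy
    refine ⟨ContinuousLinearEquiv.ofBijective (fderiv ℝ F y)
      (LinearMap.ker_eq_bot.2 (hFW y hy).1.1) (LinearMap.range_eq_top.2 (hFW y hy).1.2), ?_⟩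
    rw [ContinuousLinearEquiv.coe_ofBijective]
    exact (cd_diff (hFa y hy)).hasFDerivAt
  obtain ⟨T, hT⟩ := hFd _ h0W
  let G0 := (hFa _ h0W).toOpenPartialHomeomorph F hT (by simp)
  let G := G0.restrOpen W hW
  have hG : ∀ y, G y = F y := fun y => rfl
  have hGs : G.source = G0.source ∩ W := G0.restrOpen_source W hW
  have h0G : (0 : Euc (2 * n)) ∈ G.source := by
    rw [hGs]
    exact ⟨(hFa _ h0W).mem_toOpenPartialHomeomorph_source hT (by simp), h0W⟩
  let a : Euc (2 * n) ≃ₜ Cn n := (eR n).symm.toHomeomorph.trans (Homeomorph.addLeft (F 0))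
  have ha : ∀ y, a y = F 0 + (eR n).symm y := fun y => rfl
  have hB : IsOpen {y : Euc (2 * n) | ‖(eR n).symm y‖ < 1 / 2} :=
    isOpen_lt (by fun_prop) continuous_const
  let Ψ := (a.toOpenPartialHomeomorph.trans G.symm).restrOpen _ hB
  have hΨ : ∀ y, Ψ y = G.symm (F 0 + (eR n).symm y) := fun y => rfl
  have hΨs : ∀ y, y ∈ Ψ.source ↔ F 0 + (eR n).symm y ∈ G.target ∧ ‖(eR n).symm y‖ < 1 / 2 := by
    intro y
    simp [Ψ, ha]
  have hΨW : ∀ y ∈ Ψ.source, Ψ y ∈ W := by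
    intro y hy
    have := G.map_target ((hΨs y).1 hy).1
    rw [hGs] at this
    exact this.2
  have hΨc : ∀ y ∈ Ψ.source, ContDiffAt ℝ ∞ Ψ y := by
    intro y hy
    obtain ⟨T', hT'⟩ := hFd _ (hΨW y hy)
    have h1 : ContDiffAt ℝ ∞ G.symm (F 0 + (eR n).symm y) :=
      G.contDiffAt_symm (f₀' := T') ((hΨs y).1 hy).1 hT' (hFa _ (hΨW y hy))
    have h2 : ContDiffAt ℝ ∞ (fun y => F 0 + (eR n).symm y) y :=
      contDiffAt_const.add (eR n).symm.contDiff.contDiffAt
    exact ContDiffAt.comp (g := G.symm) y h1 h2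
  have hΨd : ∀ y ∈ Ψ.source, ∀ u, fderiv ℝ F (Ψ y) (fderiv ℝ Ψ y u) = (eR n).symm u := by
    intro y hy u
    have e1 : (fun x => F (Ψ x)) =ᶠ[𝓝 y] fun x => F 0 + (eR n).symm x := by
      filter_upwards [Ψ.open_source.mem_nhds hy] with x hx
      rw [← hG, hΨ, G.right_inv ((hΨs x).1 hx).1]
    have e2 := e1.fderiv_eq (𝕜 := ℝ)
    rw [fderiv_fun_comp y (cd_diff (hFa _ (hΨW y hy))) (cd_diff (hΨc y hy)), fderiv_const_add,
      (eR n).symm.fderiv] at e2
    exact congrArg (fun L => L u) e2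
  have hlp := lp_comp hf Ψ ((hΨs 0).2 ⟨by simpa [← hG] using G.map_source h0G, by simp⟩)
    (by rw [hΨ, map_zero, add_zero, ← hG, G.left_inv h0G]) (fun y hy => hWV (hΨW y hy)) hΨc
    (fun y hy a b hab => (eR n).symm.injective (by rw [← hΨd y hy, ← hΨd y hy, hab]))
  refine ⟨fun y => f (Ψ y), Ψ.source, hlp, fun y hy v => ?_, fun y hy => ((hΨs y).1 hy).2⟩
  have hyV := hWV (hΨW y hy)
  rw [fderiv_fun_comp y (cd_diff (lp_contDiffAt hf hyV)) (cd_diff (hΨc y hy))]
  simp only [ContinuousLinearMap.comp_apply]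
  rw [← fd_Jc hJ hf hyV]
  congr 1
  apply (hFW _ (hΨW y hy)).1.1
  rw [(hFW _ (hΨW y hy)).2, hΨd y hy, hΨd y hy]
  simp

end

end Crest.Agent.T223.Br
end

-- ▼ part T223/BrLip_13
section

/-!
# Row 223 (S0345), bridge (helper13): maps with `|dι| ≤ 1` in the charts are `1`-Lipschitz

`lip_ratl` for Riemannian chart data `RAtl`, `lip_kah` for Kaehler metrics.
-/

set_option autoImplicit false

open Set Filter Topology Manifold Bundle
open scoped ContDiff Manifold

namespace Crest.Agent.T223.Br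

open Crest.Agent.R275.Geo Crest.Agent.R273.Kah_333 Crest.Agent.R273.RMan4_798
open Crest.Agent.R273.Ric_798 Crest.Agent.R273.RMan_798

noncomputable section

variable {F : Type} [NormedAddCommGroup F] [InnerProductSpace ℝ F]

theorem lip_ratl {d : ℕ} {X : Type} [TopologicalSpace X] [T2Space X] [ConnectedSpace X]
    (R : RAtl d X) (ι : X → F)
    (hs : ∀ i, ContDiffOn ℝ 1 (fun y => ι ((R.c i).symm y)) (R.c i).target)
    (hn : ∀ i, ∀ y ∈ (R.c i).target, ∀ v,
      ‖fderiv ℝ (fun y => ι ((R.c i).symm y)) y v‖ ^ 2 ≤ R.bil i y v v) (x y : R.M) :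
    dist (ι x) (ι y) ≤ dist x y := by
  set f : R.M → F := ι with hf
  have hc : ∀ x : R.M, ContDiffAt ℝ 1 (fun y => ι ((R.c (R.idx x)).symm y)) (R.c (R.idx x) x) :=
    fun x => (hs _).contDiffAt ((R.c (R.idx x)).open_target.mem_nhds (R.mem_target x))
  have hco : ∀ x : R.M, ContinuousAt f x := by
    intro x
    have h1 : ContinuousAt (fun z : R.M => ι ((R.c (R.idx x)).symm (R.ch (R.idx x) z))) x :=
      ContinuousAt.comp (f := R.ch (R.idx x)) (hc x).continuousAt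
        ((R.ch (R.idx x)).continuousAt (R.idx_mem x))
    refine h1.congr ?_
    filter_upwards [(R.ch (R.idx x)).open_source.mem_nhds (R.idx_mem x)] with z hz
    exact congrArg ι ((R.ch (R.idx x)).left_inv hz)
  have hm : ContMDiff (𝓡 d) 𝓘(ℝ, F) 1 f := by
    intro x
    rw [contMDiffAt_iff]
    refine ⟨hco x, ?_⟩
    simp only [modelWithCornersSelf_coe, range_id, contDiffWithinAt_univ]
    exact hc x
  have hd : ∀ (x : R.M) (v : TangentSpace (𝓡 d) x), ‖mfderiv (𝓡 d) 𝓘(ℝ, F) f x v‖ₑ ≤ ‖v‖ₑ := by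
    intro x v
    have h1 : HasMFDerivAt (𝓡 d) 𝓘(ℝ, F) f x
        (fderiv ℝ (fun y => ι ((R.c (R.idx x)).symm y)) (R.c (R.idx x) x)) :=
      ⟨hco x, ((hc x).differentiableAt (by simp)).hasFDerivAt.hasFDerivWithinAt⟩
    have h2 : ‖fderiv ℝ (fun y => ι ((R.c (R.idx x)).symm y)) (R.c (R.idx x) x) (v : EE d)‖
        ≤ ‖v‖ := by
      rw [← sq_le_sq₀ (norm_nonneg _) (norm_nonneg _), ← real_inner_self_eq_norm_sq v]
      exact hn _ _ (R.mem_target x) v
    rw [h1.mfderiv, enorm_tangentSpace_vectorSpace, ← ofReal_norm v]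
    exact (ofReal_norm _).symm.trans_le (ENNReal.ofReal_le_ofReal h2)
  have h1 : riemannianEDist 𝓘(ℝ, F) (f x) (f y) ≤ riemannianEDist (𝓡 d) x y := by
    refine le_of_forall_gt fun r hr => ?_
    obtain ⟨γ, h0, h1, hs, hl⟩ := exists_lt_of_riemannianEDist_lt hr
    refine lt_of_le_of_lt ?_ hl
    have hs' : ContMDiffOn 𝓘(ℝ, ℝ) 𝓘(ℝ, F) 1 (f ∘ γ) (Icc 0 1) := hm.comp_contMDiffOn hs
    refine (riemannianEDist_le_pathELength hs' (by simp [h0]) (by simp [h1]) zero_le_one).trans ?_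
    rw [pathELength_eq_lintegral_mfderivWithin_Icc, pathELength_eq_lintegral_mfderivWithin_Icc]
    refine MeasureTheory.setLIntegral_mono' measurableSet_Icc fun t ht => ?_
    have h2 : mfderivWithin 𝓘(ℝ, ℝ) 𝓘(ℝ, F) (f ∘ γ) (Icc 0 1) t =
        (mfderiv (𝓡 d) 𝓘(ℝ, F) f (γ t)).comp (mfderivWithin 𝓘(ℝ, ℝ) (𝓡 d) γ (Icc 0 1) t) := by
      apply mfderiv_comp_mfderivWithin
      · exact (hm (γ t)).mdifferentiableAt (by simp)
      · exact hs.mdifferentiableOn (by simp) t ht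
      · rw [uniqueMDiffWithinAt_iff_uniqueDiffWithinAt]
        exact uniqueDiffOn_Icc zero_lt_one t ht
    rw [h2]
    exact hd _ _
  rw [← IsRiemannianManifold.out (I := 𝓘(ℝ, F)) (f x) (f y),
    ← IsRiemannianManifold.out (I := 𝓡 d) x y, edist_dist, edist_dist] at h1
  exact (ENNReal.ofReal_le_ofReal_iff dist_nonneg).1 h1

/-- a `C¹` map with `|dι v|² ≤ g(v, v)` in the holomorphic charts is `1`-Lipschitz for the
Riemannian distance of the Kaehler metric -/
theorem lip_kah {n : ℕ} {M : Type} [TopologicalSpace M] [T2Space M] [ConnectedSpace M]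
    {A : Atl n M} (K : Kah A) (ι : M → F)
    (hs : ∀ i, ContDiffOn ℝ 1 (fun z => ι ((A.e i).symm z)) (A.e i).target)
    (hn : ∀ i, ∀ z ∈ (A.e i).target, ∀ v,
      ‖fderiv ℝ (fun z => ι ((A.e i).symm z)) z v‖ ^ 2 ≤ G (KK K i) z v v)
    (x y : (ofKah K).M) : dist (ι x) (ι y) ≤ dist x y := by
  refine lip_ratl (ofKah K) ι (fun i => ?_) (fun i y hy v => ?_) x y
  · exact (hs i).comp (eR n).symm.contDiff.contDiffOn
      fun y hy => (Set.ext_iff.1 (cR_target (A := A) i) y).1 hy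
  · have hy' : (eR n).symm y ∈ (A.e i).target := (Set.ext_iff.1 (cR_target (A := A) i) y).1 hy
    have h1 : fderiv ℝ (fun y => ι (((ofKah K).c i).symm y)) y =
        (fderiv ℝ (fun z => ι ((A.e i).symm z)) ((eR n).symm y)).comp
          ((eR n).symm : EE (2 * n) →L[ℝ] Cn n) :=
      (eR n).symm.comp_right_fderiv (f := fun z => ι ((A.e i).symm z))
    rw [h1, RAtl.bil_apply]
    refine (hn i _ hy' _).trans (le_of_eq ?_)
    exact (sum_hm (eR n) ((kd K i).pd _ hy').1 v v).symm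

end

end Crest.Agent.T223.Br
end

-- ▼ part T223/Br4_13
section

/-!
# Row 223 (S0345), bridge, part 4 (helper13): the Kaehler manifold of an extrinsic Kaehler
structure, and the reduction `s0345_of` of the statement to `YauImm`
-/

set_option autoImplicit false

open Set Filter Topology Complex
open scoped ContDiff RealInnerProductSpace Matrix ComplexConjugate
open Crest.GeometryTopology.Submanifold

namespace Crest.Agent.T223.Br

open Crest.Agent.R241.Geo Crest.Agent.R275.Geo Crest.Agent.R273.RMan4_798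
open Crest.Agent.R273.Kah_333 Crest.Agent.R275.EDR890 Crest.Agent.N222.D
open Crest.Agent.R273.Ric_798 Crest.Agent.R275.Core144

noncomputable section

variable {n N : ℕ} {S : Set (Euc N)} {p p' : Euc N} {f f' : Euc (2 * n) → Euc N}
  {V V' : Set (Euc (2 * n))} {J : Euc N → Euc N →L[ℝ] Euc N}

theorem diffC {τ : Cn n → Cn n} {z : Cn n} (h : DifferentiableAt ℝ τ z)
    (hI : ∀ u, fderiv ℝ τ z (I • u) = I • fderiv ℝ τ z u) : DifferentiableAt ℂ τ z := by
  let L : Cn n →L[ℂ] Cn n :=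
    { toFun := fderiv ℝ τ z
      map_add' := map_add _
      map_smul' := fun c u => by
        rw [RingHom.id_apply, csmul_eq c u, csmul_eq c (fderiv ℝ τ z u), map_add, map_smul,
          map_smul, hI]
      cont := (fderiv ℝ τ z).continuous }
  exact (hasFDerivAt_of_restrictScalars ℝ (f' := L) h.hasFDerivAt (by ext1; rfl)).differentiableAt

theorem wdM_congr {g g' : Cn n → Matrix (Fin n) (Fin n) ℂ} {z : Cn n} (h : g =ᶠ[𝓝 z] g')
    (s : WI n) : wdM s g z = wdM s g' z := by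
  ext a b
  refine wd_congr ?_ s
  filter_upwards [h] with w hw
  rw [hw]

theorem bis_congr {g g' : Cn n → Matrix (Fin n) (Fin n) ℂ} {z : Cn n} (h : g =ᶠ[𝓝 z] g')
    (v w : Cn n) : bis g z v w = bis g' z v w := by
  have h1 : ∀ s, wdM s g =ᶠ[𝓝 z] wdM s g' := fun s =>
    h.eventually_nhds.mono fun y hy => wdM_congr hy s
  simp only [bis, Rm, wdM_congr h, wdM_congr (h1 _), h.self_of_nhds]

/-- the centre of the unit cube -/
def ctr (n : ℕ) : Cn n := cc (fun _ => 1 / 2)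

/-- the affine identification of the parameter space with `ℂⁿ` -/
def aff (n : ℕ) : Euc (2 * n) ≃ₜ Cn n where
  toFun y := (eR n).symm y + ctr n
  invFun z := eR n (z - ctr n)
  left_inv y := by simp
  right_inv z := by simp
  continuous_toFun := by fun_prop
  continuous_invFun := by fun_prop

theorem cd_aff : ContDiff ℝ ∞ (aff n) := (eR n).symm.contDiff.add contDiff_const

theorem cd_aff_symm : ContDiff ℝ ∞ (aff n).symm :=
  (eR n).contDiff.comp (contDiff_id.sub contDiff_const)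

theorem fd_aff {F : Type} [NormedAddCommGroup F] [NormedSpace ℝ F] (k : Euc (2 * n) → F)
    (z u : Cn n) :
    fderiv ℝ (fun z => k ((aff n).symm z)) z u = fderiv ℝ k ((aff n).symm z) (eR n u) := by
  have h1 : fderiv ℝ (fun z => k ((aff n).symm z)) z = fderiv ℝ (k ∘ eR n) (z - ctr n) :=
    fderiv_comp_sub (f := k ∘ eR n) (ctr n)
  rw [h1, (eR n).comp_right_fderiv]
  rfl

/-- the holomorphic chart of a holomorphic parametrisation -/
def hch (H : HP S J p f V) : OpenPartialHomeomorph S (Cn n) :=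
  (subChart H.lp).transHomeomorph (aff n)

/-- the parametrisation read on `ℂⁿ` -/
def hpar (f : Euc (2 * n) → Euc N) (z : Cn n) : Euc N := f ((aff n).symm z)

theorem hch_symm (H : HP S J p f V) {z : Cn n} (hz : z ∈ (hch H).target) :
    (((hch H).symm z : S) : Euc N) = hpar f z := subChart_symm H.lp hz

theorem hch_mem (H : HP S J p f V) {z : Cn n} (hz : z ∈ (hch H).target) : (aff n).symm z ∈ V := hz

theorem fd_hpar (f : Euc (2 * n) → Euc N) (z u : Cn n) :
    fderiv ℝ (hpar f) z u = fderiv ℝ f ((aff n).symm z) (eR n u) := fd_aff f z u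

theorem hpar_cd (H : HP S J p f V) {z : Cn n} (hz : z ∈ (hch H).target) :
    ContDiffAt ℝ ∞ (hpar f) z :=
  ContDiffAt.comp (g := f) z (lp_contDiffAt H.lp hz) cd_aff_symm.contDiffAt

theorem d2_hpar (H : HP S J p f V) {z : Cn n} (hz : z ∈ (hch H).target) (a b : Cn n) :
    d2 (hpar f) z a b = fderiv ℝ (fderiv ℝ f) ((aff n).symm z) (eR n a) (eR n b) := by
  rw [d2, ← fd_apply (hpar_cd H hz), ← fd_apply (lp_contDiffAt H.lp (hch_mem H hz)),
    ← fd_aff (fun x => fderiv ℝ f x (eR n b))]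
  simp only [fd_hpar]

theorem hpar_hol (H : HP S J p f V) {z : Cn n} (hz : z ∈ (hch H).target) (v : Cn n) :
    J (hpar f z) (fderiv ℝ (hpar f) z v) = fderiv ℝ (hpar f) z (I • v) := by
  rw [fd_hpar, fd_hpar]
  exact H.hol _ hz v

theorem HP.ki (hJ : IsKahlerStructure (2 * n) N S J) (H : HP S J p f V) :
    KI (hpar f) (hch H).target where
  op := (hch H).open_target
  sm _ hz := (hpar_cd H hz).contDiffWithinAt
  inj z hz u v huv := by
    rw [fd_hpar, fd_hpar] at huv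
    exact (eR n).injective (H.lp.injective_fderiv _ hz huv)
  orth z hz u v := by
    rw [← hpar_hol H hz, ← hpar_hol H hz, fd_hpar, fd_hpar]
    exact J_orth hJ H.lp hz _ _
  par z hz w v u := by
    have e1 : (fun x => J (f x) (fderiv ℝ f x (eR n v))) =ᶠ[𝓝 ((aff n).symm z)]
        fun x => fderiv ℝ f x (eR n (I • v)) := by
      filter_upwards [H.lp.isOpen.mem_nhds hz] with x hx
      exact H.hol x hx v
    have h := J_par hJ H.lp (hch_mem H hz) (eR n w) (eR n v) (eR n u)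
    rw [e1.fderiv_eq, fd_apply (lp_contDiffAt H.lp (hch_mem H hz)), H.hol _ (hch_mem H hz)] at h
    rw [d2_hpar H hz, d2_hpar H hz, fd_hpar, fd_hpar]
    exact h

/-- a holomorphic chart read in an arbitrary parametrisation -/
def sig (hf : IsLocalParam (2 * n) N S p f V) (H : HP S J p' f' V') (x : Euc (2 * n)) : Cn n :=
  hch H ((subChart hf).symm x)

section Sig

variable (hf : IsLocalParam (2 * n) N S p f V) (H : HP S J p' f' V') {y : Euc (2 * n)} (hy : y ∈ V)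
  (hy' : (subChart hf).symm y ∈ (hch H).source)
include hy hy'

theorem sig_cd : ContDiffAt ℝ ∞ (sig hf H) y := by
  refine ContDiffAt.comp (g := aff n) y cd_aff.contDiffAt (subChart_tr hf H.lp hy ?_)
  rw [← subChart_symm hf hy]
  exact hy'

theorem sig_ev : ∀ᶠ x in 𝓝 y, x ∈ V ∧ (subChart hf).symm x ∈ (hch H).source :=
  Filter.Eventually.and (p := fun x => x ∈ V) (hf.isOpen.mem_nhds hy)
    (((subChart hf).continuousAt_symm hy).preimage_mem_nhds ((hch H).open_source.mem_nhds hy'))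

theorem sig_val : hpar f' (sig hf H y) = f y := by
  rw [sig, ← hch_symm H ((hch H).map_source hy'), (hch H).left_inv hy', subChart_symm hf hy]

theorem sig_fd (u : Euc (2 * n)) :
    fderiv ℝ (hpar f') (sig hf H y) (fderiv ℝ (sig hf H) y u) = fderiv ℝ f y u := by
  have e1 : f =ᶠ[𝓝 y] fun x => hpar f' (sig hf H x) :=
    (sig_ev hf H hy hy').mono fun x hx => (sig_val hf H hx.1 hx.2).symm
  rw [e1.fderiv_eq, fderiv_fun_comp y (cd_diff (hpar_cd H ((hch H).map_source hy')))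
    (cd_diff (sig_cd hf H hy hy'))]
  rfl

theorem sig_J (hJ : IsKahlerStructure (2 * n) N S J) {a a' : Euc (2 * n)}
    (h : fderiv ℝ f y a' = J (f y) (fderiv ℝ f y a)) :
    fderiv ℝ (sig hf H) y a' = I • fderiv ℝ (sig hf H) y a := by
  have ht : sig hf H y ∈ (hch H).target := (hch H).map_source hy'
  apply (H.ki hJ).inj _ ht
  rw [sig_fd hf H hy hy', ← hpar_hol H ht, sig_fd hf H hy hy', sig_val hf H hy hy', h]

end Sig

theorem tr_diff (hJ : IsKahlerStructure (2 * n) N S J) (H : HP S J p f V) (H' : HP S J p' f' V')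
    {z : Cn n} (hz : z ∈ (hch H).target) (hz' : (hch H).symm z ∈ (hch H').source) :
    DifferentiableAt ℂ (fun w => hch H' ((hch H).symm w)) z := by
  have h1 : ContDiffAt ℝ ∞ (fun w => sig H.lp H' ((aff n).symm w)) z :=
    ContDiffAt.comp (g := sig H.lp H') z (sig_cd H.lp H' hz hz') cd_aff_symm.contDiffAt
  refine diffC (τ := fun w => sig H.lp H' ((aff n).symm w)) (cd_diff h1) fun u => ?_
  rw [fd_aff, fd_aff]
  exact sig_J H.lp H' hz hz' hJ (H.hol _ hz u).symm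

/-- the index type of the holomorphic atlas -/
def HIx (n N : ℕ) (S : Set (Euc N)) (J : Euc N → Euc N →L[ℝ] Euc N) : Type :=
  {q : Euc N × (Euc (2 * n) → Euc N) × Set (Euc (2 * n)) // HP S J q.1 q.2.1 q.2.2}

/-- the holomorphic atlas -/
def atl (hS : IsSubmanifold (2 * n) N S) (hJ : IsKahlerStructure (2 * n) N S J) : Atl n S where
  ι := HIx n N S J
  e q := hch q.2
  cover x := by
    obtain ⟨f, V, H⟩ := exists_hp hS hJ x.2
    exact ⟨⟨(x.1, f, V), H⟩, 0, H.lp.zero_mem, H.lp.map_zero⟩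
  cube q z hz r := by
    have h1 : ‖z - ctr n‖ < 1 / 2 := by
      have := q.2.small _ hz
      change ‖(eR n).symm (eR n (z - ctr n))‖ < 1 / 2 at this
      rwa [ContinuousLinearEquiv.symm_apply_apply] at this
    have h2 : ‖(z - ctr n) r.1‖ < 1 / 2 := (PiLp.norm_apply_le _ _).trans_lt h1
    have h3 := abs_lt.1 ((abs_re_le_norm _).trans_lt h2)
    have h4 := abs_lt.1 ((abs_im_le_norm _).trans_lt h2)
    simp only [PiLp.sub_apply, ctr, cc_apply, sub_re, add_re, ofReal_re, mul_re, I_re, mul_zero,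
      ofReal_im, I_im, mul_one, sub_self, add_zero, sub_im, add_im, mul_im, zero_add] at h3 h4
    unfold rc
    split_ifs
    · constructor <;> linarith [h3.1, h3.2]
    · constructor <;> linarith [h4.1, h4.2]
  holo q r z hz := (tr_diff hJ q.2 r.2 hz.1 hz.2).differentiableWithinAt

theorem gm_ev (H : HP S J p f V) {z : Cn n} (hz : z ∈ (hch H).target) :
    (fun w => gm (hpar f) (hch H ((hch H).symm w))) =ᶠ[𝓝 z] gm (hpar f) := by
  filter_upwards [(hch H).open_target.mem_nhds hz] with w hw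
  rw [(hch H).right_inv hw]

theorem gm_ev' (H : HP S J p f V) {z : Cn n} (hz : z ∈ (hch H).target) (a b : Fin n) :
    (fun w => gm (hpar f) (hch H ((hch H).symm w)) a b) =ᶠ[𝓝 z] fun w => gm (hpar f) w a b :=
  (gm_ev H hz).mono fun _ hw => congrArg (fun m : Matrix (Fin n) (Fin n) ℂ => m a b) hw

/-- the Kaehler metric -/
def kah (hS : IsSubmanifold (2 * n) N S) (hJ : IsKahlerStructure (2 * n) N S J) :
    Kah (atl hS hJ) where
  g q x := gm (hpar q.1.2.1) (hch q.2 x)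
  sm q a b := ((q.2.ki hJ).gm_sm a b).congr fun _ hz => (gm_ev' q.2 hz a b).self_of_nhds
  pos q x hx := ((q.2.ki hJ).orth _ ((hch q.2).map_source hx)).posDef
    ((q.2.ki hJ).inj _ ((hch q.2).map_source hx))
  tr q r x hx := by
    have hz : hch q.2 x ∈ (hch q.2).target := (hch q.2).map_source hx.1
    have hl : (hch q.2).symm (hch q.2 x) = x := (hch q.2).left_inv hx.1
    have hz' : (hch q.2).symm (hch q.2 x) ∈ (hch r.2).source := by rw [hl]; exact hx.2
    have hd := tr_diff hJ q.2 r.2 hz hz'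
    refine gL_tr ((r.2.ki hJ).orth _ ((hch r.2).map_source hx.2))
      (fderiv ℂ (fun w => hch r.2 ((hch q.2).symm w)) (hch q.2 x)) (fun u => ?_) _ fun b a => rfl
    have h1 : fderiv ℂ (fun w => hch r.2 ((hch q.2).symm w)) (hch q.2 x) u =
        fderiv ℝ (fun w => sig q.2.lp r.2 ((aff n).symm w)) (hch q.2 x) u := by
      have := hd.fderiv_restrictScalars ℝ
      exact (congrArg (fun L => L u) this).symm
    have h2 : sig q.2.lp r.2 ((aff n).symm (hch q.2 x)) = hch r.2 x := congrArg (hch r.2) hl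
    rw [h1, fd_aff, fd_hpar, ← h2]
    exact (sig_fd q.2.lp r.2 hz hz' _).symm
  closed q z hz a b c := by
    refine (wd_congr (gm_ev' q.2 hz a b) _).trans (Eq.trans ?_ (wd_congr (gm_ev' q.2 hz c b) _).symm)
    exact (q.2.ki hJ).closed hz a b c
  closed' q z hz a b c := by
    refine (wd_congr (gm_ev' q.2 hz a b) _).trans (Eq.trans ?_ (wd_congr (gm_ev' q.2 hz a c) _).symm)
    exact (q.2.ki hJ).closed' hz a b c

section Props

variable (hS : IsSubmanifold (2 * n) N S) (hJ : IsKahlerStructure (2 * n) N S J)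

theorem kah_G (q : HIx n N S J) {z : Cn n} (hz : z ∈ (hch q.2).target) (u v : Cn n) :
    G (KK (kah hS hJ) q) z u v = ⟪fderiv ℝ (hpar q.1.2.1) z u, fderiv ℝ (hpar q.1.2.1) z v⟫ :=
  ((q.2.ki hJ).orth z hz).G_eq (congrArg Matrix.transpose (gm_ev q.2 hz).self_of_nhds) u v

theorem val_ev (H : HP S J p f V) {z : Cn n} (hz : z ∈ (hch H).target) :
    (fun w => (((hch H).symm w : S) : Euc N)) =ᶠ[𝓝 z] hpar f := by
  filter_upwards [(hch H).open_target.mem_nhds hz] with w hw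
  exact hch_symm H hw

theorem kah_bk (hpos : ∀ p ∈ S, ∀ (f : Euc (2 * n) → Euc N) (V : Set (Euc (2 * n))),
    IsLocalParam (2 * n) N S p f V → ∀ X ∈ tangentAt f 0, ∀ Y ∈ tangentAt f 0, X ≠ 0 → Y ≠ 0 →
      0 < riem4 f 0 X (J p X) (J p Y) Y) : BKpos (kah hS hJ) := by
  rintro ⟨⟨p, f, V⟩, H⟩ z hz v w hv hw
  have H' : HP S J p f V := H
  have hz' : z ∈ (hch H').target := hz
  have K := H'.ki hJ
  set y := (aff n).symm z with hy
  have hyV : y ∈ V := hz'
  have ht := lp_translate H'.lp hyV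
  have hc := lp_contDiffAt ht ht.zero_mem
  have hi := ht.injective_fderiv 0 ht.zero_mem
  have e0 : ∀ u, fderiv ℝ (hpar f) z u = fderiv ℝ (fun x => f (x + y)) 0 (eR n u) := by
    intro u
    rw [fd_hpar, fd_tr]
  have hne : ∀ u : Cn n, u ≠ 0 → fderiv ℝ (fun x => f (x + y)) 0 (eR n u) ≠ 0 := by
    intro u hu h0
    rw [← e0] at h0
    exact hu (K.inj z hz' (by rw [h0, map_zero]))
  have hJv : ∀ u : Cn n, J (f y) (fderiv ℝ (fun x => f (x + y)) 0 (eR n u))
      = fderiv ℝ (fun x => f (x + y)) 0 (eR n (I • u)) := by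
    intro u
    rw [fd_tr]
    exact H'.hol y hyV u
  have h := hpos _ (lp_mem H'.lp hyV) _ _ ht _ (mem_tan _ 0 (eR n v)) _ (mem_tan _ 0 (eR n w))
    (hne v hv) (hne w hw)
  rw [hJv, hJv, riem4, sffVec_fd hc hi, sffVec_fd hc hi, sffVec_fd hc hi, sffVec_fd hc hi,
    fd2_tr, ← d2_hpar H' hz', ← d2_hpar H' hz', ← d2_hpar H' hz', ← d2_hpar H' hz'] at h
  have h1 : bis (gc (kah hS hJ) ⟨(p, f, V), H⟩) z v w = bis (gm (hpar f)) z v w :=
    bis_congr (gm_ev H' hz') v w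
  rw [h1, K.bis_eq hz' (fun X => (tangentAt (fun x => f (x + y)) 0).starProjection X)]
  · linarith
  · intro X
    obtain ⟨a, ha⟩ := of_mem_tan ((tangentAt (fun x => f (x + y)) 0).starProjection_apply_mem X)
    exact ⟨(eR n).symm a, by rw [e0, ContinuousLinearEquiv.apply_symm_apply, ha]⟩
  · intro X u
    rw [e0]
    exact Submodule.starProjection_inner_eq_zero X _ (mem_tan _ 0 _)

theorem kah_proper [ConnectedSpace S] (hc : IsClosed S) : ProperSpace (ofKah (kah hS hJ)).M := by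
  have hl := lip_kah (kah hS hJ) (fun x : S => (x : Euc N))
    (fun q z hz => (((hpar_cd q.2 hz).congr_of_eventuallyEq (val_ev q.2 hz)).of_le
      (by simp)).contDiffWithinAt)
    (fun q z hz v => by
      have e : fderiv ℝ (fun w => (((hch q.2).symm w : S) : Euc N)) z
        = fderiv ℝ (hpar q.1.2.1) z := (val_ev q.2 hz).fderiv_eq
      refine le_of_eq (Eq.trans ?_ (kah_G hS hJ q hz v v).symm)
      rw [real_inner_self_eq_norm_sq, ← e]
      rfl)
  refine ⟨fun x r => ?_⟩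
  have h1 : IsCompact (X := (ofKah (kah hS hJ)).M)
      ((fun x : S => (x : Euc N)) ⁻¹' Metric.closedBall (x : S).1 r) :=
    hc.isClosedEmbedding_subtypeVal.isCompact_preimage (isCompact_closedBall _ _)
  exact h1.of_isClosed_subset Metric.isClosed_closedBall fun y hy => (hl y x).trans hy

theorem kah_exh (hc : IsClosed S) :
    Exh (kah hS hJ) (fun x : S => Real.sqrt (1 + ⟪(x : Euc N), (x : Euc N)⟫)) := by
  have hpos : ∀ X : Euc N, 0 < 1 + ⟪X, X⟫ := fun X => by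
    have := real_inner_self_nonneg (x := X)
    linarith
  have hev : ∀ (q : HIx n N S J), ∀ z ∈ (hch q.2).target,
      (fun w => Real.sqrt (1 + ⟪(((hch q.2).symm w : S) : Euc N), (((hch q.2).symm w : S) : Euc N)⟫))
        =ᶠ[𝓝 z] fun w => Real.sqrt (1 + ⟪hpar q.1.2.1 w, hpar q.1.2.1 w⟫) := by
    intro q z hz
    filter_upwards [val_ev q.2 hz] with w hw
    rw [hw]
  refine ⟨fun q z hz => ?_, fun c => ?_, fun q z hz v => ?_⟩
  · have h1 := hpar_cd q.2 hz
    exact (((contDiffAt_const.add (h1.inner ℝ h1)).sqrt (hpos _).ne').congr_of_eventuallyEq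
      (hev q z hz)).contDiffWithinAt
  · refine (hc.isClosedEmbedding_subtypeVal.isCompact_preimage
      (isCompact_closedBall (0 : Euc N) c)).of_isClosed_subset
      (isClosed_le (by fun_prop) continuous_const) fun x hx => ?_
    refine mem_closedBall_zero_iff.2 (le_trans ?_ hx)
    refine Real.le_sqrt_of_sq_le ?_
    rw [real_inner_self_eq_norm_sq]
    linarith
  · have h1 := cd_diff (hpar_cd q.2 hz)
    have e : fderiv ℝ (fun w => Real.sqrt (1 + ⟪(((hch q.2).symm w : S) : Euc N),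
        (((hch q.2).symm w : S) : Euc N)⟫)) z = fderiv ℝ
        (fun w => Real.sqrt (1 + ⟪hpar q.1.2.1 w, hpar q.1.2.1 w⟫)) z := (hev q z hz).fderiv_eq
    refine le_of_eq_of_le (congrArg (fun L : Cn n →L[ℝ] ℝ => (L v) ^ 2) e) ?_
    refine le_of_le_of_eq ?_ (kah_G hS hJ q hz v v).symm
    rw [fderiv_sqrt ((differentiableAt_const _).fun_add (h1.inner ℝ h1)) (hpos _).ne',
      fderiv_const_add]
    simp only [_root_.smul_apply, smul_eq_mul]
    rw [fderiv_inner_apply ℝ h1 h1]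
    set X := hpar q.1.2.1 z
    set Y := fderiv ℝ (hpar q.1.2.1) z v
    have h2 := real_inner_mul_inner_self_le X Y
    have h3 := real_inner_self_nonneg (x := Y)
    have h4 := hpos X
    rw [real_inner_comm X Y, mul_pow, div_pow, mul_pow, Real.sq_sqrt h4.le, div_mul_eq_mul_div,
      div_le_iff₀ (by positivity)]
    nlinarith

end Props

/-- **the bridge** -/
theorem s0345_of (H : ∀ n, 1 ≤ n → YauImm n)
    (n N : ℕ) (hn : 1 ≤ n) (S : Set (EuclideanSpace ℝ (Fin N))) (hS : IsSubmanifold (2 * n) N S)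
    (hclosed : IsClosed S) (hconn : IsConnected S) (hnc : ¬ IsCompact S)
    (J : EuclideanSpace ℝ (Fin N) → (EuclideanSpace ℝ (Fin N) →L[ℝ] EuclideanSpace ℝ (Fin N)))
    (hJ : IsKahlerStructure (2 * n) N S J)
    (hpos : ∀ p ∈ S, ∀ (f : EuclideanSpace ℝ (Fin (2 * n)) → EuclideanSpace ℝ (Fin N))
      (V : Set (EuclideanSpace ℝ (Fin (2 * n)))), IsLocalParam (2 * n) N S p f V →
      ∀ X ∈ tangentAt f 0, ∀ Y ∈ tangentAt f 0, X ≠ 0 → Y ≠ 0 →
        0 < riem4 f 0 X (J p X) (J p Y) Y) :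
    ∃ Φ : EuclideanSpace ℝ (Fin N) → EuclideanSpace ℂ (Fin n),
      IsHolomorphicOnto (2 * n) N n S J Φ := by
  classical
  have : ConnectedSpace S := isConnected_iff_connectedSpace.1 hconn
  have : NoncompactSpace S := not_compactSpace_iff.1 fun h => hnc (isCompact_iff_compactSpace.2 h)
  obtain ⟨F, hF, hhol, hinj⟩ := H n hn S (atl hS hJ) (kah hS hJ) (kah_proper hS hJ hclosed)
    ⟨_, kah_exh hS hJ hclosed⟩ (kah_bk hS hJ hpos)
  let Φ : Euc N → Cn n := fun x => if hx : x ∈ S then F ⟨x, hx⟩ else 0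
  have hΦ : ∀ x : S, Φ x = F x := fun x => dif_pos x.2
  have key : ∀ (p : Euc N) (f : Euc (2 * n) → Euc N) (V : Set (Euc (2 * n)))
      (hf : IsLocalParam (2 * n) N S p f V), ∀ y ∈ V, ContDiffAt ℝ ∞ (fun x => Φ (f x)) y ∧
        Function.Injective (fderiv ℝ (fun x => Φ (f x)) y) ∧ ∀ a a',
        fderiv ℝ f y a' = J (f y) (fderiv ℝ f y a) →
        fderiv ℝ (fun x => Φ (f x)) y a' = I • fderiv ℝ (fun x => Φ (f x)) y a := by
    intro p f V hf y hy
    obtain ⟨q, hq⟩ := (atl hS hJ).cover ((subChart hf).symm y)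
    have hq' : (subChart hf).symm y ∈ (hch q.2).source := hq
    have ht : sig hf q.2 y ∈ (hch q.2).target := (hch q.2).map_source hq'
    set Fq : Cn n → Cn n := fun z => F ((hch q.2).symm z) with hFq
    have hd : DifferentiableOn ℂ Fq (hch q.2).target := hhol q
    have h1 : ContDiffAt ℝ ∞ Fq (sig hf q.2 y) :=
      (((R266.SCV.contDiffOn_omega_of_differentiableOn (hch q.2).open_target hd).restrict_scalars
        ℝ).of_le le_top).contDiffAt ((hch q.2).open_target.mem_nhds ht)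
    have h2 : fderiv ℝ Fq (sig hf q.2 y) = (fderiv ℂ Fq (sig hf q.2 y)).restrictScalars ℝ :=
      (hd.differentiableAt ((hch q.2).open_target.mem_nhds ht)).fderiv_restrictScalars ℝ
    have e1 : (fun x => Φ (f x)) =ᶠ[𝓝 y] fun x => Fq (sig hf q.2 x) := by
      filter_upwards [sig_ev hf q.2 hy hq'] with x hx
      rw [← subChart_symm hf hx.1, hΦ, hFq, sig]
      simp only
      rw [(hch q.2).left_inv hx.2]
    have hs := sig_cd hf q.2 hy hq'
    have e2 : ∀ a, fderiv ℝ (fun x => Φ (f x)) y a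
        = fderiv ℂ Fq (sig hf q.2 y) (fderiv ℝ (sig hf q.2) y a) := by
      intro a
      rw [e1.fderiv_eq, fderiv_fun_comp y (cd_diff h1) (cd_diff hs), h2]
      rfl
    refine ⟨(ContDiffAt.comp (g := Fq) y h1 hs).congr_of_eventuallyEq e1, fun a b hab => ?_,
      fun a a' h => ?_⟩
    · rw [e2, e2] at hab
      apply hf.injective_fderiv y hy
      rw [← sig_fd hf q.2 hy hq', ← sig_fd hf q.2 hy hq', hinj q _ ht hab]
    · rw [e2, e2, sig_J hf q.2 hy hq' hJ h, map_smul]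
  refine ⟨Φ, fun p _ f V hf y hy => (key p f V hf y hy).1.contDiffWithinAt,
    fun p _ f V hf => (key p f V hf 0 hf.zero_mem).2.1, fun p _ f V hf v hv => ?_, ?_⟩
  · obtain ⟨a, rfl⟩ := of_mem_tan hv
    obtain ⟨a', ha'⟩ := J_maps hJ hf hf.zero_mem a
    have h := (key p f V hf 0 hf.zero_mem).2.2 a a' ha'
    rw [hf.map_zero] at ha'
    rw [← ha', coordVec_fd (hf.injective_fderiv 0 hf.zero_mem),
      coordVec_fd (hf.injective_fderiv 0 hf.zero_mem), h]
  · refine ⟨mapsTo_univ _ _, fun x hx y hy hxy => ?_, fun z _ => ?_⟩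
    · have h := (hΦ ⟨x, hx⟩).symm.trans (hxy.trans (hΦ ⟨y, hy⟩))
      exact congrArg Subtype.val (hF.1 h)
    · obtain ⟨x, hx⟩ := hF.2 z
      exact ⟨x, x.2, (hΦ x).trans hx⟩

end

end Crest.Agent.T223.Br
end

-- ▼ part T223/U0I_15
section

/-!
# Row 223 (S0345), module U0 (helper15): `initStmt : NFStmt n → LbStmt n → InitStmt n`
-/

set_option autoImplicit false
set_option linter.unusedSectionVars false

open Set Filter Topology Metric
open scoped ContDiff Matrix ComplexConjugate ComplexOrder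

namespace Crest.Agent.T223.U0

open Crest.Agent.R275.Geo Crest.Agent.R275.Core144 Crest.Agent.R275.EDR890
open Crest.Agent.R273 Crest.Agent.R273.Hess_333
open Crest.Agent.R273.HessB_333 Crest.Agent.R273.Kah_333
open Crest.Agent.R273.RMan_798 Crest.Agent.R273.RMan4_798
open Crest.Agent.T223.Br Crest.Agent.T223.Tr

noncomputable section

variable {n : ℕ} {M : Type} [TopologicalSpace M] {A : Atl n M}

/-- the potential of a finite family of `n`-forms -/
theorem exists_pot_fam (K : Kah A) {ρ : M → ℝ} (hρ : A.Sm ρ) {a : ℝ}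
    (hc : IsCompact {x | ρ x ≤ a}) (hNF : ∀ x, ∃ σ, IsHS (KB A) univ σ ∧ 0 < nsq K σ x)
    {ι : Type} [Fintype ι] {s : ι → A.ι → M → ℂ} (hs : ∀ j, IsHS (KB A) univ (s j)) :
    ∃ θ : M → ℝ, Pot K {x | ρ x < a} θ ∧ (∀ x, ∑ j, nsq K (s j) x ≤ Real.exp (θ x)) ∧
      ∀ x, ρ x ≤ a → Real.exp (θ x) ≤ ∑ j, nsq K (s j) x + 1 := by
  classical
  choose σ hσ hσ0 using hNF
  obtain ⟨t, ht⟩ := hc.elim_finite_subcover (fun x => {y | 0 < nsq K (σ x) y})
    (fun x => isOpen_lt continuous_const (nsq_continuous K (hσ x)))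
    (fun x _ => mem_iUnion.2 ⟨x, hσ0 x⟩)
  set S : M → ℝ := fun y => ∑ x : t, nsq K (σ x) y with hS
  set S0 : M → ℝ := fun y => ∑ j, nsq K (s j) y with hS0d
  have hSsm : A.Sm S := fun i => ContDiffOn.sum fun x _ => nsq_sm K (hσ x) i
  have hS0sm : A.Sm S0 := fun i => ContDiffOn.sum fun j _ => nsq_sm K (hs j) i
  have hS0 : ∀ y, 0 ≤ S y := fun y => Finset.sum_nonneg fun x _ => nsq_nonneg K _ y
  have hS00 : ∀ y, 0 ≤ S0 y := fun y => Finset.sum_nonneg fun x _ => nsq_nonneg K _ y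
  have hSp : ∀ y, ρ y ≤ a → 0 < S y := by
    intro y hy
    obtain ⟨x, hx, hxy⟩ := mem_iUnion₂.1 (ht hy)
    exact Finset.sum_pos' (fun x _ => nsq_nonneg K _ y) ⟨⟨x, hx⟩, Finset.mem_univ _, hxy⟩
  obtain ⟨B, hB⟩ := hc.bddAbove_image (sm_continuous hSsm).continuousOn
  set c : ℝ := (|B| + 1)⁻¹ with hcdef
  have hcp : 0 < c := by positivity
  have hcS : ∀ y, ρ y ≤ a → c * S y ≤ 1 := by
    intro y hy
    have h1 : S y ≤ |B| + 1 := (hB ⟨y, hy, rfl⟩).trans ((le_abs_self B).trans (by linarith))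
    rw [hcdef, inv_mul_le_iff₀ (by positivity)]
    linarith
  set F : M → ℝ := fun y => S0 y + c * S y + expNegInvGlue (ρ y - a) with hF
  have hFp : ∀ y, 0 < F y := by
    intro y
    have h1 := hS00 y
    have h2 := mul_nonneg hcp.le (hS0 y)
    have h3 := expNegInvGlue.nonneg (ρ y - a)
    rcases le_or_gt (ρ y) a with hy | hy
    · have := mul_pos hcp (hSp y hy)
      simp only [hF]; linarith
    · have := expNegInvGlue.pos_of_pos (sub_pos.2 hy)
      simp only [hF]; linarith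
  have hFsm : A.Sm F := fun i =>
    ((hS0sm i).add (contDiffOn_const.mul (hSsm i))).add
      (expNegInvGlue.contDiff.comp_contDiffOn ((hρ i).sub contDiffOn_const))
  have hFin : ∀ y, ρ y ≤ a → F y = S0 y + c * S y := by
    intro y hy
    simp only [hF]
    rw [expNegInvGlue.zero_of_nonpos (sub_nonpos.2 hy), add_zero]
  refine ⟨fun y => Real.log (F y),
    pot_of_psd (fun i => (hFsm i).log fun z _ => (hFp _).ne') ?_, ?_, ?_⟩
  · intro i z hz hza
    set τ : ι ⊕ t → A.ι → M → ℂ := fun j =>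
      Sum.casesOn j s fun x => ((Real.sqrt c : ℝ) : ℂ) • σ x with hτ
    have hτs : ∀ j, IsHS (KB A) univ (τ j) := by
      rintro (j | x)
      · exact hs j
      · exact (hσ x).smul _
    have hsum : ∀ y, ∑ j, nsq K (τ j) y = S0 y + c * S y := by
      intro y
      rw [Fintype.sum_sum_type, hS, Finset.mul_sum]
      congr 1
      refine Finset.sum_congr rfl fun x _ => ?_
      change nsq K (((Real.sqrt c : ℝ) : ℂ) • σ x) y = _
      rw [nsq_smul, Complex.norm_real, Real.norm_eq_abs, sq_abs, Real.sq_sqrt hcp.le]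
    have hev : ∀ᶠ w in 𝓝 z, ρ ((A.e i).symm w) < a :=
      (sm_contDiffAt hρ i hz).continuousAt.eventually (gt_mem_nhds hza)
    refine psd_log_nsq K hτs (θ := fun y => Real.log (F y)) hz ?_ ?_
    · rw [hsum, ← hFin _ (le_of_lt hza)]
      exact hFp _
    · filter_upwards [hev] with w hw
      rw [hsum, hFin _ hw.le]
  · intro x
    rw [Real.exp_log (hFp x)]
    have h2 := mul_nonneg hcp.le (hS0 x)
    have h3 := expNegInvGlue.nonneg (ρ x - a)
    simp only [hF]; linarith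
  · intro x hx
    rw [Real.exp_log (hFp x), hFin x hx]
    linarith [hcS x hx]

/-- `log |s|²` is plurisubharmonic if `Ric ≥ 0` -/
theorem logPsh_nsq {K : Kah A} (hK : BKpos K) {s : A.ι → M → ℂ} (hs : IsHS (KB A) univ s) :
    Lb.LogPsh A (nsq K s) := by
  intro i y hy hp
  have hz := (A.e i).map_source hy
  have hp' : 0 < nsq K s ((A.e i).symm (A.e i y)) := by rwa [(A.e i).left_inv hy]
  have h1 : ContDiffAt ℝ ∞ (fun w => Real.log (nsq K s ((A.e i).symm w))) (A.e i y) :=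
    (sm_contDiffAt (nsq_sm K hs) i hz).log hp'.ne'
  refine ⟨fun w => Real.log (nsq K s ((A.e i).symm w)),
    ⟨h1, by rw [(A.e i).left_inv hy], Eventually.of_forall fun _ => le_rfl⟩, fun v => ?_⟩
  have h2 := psd_log_nsq K (σ := fun _ : Unit => s) (fun _ => hs)
    (θ := fun x => Real.log (nsq K s x)) hz (by simpa using hp')
    (Eventually.of_forall fun w => by simp)
  rw [hess_add h1 (ld_contDiffAt K hz)] at h2
  have h3 := nq_nonneg h2 v
  have h4 := nq_nonneg (ric_posDef_of_BKpos hK i hz).posSemidef v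
  rw [ric, Ev.nq_neg] at h4
  rw [Ev.nq_add] at h3
  linarith

variable [T2Space M] [ConnectedSpace M]

theorem dK_nonneg (K : Kah A) (x y : M) : 0 ≤ dK K x y := dist_nonneg (α := (ofKah K).M)

theorem dK_comm (K : Kah A) (x y : M) : dK K x y = dK K y x := dist_comm (α := (ofKah K).M) x y

theorem dK_triangle (K : Kah A) (x y z : M) : dK K x z ≤ dK K x y + dK K y z :=
  dist_triangle (α := (ofKah K).M) x y z

theorem isCompact_sublevel {K : Kah A} (hP : ProperSpace (ofKah K).M) {ρ : M → ℝ}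
    (hρ : Continuous ρ) {p : M} (h : ∀ x, dK K p x ≤ ρ x) (a : ℝ) : IsCompact {x | ρ x ≤ a} := by
  have h1 : IsCompact (closedBall (α := (ofKah K).M) p a) := isCompact_closedBall _ _
  refine IsCompact.of_isClosed_subset (X := M) h1 (isClosed_le hρ continuous_const) fun x hx => ?_
  exact (mem_closedBall' (α := (ofKah K).M)).2 ((h x).trans hx)

/-- the three-circle lower bound -/
theorem three_circ {K : Kah A} (hT : Lb.TC K) {w : M → ℝ} (hc : Continuous w) (h0 : ∀ y, 0 ≤ w y)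
    (hp : Lb.LogPsh A w) {p : M} {C1 L : ℝ} (hC1 : 0 ≤ C1) (hL : 0 ≤ L)
    (hw : ∀ y, w y ≤ Real.exp (C1 * (1 + dK K p y))) (hwp : Real.exp (-L) ≤ w p)
    {u : M → ℝ} (hu : ∀ y, w y ≤ Real.exp (u y)) (x : M) {r : ℝ} (hr : 0 < r) (hr1 : r ≤ 1) :
    ∃ y, dK K x y < r ∧
      -((12 * C1 + 4 * L + 2) * (2 + dK K p x) * Real.log ((2 + dK K p x) / r)) ≤ u y := by
  set D := dK K p x with hD
  set C := 12 * C1 + 4 * L + 2 with hC
  have hD0 : 0 ≤ D := dK_nonneg K p x
  set Λ := Real.log ((2 + D) / r) with hΛ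
  have hl2 : 1 / 2 < Real.log 2 := by linarith [Real.log_two_gt_d9]
  have hΛ2 : Real.log 2 ≤ Λ := by
    refine Real.log_le_log two_pos ?_
    rw [le_div_iff₀ hr]
    linarith
  have hup : -L ≤ u p := Real.exp_le_exp.1 (hwp.trans (hu p))
  rcases lt_or_ge D r with hDr | hDr
  · refine ⟨p, by rwa [dK_comm], le_trans ?_ hup⟩
    have h1 : 1 ≤ (2 + D) * Λ := by nlinarith
    have h2 : C * 1 ≤ C * ((2 + D) * Λ) := mul_le_mul_of_nonneg_left h1 (by positivity)
    rw [mul_assoc]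
    linarith
  by_contra hcon
  push Not at hcon
  have hDp : 0 < D := hr.trans_le hDr
  have h1 := hT w hc h0 hp x (r / 2) D (2 * D) (-(C * (2 + D) * Λ)) (C1 * (1 + 3 * D))
    (half_pos hr) (by linarith) (by linarith) (by linarith)
    (fun y hy => (hu y).trans (Real.exp_le_exp.2 (hcon y (by linarith)).le))
    (fun y hy => (hw y).trans (Real.exp_le_exp.2 (mul_le_mul_of_nonneg_left
      (by linarith [dK_triangle K p x y]) hC1))) p (by rw [dK_comm])
  have h2 := Real.exp_le_exp.1 (hwp.trans h1)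
  have e1 : 2 * D / D = 2 := by field_simp
  have hq : 0 < (2 + D) / r := by positivity
  have h3 : Real.log (D / (r / 2)) ≤ 2 * Λ := by
    have : D / (r / 2) ≤ 2 * ((2 + D) / r) := by
      rw [div_le_iff₀ (half_pos hr)]
      field_simp
      linarith
    refine (Real.log_le_log (by positivity) this).trans ?_
    rw [Real.log_mul two_ne_zero hq.ne']
    linarith
  have h4 : Real.log (2 * D / (r / 2)) ≤ 3 * Λ := by
    have : 2 * D / (r / 2) ≤ 2 * (2 * ((2 + D) / r)) := by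
      rw [div_le_iff₀ (half_pos hr)]
      field_simp
      linarith
    refine (Real.log_le_log (by positivity) this).trans ?_
    rw [Real.log_mul two_ne_zero (by positivity), Real.log_mul two_ne_zero hq.ne']
    linarith
  have h5 : 0 < Real.log (2 * D / (r / 2)) :=
    Real.log_pos (by rw [one_lt_div (half_pos hr)]; linarith)
  rw [e1, le_div_iff₀ h5] at h2
  have hΛ0 : 0 < Λ := by linarith
  have h6 : Real.log (D / (r / 2)) * (C1 * (1 + 3 * D)) ≤ 2 * Λ * (C1 * (3 * (2 + D))) :=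
    (mul_le_mul_of_nonneg_right h3 (by positivity)).trans
      (mul_le_mul_of_nonneg_left (mul_le_mul_of_nonneg_left (by linarith) hC1) (by positivity))
  have h7 : L * Real.log (2 * D / (r / 2)) ≤ L * (2 * (2 + D) * Λ) :=
    mul_le_mul_of_nonneg_left (h4.trans (by nlinarith)) hL
  have h8 : 0 < (2 + D) * Λ := by positivity
  have h9 : 1 / 2 * (C * (2 + D) * Λ) ≤ Real.log 2 * (C * (2 + D) * Λ) :=
    mul_le_mul_of_nonneg_right hl2.le (by positivity)
  have h10 : C * (2 + D) * Λ = 12 * (C1 * ((2 + D) * Λ)) + 4 * (L * ((2 + D) * Λ))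
      + 2 * ((2 + D) * Λ) := by rw [hC]; ring
  nlinarith

/-- potentials which are bounded below on a given compact set -/
theorem pot_compact {K : Kah A} {p : M} (hNF : NF K (dK K p)) {ρ : M → ℝ} (hρ : A.Sm ρ)
    (hc : ∀ a, IsCompact {x | ρ x ≤ a}) {Q : Set M} (hQ : IsCompact Q) :
    ∃ C' : ℝ, 0 ≤ C' ∧ ∀ a, ∃ θ : M → ℝ, Pot K {x | ρ x < a} θ ∧
      (∀ x, ρ x ≤ a → θ x ≤ C' * (1 + dK K p x)) ∧ ∀ x ∈ Q, -C' ≤ θ x := by
  classical
  have hNF' : ∀ x, ∃ σ, IsHS (KB A) univ σ ∧ 0 < nsq K σ x := fun x => by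
    obtain ⟨σ, C, h, h', -⟩ := hNF x
    exact ⟨σ, h, h'⟩
  choose σ C hσ hσ0 hσC using hNF
  obtain ⟨t, ht⟩ := hQ.elim_finite_subcover (fun x => {y | 0 < nsq K (σ x) y})
    (fun x => isOpen_lt continuous_const (nsq_continuous K (hσ x)))
    (fun x _ => mem_iUnion.2 ⟨x, hσ0 x⟩)
  have hSc : Continuous fun y => ∑ x : t, nsq K (σ x) y :=
    continuous_finsetSum _ fun x _ => nsq_continuous K (hσ x)
  obtain ⟨μ, hμ, hμ'⟩ := hQ.exists_forall_le' (a := 0) hSc.continuousOn fun y hy => by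
    obtain ⟨x, hx, hxy⟩ := mem_iUnion₂.1 (ht hy)
    exact Finset.sum_pos' (fun x _ => nsq_nonneg K _ y) ⟨⟨x, hx⟩, Finset.mem_univ _, hxy⟩
  set Cm : ℝ := ∑ x : t, |C x| with hCm
  have hCm0 : 0 ≤ Cm := by positivity
  set N : ℝ := (Fintype.card t : ℝ) with hN
  have hN0 : 0 ≤ N := Nat.cast_nonneg _
  refine ⟨N + Cm + |Real.log μ|, by positivity, fun a => ?_⟩
  obtain ⟨θ, h1, h2, h3⟩ := exists_pot_fam K hρ (hc a) hNF' (s := fun x : t => σ x) fun x => hσ x
  refine ⟨θ, h1, fun y hy => ?_, fun y hy => ?_⟩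
  · have hd := dK_nonneg K p y
    have a1 : ∀ x : t, nsq K (σ x) y ≤ Real.exp (Cm * (1 + dK K p y)) := fun x =>
      (hσC x y).trans (Real.exp_le_exp.2 (mul_le_mul_of_nonneg_right ((le_abs_self _).trans
        (Finset.single_le_sum (f := fun x : t => |C x|) (fun _ _ => abs_nonneg _)
          (Finset.mem_univ x))) (by linarith)))
    have a2 : ∑ x : t, nsq K (σ x) y ≤ N * Real.exp (Cm * (1 + dK K p y)) := by
      refine (Finset.sum_le_sum fun x _ => a1 x).trans (le_of_eq ?_)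
      rw [Finset.sum_const, nsmul_eq_mul, Finset.card_univ]
    have a3 : 1 ≤ Real.exp (Cm * (1 + dK K p y)) := Real.one_le_exp (by positivity)
    have a4 : Real.exp (θ y) ≤ Real.exp (N + Cm * (1 + dK K p y)) := by
      rw [Real.exp_add]
      have := Real.add_one_le_exp N
      have := h3 y hy
      nlinarith
    have a5 := Real.exp_le_exp.1 a4
    have := abs_nonneg (Real.log μ)
    nlinarith
  · have a1 : Real.log μ ≤ θ y := by
      rw [Real.log_le_iff_le_exp hμ]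
      exact (hμ' y hy).trans (h2 y)
    linarith [neg_abs_le (Real.log μ)]

end

/-- **INIT** -/
theorem initStmt {n : ℕ} (hNF : NFStmt n) (hLb : Lb.LbStmt n) : InitStmt n := by
  intro M _ _ _ _ _ A K p H
  obtain ⟨hL1, hTC, -⟩ := hLb M A K H
  have hN := hNF M A K p H
  obtain ⟨ρ, hρ, hρd, hρg⟩ := exists_rho0 K p
  have hc : ∀ a, IsCompact {x | ρ x ≤ a} :=
    isCompact_sublevel H.proper (sm_continuous hρ) fun x => (hρd x).1
  obtain ⟨s, Cs, hs, hsp, hsC⟩ := hN p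
  set C1 := max Cs 0 with hC1
  have hC10 : 0 ≤ C1 := le_max_right _ _
  have hsC' : ∀ y, nsq K s y ≤ Real.exp (C1 * (1 + dK K p y)) := fun y =>
    (hsC y).trans (Real.exp_le_exp.2 (mul_le_mul_of_nonneg_right (le_max_left _ _)
      (by linarith [dK_nonneg K p y])))
  set L := |Real.log (nsq K s p)| with hL
  have hL0 : 0 ≤ L := abs_nonneg _
  have hLp : Real.exp (-L) ≤ nsq K s p := by
    rw [← Real.le_log_iff_exp_le hsp]
    exact neg_abs_le _
  choose u h1 h2 h3 using fun a => exists_u0' K hρ (hc a) hN hs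
    (b := fun y => C1 * (1 + dK K p y)) (fun y => by have := dK_nonneg K p y; positivity) hsC'
  refine ⟨⟨ρ, u, 12 * C1 + 4 * L + 2, by linarith, hρ, fun x => ?_, fun x => ?_, hρg, h1,
    fun a x hx => ?_, fun a x r hr hr1 => three_circ hTC (nsq_continuous K hs) (nsq_nonneg K s)
      (logPsh_nsq H.bk hs) hC10 hL0 hsC' hLp (h2 a) x hr hr1, fun a => ?_,
    fun Q hQ => pot_compact hN hρ hc hQ, fun x i y hy => ?_⟩⟩
  · exact abs_le.2 ⟨by linarith [(hρd x).1], by linarith [(hρd x).2]⟩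
  · exact (dK_nonneg K p x).trans (hρd x).1
  · have := h3 a x hx
    have := dK_nonneg K p x
    nlinarith
  · have := Real.exp_le_exp.1 (hLp.trans (h2 a p))
    linarith
  · obtain ⟨b, hb, hb'⟩ := hL1 x i y hy
    refine ⟨b, hb.sm, hb.eq, hb.le, fun v => (hb' v).trans (mul_le_mul_of_nonneg_right
      (by linarith) (nq_nonneg (gc_posDef K ((A.e i).map_source hy)).posSemidef v))⟩

end Crest.Agent.T223.U0
end

-- ▼ part T223/OsLa_10

/-!
# Row 223, leaf (a) of OSG (helper10): the Harnack cone on one step, from `LyhPtStmt`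
-/

set_option autoImplicit false
set_option linter.unusedVariables false
set_option linter.unusedSectionVars false

open Set Filter Topology Metric
open scoped ContDiff ComplexConjugate Matrix ComplexOrder

namespace Crest.Agent.T223.Os.La10

open Crest.Agent.R275.Geo Crest.Agent.R273.Kah_333 Crest.Agent.R273.Hess_333
open Crest.Agent.R275.EDR890
open Crest.Agent.T223.Br Crest.Agent.T223.Tr
open Crest.Agent.T223.Db (dom SmST)

noncomputable section

variable {n : ℕ}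

/-! ### smoothness on `I × O` (any set of times, `O` open) -/

section cd

variable {I : Set ℝ} {O : Set (Cn n)}

/-- entries jointly smooth on `I × O` -/
def CM (I : Set ℝ) (O : Set (Cn n)) (H : ℝ → Cn n → Mat n) : Prop :=
  ∀ a b, ContDiffOn ℝ ∞ (fun q : ℝ × Cn n => H q.1 q.2 a b) (I ×ˢ O)

theorem cdOn_wd (hO : IsOpen O) {F : ℝ → Cn n → ℂ}
    (h : ContDiffOn ℝ ∞ (fun q : ℝ × Cn n => F q.1 q.2) (I ×ˢ O)) (s : WI n) :
    ContDiffOn ℝ ∞ (fun q : ℝ × Cn n => wd s (F q.1) q.2) (I ×ˢ O) := by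
  intro x hx
  have h1 : ContDiffWithinAt ℝ ∞ (Function.uncurry fun (q : ℝ × Cn n) (w : Cn n) => F q.1 w)
      ((I ×ˢ O) ×ˢ O) (x, x.2) :=
    ContDiffWithinAt.comp (x, x.2) (g := fun q : ℝ × Cn n => F q.1 q.2)
      (f := fun p : (ℝ × Cn n) × Cn n => (p.1.1, p.2)) (h x hx)
      (((contDiff_fst.comp contDiff_fst).prodMk contDiff_snd).contDiffWithinAt)
      (fun p hp => ⟨hp.1.1, hp.2⟩)
  have h2 := ContDiffWithinAt.fderivWithin (m := ∞) (g := fun q : ℝ × Cn n => q.2) h1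
    contDiffWithinAt_snd hO.uniqueDiffOn (by simp) hx (fun q hq => hq.2)
  have h3 := (wdLc (W := ℂ) s).contDiff.comp_contDiffWithinAt h2
  have e : ∀ q ∈ I ×ˢ O, wd s (F q.1) q.2 = (wdLc (W := ℂ) s ∘ fun q : ℝ × Cn n =>
      fderivWithin ℝ (fun w => F q.1 w) O q.2) q := fun q hq => by
    simp only [Function.comp, fderivWithin_of_isOpen hO hq.2]
    rfl
  exact h3.congr e (e x hx)

theorem CM.mul {G H : ℝ → Cn n → Mat n} (hG : CM I O G) (hH : CM I O H) :
    CM I O fun s z => G s z * H s z := fun a b => by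
  simp only [Matrix.mul_apply]
  exact ContDiffOn.sum fun c _ => (hG a c).mul (hH c b)

theorem CM.det {G : ℝ → Cn n → Mat n} (hG : CM I O G) :
    ContDiffOn ℝ ∞ (fun q : ℝ × Cn n => (G q.1 q.2).det) (I ×ˢ O) := by
  simp only [Matrix.det_apply']
  exact ContDiffOn.sum fun σ _ => contDiffOn_const.mul (contDiffOn_prod fun i _ => hG _ _)

theorem CM.inv {G : ℝ → Cn n → Mat n} (hG : CM I O G)
    (h0 : ∀ q ∈ I ×ˢ O, (G q.1 q.2).det ≠ 0) : CM I O fun s z => (G s z)⁻¹ := fun a b => by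
  simp only [Matrix.inv_def, Matrix.smul_apply, smul_eq_mul, Ring.inverse_eq_inv',
    Matrix.adjugate_apply]
  refine (hG.det.inv h0).mul
    (CM.det (G := fun s z => (G s z).updateRow b (Pi.single a 1)) fun c d => ?_)
  simp only [Matrix.updateRow_apply]
  split_ifs
  · exact contDiffOn_const
  · exact hG c d

theorem CM.wdM (hO : IsOpen O) {G : ℝ → Cn n → Mat n} (hG : CM I O G) (s : WI n) :
    CM I O fun t z => wdM s (G t) z := fun a b =>
  cdOn_wd hO (F := fun t w => G t w a b) (hG a b) s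

theorem cm_hess (hO : IsOpen O) {φ : ℝ → Cn n → ℝ}
    (h : ContDiffOn ℝ ∞ (fun q : ℝ × Cn n => φ q.1 q.2) (I ×ˢ O)) :
    CM I O fun t z => hess (φ t) z := fun a b =>
  cdOn_wd hO (F := fun t => wd (true, b) (cu (φ t)))
    (cdOn_wd hO (F := fun t => cu (φ t)) (Complex.ofRealCLM.contDiff.comp_contDiffOn h) _) _

variable (hO : IsOpen O) {g : ℝ → Cn n → Mat n} (hg : CM I O g)
  (hp : ∀ q ∈ I ×ˢ O, (g q.1 q.2).PosDef)

include hO hg hp

theorem cm_inv : CM I O fun s z => (g s z)⁻¹ := hg.inv fun q hq => (hp q hq).det_pos.ne'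

theorem cm_ric : CM I O fun s z => ric (g s) z := fun a b => by
  have h1 : ContDiffOn ℝ ∞ (fun q : ℝ × Cn n => ldet (g q.1) q.2) (I ×ˢ O) :=
    (Complex.reCLM.contDiff.comp_contDiffOn hg.det).log fun q hq => (det_re_pos (hp q hq)).ne'
  exact (cm_hess hO (φ := fun t => ldet (g t)) h1 a b).neg

theorem cdOn_scal : ContDiffOn ℝ ∞ (fun q : ℝ × Cn n => scal (g q.1) q.2) (I ×ˢ O) := by
  have h := (cm_inv hO hg hp).mul (cm_ric hO hg hp)
  unfold scal trg
  refine Complex.reCLM.contDiff.comp_contDiffOn ?_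
  simp only [Matrix.trace, Matrix.diag_apply]
  exact ContDiffOn.sum fun a _ => h a a

theorem cm_nabRic (k : Fin n) : CM I O fun s z => nabRic (g s) z k := fun a b =>
  (((cm_ric hO hg hp).wdM hO (false, k)) a b).sub
    ((((hg.wdM hO (false, k)).mul (cm_inv hO hg hp)).mul (cm_ric hO hg hp)) a b)

theorem cm_Rm (c d : Fin n) : CM I O fun s z => Rm (g s) z c d := fun a b =>
  (((hg.wdM hO (true, d)).wdM hO (false, c)) a b).neg.add
    ((((hg.wdM hO (false, c)).mul (cm_inv hO hg hp)).mul (hg.wdM hO (true, d))) a b)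

end cd

/-! ### continuity of the forms -/

section co

variable {Y : Type*} [TopologicalSpace Y] {D : Set Y}

theorem co_coord {v : Y → Cn n} (hv : ContinuousOn v D) (a : Fin n) :
    ContinuousOn (fun y => v y a) D :=
  (EuclideanSpace.proj a : Cn n →L[ℂ] ℂ).continuous.comp_continuousOn hv

theorem co_hC {H : Y → Mat n} {v : Y → Cn n} (hH : ∀ a b, ContinuousOn (fun y => H y a b) D)
    (hv : ContinuousOn v D) : ContinuousOn (fun y => hC (H y) (v y)) D := by
  unfold hC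
  exact continuousOn_finsetSum _ fun a _ => continuousOn_finsetSum _ fun b _ =>
    ((hH a b).mul (co_coord hv a)).mul (Complex.continuous_conj.comp_continuousOn (co_coord hv b))

theorem co_nq {H : Y → Mat n} {v : Y → Cn n} (hH : ∀ a b, ContinuousOn (fun y => H y a b) D)
    (hv : ContinuousOn v D) : ContinuousOn (fun y => nq (H y) (v y)) D :=
  Complex.continuous_re.comp_continuousOn (co_hC hH hv)

theorem CM.co {I : Set ℝ} {O : Set (Cn n)} {H : ℝ → Cn n → Mat n} (h : CM I O H)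
    {π : Y → ℝ × Cn n} (hπ : ContinuousOn π D) (hm : MapsTo π D (I ×ˢ O)) (a b : Fin n) :
    ContinuousOn (fun y => H (π y).1 (π y).2 a b) D := (h a b).continuousOn.comp hπ hm

theorem co_lyhS {I : Set ℝ} {O : Set (Cn n)} (hO : IsOpen O) {g : ℝ → Cn n → Mat n}
    (hg : CM I O g) (hp : ∀ q ∈ I ×ˢ O, (g q.1 q.2).PosDef) {π : Y → ℝ × Cn n}
    (hπ : ContinuousOn π D) (hm : MapsTo π D (I ×ˢ O)) {τ : Y → ℝ} (hτ : ContinuousOn τ D)
    (hτ0 : ∀ y ∈ D, τ y ≠ 0) {c : Y → ℂ} {a v : Y → Cn n} (hc : ContinuousOn c D)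
    (ha : ContinuousOn a D) (hv : ContinuousOn v D) :
    ContinuousOn (fun y => lyhS (g (π y).1) (τ y) (π y).2 (c y) (a y) (v y)) D := by
  have hR := cm_ric hO hg hp
  simp only [lyhS, bis_eq]
  refine (((hc.norm.pow 2).mul (co_nq (fun k l => ?_) hv)).add
    (continuousOn_const.mul (Complex.continuous_re.comp_continuousOn ?_))).add
    (Complex.continuous_re.comp_continuousOn ?_)
  · simp only [Matrix.add_apply, Matrix.smul_apply, smul_eq_mul]
    exact (((cm_hess hO (φ := fun t => scal (g t)) (cdOn_scal hO hg hp)).co hπ hm k l).add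
      (((hR.mul (cm_inv hO hg hp)).mul hR).co hπ hm k l)).add
      ((Complex.continuous_ofReal.comp_continuousOn (hτ.inv₀ hτ0)).mul (hR.co hπ hm k l))
  · exact (Complex.continuous_conj.comp_continuousOn hc).mul
      (continuousOn_finsetSum _ fun k _ => (co_coord ha k).mul
        (co_hC ((cm_nabRic hO hg hp k).co hπ hm) hv))
  · exact continuousOn_finsetSum _ fun k _ => continuousOn_finsetSum _ fun l _ =>
      ((co_hC ((cm_Rm hO hg hp k l).co hπ hm) hv).mul (co_coord ha k)).mul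
        (Complex.continuous_conj.comp_continuousOn (co_coord ha l))

end co

/-! ### homogeneity -/

theorem hC_rsmul (H : Mat n) (m : ℝ) (v : Cn n) : hC H (m • v) = ((m ^ 2 : ℝ) : ℂ) * hC H v := by
  unfold hC
  simp only [PiLp.smul_apply, Complex.real_smul, map_mul, Complex.conj_ofReal, Finset.mul_sum]
  refine Finset.sum_congr rfl fun a _ => Finset.sum_congr rfl fun b _ => ?_
  push_cast
  ring

theorem nq_rsmul (H : Mat n) (m : ℝ) (v : Cn n) : nq H (m • v) = m ^ 2 * nq H v := by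
  rw [nq_eq_re, hC_rsmul, Complex.re_ofReal_mul, nq_eq_re]

theorem lyhS_rsmul (g : Cn n → Mat n) (τ : ℝ) (z : Cn n) (l m : ℝ) (c : ℂ) (a v : Cn n) :
    lyhS g τ z (l • c) (l • a) (m • v) = l ^ 2 * m ^ 2 * lyhS g τ z c a v := by
  have h1 : conj (l • c) * ∑ k, (l • a) k * hC (nabRic g z k) (m • v) =
      ((l ^ 2 * m ^ 2 : ℝ) : ℂ) * (conj c * ∑ k, a k * hC (nabRic g z k) v) := by
    simp only [hC_rsmul, PiLp.smul_apply, Complex.real_smul, map_mul, Complex.conj_ofReal,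
      Finset.mul_sum]
    refine Finset.sum_congr rfl fun k _ => ?_
    push_cast
    ring
  have h2 : ∑ k, ∑ d, hC (Rm g z k d) (m • v) * (l • a) k * conj ((l • a) d) =
      ((l ^ 2 * m ^ 2 : ℝ) : ℂ) * ∑ k, ∑ d, hC (Rm g z k d) v * a k * conj (a d) := by
    simp only [hC_rsmul, PiLp.smul_apply, Complex.real_smul, map_mul, Complex.conj_ofReal,
      Finset.mul_sum]
    refine Finset.sum_congr rfl fun k _ => Finset.sum_congr rfl fun d _ => ?_
    push_cast
    ring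
  rw [lyhS, lyhS, bis_eq, bis_eq, h1, h2, Complex.re_ofReal_mul, Complex.re_ofReal_mul, nq_rsmul,
    norm_smul, mul_pow, Real.norm_eq_abs, sq_abs]
  ring

/-- the unit vectors -/
def SW (n : ℕ) : Set ((ℂ × Cn n) × Cn n) := sphere 0 1 ×ˢ sphere 0 1

theorem isCompact_SW : IsCompact (SW n) := (isCompact_sphere _ _).prod (isCompact_sphere _ _)

/-- the norm `(|a|² + κ |c|²) |v|²` -/
def NN (G : Mat n) (κ : ℝ) (w : (ℂ × Cn n) × Cn n) : ℝ :=
  (nq G w.1.2 + κ * ‖w.1.1‖ ^ 2) * nq G w.2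

theorem SW_ne {w : (ℂ × Cn n) × Cn n} (hw : w ∈ SW n) : w.2 ≠ 0 ∧ (w.1.2 ≠ 0 ∨ w.1.1 ≠ 0) := by
  refine ⟨ne_zero_of_mem_unit_sphere ⟨_, hw.2⟩, ?_⟩
  by_contra hc
  push Not at hc
  exact ne_zero_of_mem_unit_sphere ⟨_, hw.1⟩ (Prod.ext hc.2 hc.1)


theorem NN_pos {G : Mat n} (hG : G.PosDef) {κ : ℝ} (hκ : 0 < κ) {w : (ℂ × Cn n) × Cn n}
    (hw : w ∈ SW n) : 0 < NN G κ w := by
  obtain ⟨h1, h2⟩ := SW_ne hw
  refine mul_pos ?_ (Ev.nq_pos hG h1)
  have h3 := Tr.nq_nonneg hG.posSemidef w.1.2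
  rcases h2 with h2 | h2
  · have := Ev.nq_pos hG h2
    positivity
  · have := norm_pos_iff.2 h2
    positivity

theorem exists_unit {E : Type*} [NormedAddCommGroup E] [NormedSpace ℝ E] (y : E) :
    ∃ (l : ℝ) (y' : E), y = l • y' ∧ (l = 0 ∨ y' ∈ sphere (0 : E) 1) := by
  by_cases h : y = 0
  · exact ⟨0, 0, by simp [h], Or.inl rfl⟩
  · have h1 := norm_ne_zero_iff.2 h
    refine ⟨‖y‖, ‖y‖⁻¹ • y, by rw [smul_smul, mul_inv_cancel₀ h1, one_smul], Or.inr ?_⟩
    rw [mem_sphere_zero_iff_norm, norm_smul, norm_inv, norm_norm, inv_mul_cancel₀ h1]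

theorem lyhGeC_of_SW {g : Cn n → Mat n} {τ κ θ : ℝ} {z : Cn n}
    (h : ∀ w ∈ SW n, 0 ≤ lyhS g τ z w.1.1 w.1.2 w.2 + θ * NN (g z) κ w) : LyhGeC g τ κ θ z := by
  intro c a v
  obtain ⟨l, y, hy, hl⟩ := exists_unit ((c, a) : ℂ × Cn n)
  obtain ⟨m, v, rfl, hm⟩ := exists_unit v
  obtain rfl : c = l • y.1 := congrArg Prod.fst hy
  obtain rfl : a = l • y.2 := congrArg Prod.snd hy
  have key : 0 ≤ l ^ 2 * m ^ 2 * (lyhS g τ z y.1 y.2 v + θ * NN (g z) κ (y, v)) := by
    rcases hl with rfl | hl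
    · simp
    rcases hm with rfl | hm
    · simp
    exact mul_nonneg (by positivity) (h (y, v) ⟨hl, hm⟩)
  rw [lyhS_rsmul, nq_rsmul, nq_rsmul, norm_smul, mul_pow, Real.norm_eq_abs, sq_abs]
  unfold NN at key
  simp only at key
  linarith

theorem LyhGeC.sw {g : Cn n → Mat n} {τ κ θ : ℝ} {z : Cn n} (h : LyhGeC g τ κ θ z)
    (w : (ℂ × Cn n) × Cn n) : 0 ≤ lyhS g τ z w.1.1 w.1.2 w.2 + θ * NN (g z) κ w := by
  have := h w.1.1 w.1.2 w.2
  unfold NN
  linarith

theorem nonneg_of_gt {F N Λ : ℝ} (h : ∀ Λ', Λ < Λ' → 0 ≤ F + Λ' * N) : 0 ≤ F + Λ * N := by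
  have hc : Continuous fun L : ℝ => F + L * N := by fun_prop
  have h1 : Tendsto (fun L : ℝ => F + L * N) (𝓝[>] Λ) (𝓝 (F + Λ * N)) :=
    (hc.tendsto Λ).mono_left nhdsWithin_le_nhds
  exact ge_of_tendsto h1 (by filter_upwards [self_mem_nhdsWithin] with L hL using h L hL)

/-! ### one step -/

variable {M : Type} [TopologicalSpace M] {A : Atl n M}

theorem lyhGe_mono {G : MF A} {U : Set M} {x : M} (hG : KahOn G U) (hx : x ∈ U) {τ κ θ θ' : ℝ}
    (h : LyhGe G τ κ θ x) (hκ : 0 ≤ κ) (hθ : θ ≤ θ') : LyhGe G τ κ θ' x := fun i hi c a v => by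
  refine le_trans (neg_le_neg ?_) (h i hi c a v)
  have h1 := nq_nonneg_of hG hx hi a
  have h2 := nq_nonneg_of hG hx hi v
  gcongr

variable [T2Space M] [ConnectedSpace M] {K0 : Kah A} {p : M} {P : Par} {I : Init K0 p} {a : ℝ}

/-- the strict inequality with the barrier `Λ q E` -/
def Pr (S : Stp P I a) (Λ : ℝ) (y : ℝ × M) : Prop :=
  ∃ Λ', Λ' < Λ ∧ LyhGe (S.g y.1) (P.τ y.1) S.q (Λ' * S.q * S.E y.1 y.2) y.2

variable {S : Stp P I a} (h : P.Ok)

include h

theorem ge_of_Pr {Λ : ℝ} {y : ℝ × M} (h1 : y.1 ∈ Icc S.t S.b) (h2 : y.2 ∈ S.U)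
    (H : ∀ Λ', Λ < Λ' → Pr S Λ' y) :
    LyhGe (S.g y.1) (P.τ y.1) S.q (Λ * S.q * S.E y.1 y.2) y.2 := by
  intro i hi c b v
  have hq := S.q_pos h
  have hE := Stp.E_pos (S := S) y.1 y.2
  have key := nonneg_of_gt (F := lyhS (S.g y.1 i) (P.τ y.1) (A.e i y.2) c b v)
    (N := S.q * S.E y.1 y.2 * NN (S.g y.1 i (A.e i y.2)) S.q ((c, b), v)) (Λ := Λ) fun Λ' hΛ' => by
      obtain ⟨L, hL, hge⟩ := H Λ' hΛ'
      have h3 := lyhGe_mono (S.flow.kah _ h1) h2 hge hq.le
        (θ' := Λ' * S.q * S.E y.1 y.2) (by gcongr) i hi c b v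
      unfold NN
      simp only
      linarith
  unfold NN at key
  simp only at key
  linarith

theorem crude_ge {s : ℝ} (hs : s ∈ Icc S.t S.t') {x : M} (hx : x ∈ S.Kc) :
    LyhAbs (S.g s) (P.τ s) S.q (P.K * S.q) x := by
  have h1 := (Stp.crudeK h hs hx).lyh (P.τ s) (Stp.r_sq_le_τ h hs)
  rwa [S.div_r h P.K] at h1

theorem ge_of_one_le {s : ℝ} (hs : s ∈ Icc S.t S.t') {x : M} (hx : x ∈ S.Kc)
    (hE : 1 ≤ S.E s x) : LyhGe (S.g s) (P.τ s) S.q (P.K * S.q * S.E s x) x :=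
  lyhGe_mono (S.flow.kah _ (Stp.mem_Icc h hs)) hx.1 (crude_ge h hs hx).ge (S.q_pos h).le
    (le_mul_of_one_le_right (mul_pos h.K0 (S.q_pos h)).le hE)

theorem pos_dom (i : A.ι) : ∀ q ∈ Icc S.t S.b ×ˢ dom A i S.U, (S.g q.1 i q.2).PosDef :=
  fun q hq => (kahAt_dom (S.flow.kah _ hq.1) hq.2).posDef

/-- continuity of the form and of the norm on the cylinder, in the chart `i` -/
theorem co_cyl (i : A.ι) :
    ContinuousOn (fun y : (ℝ × M) × (ℂ × Cn n) × Cn n =>
        lyhS (S.g y.1.1 i) (P.τ y.1.1) (A.e i y.1.2) y.2.1.1 y.2.1.2 y.2.2)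
      (((Icc S.t S.t' ×ˢ S.Kc) ∩ {y | y.2 ∈ (A.e i).source}) ×ˢ SW n) ∧
    ContinuousOn (fun y : (ℝ × M) × (ℂ × Cn n) × Cn n =>
        S.q * S.E y.1.1 y.1.2 * NN (S.g y.1.1 i (A.e i y.1.2)) S.q y.2)
      (((Icc S.t S.t' ×ˢ S.Kc) ∩ {y | y.2 ∈ (A.e i).source}) ×ˢ SW n) := by
  have hπ : ContinuousOn (fun y : (ℝ × M) × (ℂ × Cn n) × Cn n => ((y.1.1, A.e i y.1.2) : ℝ × Cn n))
      (((Icc S.t S.t' ×ˢ S.Kc) ∩ {y | y.2 ∈ (A.e i).source}) ×ˢ SW n) :=
    (continuous_fst.comp continuous_fst).continuousOn.prodMk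
      ((A.e i).continuousOn.comp (continuous_snd.comp continuous_fst).continuousOn
        fun y hy => hy.1.2)
  have hm : MapsTo (fun y : (ℝ × M) × (ℂ × Cn n) × Cn n => ((y.1.1, A.e i y.1.2) : ℝ × Cn n))
      (((Icc S.t S.t' ×ˢ S.Kc) ∩ {y | y.2 ∈ (A.e i).source}) ×ˢ SW n)
      (Icc S.t S.b ×ˢ dom A i S.U) :=
    fun y hy => ⟨Stp.mem_Icc h hy.1.1.1, mem_dom hy.1.2 hy.1.1.2.1⟩
  have hg : CM (Icc S.t S.b) (dom A i S.U) fun s => S.g s i := S.flow.sm i
  constructor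
  · refine co_lyhS (isOpen_dom i S.op) hg (pos_dom h i) hπ hm (τ := fun y => P.τ y.1.1) ?_
      (fun y hy => (h.τ_pos (Stp.nonneg h hy.1.1.1)).ne') (by fun_prop) (by fun_prop)
      (by fun_prop)
    unfold Par.τ
    fun_prop
  · refine (continuousOn_const.mul ((Stp.cont_E h).comp continuousOn_fst fun y hy => hy.1.1)).mul ?_
    unfold NN
    exact ((co_nq (hg.co hπ hm) (by fun_prop)).add (by fun_prop)).mul
      (co_nq (hg.co hπ hm) (by fun_prop))

theorem Pr_open {Λ : ℝ} {y : ℝ × M} (hy : y ∈ Icc S.t S.t' ×ˢ S.Kc) (H : Pr S Λ y) :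
    ∀ᶠ y' in 𝓝[Icc S.t S.t' ×ˢ S.Kc] y, Pr S Λ y' := by
  obtain ⟨L, hL, hge⟩ := H
  obtain ⟨i, hi⟩ := A.cover y.2
  have hq := S.q_pos h
  obtain ⟨c1, c2⟩ := co_cyl (S := S) h i
  have c3 := c1.add ((continuousOn_const (c := (L + Λ) / 2)).mul c2)
  have h0 : ∀ w ∈ SW n, 0 < lyhS (S.g y.1 i) (P.τ y.1) (A.e i y.2) w.1.1 w.1.2 w.2 +
      (L + Λ) / 2 * (S.q * S.E y.1 y.2 * NN (S.g y.1 i (A.e i y.2)) S.q w) := fun w hw => by
    have h2 := LyhGeC.sw (hge i hi) w
    have h3 := NN_pos (pos_dom h i (y.1, A.e i y.2)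
      ⟨Stp.mem_Icc h hy.1, mem_dom hi hy.2.1⟩) hq hw
    have h4 := Stp.E_pos (S := S) y.1 y.2
    have h5 : 0 < (Λ - L) / 2 * (S.q * S.E y.1 y.2 * NN (S.g y.1 i (A.e i y.2)) S.q w) :=
      mul_pos (by linarith) (mul_pos (mul_pos hq h4) h3)
    linarith
  have h1 : ∀ᶠ y' in 𝓝[(Icc S.t S.t' ×ˢ S.Kc) ∩ {y | y.2 ∈ (A.e i).source}] y, ∀ w ∈ SW n,
      0 < lyhS (S.g y'.1 i) (P.τ y'.1) (A.e i y'.2) w.1.1 w.1.2 w.2 +
        (L + Λ) / 2 * (S.q * S.E y'.1 y'.2 * NN (S.g y'.1 i (A.e i y'.2)) S.q w) :=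
    Tch.eventually_forall_pos isCompact_SW (fun w hw => c3 (y, w) ⟨⟨hy, hi⟩, hw⟩) h0
  have hs : {y : ℝ × M | y.2 ∈ (A.e i).source} ∈ 𝓝 y :=
    continuousAt_snd.preimage_mem_nhds ((A.e i).open_source.mem_nhds hi)
  rw [nhdsWithin_inter_of_mem' (mem_nhdsWithin_of_mem_nhds hs)] at h1
  filter_upwards [h1, mem_nhdsWithin_of_mem_nhds hs, self_mem_nhdsWithin] with y' h2 h3 h4
  refine ⟨(L + Λ) / 2, by linarith, ?_⟩
  rw [lyhGe_iff (S.flow.kah _ (Stp.mem_Icc h h4.1)) S.op h4.2.1 h3]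
  refine lyhGeC_of_SW fun w hw => ?_
  have := h2 w hw
  linarith

/-- at a touching point there is a null vector -/
theorem exists_null {Λ : ℝ} {y : ℝ × M} (hy : y ∈ Icc S.t S.t' ×ˢ S.Kc) (H : ¬ Pr S Λ y)
    {i : A.ι} (hi : y.2 ∈ (A.e i).source) : ∃ w ∈ SW n,
      lyhS (S.g y.1 i) (P.τ y.1) (A.e i y.2) w.1.1 w.1.2 w.2 +
        Λ * (S.q * S.E y.1 y.2 * NN (S.g y.1 i (A.e i y.2)) S.q w) ≤ 0 := by
  by_contra hc
  push Not at hc
  obtain ⟨c1, c2⟩ := co_cyl (S := S) h i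
  have hm : MapsTo (fun w : (ℂ × Cn n) × Cn n => (y, w)) (SW n)
      (((Icc S.t S.t' ×ˢ S.Kc) ∩ {y | y.2 ∈ (A.e i).source}) ×ˢ SW n) :=
    fun w hw => ⟨⟨hy, hi⟩, hw⟩
  obtain ⟨L, hL, h1⟩ := Tch.exists_lt_forall_pos isCompact_SW
    (c1.comp (Continuous.prodMk_right y).continuousOn hm)
    (c2.comp (Continuous.prodMk_right y).continuousOn hm) hc
  refine H ⟨L, hL, ?_⟩
  rw [lyhGe_iff (S.flow.kah _ (Stp.mem_Icc h hy.1)) S.op hy.2.1 hi]
  refine lyhGeC_of_SW fun w hw => ?_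
  have := h1 w hw
  simp only [Function.comp] at this
  linarith

/-- the contact is impossible -/
theorem no_touch {C : ℝ} (hV : P.K + C < P.V)
    (hC : ∀ (g : ℝ → Cn n → Mat n) (φ : ℝ → Cn n → ℝ) (t T0 q : ℝ) (z : Cn n),
      KRFat g t z → ContDiffAt ℝ ∞ (fun p : ℝ × Cn n => φ p.1 p.2) (t, z) →
      0 < q → 1 ≤ (t - T0) * q → 0 < φ t z → φ t z ≤ P.K * q →
      gsq (g t) (φ t) z ≤ P.K * q * φ t z ^ 2 →
      BKge (g t) z (P.K * q) → BKle (g t) z (P.K * q) →
      (∀ (c : ℂ) (a v : Cn n), |lyhS (g t) (t - T0) z c a v| ≤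
        P.K * q * (nq (g t z) a + q * ‖c‖ ^ 2) * nq (g t z) v) →
      (∀ᶠ p in past t z, ∀ (c : ℂ) (a v : Cn n), 0 ≤ lyhS (g p.1) (p.1 - T0) p.2 c a v +
        φ p.1 p.2 * (nq (g p.1 p.2) a + q * ‖c‖ ^ 2) * nq (g p.1 p.2) v) →
      ∀ (c : ℂ) (a v : Cn n), v ≠ 0 → (a ≠ 0 ∨ c ≠ 0) →
        lyhS (g t) (t - T0) z c a v + φ t z * (nq (g t z) a + q * ‖c‖ ^ 2) * nq (g t z) v = 0 →
        box g φ t z ≤ C * q * φ t z)
    {Λ : ℝ} (hΛ : P.K < Λ) {y : ℝ × M} (hy : y ∈ Icc S.t S.t' ×ˢ S.Kc) (ht : S.t < y.1)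
    (H : ¬ Pr S Λ y) (hev : ∀ᶠ y' in 𝓝[{q | q.1 ≤ y.1}] y, ∀ Λ', Λ < Λ' → Pr S Λ' y') : False := by
  obtain ⟨s, x⟩ := y
  have hi := ch_mem A x
  set i := ch A x
  have hq := S.q_pos h
  have hr := S.r_pos h
  have hK := h.K0
  have hΛ0 : 0 < Λ := hK.trans hΛ
  have hs : s ∈ Icc S.t S.t' := hy.1
  have hx : x ∈ S.Kc := hy.2
  have hsI := Stp.mem_Icc h hs
  have hsO := Stp.mem_Ioo h hs ht
  have hτ : ∀ s, s - -P.tA = P.τ s := fun s => by unfold Par.τ; ring
  have hE := Stp.E_pos (S := S) s x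
  have hcr := Stp.crudeK h hs hx
  have hab := crude_ge h hs hx i hi
  -- the barrier in the chart
  set ρc : ℝ → Cn n → ℝ := fun s => inC A i (S.ρ s) with hρc
  set φ : ℝ → Cn n → ℝ := fun s w => Λ * S.q * Bx.Eb S.σ P.V S.t S.r ρc s w with hφ
  have hφE : ∀ s w, φ s w = Λ * S.q * S.E s ((A.e i).symm w) := fun s w => rfl
  have hφ0 : φ s (A.e i x) = Λ * S.q * S.E s x := by rw [hφE, (A.e i).left_inv hi]
  have hnb : Icc S.t S.b ×ˢ dom A i S.U ∈ 𝓝 ((s, A.e i x) : ℝ × Cn n) :=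
    prod_mem_nhds (Icc_mem_nhds hsO.1 hsO.2) (dom_nhds S.op hi hx.1)
  have hρ : ContDiffAt ℝ ∞ (fun q : ℝ × Cn n => ρc q.1 q.2) (s, A.e i x) :=
    (S.hρ.sm i).contDiffAt hnb
  have hRg := Bx.Rg.of_joint hρ
  have hgρ : gsq (S.g s i) (ρc s) (A.e i x) ≤ P.K := hcr.gρ
  -- the null vector
  obtain ⟨w, hw, hw0⟩ := exists_null h hy H hi
  have hge := ge_of_Pr h hsI hx.1 (hev.self_of_nhdsWithin (show ((s, x) : ℝ × M).1 ≤ s from le_rfl))
  have hN := NN_pos (pos_dom h i (s, A.e i x) ⟨hsI, mem_dom hi hx.1⟩) hq hw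
  have hw1 := LyhGeC.sw (hge i hi) w
  simp only at hw0 hw1 hN
  have hle : φ s (A.e i x) ≤ P.K * S.q := by
    have h1 := neg_le_of_abs_le (hab w.1.1 w.1.2 w.2)
    rw [hφ0]
    refine le_of_mul_le_mul_right ?_ hN
    unfold NN at hw0 ⊢
    linarith
  have hpos : 0 < φ s (A.e i x) := by rw [hφ0]; positivity
  have hbox := hC (fun s => S.g s i) φ s (-P.tA) S.q (A.e i x) (S.flow.krf s hsO i x hi hx.1)
    (contDiffAt_const.mul (Bx.contDiffAt_Eb hρ)) hq (by rw [hτ]; exact Stp.one_le_τq h hs) hpos hle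
    ?_ ?_ ?_ (by simpa only [hτ] using hab) ?_ w.1.1 w.1.2 w.2 (SW_ne hw).1 (SW_ne hw).2 ?_
  · have h1 := Bx.box_Eb_ge (g := fun s => S.g s i) (σ := S.σ) (V := P.V) (t₀ := S.t) hr hRg
      (S.hρ.eq s hsO i x hi hx.1).ge hgρ
    rw [S.div_r h] at h1
    have h2 : box (fun s => S.g s i) φ s (A.e i x) =
        Λ * S.q * box (fun s => S.g s i) (Bx.Eb S.σ P.V S.t S.r ρc) s (A.e i x) :=
      Bx.box_const_mul _ hRg.Eb
    have h3 := mul_le_mul_of_nonneg_left h1 (mul_pos hΛ0 hq).le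
    have h4 : (P.V - P.K) * (S.q * φ s (A.e i x)) ≤ C * (S.q * φ s (A.e i x)) := by
      have e : φ s (A.e i x) = Λ * S.q * Bx.Eb S.σ P.V S.t S.r ρc s (A.e i x) := rfl
      rw [h2, e] at hbox
      rw [e]
      linarith
    have h5 := le_of_mul_le_mul_right h4 (mul_pos hq hpos)
    linarith
  · have h1 : gsq (S.g s i) (φ s) (A.e i x) =
        (Λ * S.q) ^ 2 * gsq (S.g s i) (Bx.Eb S.σ P.V S.t S.r ρc s) (A.e i x) :=
      Bx.gsq_const_mul _ hRg.Eb.dsp
    have h2 := Bx.gsq_Eb (g := fun s => S.g s i) (σ := S.σ) (V := P.V) (t₀ := S.t) (r := S.r) hRg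
    have e : φ s (A.e i x) = Λ * S.q * Bx.Eb S.σ P.V S.t S.r ρc s (A.e i x) := rfl
    change gsq (S.g s i) (φ s) (A.e i x) ≤ _
    rw [h1, h2, e, div_pow, S.div_r h]
    have h3 : 0 ≤ (Λ * S.q) ^ 2 * (Bx.Eb S.σ P.V S.t S.r ρc s (A.e i x) ^ 2 * S.q) := by positivity
    have h4 := mul_le_mul_of_nonneg_left hgρ h3
    linarith
  · have h1 := (hcr.bk i hi).1
    rwa [S.div_r h] at h1
  · have h1 := (hcr.bk i hi).2
    rwa [S.div_r h] at h1
  · have hc : Tendsto (fun q : ℝ × Cn n => ((q.1, (A.e i).symm q.2) : ℝ × M)) (past s (A.e i x))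
        (𝓝[{q | q.1 ≤ s}] (s, x)) := by
      refine tendsto_nhdsWithin_iff.2 ⟨?_, self_mem_nhdsWithin⟩
      have hs2 : Tendsto (fun q : ℝ × Cn n => q.2) (𝓝 (s, A.e i x)) (𝓝 (A.e i x)) :=
        continuousAt_snd
      have hs1 : Tendsto (fun q : ℝ × Cn n => q.1) (𝓝 (s, A.e i x)) (𝓝 s) := continuousAt_fst
      exact (hs1.prodMk_nhds ((tendsto_symm hi).comp hs2)).mono_left nhdsWithin_le_nhds
    filter_upwards [hc.eventually hev, mem_nhdsWithin_of_mem_nhds hnb] with y h1 h2 c b v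
    have h3 := ge_of_Pr h (y := (y.1, (A.e i).symm y.2)) h2.1 h2.2.2 h1 i (dom_src h2.2) c b v
    simp only [dom_inv h2.2] at h3
    rw [hτ, hφE]
    linarith
  · rw [hτ, hφ0]
    unfold NN at hw0 hw1
    linarith

theorem oa {C : ℝ} (hV : P.K + C < P.V)
    (hC : ∀ (g : ℝ → Cn n → Mat n) (φ : ℝ → Cn n → ℝ) (t T0 q : ℝ) (z : Cn n),
      KRFat g t z → ContDiffAt ℝ ∞ (fun p : ℝ × Cn n => φ p.1 p.2) (t, z) →
      0 < q → 1 ≤ (t - T0) * q → 0 < φ t z → φ t z ≤ P.K * q →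
      gsq (g t) (φ t) z ≤ P.K * q * φ t z ^ 2 →
      BKge (g t) z (P.K * q) → BKle (g t) z (P.K * q) →
      (∀ (c : ℂ) (a v : Cn n), |lyhS (g t) (t - T0) z c a v| ≤
        P.K * q * (nq (g t z) a + q * ‖c‖ ^ 2) * nq (g t z) v) →
      (∀ᶠ p in past t z, ∀ (c : ℂ) (a v : Cn n), 0 ≤ lyhS (g p.1) (p.1 - T0) p.2 c a v +
        φ p.1 p.2 * (nq (g p.1 p.2) a + q * ‖c‖ ^ 2) * nq (g p.1 p.2) v) →
      ∀ (c : ℂ) (a v : Cn n), v ≠ 0 → (a ≠ 0 ∨ c ≠ 0) →
        lyhS (g t) (t - T0) z c a v + φ t z * (nq (g t z) a + q * ‖c‖ ^ 2) * nq (g t z) v = 0 →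
        box g φ t z ≤ C * q * φ t z) : S.OA := by
  have hq := S.q_pos h
  have hsub : Tch.MD S.t S.t' S.Kc (fun y => S.ρ y.1 y.2) S.sg ⊆ Icc S.t S.t' ×ˢ S.Kc :=
    fun y hy => ⟨⟨hy.1, hy.2.1⟩, hy.2.2.1⟩
  have key := Tch.touch_MD_pred S.cptK (Stp.cont_ρK h) Stp.continuous_sg.continuousOn
    (fun y hy => Stp.hint h (hsub hy).1 (hsub hy).2 hy.2.2.2) (Pr S) (K := P.K)
    (fun y hy Λ Λ' ⟨L, hL, H⟩ hΛ => ⟨L, hL.trans_le hΛ, H⟩)
    (fun y hy Λ H => (Pr_open h (hsub hy) H).filter_mono (nhdsWithin_mono _ hsub))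
    (fun y hy Λ ⟨L, hL, H⟩ => ⟨(L + Λ) / 2, by linarith, L, by linarith, H⟩)
    (fun y hy => ⟨P.K / S.E y.1 y.2 + 1, P.K / S.E y.1 y.2, by linarith, by
      have hE := Stp.E_pos (S := S) y.1 y.2
      have e : P.K / S.E y.1 y.2 * S.q * S.E y.1 y.2 = P.K * S.q := by field_simp
      rw [e]
      exact (crude_ge h (hsub hy).1 (hsub hy).2).ge⟩)
    (fun y hy h1 Λ hΛ => ⟨P.K, hΛ, by
      have h2 : LyhGe _ _ _ _ _ := (S.init' (hsub hy).2).ia
      have h3 := Stp.e0_le h (hsub hy).1 (hsub hy).2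
      have hE := Stp.E_pos (S := S) y.1 y.2
      rw [h1] at h3 hE ⊢
      exact lyhGe_mono (S.flow.kah _ ⟨le_rfl, ((S.t_lt h).trans S.lt').le⟩) (hsub hy).2.1 h2 hq.le
        (mul_le_mul_of_nonneg_left (by linarith) (mul_pos h.K0 hq).le)⟩)
    (fun y hy h1 Λ hΛ => ⟨P.K, hΛ,
      ge_of_one_le h (hsub hy).1 (hsub hy).2 ((Stp.one_le_E_iff h).2 h1.ge)⟩)
    (fun y hy h1 _ Λ hΛ H hev => no_touch h hV hC hΛ (hsub hy) h1 H hev)
  intro s hs x hx
  rcases le_total (S.ρ s x) (S.sg s) with h1 | h1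
  · exact ge_of_Pr h (y := (s, x)) (Stp.mem_Icc h hs) hx.1 (key (s, x) ⟨hs.1, hs.2, hx, h1⟩)
  · exact ge_of_one_le h hs hx ((Stp.one_le_E_iff h).2 h1)

end

end La10

theorem laStmt {n : ℕ} (H : LyhPtStmt n) : LaStmt n := by
  intro Cb
  refine ⟨0, fun K => ?_⟩
  by_cases hK : 1 ≤ K
  · obtain ⟨C, hC⟩ := H K hK
    refine ⟨K + C + 1, fun V hV => ⟨0, fun K1 _ Λ _ L => ⟨0, fun B _ δ tA hP => ?_⟩⟩⟩
    intro M _ _ _ A K0 p I a S
    exact La10.oa hP (C := C) (show K + C < V by linarith) hC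
  · exact ⟨0, fun V _ => ⟨0, fun K1 _ Λ _ L => ⟨0, fun B _ δ tA hP => absurd hP.K_1 hK⟩⟩⟩

end Crest.Agent.T223.Os
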