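import Crest.Agent.T223.EvA_41

-- ▼ part T223/CnQ_87
section

/-!
# Row 223 (helper87), CONE module, part Q: the quadratic form `Q`, the equation of `H = g⁻ᵀ`

* `Q_nonneg` : `∑ M(x,y) M(x̂,ŷ) - M(x,ŷ) M(x̂,y) ≥ 0` for a positive semidefinite `M`
* `KM.D_H`   : the flow is `D H = λ H + Q(H)`
* `KM.F0_eq` : the Levi form of `H(ξ, ξ̄)` is the curvature plus a square
* `lam_Q`    : the second variation of `Q(H)` is `Q` of the `4n × 4n` matrix `m0`
-/

set_option autoImplicit false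
set_option linter.unusedSectionVars false

open Finset Matrix
open scoped ComplexConjugate ComplexOrder

namespace Crest.Agent.T223.Cn

noncomputable section

/-- the Hermitian form of an array -/
def qf {ι : Type} [Fintype ι] (M : ι → ι → ℂ) (u : ι → ℂ) : ℂ :=
  ∑ x, ∑ y, u x * conj (u y) * M x y

theorem qf_add {ι : Type} [Fintype ι] (M N : ι → ι → ℂ) (u : ι → ℂ) :
    qf (fun x y => M x y + N x y) u = qf M u + qf N u := by
  simp only [qf, mul_add, sum_add_distrib]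

theorem psd_of_qf {ι : Type} [Fintype ι] {M : ι → ι → ℂ} (h : ∀ u, 0 ≤ qf M u) :
    (Matrix.of M).PosSemidef := by
  classical
  have him : ∀ u, (qf M u).im = 0 := fun u => ((Complex.nonneg_iff.1 (h u)).2).symm
  have e : ∀ x y (c : ℂ), qf M (Pi.single x 1 + Pi.single y c) =
      M x x + conj c * M x y + c * M y x + c * conj c * M y y := by
    intro x y c
    simp only [qf, Pi.add_apply, map_add, add_mul, mul_add, sum_add_distrib, Pi.single_apply,
      apply_ite conj, map_one, map_zero, ite_mul, mul_ite, one_mul, zero_mul, mul_zero, mul_one,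
      sum_ite_eq', mem_univ, if_true]
    ring
  have e0 : ∀ x, (M x x).im = 0 := by
    intro x
    have := him (Pi.single x 1 + Pi.single x 0)
    rw [e] at this
    simpa using this
  refine PosSemidef.of_dotProduct_mulVec_nonneg ?_ fun v => ?_
  · ext x y
    have h1 := him (Pi.single x 1 + Pi.single y 1)
    have h2 := him (Pi.single x 1 + Pi.single y Complex.I)
    rw [e] at h1 h2
    simp [e0] at h1 h2
    apply Complex.ext
    · simp; linarith
    · simp; linarith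
  · have := h (star v)
    convert this using 1
    simp only [qf, dotProduct, Matrix.mulVec, of_apply, Pi.star_apply, mul_sum, RCLike.star_def,
      Complex.conj_conj]
    exact sum_congr rfl fun _ _ => sum_congr rfl fun _ _ => by ring

theorem Q_nonneg {ι : Type} [Fintype ι] {M : ι ⊕ ι → ι ⊕ ι → ℂ} (h : ∀ u, 0 ≤ qf M u) :
    0 ≤ (∑ x, ∑ y, (M (.inl x) (.inl y) * M (.inr x) (.inr y) -
      M (.inl x) (.inr y) * M (.inr x) (.inl y))).re := by
  obtain ⟨m, v, hv⟩ := Matrix.posSemidef_iff_eq_sum_vecMulVec.1 (psd_of_qf h)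
  have hM : ∀ x y, M x y = ∑ r, v r x * conj (v r y) := by
    intro x y
    have := congrFun (congrFun hv x) y
    simpa [Matrix.sum_apply, vecMulVec_apply] using this
  set μ : Fin m → Fin m → ℂ := fun r s => ∑ x, v r (.inl x) * v s (.inr x) with hμ
  have sw : ∀ f : ι → ι → Fin m → Fin m → ℂ,
      ∑ x, ∑ y, ∑ r, ∑ s, f x y r s = ∑ r, ∑ s, ∑ x, ∑ y, f x y r s := by
    intro f
    calc _ = ∑ x, ∑ r, ∑ y, ∑ s, f x y r s := sum_congr rfl fun _ _ => sum_comm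
      _ = ∑ r, ∑ x, ∑ y, ∑ s, f x y r s := sum_comm
      _ = ∑ r, ∑ x, ∑ s, ∑ y, f x y r s :=
          sum_congr rfl fun _ _ => sum_congr rfl fun _ _ => sum_comm
      _ = _ := sum_congr rfl fun _ _ => sum_comm
  have e1 : ∑ x, ∑ y, (M (.inl x) (.inl y) * M (.inr x) (.inr y) -
      M (.inl x) (.inr y) * M (.inr x) (.inl y)) =
      ∑ r, ∑ s, (μ r s * conj (μ r s) - μ r s * conj (μ s r)) := by
    simp only [hM, hμ, sum_mul_sum, map_sum, map_mul, ← sum_sub_distrib]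
    rw [sw]
    exact sum_congr rfl fun _ _ => sum_congr rfl fun _ _ => sum_congr rfl fun _ _ =>
      sum_congr rfl fun _ _ => by ring
  have e2 : ∑ r, ∑ s, (μ r s * conj (μ r s) - μ r s * conj (μ s r)) =
      ∑ r, ∑ s, (μ s r * conj (μ s r) - μ s r * conj (μ r s)) := sum_comm
  have e3 : 2 * ∑ r, ∑ s, (μ r s * conj (μ r s) - μ r s * conj (μ s r)) =
      ∑ r, ∑ s, ((Complex.normSq (μ r s - μ s r) : ℝ) : ℂ) := by
    rw [two_mul]
    nth_rewrite 2 [e2]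
    simp only [← sum_add_distrib, ← Complex.mul_conj, map_sub]
    exact sum_congr rfl fun _ _ => sum_congr rfl fun _ _ => by ring
  simp only [← Complex.ofReal_sum] at e3
  have e4 := congrArg Complex.re e3
  simp only [Complex.mul_re, Complex.re_ofNat, Complex.im_ofNat, zero_mul, sub_zero,
    Complex.ofReal_re] at e4
  have e5 : 0 ≤ ∑ r, ∑ s, Complex.normSq (μ r s - μ s r) :=
    sum_nonneg fun _ _ => sum_nonneg fun _ _ => Complex.normSq_nonneg _
  rw [e1]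
  linarith

variable {n : ℕ} {S : Type} [CommRing S] [Algebra ℂ S]

namespace KM

variable {R : DR n S} (K : KM R)

/-- the dual metric -/
def H : Matrix (Fin n) (Fin n) S := K.giᵀ

theorem cj_H (a b : Fin n) : R.cj (K.H a b) = K.H b a := K.cj_gi b a

theorem Th_symm (a b k l : Fin n) :
    Th (R.d k) (R.db l) K.g K.gi a b = Th (R.d a) (R.db b) K.g K.gi k l := by
  simp only [Th, Matrix.add_apply, Matrix.neg_apply, dM_apply, Matrix.mul_apply]
  rw [Ev.ddb_symm a b k l]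
  simp only [K.closed a _ k, K.closed' _ b l]

/-- the quadratic expression `Q(H)` -/
def QH (i j : Fin n) : S :=
  ∑ k, ∑ l, (K.H k l * R.d k (R.db l (K.H i j)) - R.d k (K.H i l) * R.db l (K.H k j))

theorem QH_eq (i j : Fin n) : K.QH i j = (K.gi * K.ric * K.gi) j i := by
  set U : Fin n → Fin n → S := fun l b => (K.gi * dM (R.db l) K.g) j b with hU
  set W : Fin n → Fin n → S := fun k c => (dM (R.d k) K.g * K.gi) c i with hW
  have Us : ∀ l b, U l b = U b l := by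
    intro l b
    simp only [hU, Matrix.mul_apply, dM_apply, K.closed' _ b l]
  have e1 : ∀ k l, R.d k (K.H i l) = -∑ c, K.gi l c * W k c := by
    intro k l
    have := congrFun (congrFun (dM_inv (R.d k) K.inv) l) i
    rw [Matrix.mul_assoc, Matrix.neg_apply, Matrix.mul_apply] at this
    exact this
  have e2 : ∀ k l, R.db l (K.H k j) = -∑ b, U l b * K.gi b k := by
    intro k l
    have := congrFun (congrFun (dM_inv (R.db l) K.inv) j) k
    rw [Matrix.neg_apply, Matrix.mul_apply] at this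
    exact this
  have e3 : ∀ k l, R.d k (R.db l (K.H i j)) =
      (K.gi * Th (R.d k) (R.db l) K.g K.gi * K.gi) j i + ∑ c, ∑ b, U l b * K.gi b c * W k c := by
    intro k l
    have h1 := Th_inv (R.d k) (R.db l) K.inv
    have h2 : dM (R.db l) K.gi * K.g * dM (R.d k) K.gi =
        K.gi * dM (R.db l) K.g * K.gi * (dM (R.d k) K.g * K.gi) := by
      rw [dM_inv (R.db l) K.inv, dM_inv (R.d k) K.inv]
      simp only [Matrix.neg_mul, Matrix.mul_neg, neg_neg, Matrix.mul_assoc]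
      rw [← Matrix.mul_assoc K.g, K.inv, Matrix.one_mul]
    rw [h2, sub_eq_iff_eq_add] at h1
    have h3 := congrFun (congrFun h1 j) i
    rw [Matrix.add_apply] at h3
    refine h3.trans ?_
    congr 1
    rw [Matrix.mul_apply]
    refine sum_congr rfl fun c _ => ?_
    rw [Matrix.mul_apply, sum_mul]
  have e4 : ∑ k, ∑ l, K.H k l * ∑ c, ∑ b, U l b * K.gi b c * W k c =
      ∑ k, ∑ l, R.d k (K.H i l) * R.db l (K.H k j) := by
    refine sum_congr rfl fun k _ => ?_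
    simp only [e1, e2, neg_mul_neg, sum_mul_sum]
    simp only [mul_sum]
    calc _ = ∑ l, ∑ b, ∑ c, K.H k l * (U l b * K.gi b c * W k c) :=
          sum_congr rfl fun _ _ => sum_comm
      _ = ∑ b, ∑ l, ∑ c, K.H k l * (U l b * K.gi b c * W k c) := sum_comm
      _ = ∑ b, ∑ c, ∑ l, K.H k l * (U l b * K.gi b c * W k c) :=
          sum_congr rfl fun _ _ => sum_comm
      _ = _ := sum_congr rfl fun b _ => sum_congr rfl fun c _ => sum_congr rfl fun l _ => by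
          rw [Us l b]; simp only [H, transpose_apply]; ring
  have e5 : K.ric = ∑ k, ∑ l, K.H k l • Th (R.d k) (R.db l) K.g K.gi := by
    ext a b
    simp only [ric, tr, of_apply, Matrix.trace, diag_apply, Matrix.mul_apply, Matrix.sum_apply,
      Matrix.smul_apply, smul_eq_mul, K.Th_symm a b, H, transpose_apply]
    rw [sum_comm]
  have e6 : (K.gi * K.ric * K.gi) j i =
      ∑ k, ∑ l, K.H k l * (K.gi * Th (R.d k) (R.db l) K.g K.gi * K.gi) j i := by
    rw [e5]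
    simp only [Matrix.mul_sum, Matrix.sum_mul, Matrix.mul_smul, Matrix.smul_mul, Matrix.sum_apply,
      Matrix.smul_apply, smul_eq_mul]
  simp only [QH, e3, mul_add, sum_sub_distrib, sum_add_distrib, e4, e6]
  ring

theorem D_H {lam : ℝ} (h : K.Flow lam) (i j : Fin n) :
    R.D (K.H i j) = (lam : ℂ) • K.H i j + K.QH i j := by
  have h1 := dM_inv R.D K.inv
  rw [h] at h1
  have h2 : -(K.gi * (-((lam : ℂ) • K.g) - K.ric) * K.gi) =
      (lam : ℂ) • K.gi + K.gi * K.ric * K.gi := by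
    simp only [Matrix.mul_sub, Matrix.sub_mul, Matrix.mul_neg, Matrix.neg_mul, Matrix.mul_smul,
      Matrix.smul_mul, K.inv', Matrix.one_mul]
    abel
  rw [h2] at h1
  rw [QH_eq]
  exact congrFun (congrFun h1 j) i

theorem bf_dual (M : Matrix (Fin n) (Fin n) S) (x y : Fin n → S) :
    R.bf (K.gi * M * K.gi)ᵀ x y = R.bf M (K.H *ᵥ R.cv y) (K.H *ᵥ R.cv x) := by
  have h1 : R.cM K.H = K.gi := by
    rw [H, R.cM_transpose, K.herm_gi, transpose_transpose]
  have h2 := R.bf_conj M K.H K.H (R.cv y) (R.cv x)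
  rw [h1, H, transpose_transpose] at h2
  rw [H, ← h2, R.bf_eq, R.bf_eq, sum_comm]
  simp only [DR.cv_apply, R.cj_cj, transpose_apply]
  exact sum_congr rfl fun _ _ => sum_congr rfl fun _ _ => by ring

theorem bf_H (x : Fin n → S) :
    R.bf K.H x x = R.bf K.g (K.H *ᵥ R.cv x) (K.H *ᵥ R.cv x) := by
  rw [← bf_dual, K.inv', Matrix.one_mul, H]

/-- the Levi form of `H(ξ, ξ̄)` in the direction `(a, c, b)` -/
def F0 (ξ a : Fin n → S) (c : ℂ) (b : Fin n → S) : S :=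
  R.bf (dM (R.dv a c) (dM (R.dbv a c) K.H)) ξ ξ + R.bf (dM (R.dv a c) K.H) ξ b +
    R.bf (dM (R.dbv a c) K.H) b ξ + R.bf K.H b b

theorem F0_eq (ξ a : Fin n → S) (c : ℂ) (b : Fin n → S) :
    K.F0 ξ a c b = K.th (K.H *ᵥ R.cv ξ) a c +
      R.bf K.H (b + (K.g * (dM (R.dv a c) K.H)ᵀ) *ᵥ ξ) (b + (K.g * (dM (R.dv a c) K.H)ᵀ) *ᵥ ξ) := by
  set U := dM (R.dv a c) K.H with hU
  set U' := dM (R.dbv a c) K.H with hU'
  have c1 : R.cM Uᵀ = U' := by
    ext i j
    simp only [hU, hU', DR.cM_apply, transpose_apply, dM_apply, R.cj_dv, K.cj_H]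
  have h1 : K.gᵀ * K.H = 1 := by rw [H, ← transpose_mul, K.inv', transpose_one]
  have h2 : K.H * K.gᵀ = 1 := mul_eq_one_comm.1 h1
  have a1 : ∀ y, R.bf K.H ((K.g * Uᵀ) *ᵥ ξ) y = R.bf U ξ y := by
    intro y
    have := R.bf_conj K.H (K.g * Uᵀ) 1 ξ y
    rw [Matrix.one_mulVec, R.cM_one, Matrix.mul_one, transpose_mul, transpose_transpose,
      Matrix.mul_assoc, h1, Matrix.mul_one] at this
    exact this.symm
  have a2 : ∀ (N : Matrix (Fin n) (Fin n) S) x,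
      R.bf N x ((K.g * Uᵀ) *ᵥ ξ) = R.bf (N * K.gᵀ * U') x ξ := by
    intro N x
    have := R.bf_conj N 1 (K.g * Uᵀ) x ξ
    rw [Matrix.one_mulVec, transpose_one, Matrix.one_mul, R.cM_mul, c1, K.herm,
      ← Matrix.mul_assoc] at this
    exact this.symm
  have l1 : ∀ (N : Matrix (Fin n) (Fin n) S) x x' y, R.bf N (x + x') y = R.bf N x y + R.bf N x' y :=
    fun N x x' y => add_dotProduct _ _ _
  have l2 : ∀ (N : Matrix (Fin n) (Fin n) S) x y y', R.bf N x (y + y') = R.bf N x y + R.bf N x y' := by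
    intro N x y y'
    simp only [R.bf_eq, Pi.add_apply, map_add, mul_add, add_mul, sum_add_distrib]
  have t1 : dM (R.dv a c) U' = (K.gi * Th (R.dv a c) (R.dbv a c) K.g K.gi * K.gi)ᵀ
      + U * K.gᵀ * U' := by
    rw [← Th_inv _ _ K.inv, transpose_sub, transpose_mul, transpose_mul, Matrix.mul_assoc]
    simp only [hU, hU', H, dM_transpose]
    abel
  rw [l1, l2, l2, a1, a1, a2, a2, h2, Matrix.one_mul, th, ← bf_dual, F0, ← hU, ← hU', t1, R.bf_add]
  ring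

end KM

/-! ### the `4n × 4n` matrix of second variations -/

/-- index set: `e`, `α` (positions), `β`, `η` (momenta) -/
abbrev I4 (n : ℕ) : Type := (Fin n ⊕ Fin n) ⊕ (Fin n ⊕ Fin n)

/-- constants -/
abbrev kk (c : ℂ) : S := algebraMap ℂ S c

/-- `ξ V + b` -/
def Xo (V : Der S) (ξ b : ℂ) (f : S) : S := kk ξ * V f + kk b * f

theorem Xo_add (V : Der S) (ξ b : ℂ) (f g : S) : Xo V ξ b (f + g) = Xo V ξ b f + Xo V ξ b g := by
  simp only [Xo, map_add]; ring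


theorem Xo_sum {ι : Type*} (V : Der S) (ξ b : ℂ) (s : Finset ι) (f : ι → S) :
    Xo V ξ b (∑ i ∈ s, f i) = ∑ i ∈ s, Xo V ξ b (f i) := by
  simp only [Xo, map_sum, mul_sum, sum_add_distrib]

theorem Xo_kk (V : Der S) (ξ b c : ℂ) (f : S) : Xo V ξ b (kk c * f) = kk c * Xo V ξ b f := by
  simp only [Xo, D_mul, D_alg]; ring

theorem D_Xo {δ V : Der S} (h : ∀ f, δ (V f) = V (δ f)) (ξ b : ℂ) (f : S) :
    δ (Xo V ξ b f) = Xo V ξ b (δ f) := by
  simp only [Xo, map_add, D_mul, D_alg, h]; ring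

/-- the basic variations -/
def To (d : Fin n → Der S) (V : Der S) (ξ b : Fin n → ℂ) : I4 n → Fin n → S → S
  | .inl (.inl k), i, f => Xo V (ξ i) (b i) (d k f)
  | .inl (.inr k), i, f => kk (ξ i) * d k f
  | .inr (.inl k), i, f => if i = k then f else 0
  | .inr (.inr k), i, f => if i = k then V f else 0

/-- the form `Q` on `4n × 4n` arrays -/
def PQ {A : Type} [CommRing A] (M : I4 n → I4 n → A) : A :=
  ∑ x, ∑ y, (M (.inl x) (.inl y) * M (.inr x) (.inr y) - M (.inl x) (.inr y) * M (.inr x) (.inl y))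

theorem PQ_eq {A : Type} [CommRing A] (M : I4 n → I4 n → A) : PQ M = ∑ k, ∑ l,
    (M (.inl (.inl k)) (.inl (.inl l)) * M (.inr (.inl k)) (.inr (.inl l))
      - M (.inl (.inl k)) (.inr (.inl l)) * M (.inr (.inl k)) (.inl (.inl l))
      + (M (.inl (.inl k)) (.inl (.inr l)) * M (.inr (.inl k)) (.inr (.inr l))
      - M (.inl (.inl k)) (.inr (.inr l)) * M (.inr (.inl k)) (.inl (.inr l)))
      + (M (.inl (.inr k)) (.inl (.inl l)) * M (.inr (.inr k)) (.inr (.inl l))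
      - M (.inl (.inr k)) (.inr (.inl l)) * M (.inr (.inr k)) (.inl (.inl l))
      + (M (.inl (.inr k)) (.inl (.inr l)) * M (.inr (.inr k)) (.inr (.inr l))
      - M (.inl (.inr k)) (.inr (.inr l)) * M (.inr (.inr k)) (.inl (.inr l))))) := by
  simp only [PQ, Fintype.sum_sum_type, sum_add_distrib]
  abel

section m0

variable (d db : Fin n → Der S) (V Vb : Der S) (ξ b ξ' b' : Fin n → ℂ)
  (H : Matrix (Fin n) (Fin n) S)

/-- the matrix of second variations -/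
def m0 (x y : I4 n) : S := ∑ i, ∑ j, To d V ξ b x i (To db Vb ξ' b' y j (H i j))

/-- the second variation of a matrix function -/
def lamo (M : Fin n → Fin n → S) : S := ∑ i, ∑ j, Xo V (ξ i) (b i) (Xo Vb (ξ' j) (b' j) (M i j))

theorem m0_bb (k l : Fin n) : m0 d db V Vb ξ b ξ' b' H (.inr (.inl k)) (.inr (.inl l)) = H k l := by
  simp [m0, To]

theorem m0_bh (k l : Fin n) :
    m0 d db V Vb ξ b ξ' b' H (.inr (.inl k)) (.inr (.inr l)) = Vb (H k l) := by
  simp [m0, To]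

theorem m0_hb (k l : Fin n) :
    m0 d db V Vb ξ b ξ' b' H (.inr (.inr k)) (.inr (.inl l)) = V (H k l) := by
  simp [m0, To, apply_ite V]

theorem m0_hh (k l : Fin n) :
    m0 d db V Vb ξ b ξ' b' H (.inr (.inr k)) (.inr (.inr l)) = V (Vb (H k l)) := by
  simp [m0, To, apply_ite V]

theorem m0_aa (k l : Fin n) : m0 d db V Vb ξ b ξ' b' H (.inl (.inr k)) (.inl (.inr l)) =
    ∑ i, ∑ j, kk (ξ i) * (kk (ξ' j) * d k (db l (H i j))) := by
  simp only [m0, To, D_mul, D_alg, zero_mul, zero_add]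

theorem m0_ab (k l : Fin n) : m0 d db V Vb ξ b ξ' b' H (.inl (.inr k)) (.inr (.inl l)) =
    ∑ i, kk (ξ i) * d k (H i l) := by
  simp [m0, To, apply_ite (d k)]

theorem m0_ba (k l : Fin n) : m0 d db V Vb ξ b ξ' b' H (.inr (.inl k)) (.inl (.inr l)) =
    ∑ j, kk (ξ' j) * db l (H k j) := by
  simp [m0, To]

theorem lam_Q (h1 : ∀ k f, d k (Vb f) = Vb (d k f)) :
    lamo V Vb ξ b ξ' b' (fun i j =>
      ∑ k, ∑ l, (H k l * d k (db l (H i j)) - d k (H i l) * db l (H k j))) =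
    PQ (m0 d db V Vb ξ b ξ' b' H) := by
  have sw : ∀ f : Fin n → Fin n → Fin n → Fin n → S,
      ∑ x, ∑ y, ∑ r, ∑ s, f x y r s = ∑ r, ∑ s, ∑ x, ∑ y, f x y r s := by
    intro f
    calc _ = ∑ x, ∑ r, ∑ y, ∑ s, f x y r s := sum_congr rfl fun _ _ => sum_comm
      _ = ∑ r, ∑ x, ∑ y, ∑ s, f x y r s := sum_comm
      _ = ∑ r, ∑ x, ∑ s, ∑ y, f x y r s :=
          sum_congr rfl fun _ _ => sum_congr rfl fun _ _ => sum_comm
      _ = _ := sum_congr rfl fun _ _ => sum_comm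
  rw [PQ_eq]
  simp only [lamo, Xo_sum]
  rw [sw]
  refine sum_congr rfl fun k _ => sum_congr rfl fun l _ => ?_
  have ee : m0 d db V Vb ξ b ξ' b' H (.inl (.inl k)) (.inl (.inl l)) =
      ∑ i, ∑ j, Xo V (ξ i) (b i) (Xo Vb (ξ' j) (b' j) (d k (db l (H i j)))) := by
    simp only [m0, To, D_Xo (h1 k)]
  have ea : m0 d db V Vb ξ b ξ' b' H (.inl (.inl k)) (.inl (.inr l)) =
      ∑ i, ∑ j, kk (ξ' j) * Xo V (ξ i) (b i) (d k (db l (H i j))) := by
    simp only [m0, To, D_mul, D_alg, zero_mul, zero_add, Xo_kk]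
  have ae : m0 d db V Vb ξ b ξ' b' H (.inl (.inr k)) (.inl (.inl l)) =
      ∑ i, ∑ j, kk (ξ i) * Xo Vb (ξ' j) (b' j) (d k (db l (H i j))) := by
    simp only [m0, To, D_Xo (h1 k)]
  have eb : m0 d db V Vb ξ b ξ' b' H (.inl (.inl k)) (.inr (.inl l)) =
      ∑ i, Xo V (ξ i) (b i) (d k (H i l)) := by
    refine sum_congr rfl fun i _ => ?_
    simp only [To]
    rw [← Xo_sum, ← map_sum]
    simp
  have eh : m0 d db V Vb ξ b ξ' b' H (.inl (.inl k)) (.inr (.inr l)) =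
      ∑ i, Xo V (ξ i) (b i) (Vb (d k (H i l))) := by
    refine sum_congr rfl fun i _ => ?_
    simp only [To]
    rw [← Xo_sum, ← map_sum]
    simp [h1]
  have ah : m0 d db V Vb ξ b ξ' b' H (.inl (.inr k)) (.inr (.inr l)) =
      ∑ i, kk (ξ i) * Vb (d k (H i l)) := by
    simp [m0, To, apply_ite (d k), h1]
  have be : m0 d db V Vb ξ b ξ' b' H (.inr (.inl k)) (.inl (.inl l)) =
      ∑ j, Xo Vb (ξ' j) (b' j) (db l (H k j)) := by
    simp [m0, To]
  have he : m0 d db V Vb ξ b ξ' b' H (.inr (.inr k)) (.inl (.inl l)) =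
      ∑ j, V (Xo Vb (ξ' j) (b' j) (db l (H k j))) := by
    simp [m0, To]
  have ha : m0 d db V Vb ξ b ξ' b' H (.inr (.inr k)) (.inl (.inr l)) =
      ∑ j, kk (ξ' j) * V (db l (H k j)) := by
    simp only [m0, To, D_mul, D_alg, zero_mul, zero_add]
    simp
  rw [ee, ea, ae, eb, eh, ah, be, he, ha, m0_bb, m0_bh, m0_hb, m0_hh, m0_aa, m0_ab, m0_ba]
  simp only [sum_mul_sum]
  simp only [sum_mul, ← sum_sub_distrib, ← sum_add_distrib]
  refine sum_congr rfl fun i _ => sum_congr rfl fun j _ => ?_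
  simp only [Xo, map_add, map_sub, D_mul, D_alg]
  ring

end m0

end

end Crest.Agent.T223.Cn
private theorem rz_d960bfb6cb : type_of% @_root_.Crest.Agent.T223.Cn.To.eq_1 := @_root_.Crest.Agent.T223.Cn.To.eq_1 -- L280
end

-- ▼ part T223/CnJ_87
section

/-!
# Row 223 (helper87), CONE module, part J: the second order test at a null vector

`KM.Cone K φ₁ φ₂ c` : `Θ(v; a, c) + (φ₁ |a|² + φ₂ |c|²) |v|² ≥ 0` near the base point.
`KM.psd` : at a null vector (normal frame) the `4n × 4n` matrix `ev m0 + jE.q` is positive.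
-/

set_option autoImplicit false
set_option linter.unusedSectionVars false

open Finset Matrix Filter Topology
open scoped ComplexConjugate ComplexOrder

namespace Crest.Agent.T223.Cn

noncomputable section

variable {n : ℕ} {S : Type} [CommRing S] [Algebra ℂ S]

/-- constant vectors -/
def cst (v : Fin n → ℂ) : Fin n → S := fun i => kk (v i)

/-- numerical sesquilinear form -/
def b0 (M : Matrix (Fin n) (Fin n) ℂ) (u w : Fin n → ℂ) : ℂ := ∑ i, ∑ j, u i * conj (w j) * M i j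

/-- squared norm -/
def ns (u : Fin n → ℂ) : ℝ := ∑ i, Complex.normSq (u i)

theorem ns_nonneg (u : Fin n → ℂ) : 0 ≤ ns u := sum_nonneg fun _ _ => Complex.normSq_nonneg _

theorem ns_eq (u : Fin n → ℂ) : (ns u : ℂ) = ∑ i, u i * conj (u i) := by
  simp only [ns, Complex.ofReal_sum, Complex.mul_conj]

theorem b0_one (u w : Fin n → ℂ) : b0 1 u w = ∑ i, u i * conj (w i) := by
  simp [b0, Matrix.one_apply]

theorem ns_eq_zero {u : Fin n → ℂ} (h : ns u = 0) : u = 0 := funext fun i =>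
  Complex.normSq_eq_zero.1
    ((sum_eq_zero_iff_of_nonneg fun _ _ => Complex.normSq_nonneg _).1 h i (mem_univ _))

theorem ns_pos {u : Fin n → ℂ} (h : u ≠ 0) : 0 < ns u :=
  lt_of_le_of_ne (ns_nonneg u) fun e => h (ns_eq_zero e.symm)

variable {R : DR n S}

@[simp] theorem ev_kk (c : ℂ) : R.ev (kk c) = c := R.ev.commutes c

theorem cj_kk (c : ℂ) : R.cj (kk c) = kk (conj c) := R.cj_alg c

theorem hol_cst (v : Fin n → ℂ) (k : Fin n) : R.Hol (cst v k : S) := R.hol_alg _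

theorem ev_bf (M : Matrix (Fin n) (Fin n) S) (x y : Fin n → S) :
    R.ev (R.bf M x y) = b0 (R.eM M) (fun i => R.ev (x i)) fun i => R.ev (y i) := by
  simp only [R.bf_eq, b0, map_sum, map_mul, R.ev_cj, DR.eM_apply]

theorem ev_bf_cst (M : Matrix (Fin n) (Fin n) S) (x y : Fin n → ℂ) :
    R.ev (R.bf M (cst x) (cst y)) = b0 (R.eM M) x y := by
  simp only [ev_bf, cst, ev_kk]

theorem D_bf_cst (δ : Der S) (M : Matrix (Fin n) (Fin n) S) (x y : Fin n → ℂ) :
    δ (R.bf M (cst x) (cst y)) = R.bf (dM δ M) (cst x) (cst y) := by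
  simp only [R.bf_eq, cst, cj_kk, map_sum, D_mul, D_alg, dM_apply, zero_mul, mul_zero, add_zero,
    zero_add]

theorem cj_bf (M : Matrix (Fin n) (Fin n) S) (x y : Fin n → S) :
    R.cj (R.bf M x y) = R.bf (R.cM M)ᵀ y x := by
  rw [R.bf_eq, R.bf_eq, sum_comm]
  simp only [map_sum, map_mul, R.cj_cj, transpose_apply, DR.cM_apply]
  exact sum_congr rfl fun _ _ => sum_congr rfl fun _ _ => by ring

/-! ### jets -/

/-- second order jets along a family of holomorphic curves -/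
structure Jet (I : Type) where
  v : ℂ
  l : I → ℂ
  lb : I → ℂ
  q : I → I → ℂ

namespace Jet

variable {I : Type}

/-- product -/
def mul (f g : Jet I) : Jet I where
  v := f.v * g.v
  l x := f.l x * g.v + f.v * g.l x
  lb x := f.lb x * g.v + f.v * g.lb x
  q x y := f.q x y * g.v + g.l x * f.lb y + f.l x * g.lb y + f.v * g.q x y

/-- `f + c g` -/
def lin (f : Jet I) (c : ℂ) (g : Jet I) : Jet I where
  v := f.v + c * g.v
  l x := f.l x + c * g.l x
  lb x := f.lb x + c * g.lb x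
  q x y := f.q x y + c * g.q x y

end Jet

/-- `j` is the jet of `f` -/
structure JR (R : DR n S) {I : Type} [Fintype I] (u : I → ℂ) (E Eb : Der S) (f : S) (j : Jet I) :
    Prop where
  v : R.ev f = j.v
  l : R.ev (E f) = ∑ x, u x * j.l x
  lb : R.ev (Eb f) = ∑ y, conj (u y) * j.lb y
  q : R.ev (E (Eb f)) = qf j.q u

section JR

variable {I : Type} [Fintype I] {u : I → ℂ} {E Eb : Der S} {f g : S} {j j' : Jet I}

theorem JR.mul (h : JR R u E Eb f j) (h' : JR R u E Eb g j') : JR R u E Eb (f * g) (j.mul j') := by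
  refine ⟨by rw [map_mul, h.v, h'.v]; rfl, ?_, ?_, ?_⟩
  · simp only [D_mul, map_add, map_mul, h.v, h'.v, h.l, h'.l, Jet.mul, mul_add, sum_add_distrib,
      sum_mul, mul_sum]
    congr 1 <;> exact sum_congr rfl fun _ _ => by ring
  · simp only [D_mul, map_add, map_mul, h.v, h'.v, h.lb, h'.lb, Jet.mul, mul_add, sum_add_distrib,
      sum_mul, mul_sum]
    congr 1 <;> exact sum_congr rfl fun _ _ => by ring
  · simp only [D_mul, map_add, map_mul, h.v, h'.v, h.l, h'.l, h.lb, h'.lb, h.q, h'.q]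
    rw [mul_comm (∑ y, conj (u y) * j.lb y), sum_mul_sum, sum_mul_sum]
    simp only [qf, Jet.mul, sum_mul, mul_sum, ← sum_add_distrib]
    exact sum_congr rfl fun _ _ => sum_congr rfl fun _ _ => by ring

theorem JR.lin (h : JR R u E Eb f j) (c : ℂ) (h' : JR R u E Eb g j') :
    JR R u E Eb (f + g * kk c) (j.lin c j') := by
  refine ⟨by simp only [map_add, map_mul, ev_kk, h.v, h'.v, Jet.lin]; ring, ?_, ?_, ?_⟩
  · simp only [D_mul, D_alg, mul_zero, add_zero, map_add, map_mul, ev_kk, h.l, h'.l, Jet.lin,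
      sum_mul, ← sum_add_distrib]
    exact sum_congr rfl fun _ _ => by ring
  · simp only [D_mul, D_alg, mul_zero, add_zero, map_add, map_mul, ev_kk, h.lb, h'.lb, Jet.lin,
      sum_mul, ← sum_add_distrib]
    exact sum_congr rfl fun _ _ => by ring
  · simp only [D_mul, D_alg, mul_zero, add_zero, map_add, map_mul, ev_kk, h.q, h'.q, Jet.lin, qf,
      sum_mul, ← sum_add_distrib]
    exact sum_congr rfl fun _ _ => sum_congr rfl fun _ _ => by ring

end JR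

/-- the jet of a function on the base -/
def jf (R : DR n S) (φ : S) : Jet (I4 n) where
  v := R.ev φ
  l := fun
    | .inl (.inl k) => R.ev (R.d k φ)
    | _ => 0
  lb := fun
    | .inl (.inl k) => R.ev (R.db k φ)
    | _ => 0
  q := fun
    | .inl (.inl k), .inl (.inl l) => R.ev (R.d k (R.db l φ))
    | _, _ => 0

/-- the jet of a Hermitian form which is normal at the base point -/
def jb (R : DR n S) (N : Matrix (Fin n) (Fin n) S) (w : Fin n → ℂ) (ι : Fin n → I4 n) :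
    Jet (I4 n) where
  v := ns w
  l x := ∑ i, if ι i = x then conj (w i) else 0
  lb y := ∑ i, if ι i = y then w i else 0
  q x y := (jf R (R.bf N (cst w) (cst w))).q x y +
    ∑ i, (if ι i = x then 1 else 0) * (if ι i = y then 1 else 0)

/-- the direction of the base curve -/
def ue (u : I4 n → ℂ) : Fin n → ℂ := fun k => u (.inl (.inl k))

theorem dv_cst (e : Fin n → ℂ) (f : S) : R.dv (cst e) 0 f = ∑ k, kk (e k) * R.d k f := by
  simp [R.dv_apply, cst]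

theorem dbv_cst (e : Fin n → ℂ) (f : S) :
    R.dbv (cst e) 0 f = ∑ k, kk (conj (e k)) * R.db k f := by
  simp [R.dbv_apply, cst, cj_kk]

theorem ev_dv_dbv (e : Fin n → ℂ) (f : S) : R.ev (R.dv (cst e) 0 (R.dbv (cst e) 0 f)) =
    ∑ k, ∑ l, e k * conj (e l) * R.ev (R.d k (R.db l f)) := by
  rw [dv_cst, dbv_cst]
  simp only [map_sum, D_mul, D_alg, zero_mul, zero_add, map_mul, ev_kk, mul_sum, mul_assoc]

theorem JR_jf (u : I4 n → ℂ) (φ : S) :
    JR R u (R.dv (cst (ue u)) 0) (R.dbv (cst (ue u)) 0) φ (jf R φ) := by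
  refine ⟨rfl, ?_, ?_, ?_⟩
  · simp [dv_cst, jf, ue, Fintype.sum_sum_type]
  · simp [dbv_cst, jf, ue, Fintype.sum_sum_type]
  · simp [ev_dv_dbv, qf, jf, ue, Fintype.sum_sum_type]

/-- affine fields -/
def fld (ℓ : S) (w w' : Fin n → ℂ) : Fin n → S := fun i => kk (w i) + ℓ * kk (w' i)

theorem hol_fld {ℓ : S} (h : R.Hol ℓ) (w w' : Fin n → ℂ) (i : Fin n) : R.Hol (fld ℓ w w' i) :=
  (R.hol_alg _).add (h.mul (R.hol_alg _))

theorem sum_ite_swap (u : I4 n → ℂ) (ι : Fin n → I4 n) (w : Fin n → ℂ) :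
    ∑ x, u x * ∑ i, (if ι i = x then w i else 0) = ∑ i, u (ι i) * w i := by
  simp only [mul_sum]
  rw [sum_comm]
  simp

theorem JR_jb (u : I4 n → ℂ) {ℓ : S} (h : R.Hol ℓ) (h0 : R.ev ℓ = 0)
    (h1 : R.dv (cst (ue u)) 0 ℓ = 1) {N : Matrix (Fin n) (Fin n) S} (N0 : R.eM N = 1)
    (N1 : ∀ k, R.eM (dM (R.d k) N) = 0) (N2 : ∀ k, R.eM (dM (R.db k) N) = 0)
    (w : Fin n → ℂ) (ι : Fin n → I4 n) :
    JR R u (R.dv (cst (ue u)) 0) (R.dbv (cst (ue u)) 0)
      (R.bf N (fld ℓ w fun i => u (ι i)) (fld ℓ w fun i => u (ι i))) (jb R N w ι) := by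
  set E := R.dv (cst (ue u)) 0 with hE
  set Eb := R.dbv (cst (ue u)) 0 with hEb
  have a1 : Eb ℓ = 0 := h.dbv _ _
  have a2 : E (R.cj ℓ) = 0 := h.dv_cj _ _
  have a3 : Eb (R.cj ℓ) = 1 := by rw [hEb, ← R.cj_dv, ← hE, h1, map_one]
  have n0 : ∀ i j, R.ev (N i j) = if i = j then 1 else 0 := fun i j =>
    (congrFun (congrFun N0 i) j).trans Matrix.one_apply
  have n1 : ∀ i j, R.ev (E (N i j)) = 0 := by
    intro i j
    rw [hE, dv_cst, map_sum]
    exact sum_eq_zero fun k _ => by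
      rw [map_mul, show R.ev (R.d k (N i j)) = 0 from congrFun (congrFun (N1 k) i) j, mul_zero]
  have n2 : ∀ i j, R.ev (Eb (N i j)) = 0 := by
    intro i j
    rw [hEb, dbv_cst, map_sum]
    exact sum_eq_zero fun k _ => by
      rw [map_mul, show R.ev (R.db k (N i j)) = 0 from congrFun (congrFun (N2 k) i) j, mul_zero]
  refine ⟨?_, ?_, ?_, ?_⟩
  · simp [R.bf_eq, fld, h0, R.ev_cj, n0, jb, ns_eq]
  · simp only [jb, sum_ite_swap]
    simp [R.bf_eq, fld, D_mul, cj_kk, h0, h1, a2, R.ev_cj, n0, n1, -Derivation.leibniz]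
  · simp only [jb, sum_ite_swap (fun y => conj (u y))]
    simp [R.bf_eq, fld, D_mul, cj_kk, h0, a1, a3, R.ev_cj, n0, n2, -Derivation.leibniz, mul_comm]
  · have e1 : qf (jb R N w ι).q u = R.ev (E (Eb (R.bf N (cst w) (cst w)))) +
        ∑ i, u (ι i) * conj (u (ι i)) := by
      rw [(JR_jf u _).q, ← hE, ← hEb] at *
      simp only [jb, qf_add]
      congr 1
      simp only [qf, mul_sum]
      calc _ = ∑ x, ∑ i, ∑ y, u x * conj (u y) *
            ((if ι i = x then 1 else 0) * (if ι i = y then 1 else 0)) :=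
            sum_congr rfl fun _ _ => sum_comm
        _ = ∑ i, ∑ x, ∑ y, u x * conj (u y) *
            ((if ι i = x then 1 else 0) * (if ι i = y then 1 else 0)) := sum_comm
        _ = _ := by simp
    have e2 : ∀ i j, R.ev (E (Eb (fld ℓ w (fun i => u (ι i)) i *
        R.cj (fld ℓ w (fun i => u (ι i)) j) * N i j))) =
        w i * conj (w j) * R.ev (E (Eb (N i j))) +
          if i = j then u (ι i) * conj (u (ι i)) else 0 := by
      intro i j
      simp only [fld, map_add, map_mul, D_mul, D_alg, cj_kk, a1, a2, a3, h1, D_one, map_zero,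
        map_one, ev_kk, h0, R.ev_cj, n0, n1, n2]
      split_ifs with hij
      · subst hij; ring
      · ring
    rw [e1, D_bf_cst, D_bf_cst, ev_bf_cst]
    simp only [R.bf_eq, map_sum, e2, b0, sum_add_distrib, sum_ite_eq, mem_univ, if_true,
      DR.eM_apply, dM_apply]

/-! ### the test for `F0` -/

theorem E_Xr {d : Fin n → Der S} {E V V0 A : Der S} {ℓ : S} (u : I4 n → ℂ)
    (hE : ∀ f, E f = ∑ k, kk (u (.inl (.inl k))) * d k f)
    (hA : ∀ f, A f = ∑ k, kk (u (.inl (.inr k))) * d k f)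
    (hV : ∀ f, V f = V0 f + ℓ * A f) (h1 : E ℓ = 1) (hc : ∀ k f, d k (V0 f) = V0 (d k f))
    (ξ b : Fin n → ℂ) (i : Fin n) (f : S) :
    ∃ r, E ((kk (ξ i) + ℓ * kk (u (.inr (.inr i)))) * V f +
        (kk (b i) + ℓ * kk (u (.inr (.inl i)))) * f) =
      ∑ x, kk (u x) * To d V0 ξ b x i f + ℓ * r := by
  have e : ∑ x, kk (u x) * To d V0 ξ b x i f = kk (ξ i) * E (V0 f) + kk (b i) * E f +
      kk (ξ i) * A f + (kk (u (.inr (.inl i))) * f + kk (u (.inr (.inr i))) * V0 f) := by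
    simp only [Fintype.sum_sum_type, To, mul_ite, mul_zero, sum_ite_eq, mem_univ, if_true, hE, hA,
      hc, Xo, mul_sum, ← sum_add_distrib]
    congr 1
    exact sum_congr rfl fun _ _ => by ring
  refine ⟨kk (u (.inr (.inr i))) * A f + kk (ξ i) * E (A f) +
    kk (u (.inr (.inr i))) * (E (V0 f) + A f + ℓ * E (A f)) + kk (u (.inr (.inl i))) * E f, ?_⟩
  rw [e, hV]
  simp only [map_add, D_mul, D_alg, h1]
  ring

theorem To_add (d : Fin n → Der S) (V : Der S) (ξ b : Fin n → ℂ) (x : I4 n) (i : Fin n) (f g : S) :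
    To d V ξ b x i (f + g) = To d V ξ b x i f + To d V ξ b x i g := by
  rcases x with (k | k) | (k | k) <;> simp only [To, map_add, Xo_add, mul_add] <;>
    split_ifs <;> simp

theorem To_mul {d : Fin n → Der S} {V : Der S} (ξ b : Fin n → ℂ) (x : I4 n) (i : Fin n) {g : S}
    (h1 : ∀ k, d k g = 0) (h2 : V g = 0) (f : S) :
    To d V ξ b x i (g * f) = g * To d V ξ b x i f := by
  rcases x with (k | k) | (k | k) <;> simp only [To, Xo, D_mul, h1, h2, zero_mul, zero_add]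
  · ring
  · ring
  · split_ifs <;> simp
  · split_ifs <;> simp

theorem To_sum {ι : Type*} (d : Fin n → Der S) (V : Der S) (ξ b : Fin n → ℂ) (x : I4 n) (i : Fin n)
    (s : Finset ι) (f : ι → S) : To d V ξ b x i (∑ y ∈ s, f y) = ∑ y ∈ s, To d V ξ b x i (f y) := by
  classical
  induction s using Finset.induction_on with
  | empty =>
    have := To_mul (d := d) (V := V) ξ b x i (g := 0) (fun _ => map_zero _) (map_zero _) 0
    simpa using this
  | insert a s ha ih => rw [sum_insert ha, sum_insert ha, To_add, ih]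

theorem dv_fld (ℓ : S) (a α : Fin n → ℂ) (c : ℂ) (f : S) :
    R.dv (fld ℓ a α) c f = R.dv (cst a) c f + ℓ * R.dv (cst α) 0 f := by
  simp only [R.dv_apply, fld, cst, add_mul, sum_add_distrib, zero_smul, add_zero, mul_sum, mul_assoc]
  ring

theorem dbv_fld (ℓ : S) (a α : Fin n → ℂ) (c : ℂ) (f : S) :
    R.dbv (fld ℓ a α) c f = R.dbv (cst a) c f + R.cj ℓ * R.dbv (cst α) 0 f :=
  R.cj_inj (by simp only [R.cj_dbv, map_add, map_mul, R.cj_cj, dv_fld])

theorem d_dv_cst (a : Fin n → ℂ) (c : ℂ) (k : Fin n) (f : S) :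
    R.d k (R.dv (cst a) c f) = R.dv (cst a) c (R.d k f) := by
  simp only [R.dv_apply, cst, map_add, map_sum, D_mul, D_alg, zero_mul, zero_add,
    Derivation.map_smul, R.dd k, R.Dd]

theorem db_dbv_cst (a : Fin n → ℂ) (c : ℂ) (k : Fin n) (f : S) :
    R.db k (R.dbv (cst a) c f) = R.dbv (cst a) c (R.db k f) :=
  R.cj_inj (by simp only [R.cj_db, R.cj_dbv, d_dv_cst])

namespace KM

variable (K : KM R)

theorem F0_op {ξ a b : Fin n → S} (hξ : ∀ i, R.Hol (ξ i)) (hb : ∀ i, R.Hol (b i)) (c : ℂ) :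
    K.F0 ξ a c b = ∑ i, ∑ j,
      (ξ i * R.dv a c (R.cj (ξ j) * R.dbv a c (K.H i j) + R.cj (b j) * K.H i j) +
        b i * (R.cj (ξ j) * R.dbv a c (K.H i j) + R.cj (b j) * K.H i j)) := by
  simp only [F0, R.bf_eq, dM_apply, ← sum_add_distrib, map_add, D_mul, (hξ _).dv_cj, (hb _).dv_cj]
  exact sum_congr rfl fun _ _ => sum_congr rfl fun _ _ => by ring

/-- the matrix of second variations of the Levi form -/
def M0 (ξ a : Fin n → ℂ) (c : ℂ) (b : Fin n → ℂ) : I4 n → I4 n → S :=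
  m0 R.d R.db (R.dv (cst a) c) (R.dbv (cst a) c) ξ b (fun i => conj (ξ i)) (fun i => conj (b i)) K.H

theorem test_F0 (ξ a : Fin n → ℂ) (c : ℂ) (b : Fin n → ℂ) (u : I4 n → ℂ) {ℓ : S} (h : R.Hol ℓ)
    (h0 : R.ev ℓ = 0) (h1 : R.dv (cst (ue u)) 0 ℓ = 1) :
    R.ev (R.dv (cst (ue u)) 0 (R.dbv (cst (ue u)) 0
      (K.F0 (fld ℓ ξ fun i => u (.inr (.inr i))) (fld ℓ a fun i => u (.inl (.inr i))) c
        (fld ℓ b fun i => u (.inr (.inl i)))))) =
      qf (fun x y => R.ev (K.M0 ξ a c b x y)) u := by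
  set E := R.dv (cst (ue u)) 0 with hE
  set Eb := R.dbv (cst (ue u)) 0 with hEb
  have a3 : Eb (R.cj ℓ) = 1 := by rw [hEb, ← R.cj_dv, ← hE, h1, map_one]
  have key : ∀ (i j : Fin n) (f : S),
      R.ev (E (Eb (fld ℓ ξ (fun i => u (.inr (.inr i))) i *
        R.dv (fld ℓ a fun i => u (.inl (.inr i))) c
          (R.cj (fld ℓ ξ (fun i => u (.inr (.inr i))) j) *
            R.dbv (fld ℓ a fun i => u (.inl (.inr i))) c f +
            R.cj (fld ℓ b (fun i => u (.inr (.inl i))) j) * f) +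
        fld ℓ b (fun i => u (.inr (.inl i))) i *
          (R.cj (fld ℓ ξ (fun i => u (.inr (.inr i))) j) *
            R.dbv (fld ℓ a fun i => u (.inl (.inr i))) c f +
            R.cj (fld ℓ b (fun i => u (.inr (.inl i))) j) * f)))) =
      ∑ x, ∑ y, u x * conj (u y) * R.ev (To R.d (R.dv (cst a) c) ξ b x i
        (To R.db (R.dbv (cst a) c) (fun i => conj (ξ i)) (fun i => conj (b i)) y j f)) := by
    intro i j f
    obtain ⟨r, hr⟩ := E_Xr (d := R.db) (E := Eb) (V0 := R.dbv (cst a) c)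
      (V := R.dbv (fld ℓ a fun i => u (.inl (.inr i))) c)
      (A := R.dbv (cst fun i => u (.inl (.inr i))) 0) (ℓ := R.cj ℓ) (fun x => conj (u x))
      (fun f => dbv_cst _ f) (fun f => dbv_cst _ f) (fun f => dbv_fld _ _ _ _ f) a3
      (db_dbv_cst a c) (fun i => conj (ξ i)) (fun i => conj (b i)) j f
    set g := R.cj (fld ℓ ξ (fun i => u (.inr (.inr i))) j) *
            R.dbv (fld ℓ a fun i => u (.inl (.inr i))) c f +
            R.cj (fld ℓ b (fun i => u (.inr (.inl i))) j) * f with hg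
    have hr' : Eb g = ∑ x, kk (conj (u x)) * To R.db (R.dbv (cst a) c) (fun i => conj (ξ i))
        (fun i => conj (b i)) x j f + R.cj ℓ * r := by
      rw [hg]
      simp only [fld, map_add R.cj, map_mul R.cj, cj_kk]
      exact hr
    have e1 : Eb (fld ℓ ξ (fun i => u (.inr (.inr i))) i *
        R.dv (fld ℓ a fun i => u (.inl (.inr i))) c g + fld ℓ b (fun i => u (.inr (.inl i))) i * g) =
        fld ℓ ξ (fun i => u (.inr (.inr i))) i *
        R.dv (fld ℓ a fun i => u (.inl (.inr i))) c (Eb g) +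
          fld ℓ b (fun i => u (.inr (.inl i))) i * Eb g := by
      rw [map_add, D_mul, D_mul, hEb, (hol_fld h _ _ _).dbv, (hol_fld h _ _ _).dbv,
        ← DR.dv_dbv (hol_fld h _ _) (hol_cst _)]
      ring
    obtain ⟨r', hr2⟩ := E_Xr (d := R.d) (E := E) (V0 := R.dv (cst a) c)
      (V := R.dv (fld ℓ a fun i => u (.inl (.inr i))) c)
      (A := R.dv (cst fun i => u (.inl (.inr i))) 0) (ℓ := ℓ) u
      (fun f => dv_cst _ f) (fun f => dv_cst _ f) (fun f => dv_fld _ _ _ _ f) h1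
      (d_dv_cst a c) ξ b i (Eb g)
    rw [e1]
    refine (congrArg R.ev hr2).trans ?_
    rw [map_add, map_mul, h0, zero_mul, add_zero, map_sum]
    refine sum_congr rfl fun x _ => ?_
    rw [hr', To_add, To_mul ξ b x i h.d_cj (h.dv_cj _ _), To_sum]
    simp only [To_mul ξ b x i (fun _ => D_alg _ _) (D_alg _ _), map_mul, map_add, map_sum, ev_kk,
      R.ev_cj, h0, map_zero, zero_mul, add_zero, mul_sum, mul_assoc]
  rw [K.F0_op (hol_fld h _ _) (hol_fld h _ _)]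
  simp only [map_sum, key, qf, M0, m0, mul_sum]
  calc _ = ∑ i, ∑ x, ∑ j, ∑ y, _ := sum_congr rfl fun _ _ => sum_comm
    _ = ∑ x, ∑ i, ∑ j, ∑ y, _ := sum_comm
    _ = ∑ x, ∑ i, ∑ y, ∑ j, _ := sum_congr rfl fun _ _ => sum_congr rfl fun _ _ => sum_comm
    _ = _ := sum_congr rfl fun _ _ => sum_comm

/-- the cone condition near the base point -/
def Cone (φ₁ φ₂ : S) (c : ℂ) : Prop :=
  ∀ v a : Fin n → S, (∀ k, R.Hol (a k)) →
    R.Pos (K.th v a c + (φ₁ * R.bf K.g a a + φ₂ * kk (c * conj c)) * R.bf K.g v v)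

/-- the perturbed Levi form -/
def Ff (φ₁ φ₂ : S) (ξ a : Fin n → S) (c : ℂ) (b : Fin n → S) : S :=
  K.F0 ξ a c b + (φ₁ * R.bf K.g a a + φ₂ * kk (c * conj c)) * R.bf K.H ξ ξ

variable {K}

theorem Cone.pos {φ₁ φ₂ : S} {c : ℂ} (h : K.Cone φ₁ φ₂ c) (ξ : Fin n → S) {a : Fin n → S}
    (ha : ∀ k, R.Hol (a k)) (b : Fin n → S) : R.Pos (K.Ff φ₁ φ₂ ξ a c b) := by
  have := R.pos_add _ _ (h (K.H *ᵥ R.cv ξ) a ha)
    (K.pos (K.H *ᵥ R.cv (b + (K.g * (dM (R.dv a c) K.H)ᵀ) *ᵥ ξ)))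
  rw [← K.bf_H, ← K.bf_H] at this
  rw [Ff, F0_eq]
  convert this using 1
  ring

theorem cj_Ff {φ₁ φ₂ : S} (h1 : R.cj φ₁ = φ₁) (h2 : R.cj φ₂ = φ₂) (ξ : Fin n → S) {a : Fin n → S}
    (ha : ∀ k, R.Hol (a k)) (c : ℂ) (b : Fin n → S) :
    R.cj (K.Ff φ₁ φ₂ ξ a c b) = K.Ff φ₁ φ₂ ξ a c b := by
  have e0 : (R.cM K.H)ᵀ = K.H := by ext i j; exact K.cj_H j i
  have e1 : (R.cM K.g)ᵀ = K.g := by ext i j; exact K.cj_g j i
  have e2 : (R.cM (dM (R.dv a c) K.H))ᵀ = dM (R.dbv a c) K.H := by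
    ext i j; simp only [transpose_apply, DR.cM_apply, dM_apply, R.cj_dv, K.cj_H]
  have e3 : (R.cM (dM (R.dbv a c) K.H))ᵀ = dM (R.dv a c) K.H := by
    ext i j; simp only [transpose_apply, DR.cM_apply, dM_apply, R.cj_dbv, K.cj_H]
  have e4 : (R.cM (dM (R.dv a c) (dM (R.dbv a c) K.H)))ᵀ =
      dM (R.dv a c) (dM (R.dbv a c) K.H) := by
    ext i j
    simp only [transpose_apply, DR.cM_apply, dM_apply, R.cj_dv, R.cj_dbv, K.cj_H, DR.dv_dbv ha ha]
  simp only [Ff, F0, map_add, map_mul, cj_bf, e0, e1, e2, e3, e4, h1, h2, cj_kk, Complex.conj_conj]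
  ring

theorem H0 (h : K.Normal) : R.eM K.H = 1 := by
  rw [H, R.eM_transpose, Ev.gi0 h, transpose_one]

theorem H1 (h : K.Normal) (k : Fin n) : R.eM (dM (R.d k) K.H) = 0 := by
  rw [H, dM_transpose, R.eM_transpose, Ev.gi1 h, transpose_zero]

theorem H1b (h : K.Normal) (k : Fin n) : R.eM (dM (R.db k) K.H) = 0 := by
  rw [H, dM_transpose, R.eM_transpose, Ev.gi1b h, transpose_zero]

variable (K) in
/-- the jet of the perturbation -/
def jE (φ₁ φ₂ : S) (ξ a : Fin n → ℂ) (c : ℂ) : Jet (I4 n) :=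
  ((((jf R φ₁).mul (jb R K.g a fun i => .inl (.inr i))).lin (c * conj c) (jf R φ₂))).mul
    (jb R K.H ξ fun i => .inr (.inr i))

/-- **second order test** -/
theorem psd (hN : K.Normal) {φ₁ φ₂ : S} (r1 : R.cj φ₁ = φ₁) (r2 : R.cj φ₂ = φ₂) {c : ℂ}
    (hC : K.Cone φ₁ φ₂ c) {ξ a b : Fin n → ℂ} (hξ : ξ ≠ 0)
    (h0 : (R.ev (K.Ff φ₁ φ₂ (cst ξ) (cst a) c (cst b))).re = 0) (u : I4 n → ℂ) :
    0 ≤ qf (fun x y => R.ev (K.M0 ξ a c b x y) + (K.jE φ₁ φ₂ ξ a c).q x y) u := by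
  have main : ∀ u : I4 n → ℂ, ue u ≠ 0 →
      0 ≤ qf (fun x y => R.ev (K.M0 ξ a c b x y) + (K.jE φ₁ φ₂ ξ a c).q x y) u := by
    intro u hu
    have hn : (ns (ue u) : ℂ) ≠ 0 := Complex.ofReal_ne_zero.2 (ns_pos hu).ne'
    set ℓ : S := ∑ k, kk (conj (ue u k) / ns (ue u)) * R.ζ k with hℓ
    have l0 : R.Hol ℓ := DR.Hol.sum _ fun k => (R.hol_alg _).mul (R.hol_ζ k)
    have l1 : R.ev ℓ = 0 := by simp [hℓ, R.ev_ζ]
    have l2 : R.dv (cst (ue u)) 0 ℓ = 1 := by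
      have : ∑ k, ue u k * (conj (ue u k) / ns (ue u)) = 1 := by
        simp only [← mul_div_assoc, ← sum_div, ← ns_eq, div_self hn]
      rw [dv_cst]
      simp only [hℓ, map_sum, D_mul, D_alg, zero_mul, zero_add, R.d_ζ, mul_ite, mul_one,
        mul_zero, sum_ite_eq, mem_univ, if_true, ← map_mul]
      rw [← map_sum, this, map_one]
    set F := K.Ff φ₁ φ₂ (fld ℓ ξ fun i => u (.inr (.inr i))) (fld ℓ a fun i => u (.inl (.inr i))) c
      (fld ℓ b fun i => u (.inr (.inl i))) with hF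
    have hp : R.Pos F := hC.pos _ (hol_fld l0 _ _) _
    have hr : R.cj F = F := cj_Ff r1 r2 _ (hol_fld l0 _ _) _ _
    have ef : ∀ w w' : Fin n → ℂ, (fun i => R.ev (fld ℓ w w' i)) = fun i => R.ev (cst w i : S) := by
      intro w w'; funext i; simp [fld, cst, l1]
    have he : R.ev F = R.ev (K.Ff φ₁ φ₂ (cst ξ) (cst a) c (cst b)) := by
      have e1 : R.eM (dM (R.dv (fld ℓ a fun i => u (.inl (.inr i))) c) K.H) =
          R.eM (dM (R.dv (cst a) c) K.H) := by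
        ext i j; simp [dv_fld, l1]
      have e2 : R.eM (dM (R.dbv (fld ℓ a fun i => u (.inl (.inr i))) c) K.H) =
          R.eM (dM (R.dbv (cst a) c) K.H) := by
        ext i j; simp [dbv_fld, l1, R.ev_cj]
      have e3 : R.eM (dM (R.dv (fld ℓ a fun i => u (.inl (.inr i))) c)
          (dM (R.dbv (fld ℓ a fun i => u (.inl (.inr i))) c) K.H)) =
          R.eM (dM (R.dv (cst a) c) (dM (R.dbv (cst a) c) K.H)) := by
        ext i j; simp [dv_fld, dbv_fld, l1, R.ev_cj, D_mul, l0.dv_cj, -Derivation.leibniz]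
      simp only [hF, Ff, F0, map_add, map_mul, ev_bf, ef, e1, e2, e3]
    have hq : R.ev (R.dv (cst (ue u)) 0 (R.dbv (cst (ue u)) 0 F)) =
        qf (fun x y => R.ev (K.M0 ξ a c b x y) + (K.jE φ₁ φ₂ ξ a c).q x y) u := by
      rw [qf_add, hF, Ff, map_add, map_add, map_add, K.test_F0 ξ a c b u l0 l1 l2]
      congr 1
      exact ((((JR_jf u φ₁).mul (JR_jb u l0 l1 l2 hN.g0 hN.g1 (Ev.g1b hN) a _)).lin _
        (JR_jf u φ₂)).mul (JR_jb u l0 l1 l2 (H0 hN) (H1 hN) (H1b hN) ξ _)).q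
    rw [← hq]
    refine Complex.nonneg_iff.2 ⟨?_, (R.im_ev ?_).symm⟩
    · rw [ev_dv_dbv]
      exact R.mp2 F hp (by rw [he, h0]) _
    · rw [R.cj_dv, R.cj_dbv, hr, DR.dv_dbv (hol_cst _) (hol_cst _)]
  by_cases hu : ue u = 0
  · obtain ⟨i0, -⟩ := Function.ne_iff.1 hξ
    set w : I4 n → ℂ := Pi.single (.inl (.inl i0)) 1 with hw
    have hc : Continuous fun ε : ℝ =>
        qf (fun x y => R.ev (K.M0 ξ a c b x y) + (K.jE φ₁ φ₂ ξ a c).q x y) (u + (ε : ℂ) • w) := by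
      simp only [qf, Pi.add_apply, Pi.smul_apply, smul_eq_mul]
      fun_prop
    have ht := (hc.tendsto 0).mono_left (nhdsWithin_le_nhds (s := Set.Ioi 0))
    simp only [Complex.ofReal_zero, zero_smul, add_zero] at ht
    refine ge_of_tendsto ht ?_
    filter_upwards [self_mem_nhdsWithin] with ε hε
    refine main _ fun h => ?_
    have h1 := congrFun h i0
    have h2 := congrFun hu i0
    simp only [ue, Pi.add_apply, Pi.smul_apply, hw, Pi.single_eq_same, smul_eq_mul, mul_one,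
      Pi.zero_apply] at h1 h2
    rw [h2, zero_add] at h1
    exact (ne_of_gt hε) (Complex.ofReal_eq_zero.1 h1)
  · exact main u hu

end KM

end

end Crest.Agent.T223.Cn
end

-- ▼ part T223/CnY_87
section

/-!
# Row 223 (helper87), CONE module, part Y: the null vector inequality in a normal frame

`KM.raw` : Bando-Mok / Cao null vector inequality with barriers.
-/

set_option autoImplicit false
set_option linter.unusedSectionVars false

open Finset Matrix Filter Topology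
open scoped ComplexConjugate ComplexOrder

namespace Crest.Agent.T223.Cn

noncomputable section

variable {n : ℕ} {S : Type} [CommRing S] [Algebra ℂ S] {R : DR n S}

theorem normSq_sum_le (u w : Fin n → ℂ) : Complex.normSq (∑ i, u i * w i) ≤ ns u * ns w := by
  have h1 : ‖∑ i, u i * w i‖ ≤ ∑ i, ‖u i‖ * ‖w i‖ :=
    (norm_sum_le _ _).trans (le_of_eq (sum_congr rfl fun _ _ => norm_mul _ _))
  have h2 := sum_mul_sq_le_sq_mul_sq univ (fun i => ‖u i‖) fun i => ‖w i‖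
  simp only [ns, Complex.normSq_eq_norm_sq]
  exact (pow_le_pow_left₀ (norm_nonneg _) h1 2).trans h2

theorem b0_add (M N : Matrix (Fin n) (Fin n) ℂ) (u w : Fin n → ℂ) :
    b0 (M + N) u w = b0 M u w + b0 N u w := by
  simp only [b0, Matrix.add_apply, mul_add, sum_add_distrib]

theorem b0_neg (M : Matrix (Fin n) (Fin n) ℂ) (u w : Fin n → ℂ) : b0 (-M) u w = -b0 M u w := by
  simp only [b0, Matrix.neg_apply, mul_neg, sum_neg_distrib]

theorem b0_smul (c : ℂ) (M : Matrix (Fin n) (Fin n) ℂ) (u w : Fin n → ℂ) :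
    b0 (c • M) u w = c * b0 M u w := by
  simp only [b0, Matrix.smul_apply, smul_eq_mul, mul_sum]
  exact sum_congr rfl fun _ _ => sum_congr rfl fun _ _ => by ring

theorem b0_sum {ι : Type*} (s : Finset ι) (M : ι → Matrix (Fin n) (Fin n) ℂ) (u w : Fin n → ℂ) :
    b0 (∑ k ∈ s, M k) u w = ∑ k ∈ s, b0 (M k) u w := by
  simp only [b0, Matrix.sum_apply, mul_sum]
  calc _ = ∑ i, ∑ k ∈ s, ∑ j, u i * conj (w j) * M k i j := sum_congr rfl fun _ _ => sum_comm
    _ = _ := sum_comm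

theorem b0_one_self (u : Fin n → ℂ) : b0 1 u u = ns u := by rw [b0_one, ns_eq]

theorem ns_single (k : Fin n) : ns (Pi.single k 1) = 1 := by
  simp [ns, Pi.single_apply, apply_ite Complex.normSq]

theorem ns_conj (u : Fin n → ℂ) : ns (fun i => conj (u i)) = ns u := by
  simp [ns]

theorem ns_smul (c : ℂ) (u : Fin n → ℂ) : ns (fun i => c * u i) = Complex.normSq c * ns u := by
  simp [ns, mul_sum]

theorem b0_single (M : Matrix (Fin n) (Fin n) ℂ) (k : Fin n) :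
    b0 M (Pi.single k 1) (Pi.single k 1) = M k k := by
  simp [b0, Pi.single_apply, apply_ite conj]

namespace KM

variable (K : KM R)

/-- `D H` at the base point -/
def S0 : Matrix (Fin n) (Fin n) ℂ := R.eM (dM R.D K.H)

/-- `∂_k ∂̄_l H` at the base point -/
def R0 (k l : Fin n) : Matrix (Fin n) (Fin n) ℂ := R.eM (dM (R.d k) (dM (R.db l) K.H))

/-- `V V̄ H` at the base point -/
def W0 (a : Fin n → ℂ) (c : ℂ) : Matrix (Fin n) (Fin n) ℂ :=
  R.eM (dM (R.dv (cst a) c) (dM (R.dbv (cst a) c) K.H))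

theorem S0_herm (k l : Fin n) : conj (K.S0 k l) = K.S0 l k := by
  simp only [S0, DR.eM_apply, dM_apply, ← R.ev_cj, R.cj_D, K.cj_H]

variable {K}

theorem eH0 (h : K.Normal) (k l : Fin n) : R.ev (K.H k l) = if k = l then 1 else 0 :=
  (congrFun (congrFun (H0 h) k) l).trans Matrix.one_apply

theorem eH1 (h : K.Normal) (m k l : Fin n) : R.ev (R.d m (K.H k l)) = 0 :=
  congrFun (congrFun (H1 h m) k) l

theorem eH1b (h : K.Normal) (m k l : Fin n) : R.ev (R.db m (K.H k l)) = 0 :=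
  congrFun (congrFun (H1b h m) k) l

theorem S0_eq (h : K.Normal) {lam : ℝ} (hF : K.Flow lam) :
    K.S0 = (lam : ℂ) • 1 + ∑ k, K.R0 k k := by
  ext i j
  simp only [S0, DR.eM_apply, dM_apply, K.D_H hF, QH, map_add, map_smul, map_sum, map_sub, map_mul,
    eH0 h, eH1 h, R0, Matrix.sum_apply, Matrix.one_apply, Matrix.add_apply, Matrix.smul_apply,
    zero_mul, sub_zero, ite_mul, one_mul, sum_ite_eq, mem_univ, if_true]

theorem eV (h : K.Normal) (a : Fin n → ℂ) (c : ℂ) (k l : Fin n) :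
    R.ev (R.dv (cst a) c (K.H k l)) = c * K.S0 k l := by
  simp [R.dv_apply, eH1 h, S0]

theorem eVb (h : K.Normal) (a : Fin n → ℂ) (c : ℂ) (k l : Fin n) :
    R.ev (R.dbv (cst a) c (K.H k l)) = conj c * K.S0 k l := by
  simp [R.dbv_apply, eH1b h, S0]

theorem eDg (h : K.Normal) : R.eM (dM R.D K.g) = -K.S0ᵀ := by
  have := congrArg R.eM (dM_inv R.D K.inv)
  rw [R.eM_neg, R.eM_mul, R.eM_mul, Ev.gi0 h, Matrix.one_mul, Matrix.mul_one] at this
  rw [S0, H, dM_transpose, R.eM_transpose, transpose_transpose, this, neg_neg]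

theorem eddg (h : K.Normal) (k l : Fin n) :
    R.eM (dM (R.d k) (dM (R.db l) K.g)) = -(K.R0 k l)ᵀ := by
  rw [R0, H, dM_transpose, dM_transpose, R.eM_transpose, transpose_transpose, Ev.gi2 h, neg_neg]

theorem ev_lap (h : K.Normal) (f : S) : R.ev (K.lap f) = ∑ k, R.ev (R.d k (R.db k f)) :=
  Ev.ev_tr h _

theorem time_Ff (h : K.Normal) {lam : ℝ} (hF : K.Flow lam) (φ₁ φ₂ : S) (ξ a b : Fin n → ℂ)
    (c : ℂ) : R.ev (R.D (K.Ff φ₁ φ₂ (cst ξ) (cst a) c (cst b))) =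
      lam * R.ev (K.F0 (cst ξ) (cst a) c (cst b)) + PQ (fun x y => R.ev (K.M0 ξ a c b x y)) +
      ((R.ev (R.D φ₁) * ns a - R.ev φ₁ * b0 K.S0ᵀ a a + c * conj c * R.ev (R.D φ₂)) * ns ξ +
        (R.ev φ₁ * ns a + c * conj c * R.ev φ₂) * b0 K.S0 ξ ξ) := by
  have e0 : K.F0 (cst ξ) (cst a) c (cst b) = lamo (R.dv (cst a) c) (R.dbv (cst a) c) ξ b
      (fun i => conj (ξ i)) (fun i => conj (b i)) K.H := by
    rw [K.F0_op (hol_cst _) (hol_cst _)]
    simp only [lamo, Xo, cst, cj_kk]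
  have e1 : R.D (K.F0 (cst ξ) (cst a) c (cst b)) =
      kk lam * K.F0 (cst ξ) (cst a) c (cst b) + PQ (K.M0 ξ a c b) := by
    rw [e0, M0, ← lam_Q _ _ _ _ _ _ _ _ _ (fun k f => DR.d_dbv (hol_cst _) c k f)]
    simp only [lamo, map_sum, D_Xo (DR.D_dv (hol_cst _) c), D_Xo (DR.D_dbv (hol_cst _) c),
      K.D_H hF, Algebra.smul_def, Xo_add, Xo_kk, mul_sum, sum_add_distrib, QH]
  have e2 : R.ev (PQ (K.M0 ξ a c b)) = PQ fun x y => R.ev (K.M0 ξ a c b x y) := by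
    simp only [PQ, map_sum, map_sub, map_mul]
  rw [Ff, map_add, e1]
  simp only [map_add, map_mul, D_mul, D_alg, e2, ev_kk, D_bf_cst, ev_bf_cst, h.g0, H0 h, eDg h,
    b0_one_self, b0_neg, map_zero, S0]
  ring

theorem jE_ee (h : K.Normal) (φ₁ φ₂ : S) (ξ a : Fin n → ℂ) (c : ℂ) (k l : Fin n) :
    (K.jE φ₁ φ₂ ξ a c).q (.inl (.inl k)) (.inl (.inl l)) =
      (R.ev (R.d k (R.db l φ₁)) * ns a - R.ev φ₁ * b0 (K.R0 k l)ᵀ a a +
        c * conj c * R.ev (R.d k (R.db l φ₂))) * ns ξ +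
      (R.ev φ₁ * ns a + c * conj c * R.ev φ₂) * b0 (K.R0 k l) ξ ξ := by
  simp only [jE, Jet.mul, Jet.lin, jf, jb, D_bf_cst, ev_bf_cst, eddg h, b0_neg]
  simp only [R0, reduceCtorEq, Sum.inl.injEq, if_false, sum_const_zero, mul_zero, zero_mul, add_zero]
  ring

section entries

variable (φ₁ φ₂ : S) (ξ a : Fin n → ℂ) (c : ℂ)

theorem jE1 (k : Fin n) (y : I4 n) : (K.jE φ₁ φ₂ ξ a c).q (.inr (.inl k)) y = 0 := by
  rcases y with (l | l) | (l | l) <;>
  simp only [jE, Jet.mul, Jet.lin, jf, jb, reduceCtorEq, Sum.inr.injEq, if_false, sum_const_zero,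
    mul_zero, zero_mul, add_zero]

theorem jE2 (k : Fin n) (y : I4 n) : (K.jE φ₁ φ₂ ξ a c).q y (.inr (.inl k)) = 0 := by
  rcases y with (l | l) | (l | l) <;>
  simp only [jE, Jet.mul, Jet.lin, jf, jb, reduceCtorEq, Sum.inr.injEq, if_false, sum_const_zero,
    mul_zero, zero_mul, add_zero]

theorem jE3 (k l : Fin n) : (K.jE φ₁ φ₂ ξ a c).q (.inl (.inl k)) (.inl (.inr l)) =
    R.ev (R.d k φ₁) * a l * ns ξ := by
  simp only [jE, Jet.mul, Jet.lin, jf, jb, reduceCtorEq, Sum.inr.injEq, Sum.inl.injEq, if_false,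
    sum_const_zero, mul_zero, zero_mul, add_zero, zero_add, sum_ite_eq', mem_univ, if_true]

theorem jE4 (k l : Fin n) : (K.jE φ₁ φ₂ ξ a c).q (.inl (.inr k)) (.inl (.inl l)) =
    conj (a k) * R.ev (R.db l φ₁) * ns ξ := by
  simp only [jE, Jet.mul, Jet.lin, jf, jb, reduceCtorEq, Sum.inr.injEq, Sum.inl.injEq, if_false,
    sum_const_zero, mul_zero, zero_mul, add_zero, zero_add, sum_ite_eq', mem_univ, if_true]

theorem jE5 (k l : Fin n) : (K.jE φ₁ φ₂ ξ a c).q (.inl (.inr k)) (.inl (.inr l)) =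
    if k = l then R.ev φ₁ * ns ξ else 0 := by
  simp only [jE, Jet.mul, Jet.lin, jf, jb, reduceCtorEq, Sum.inr.injEq, Sum.inl.injEq, if_false,
    sum_const_zero, mul_zero, zero_mul, add_zero, zero_add, sum_ite_eq', mem_univ, if_true,
    ite_mul, mul_ite, mul_one, eq_comm (a := l)]

theorem jE6 (k l : Fin n) : (K.jE φ₁ φ₂ ξ a c).q (.inr (.inr k)) (.inr (.inr l)) =
    if k = l then R.ev φ₁ * ns a + c * conj c * R.ev φ₂ else 0 := by
  simp only [jE, Jet.mul, Jet.lin, jf, jb, reduceCtorEq, Sum.inr.injEq, if_false,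
    sum_const_zero, mul_zero, zero_mul, add_zero, zero_add, sum_ite_eq', mem_univ, if_true,
    mul_ite, mul_one, eq_comm (a := l)]

theorem jE7 (k l : Fin n) : (K.jE φ₁ φ₂ ξ a c).q (.inl (.inr k)) (.inr (.inr l)) =
    R.ev φ₁ * conj (a k) * ξ l := by
  simp only [jE, Jet.mul, Jet.lin, jf, jb, reduceCtorEq, Sum.inr.injEq, Sum.inl.injEq, if_false,
    sum_const_zero, mul_zero, zero_mul, add_zero, zero_add, sum_ite_eq', mem_univ, if_true]

theorem jE8 (k l : Fin n) : (K.jE φ₁ φ₂ ξ a c).q (.inr (.inr k)) (.inl (.inr l)) =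
    conj (ξ k) * (R.ev φ₁ * a l) := by
  simp only [jE, Jet.mul, Jet.lin, jf, jb, reduceCtorEq, Sum.inr.injEq, Sum.inl.injEq, if_false,
    sum_const_zero, mul_zero, zero_mul, add_zero, zero_add, sum_ite_eq', mem_univ, if_true]

end entries

theorem eM0_aa (ξ a b : Fin n → ℂ) (c : ℂ) (k l : Fin n) :
    R.ev (K.M0 ξ a c b (.inl (.inr k)) (.inl (.inr l))) = b0 (K.R0 k l) ξ ξ := by
  rw [M0, m0_aa]
  simp only [map_sum, map_mul, ev_kk, b0, R0, DR.eM_apply, dM_apply, mul_assoc]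

theorem eM0_hh (ξ a b : Fin n → ℂ) (c : ℂ) (k l : Fin n) :
    R.ev (K.M0 ξ a c b (.inr (.inr k)) (.inr (.inr l))) = K.W0 a c k l := by
  rw [M0, m0_hh]; rfl

theorem space_P (h : K.Normal) (φ₁ φ₂ : S) (ξ a b : Fin n → ℂ) (c : ℂ) :
    PQ (fun x y => R.ev (K.M0 ξ a c b x y) + (K.jE φ₁ φ₂ ξ a c).q x y) =
      PQ (fun x y => R.ev (K.M0 ξ a c b x y)) +
      ∑ k, (K.jE φ₁ φ₂ ξ a c).q (.inl (.inl k)) (.inl (.inl k)) +
      (conj c * b0 K.S0 (fun k => R.ev (R.d k φ₁)) (fun k => conj (a k)) +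
        c * b0 K.S0 (fun k => conj (a k)) (fun k => conj (R.ev (R.db k φ₁)))) * ns ξ +
      (R.ev φ₁ * ns a + c * conj c * R.ev φ₂) * ∑ k, b0 (K.R0 k k) ξ ξ +
      R.ev φ₁ * ns ξ * ∑ k, K.W0 a c k k +
      n * (R.ev φ₁ * ns ξ * (R.ev φ₁ * ns a + c * conj c * R.ev φ₂)) -
      R.ev φ₁ * (∑ k, ∑ l, conj (ξ k) * a l * R.ev (K.M0 ξ a c b (.inl (.inr k)) (.inr (.inr l))) +
        ∑ k, ∑ l, conj (a k) * ξ l * R.ev (K.M0 ξ a c b (.inr (.inr k)) (.inl (.inr l)))) -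
      R.ev φ₁ ^ 2 * ((∑ k, ξ k * a k) * conj (∑ k, ξ k * a k)) := by
  have m1 : ∀ k l, R.ev (K.M0 ξ a c b (.inr (.inl k)) (.inr (.inl l))) = if k = l then 1 else 0 :=
    fun k l => by rw [M0, m0_bb, eH0 h]
  have m2 : ∀ k l, R.ev (K.M0 ξ a c b (.inr (.inl k)) (.inr (.inr l))) = conj c * K.S0 k l :=
    fun k l => by rw [M0, m0_bh, eVb h]
  have m3 : ∀ k l, R.ev (K.M0 ξ a c b (.inr (.inr k)) (.inr (.inl l))) = c * K.S0 k l :=
    fun k l => by rw [M0, m0_hb, eV h]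
  have m6 : ∀ k l, R.ev (K.M0 ξ a c b (.inl (.inr k)) (.inr (.inl l))) = 0 :=
    fun k l => by rw [M0, m0_ab]; simp only [map_sum, map_mul, eH1 h, mul_zero, sum_const_zero]
  have m7 : ∀ k l, R.ev (K.M0 ξ a c b (.inr (.inl k)) (.inl (.inr l))) = 0 :=
    fun k l => by rw [M0, m0_ba]; simp only [map_sum, map_mul, eH1b h, mul_zero, sum_const_zero]
  rw [PQ_eq, PQ_eq]
  simp only [jE1, jE2, jE3, jE4, jE5, jE6, jE7, jE8, m1, m2, m3, eM0_hh, eM0_aa, m6, m7]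
  generalize R.ev φ₁ * ns a + c * conj c * R.ev φ₂ = Φ
  generalize (K.jE φ₁ φ₂ ξ a c).q = J
  generalize (ns ξ : ℂ) = X
  generalize R.ev φ₁ = f
  have s1 : ∑ k, J (.inl (.inl k)) (.inl (.inl k)) =
      ∑ k, ∑ l, J (.inl (.inl k)) (.inl (.inl l)) * if k = l then 1 else 0 := by simp
  have s2 : Φ * ∑ k, b0 (K.R0 k k) ξ ξ =
      ∑ k, ∑ l, b0 (K.R0 k l) ξ ξ * if k = l then Φ else 0 := by simp [mul_sum, mul_comm]
  have s3 : f * X * ∑ k, K.W0 a c k k =
      ∑ k, ∑ l, (if k = l then f * X else 0) * K.W0 a c k l := by simp [mul_sum]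
  have s4 : n * (f * X * Φ) = ∑ k : Fin n, ∑ l : Fin n,
      (if k = l then f * X else 0) * if k = l then Φ else 0 := by simp
  have s5 : (∑ k, ξ k * a k) * conj (∑ k, ξ k * a k) =
      ∑ k, ∑ l, conj (ξ k) * conj (a k) * (ξ l * a l) := by
    rw [mul_comm, map_sum, sum_mul_sum]; simp only [map_mul]
  have s6 : b0 K.S0 (fun k => R.ev (R.d k φ₁)) (fun k => conj (a k)) =
      ∑ k, ∑ l, R.ev (R.d k φ₁) * a l * K.S0 k l := by simp only [b0, Complex.conj_conj]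
  have s7 : b0 K.S0 (fun k => conj (a k)) (fun k => conj (R.ev (R.db k φ₁))) =
      ∑ k, ∑ l, conj (a k) * R.ev (R.db l φ₁) * K.S0 k l := by simp only [b0, Complex.conj_conj]
  rw [s1, s2, s3, s4, s5, s6, s7]
  generalize (fun k l => b0 (K.R0 k l) ξ ξ) = Rr
  simp only [mul_add, add_mul, mul_sum, sum_mul, ← sum_add_distrib, ← sum_sub_distrib]
  refine sum_congr rfl fun k _ => sum_congr rfl fun l _ => ?_
  ring

theorem qf_ah (M : I4 n → I4 n → ℂ) (α η : Fin n → ℂ) :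
    qf M (Sum.elim (Sum.elim 0 α) (Sum.elim 0 η)) =
      ∑ k, ∑ l, α k * conj (α l) * M (.inl (.inr k)) (.inl (.inr l)) +
      ∑ k, ∑ l, α k * conj (η l) * M (.inl (.inr k)) (.inr (.inr l)) +
      ∑ k, ∑ l, η k * conj (α l) * M (.inr (.inr k)) (.inl (.inr l)) +
      ∑ k, ∑ l, η k * conj (η l) * M (.inr (.inr k)) (.inr (.inr l)) := by
  simp only [qf, Fintype.sum_sum_type, Sum.elim_inl, Sum.elim_inr, Pi.zero_apply, zero_mul,
    map_zero, mul_zero, sum_const_zero, zero_add, sum_add_distrib]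
  ring

/-- the mixed term -/
def tau (K : KM R) (ξ a b : Fin n → ℂ) (c : ℂ) : ℂ :=
  ∑ k, ∑ l, conj (ξ k) * a l * R.ev (K.M0 ξ a c b (.inl (.inr k)) (.inr (.inr l))) +
    ∑ k, ∑ l, conj (a k) * ξ l * R.ev (K.M0 ξ a c b (.inr (.inr k)) (.inl (.inr l)))

theorem raw_id (h : K.Normal) {lam : ℝ} (hF : K.Flow lam) {φ₁ φ₂ : S} (r1 : R.cj φ₁ = φ₁)
    {c : ℂ} {ξ a b : Fin n → ℂ} {p1 Φ : ℝ} (e1 : R.ev φ₁ = p1)
    (hΦ' : R.ev φ₁ * ns a + c * conj c * R.ev φ₂ = Φ)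
    (hz : R.ev (K.Ff φ₁ φ₂ (cst ξ) (cst a) c (cst b)) = 0) :
    ((ns ξ * ns a : ℝ) : ℂ) * R.ev (Ev.bx K φ₁) +
      ((ns ξ * Complex.normSq c : ℝ) : ℂ) * R.ev (Ev.bx K φ₂) =
      R.ev (R.D (K.Ff φ₁ φ₂ (cst ξ) (cst a) c (cst b))) -
      (PQ fun x y => R.ev (K.M0 ξ a c b x y) + (K.jE φ₁ φ₂ ξ a c).q x y) +
      ((lam * p1 * ns ξ * ns a + n * p1 * ns ξ * Φ -
        p1 ^ 2 * Complex.normSq (∑ k, ξ k * a k) : ℝ) : ℂ) + (Φ : ℂ) * ∑ k, b0 (K.R0 k k) ξ ξ +
      (ns ξ : ℂ) * (conj (c * b0 K.S0 (fun k => conj (a k)) fun k => R.ev (R.d k φ₁)) +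
        c * b0 K.S0 (fun k => conj (a k)) fun k => R.ev (R.d k φ₁)) +
      ((p1 * ns ξ : ℝ) : ℂ) * ∑ k, K.W0 a c k k - (p1 : ℂ) * K.tau ξ a b c := by
  have hF0 : R.ev (K.F0 (cst ξ) (cst a) c (cst b)) = -(Φ * ns ξ) := by
    rw [Ff] at hz
    simp only [map_add, map_mul, ev_bf_cst, h.g0, H0 h, b0_one_self, ev_kk] at hz
    rw [← hΦ']
    linear_combination hz
  have hd : ∀ k, conj (R.ev (R.db k φ₁)) = R.ev (R.d k φ₁) := fun k => by
    rw [← R.ev_cj, R.cj_db, r1]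
  have hg3' : conj c * b0 K.S0 (fun k => R.ev (R.d k φ₁)) (fun k => conj (a k)) =
      conj (c * b0 K.S0 (fun k => conj (a k)) fun k => R.ev (R.d k φ₁)) := by
    rw [map_mul]
    congr 1
    simp only [b0, map_sum, map_mul, Complex.conj_conj, S0_herm]
    rw [sum_comm]
    exact sum_congr rfl fun _ _ => sum_congr rfl fun _ _ => by ring
  have a1 : b0 K.S0 ξ ξ = lam * ns ξ + ∑ k, b0 (K.R0 k k) ξ ξ := by
    rw [S0_eq h hF, b0_add, b0_smul, b0_one_self, b0_sum]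
  have a2 : b0 K.S0ᵀ a a = lam * ns a + ∑ k, b0 (K.R0 k k)ᵀ a a := by
    rw [S0_eq h hF, transpose_add, transpose_smul, transpose_one, transpose_sum, b0_add, b0_smul,
      b0_one_self, b0_sum]
  have a3 : ∑ k, (K.jE φ₁ φ₂ ξ a c).q (.inl (.inl k)) (.inl (.inl k)) =
      (R.ev (K.lap φ₁) * ns a - R.ev φ₁ * ∑ k, b0 (K.R0 k k)ᵀ a a +
        c * conj c * R.ev (K.lap φ₂)) * ns ξ + Φ * ∑ k, b0 (K.R0 k k) ξ ξ := by
    simp only [jE_ee h, hΦ', ev_lap h, sum_add_distrib, sum_sub_distrib, ← sum_mul, ← mul_sum]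
  rw [time_Ff h hF, space_P h, a1, a2, a3, hF0, hΦ', hg3']
  simp only [hd, Ev.bx, map_sub, Complex.mul_conj, e1, tau]
  push_cast
  ring

theorem raw_q (φ₁ φ₂ : S) (c : ℂ) (ξ a b : Fin n → ℂ) {p1 Φ : ℝ} (e1 : R.ev φ₁ = p1)
    (hΦ' : R.ev φ₁ * ns a + c * conj c * R.ev φ₂ = Φ) :
    qf (fun x y => R.ev (K.M0 ξ a c b x y) + (K.jE φ₁ φ₂ ξ a c).q x y)
      (Sum.elim (Sum.elim 0 fun k => ns a * conj (ξ k)) (Sum.elim 0 fun k => ns ξ * conj (a k))) =
      ((ns a ^ 2 : ℝ) : ℂ) * (∑ k, ∑ l, conj (ξ k) * conj (conj (ξ l)) * b0 (K.R0 k l) ξ ξ) +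
      ((ns ξ ^ 2 : ℝ) : ℂ) * b0 (K.W0 a c) (fun k => conj (a k)) (fun k => conj (a k)) +
      ((ns ξ * ns a : ℝ) : ℂ) * K.tau ξ a b c +
      ((ns a ^ 2 * (p1 * ns ξ * ns ξ) + ns ξ ^ 2 * (Φ * ns a) +
        ns ξ * ns a * (2 * p1 * Complex.normSq (∑ k, ξ k * a k)) : ℝ) : ℂ) := by
  have s1 : (ns ξ : ℂ) = ∑ k, ∑ l, conj (ξ k) * ξ l * if k = l then 1 else 0 := by
    simp [ns_eq, mul_comm]
  have s2 : (ns a : ℂ) = ∑ k, ∑ l, conj (a k) * a l * if k = l then 1 else 0 := by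
    simp [ns_eq, mul_comm]
  have s3 : (Complex.normSq (∑ k, ξ k * a k) : ℂ) =
      ∑ k, ∑ l, conj (ξ k) * conj (a k) * (ξ l * a l) := by
    rw [← Complex.mul_conj, mul_comm, map_sum, sum_mul_sum]; simp only [map_mul]
  have s4 : ∀ (k l : Fin n) (z : ℂ), (if k = l then z else 0) = z * if k = l then 1 else 0 :=
    fun k l z => by split_ifs <;> simp
  rw [qf_ah]
  simp only [jE5, jE6, jE7, jE8, eM0_aa, eM0_hh, hΦ']
  simp only [e1, map_mul, Complex.conj_ofReal, Complex.conj_conj]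
  push_cast
  have s5 : (ns a : ℂ) ^ 2 * (p1 * ns ξ * ns ξ) + (ns ξ : ℂ) ^ 2 * (Φ * ns a) +
      (ns ξ : ℂ) * ns a * (2 * p1 * (Complex.normSq (∑ k, ξ k * a k) : ℂ)) =
      (ns a : ℂ) ^ 2 * (p1 * ns ξ * ∑ k, ∑ l, conj (ξ k) * ξ l * if k = l then 1 else 0) +
      (ns ξ : ℂ) ^ 2 * (Φ * ∑ k, ∑ l, conj (a k) * a l * if k = l then 1 else 0) +
      (ns ξ : ℂ) * ns a * (2 * p1 * ∑ k, ∑ l, conj (ξ k) * conj (a k) * (ξ l * a l)) := by
    rw [← s1, ← s2, ← s3]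
  rw [s5, tau]
  simp only [s4 _ _ (p1 * ns ξ : ℂ), s4 _ _ (Φ : ℂ)]
  generalize (ns ξ : ℂ) = X
  generalize (ns a : ℂ) = Y
  generalize (fun k l => b0 (K.R0 k l) ξ ξ) = Rr
  simp only [b0, Complex.conj_conj, mul_add, mul_sum, ← sum_add_distrib]
  refine sum_congr rfl fun k _ => sum_congr rfl fun l _ => ?_
  ring_nf

theorem PQ_nonneg {M : I4 n → I4 n → ℂ} (h : ∀ u, 0 ≤ qf M u) : 0 ≤ (PQ M).re := Q_nonneg h

theorem raw_num1 {X Y A B t s Kc ω Φ p1 : ℝ} (hX : 0 < X) (hY : 0 < Y)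
    (q1 : 0 ≤ Y ^ 2 * A + X ^ 2 * B + X * Y * t +
      (Y ^ 2 * (p1 * X * X) + X ^ 2 * (Φ * Y) + X * Y * (2 * p1 * s)))
    (q3 : A ≤ Kc * X * X) (q4 : B ≤ ω * Y) : -t - 2 * p1 * s ≤ X * Y * (Kc + p1) + X * (ω + Φ) := by
  have q5 : 0 ≤ X * Y * (X * Y * (Kc + p1) + X * (ω + Φ) + t + 2 * p1 * s) := by
    have u1 := mul_le_mul_of_nonneg_left q3 (sq_nonneg Y)
    have u2 := mul_le_mul_of_nonneg_left q4 (sq_nonneg X)
    linarith
  have := nonneg_of_mul_nonneg_right q5 (mul_pos hX hY)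
  linarith

theorem raw_num2 {X Y Z B1 B2 T P lam N s ρ g tW t Kc ω Φ p1 : ℝ} (hX : 0 < X) (hΦ0 : 0 ≤ Φ)
    (hp1 : 0 ≤ p1) (hT : T ≤ 0) (hP : 0 ≤ P)
    (id2 : X * Y * B1 + X * Z * B2 = T - P + (lam * p1 * X * Y + N * p1 * X * Φ - p1 ^ 2 * s) +
      Φ * ρ + X * (g + g) + p1 * X * tW - p1 * t)
    (b1 : ρ ≤ N * Kc * X) (b2 : tW ≤ N * ω) (b3 : s ≤ X * Y)
    (b4 : -t - 2 * p1 * s ≤ X * Y * (Kc + p1) + X * (ω + Φ)) :
    Y * B1 + Z * B2 ≤ lam * p1 * Y + N * Kc * Φ + (N + 1) * p1 * (ω + Φ) + p1 * Y * (Kc + 2 * p1) +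
      2 * g := by
  refine le_of_mul_le_mul_left ?_ hX
  have u1 := mul_le_mul_of_nonneg_left b1 hΦ0
  have u2 := mul_le_mul_of_nonneg_left b2 (mul_nonneg hp1 hX.le)
  have u3 := mul_le_mul_of_nonneg_left b3 (sq_nonneg p1)
  have u4 := mul_le_mul_of_nonneg_left b4 hp1
  linarith

/-- **null vector inequality**, normal frame -/
theorem raw (h : K.Normal) {lam : ℝ} (hF : K.Flow lam) {φ₁ φ₂ : S} (r1 : R.cj φ₁ = φ₁)
    (r2 : R.cj φ₂ = φ₂) {c : ℂ} (hC : K.Cone φ₁ φ₂ c) {ξ a b : Fin n → ℂ} (hξ : ξ ≠ 0)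
    (h0 : (R.ev (K.Ff φ₁ φ₂ (cst ξ) (cst a) c (cst b))).re = 0) {p1 p2 : ℝ}
    (e1 : R.ev φ₁ = p1) (e2 : R.ev φ₂ = p2) (hp1 : 0 ≤ p1) (hp2 : 0 ≤ p2) {Kc ω : ℝ}
    (hK0 : 0 ≤ Kc) (hω0 : 0 ≤ ω)
    (hR : ∀ a' ξ' : Fin n → ℂ,
      (∑ k, ∑ l, a' k * conj (a' l) * b0 (K.R0 k l) ξ' ξ').re ≤ Kc * ns a' * ns ξ')
    (hW : ∀ η, (b0 (K.W0 a c) η η).re ≤ ω * ns η) :
    ns a * (R.ev (Ev.bx K φ₁)).re + Complex.normSq c * (R.ev (Ev.bx K φ₂)).re ≤
      lam * p1 * ns a + n * Kc * (p1 * ns a + Complex.normSq c * p2) +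
      (n + 1) * p1 * (ω + (p1 * ns a + Complex.normSq c * p2)) + p1 * ns a * (Kc + 2 * p1) +
      2 * (c * b0 K.S0 (fun k => conj (a k)) fun k => R.ev (R.d k φ₁)).re := by
  have hX := ns_pos hξ
  have hY := ns_nonneg a
  have hpsd := psd h r1 r2 hC hξ h0
  have hP := PQ_nonneg hpsd
  have hT := R.mp1 _ (hC.pos (cst ξ) (hol_cst a) (cst b)) h0
  have hz : R.ev (K.Ff φ₁ φ₂ (cst ξ) (cst a) c (cst b)) = 0 :=
    Complex.ext h0 (R.im_ev (cj_Ff r1 r2 _ (hol_cst a) _ _))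
  obtain ⟨Φ, hΦ⟩ : ∃ Φ : ℝ, Φ = p1 * ns a + Complex.normSq c * p2 := ⟨_, rfl⟩
  have hΦ0 : 0 ≤ Φ :=
    hΦ ▸ add_nonneg (mul_nonneg hp1 hY) (mul_nonneg (Complex.normSq_nonneg _) hp2)
  have hΦ' : R.ev φ₁ * ns a + c * conj c * R.ev φ₂ = Φ := by
    rw [e1, e2, Complex.mul_conj, hΦ]; push_cast; ring
  rw [← hΦ]
  have id2 := congrArg Complex.re (raw_id h hF r1 e1 hΦ' hz)
  simp only [Complex.add_re, Complex.sub_re, Complex.re_ofReal_mul, Complex.ofReal_re,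
    Complex.conj_re] at id2
  have b1 : (∑ k, b0 (K.R0 k k) ξ ξ).re ≤ n * Kc * ns ξ := by
    rw [Complex.re_sum]
    calc _ ≤ ∑ _k : Fin n, Kc * ns ξ := sum_le_sum fun k _ => by
          have := hR (Pi.single k 1) ξ
          rw [ns_single, mul_one] at this
          simpa [Pi.single_apply, apply_ite conj] using this
      _ = _ := by simp [mul_assoc]
  have b2 : (∑ k, K.W0 a c k k).re ≤ n * ω := by
    rw [Complex.re_sum]
    calc _ ≤ ∑ _k : Fin n, ω := sum_le_sum fun k _ => by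
          have := hW (Pi.single k 1)
          rwa [ns_single, mul_one, b0_single] at this
      _ = _ := by simp
  have b3 := normSq_sum_le ξ a
  have b4 : -(K.tau ξ a b c).re - 2 * p1 * Complex.normSq (∑ k, ξ k * a k) ≤
      ns ξ * ns a * (Kc + p1) + ns ξ * (ω + Φ) := by
    by_cases ha : a = 0
    · have : K.tau ξ a b c = 0 := by simp [tau, ha]
      have h2 : Complex.normSq (∑ k, ξ k * a k) = 0 := by simp [ha]
      rw [this, h2]
      have : 0 ≤ ns ξ * ns a * (Kc + p1) + ns ξ * (ω + Φ) := by positivity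
      simpa using this
    · have hY' := ns_pos ha
      have q1 := (Complex.nonneg_iff.1 (hpsd (Sum.elim (Sum.elim 0 fun k => ns a * conj (ξ k))
        (Sum.elim 0 fun k => ns ξ * conj (a k))))).1
      rw [raw_q φ₁ φ₂ c ξ a b e1 hΦ'] at q1
      simp only [Complex.add_re, Complex.re_ofReal_mul, Complex.ofReal_re] at q1
      have q3 := hR (fun k => conj (ξ k)) ξ
      have q4 := hW fun k => conj (a k)
      rw [ns_conj] at q3 q4
      exact raw_num1 hX hY' q1 q3 q4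
  exact raw_num2 hX hΦ0 hp1 hT hP id2 b1 b2 b3 b4

end KM

end

end Crest.Agent.T223.Cn
end

-- ▼ part T223/CnZ_87

/-!
# Row 223 (helper87), CONE module, part Z: invariant form, rescaling, the Harnack cone

`KM.inv_ineq` : the null vector inequality in invariant form;
`Tm R` : a time function;  `Tm.dr`, `KM.rs` : the rescaled flow `g / θ` with time `log θ`;
`KM.ly` : Cao's Harnack form;  `KM.lyh_ring` : its null vector inequality with a barrier.
-/

set_option autoImplicit false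
set_option linter.unusedSectionVars false

open Finset Matrix
open scoped ComplexConjugate ComplexOrder

namespace Crest.Agent.T223.Cn

noncomputable section

variable {n : ℕ} {S : Type} [CommRing S] [Algebra ℂ S] {R : DR n S}

/-! ### Hermitian forms -/

theorem b0_vec (M : Matrix (Fin n) (Fin n) ℂ) (u w : Fin n → ℂ) :
    b0 M u w = ∑ j, (Mᵀ *ᵥ u) j * conj (w j) := by
  simp only [b0, Matrix.mulVec, dotProduct, transpose_apply, sum_mul]
  rw [sum_comm]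
  exact sum_congr rfl fun _ _ => sum_congr rfl fun _ _ => by ring

theorem b0_polar {M : Matrix (Fin n) (Fin n) ℂ} (hM : ∀ k l, conj (M k l) = M l k) {m : ℝ}
    (h : ∀ u, |(b0 M u u).re| ≤ m * ns u) (u w : Fin n → ℂ) :
    2 * (b0 M u w).re ≤ m * (ns u + ns w) := by
  have e0 : b0 M w u = conj (b0 M u w) := by
    simp only [b0, map_sum, map_mul, Complex.conj_conj, hM]
    rw [sum_comm]
    exact sum_congr rfl fun _ _ => sum_congr rfl fun _ _ => by ring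
  have e1 : b0 M (u + w) (u + w) - b0 M (u - w) (u - w) = 2 * (b0 M u w + b0 M w u) := by
    simp only [b0, Pi.add_apply, Pi.sub_apply, map_add, map_sub, mul_sum, ← sum_add_distrib,
      ← sum_sub_distrib]
    exact sum_congr rfl fun _ _ => sum_congr rfl fun _ _ => by ring
  have e2 : ns (u + w) + ns (u - w) = 2 * (ns u + ns w) := by
    simp only [ns, Pi.add_apply, Pi.sub_apply, mul_sum, ← sum_add_distrib]
    exact sum_congr rfl fun _ _ => by simp only [Complex.normSq_add, Complex.normSq_sub]; ring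
  have e3 := congrArg Complex.re e1
  rw [e0] at e3
  simp only [Complex.sub_re, Complex.mul_re, Complex.add_re, Complex.conj_re, Complex.re_ofNat,
    Complex.im_ofNat, zero_mul, sub_zero] at e3
  have h1 := (abs_le.1 (h (u + w))).2
  have h2 := (abs_le.1 (h (u - w))).1
  have : m * ns (u + w) + m * ns (u - w) = m * (2 * (ns u + ns w)) := by rw [← e2]; ring
  linarith

theorem ns_mulVec_le {M : Matrix (Fin n) (Fin n) ℂ} (hM : ∀ k l, conj (M k l) = M l k) {m : ℝ}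
    (hm : 0 < m) (h : ∀ u, |(b0 M u u).re| ≤ m * ns u) (u : Fin n → ℂ) :
    ns (Mᵀ *ᵥ u) ≤ m ^ 2 * ns u := by
  have h1 := b0_polar hM h (fun i => m * u i) (Mᵀ *ᵥ u)
  have e : b0 M (fun i => m * u i) (Mᵀ *ᵥ u) = ((m * ns (Mᵀ *ᵥ u) : ℝ) : ℂ) := by
    push_cast
    rw [ns_eq, ← b0_vec]
    simp only [b0, mul_sum]
    exact sum_congr rfl fun _ _ => sum_congr rfl fun _ _ => by ring
  rw [e, Complex.ofReal_re, ns_smul, Complex.normSq_ofReal] at h1
  refine le_of_mul_le_mul_left ?_ hm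
  nlinarith

theorem two_re_le (c z : ℂ) {s : ℝ} (hs : 0 < s) :
    2 * (c * z).re ≤ s * Complex.normSq c + Complex.normSq z / s := by
  have h := Complex.normSq_nonneg (s * c - conj z)
  rw [Complex.normSq_sub, Complex.normSq_mul, Complex.normSq_ofReal, Complex.normSq_conj,
    Complex.conj_conj, mul_assoc (s : ℂ), Complex.re_ofReal_mul] at h
  rw [← sub_le_iff_le_add', le_div_iff₀ hs]
  nlinarith

/-! ### values at the base point -/

theorem ev_dv_congr {a a' : Fin n → S} (e : ∀ k, R.ev (a k) = R.ev (a' k)) (c : ℂ) (f : S) :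
    R.ev (R.dv a c f) = R.ev (R.dv a' c f) := by
  simp only [R.dv_apply, map_add, map_sum, map_mul, e]

theorem ev_dbv_congr {a a' : Fin n → S} (e : ∀ k, R.ev (a k) = R.ev (a' k)) (c : ℂ) (f : S) :
    R.ev (R.dbv a c f) = R.ev (R.dbv a' c f) := by
  simp only [R.dbv_apply, map_add, map_sum, map_mul, R.ev_cj, e]

theorem ev_dv_dbv_congr {a a' : Fin n → S} (ha : ∀ k, R.Hol (a k)) (ha' : ∀ k, R.Hol (a' k))
    (e : ∀ k, R.ev (a k) = R.ev (a' k)) (c : ℂ) (f : S) :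
    R.ev (R.dv a c (R.dbv a c f)) = R.ev (R.dv a' c (R.dbv a' c f)) := by
  rw [ev_dv_congr e, R.dv_apply, R.dv_apply]
  simp only [map_add, map_sum, map_mul, map_smul, DR.d_dbv ha, DR.d_dbv ha', DR.D_dbv ha,
    DR.D_dbv ha', ev_dbv_congr e]

namespace KM

variable {K : KM R}

theorem ev_th_congr {v v' a a' : Fin n → S} (ha : ∀ k, R.Hol (a k)) (ha' : ∀ k, R.Hol (a' k))
    (e : ∀ k, R.ev (a k) = R.ev (a' k)) (e' : ∀ k, R.ev (v k) = R.ev (v' k)) (c : ℂ) :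
    R.ev (K.th v a c) = R.ev (K.th v' a' c) := by
  have h1 : R.eM (dM (R.dv a c) (dM (R.dbv a c) K.g)) =
      R.eM (dM (R.dv a' c) (dM (R.dbv a' c) K.g)) := by
    ext i j; exact ev_dv_dbv_congr ha ha' e c _
  have h2 : R.eM (dM (R.dv a c) K.g) = R.eM (dM (R.dv a' c) K.g) := by
    ext i j; exact ev_dv_congr e c _
  have h3 : R.eM (dM (R.dbv a c) K.g) = R.eM (dM (R.dbv a' c) K.g) := by
    ext i j; exact ev_dbv_congr e c _
  simp only [th, ev_bf, Th, R.eM_add, R.eM_neg, R.eM_mul, h1, h2, h3, e']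

theorem ev_bf_g (h : K.Normal) (v : Fin n → S) :
    R.ev (R.bf K.g v v) = ns fun i => R.ev (v i) := by
  rw [ev_bf, h.g0, b0_one_self]

theorem ev_Hcv (h : K.Normal) (ξ : Fin n → ℂ) (i : Fin n) :
    R.ev ((K.H *ᵥ R.cv (cst ξ)) i) = conj (ξ i) := by
  simp [Matrix.mulVec, dotProduct, eH0 h, cst, cj_kk]

theorem ev_beta (h : K.Normal) (ξ a b : Fin n → ℂ) (c : ℂ) (i : Fin n) :
    R.ev ((cst b + (K.g * (dM (R.dv (cst a) c) K.H)ᵀ) *ᵥ cst ξ : Fin n → S) i) =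
      b i + c * (K.S0ᵀ *ᵥ ξ) i := by
  have e : R.eM (K.g * (dM (R.dv (cst a) c) K.H)ᵀ) = c • K.S0ᵀ := by
    rw [R.eM_mul, h.g0, Matrix.one_mul]
    ext k l
    exact eV h a c l k
  have e' : ∀ k l, R.ev ((K.g * (dM (R.dv (cst a) c) K.H)ᵀ) k l) = c * K.S0 l k :=
    fun k l => congrFun (congrFun e k) l
  simp only [Pi.add_apply, map_add, Matrix.mulVec, dotProduct, map_sum, map_mul, e', cst, ev_kk,
    mul_sum, transpose_apply, mul_assoc]

theorem W0_eq (h : K.Normal) (a η : Fin n → ℂ) (c : ℂ) : b0 (K.W0 a c) η η =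
    R.ev (K.th (K.H *ᵥ R.cv (cst η)) (cst a) c) + (Complex.normSq c * ns (K.S0ᵀ *ᵥ η) : ℝ) := by
  have h1 := congrArg R.ev (K.F0_eq (cst η) (cst a) c (cst 0))
  rw [map_add, ev_bf, H0 h, b0_one_self] at h1
  simp only [ev_beta h, Pi.zero_apply, zero_add, ns_smul] at h1
  rw [← h1, F0]
  simp only [map_add, ev_bf_cst, W0]
  simp [b0]

theorem W0_zero (a η : Fin n → ℂ) :
    b0 (K.W0 a 0) η η = ∑ k, ∑ l, a k * conj (a l) * b0 (K.R0 k l) η η := by
  have : K.W0 a 0 = ∑ k, ∑ l, (a k * conj (a l)) • K.R0 k l := by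
    ext i j
    simp only [W0, R0, DR.eM_apply, dM_apply, ev_dv_dbv, Matrix.sum_apply, Matrix.smul_apply,
      smul_eq_mul]
  simp only [this, b0_sum, b0_smul]

/-- **null vector inequality**, normal frame, geometric hypotheses -/
theorem norm_ineq (h : K.Normal) {lam : ℝ} (hF : K.Flow lam) {φ₁ φ₂ : S} (r1 : R.cj φ₁ = φ₁)
    (r2 : R.cj φ₂ = φ₂) {c : ℂ} (hC : K.Cone φ₁ φ₂ c) {v a : Fin n → S} (ha : ∀ k, R.Hol (a k))
    (hv : (R.ev (R.bf K.g v v)).re ≠ 0)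
    (h0 : (R.ev (K.th v a c + (φ₁ * R.bf K.g a a + φ₂ * kk (c * conj c)) * R.bf K.g v v)).re = 0)
    {p1 p2 : ℝ} (e1 : R.ev φ₁ = p1) (e2 : R.ev φ₂ = p2) (hp1 : 0 < p1) (hp2 : 0 ≤ p2)
    {Kc ω m : ℝ} (hK0 : 0 ≤ Kc) (hω0 : 0 ≤ ω) (hm0 : 0 < m) (hm : |lam| + n * Kc ≤ m)
    (hR : ∀ v' a' : Fin n → S, (∀ k, R.Hol (a' k)) → |(R.ev (K.th v' a' 0)).re| ≤
      Kc * (R.ev (R.bf K.g a' a')).re * (R.ev (R.bf K.g v' v')).re)
    (hW : ∀ v', (R.ev (K.th v' a c)).re ≤ ω * (R.ev (R.bf K.g v' v')).re)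
    {Y Φ : ℝ} (hY : (R.ev (R.bf K.g a a)).re = Y) (hΦ : Φ = p1 * Y + Complex.normSq c * p2) :
    Y * (R.ev (Ev.bx K φ₁)).re + Complex.normSq c * (R.ev (Ev.bx K φ₂)).re ≤
      lam * p1 * Y + n * Kc * Φ + (n + 1) * p1 * (ω + m ^ 2 * Complex.normSq c + Φ) +
      p1 * Y * (Kc + 2 * p1) + m ^ 2 * p1 * Complex.normSq c +
      Y * (R.ev (Ev.g2 K φ₁ φ₁)).re / p1 := by
  obtain ⟨a0, ha0⟩ : ∃ a0 : Fin n → ℂ, a0 = fun k => R.ev (a k) := ⟨_, rfl⟩
  obtain ⟨ξ, hξ⟩ : ∃ ξ : Fin n → ℂ, ξ = fun k => conj (R.ev (v k)) := ⟨_, rfl⟩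
  have ea : ∀ k, R.ev (cst a0 k : S) = R.ev (a k) := fun k => by simp [cst, ha0]
  have eY : ns a0 = Y := by rw [← hY, ev_bf_g h, Complex.ofReal_re, ha0]
  have eX : R.ev (R.bf K.g v v) = ns ξ := by rw [ev_bf_g h, hξ, ns_conj]
  have eH : ∀ η, (R.ev (R.bf K.g (K.H *ᵥ R.cv (cst η)) (K.H *ᵥ R.cv (cst η)))).re = ns η :=
    fun η => by rw [← K.bf_H, ev_bf_cst, H0 h, b0_one_self, Complex.ofReal_re]
  have hξ0 : ξ ≠ 0 := fun e => hv (by rw [eX, e]; simp [ns])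
  have hR' : ∀ a' ξ' : Fin n → ℂ,
      |(∑ k, ∑ l, a' k * conj (a' l) * b0 (K.R0 k l) ξ' ξ').re| ≤ Kc * ns a' * ns ξ' := by
    intro a' ξ'
    have := hR (K.H *ᵥ R.cv (cst ξ')) (cst a') (hol_cst a')
    rw [eH, ev_bf_cst, h.g0, b0_one_self, Complex.ofReal_re] at this
    rw [← W0_zero, W0_eq h]
    simpa using this
  have hS : ∀ u, |(b0 K.S0 u u).re| ≤ m * ns u := by
    intro u
    rw [S0_eq h hF, b0_add, b0_smul, b0_one_self, b0_sum, Complex.add_re, Complex.re_sum,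
      ← Complex.ofReal_mul, Complex.ofReal_re]
    have h1 : |∑ k, (b0 (K.R0 k k) u u).re| ≤ n * Kc * ns u :=
      calc _ ≤ ∑ k, |(b0 (K.R0 k k) u u).re| := abs_sum_le_sum_abs _ _
        _ ≤ ∑ _k : Fin n, Kc * ns u := sum_le_sum fun k _ => by
          have := hR' (Pi.single k 1) u
          rw [ns_single, mul_one] at this
          simpa [Pi.single_apply, apply_ite conj] using this
        _ = _ := by simp [mul_assoc]
    have h2 : |lam * ns u| = |lam| * ns u := by rw [abs_mul, abs_of_nonneg (ns_nonneg u)]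
    have h3 := abs_add_le (lam * ns u) (∑ k, (b0 (K.R0 k k) u u).re)
    have h4 := mul_le_mul_of_nonneg_right hm (ns_nonneg u)
    linarith
  have hβ := ns_mulVec_le K.S0_herm hm0 hS
  have hW' : ∀ η, (b0 (K.W0 a0 c) η η).re ≤ (ω + m ^ 2 * Complex.normSq c) * ns η := by
    intro η
    have h1 := hW (K.H *ᵥ R.cv (cst η))
    rw [eH, ← ev_th_congr (hol_cst a0) ha ea (fun _ => rfl)] at h1
    have h2 := mul_le_mul_of_nonneg_left (hβ η) (Complex.normSq_nonneg c)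
    rw [W0_eq h, Complex.add_re, Complex.ofReal_re]
    linarith
  have h0' : (R.ev (K.Ff φ₁ φ₂ (cst ξ) (cst a0) c (cst fun i => -(c * (K.S0ᵀ *ᵥ ξ) i)))).re = 0 := by
    rw [← h0, Ff, K.F0_eq]
    have := ev_th_congr (K := K) (v := K.H *ᵥ R.cv (cst ξ)) (v' := v) (hol_cst a0) ha ea
      (fun k => by rw [ev_Hcv h, hξ, Complex.conj_conj]) c
    simp only [map_add, map_mul, this, eX, ev_bf_g h, ea]
    rw [ev_bf, ev_bf_cst, H0 h, b0_one_self, b0_one_self]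
    simp only [ev_beta h, neg_add_cancel]
    simp [ns]
  have hc := Complex.normSq_nonneg c
  have key := raw h hF r1 r2 hC hξ0 h0' e1 e2 hp1.le hp2 hK0 (by positivity)
    (fun a' ξ' => (abs_le.1 (hR' a' ξ')).2) hW'
  have t1 := two_re_le c (b0 K.S0 (fun k => conj (a0 k)) fun k => R.ev (R.d k φ₁))
    (s := m ^ 2 * p1) (by positivity)
  have eG : (R.ev (Ev.g2 K φ₁ φ₁)).re = ns fun k => R.ev (R.d k φ₁) := by
    have hd : ∀ k, R.ev (R.db k φ₁) = conj (R.ev (R.d k φ₁)) := fun k => by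
      rw [← R.ev_cj, R.cj_d, r1]
    rw [Ev.ev_g2 h]
    simp only [hd]
    rw [← ns_eq, Complex.ofReal_re]
  have t2 : Complex.normSq (b0 K.S0 (fun k => conj (a0 k)) fun k => R.ev (R.d k φ₁)) /
      (m ^ 2 * p1) ≤ Y * (R.ev (Ev.g2 K φ₁ φ₁)).re / p1 := by
    rw [div_le_div_iff₀ (by positivity) hp1, b0_vec, eG]
    have u1 := normSq_sum_le (K.S0ᵀ *ᵥ fun k => conj (a0 k)) fun k => conj (R.ev (R.d k φ₁))
    have u2 := hβ fun k => conj (a0 k)
    rw [ns_conj] at u1 u2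
    rw [eY] at u2
    have u3 := mul_le_mul_of_nonneg_right u2 (ns_nonneg fun k => R.ev (R.d k φ₁))
    have u4 := mul_le_mul_of_nonneg_right (u1.trans u3) hp1.le
    linarith
  rw [eY, ← hΦ] at key
  linarith

/-- **null vector inequality**, invariant form -/
theorem inv_ineq {lam : ℝ} (hF : K.Flow lam) {φ₁ φ₂ : S} (r1 : R.cj φ₁ = φ₁)
    (r2 : R.cj φ₂ = φ₂) {c : ℂ} (hC : K.Cone φ₁ φ₂ c) {v a : Fin n → S} (ha : ∀ k, R.Hol (a k))
    (hv : (R.ev (R.bf K.g v v)).re ≠ 0)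
    (h0 : (R.ev (K.th v a c + (φ₁ * R.bf K.g a a + φ₂ * kk (c * conj c)) * R.bf K.g v v)).re = 0)
    {p1 p2 : ℝ} (e1 : R.ev φ₁ = p1) (e2 : R.ev φ₂ = p2) (hp1 : 0 < p1) (hp2 : 0 ≤ p2)
    {Kc ω m : ℝ} (hK0 : 0 ≤ Kc) (hω0 : 0 ≤ ω) (hm0 : 0 < m) (hm : |lam| + n * Kc ≤ m)
    (hR : ∀ v' a' : Fin n → S, (∀ k, R.Hol (a' k)) → |(R.ev (K.th v' a' 0)).re| ≤
      Kc * (R.ev (R.bf K.g a' a')).re * (R.ev (R.bf K.g v' v')).re)
    (hW : ∀ v', (R.ev (K.th v' a c)).re ≤ ω * (R.ev (R.bf K.g v' v')).re)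
    {Y Φ : ℝ} (hY : (R.ev (R.bf K.g a a)).re = Y) (hΦ : Φ = p1 * Y + Complex.normSq c * p2) :
    Y * (R.ev (Ev.bx K φ₁)).re + Complex.normSq c * (R.ev (Ev.bx K φ₂)).re ≤
      lam * p1 * Y + n * Kc * Φ + (n + 1) * p1 * (ω + m ^ 2 * Complex.normSq c + Φ) +
      p1 * Y * (Kc + 2 * p1) + m ^ 2 * p1 * Complex.normSq c +
      Y * (R.ev (Ev.g2 K φ₁ φ₁)).re / p1 := by
  obtain ⟨F, hN⟩ := K.exists_normal
  have eAB : ∀ x : Fin n → S, F.A *ᵥ (F.B *ᵥ x) = x := fun x => by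
    rw [Matrix.mulVec_mulVec, F.AB, Matrix.one_mulVec]
  have hB : ∀ k, F.dr.Hol ((F.B *ᵥ a) k) := fun k =>
    (F.hol_iff _).2 (DR.Hol.sum univ fun p => (F.holB k p).mul (ha p))
  have key := norm_ineq (K := K.fr F) hN (hF.fr F) (φ₁ := φ₁) (φ₂ := φ₂) r1 r2 (c := c)
    (fun v a ha => by
      rw [K.fr_th F v ha, fr_g, F.bf_pb, F.bf_pb]
      exact hC _ _ (F.hol_mulVec ha))
    (v := F.B *ᵥ v) hB (by rw [fr_g, F.bf_pb, eAB]; exact hv)
    (by rw [K.fr_th F _ hB, fr_g, F.bf_pb, F.bf_pb, eAB, eAB]; exact h0) e1 e2 hp1 hp2 hK0 hω0 hm0 hm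
    (fun v' a' ha' => by
      rw [K.fr_th F v' ha', fr_g, F.bf_pb, F.bf_pb]
      exact hR _ _ (F.hol_mulVec ha'))
    (fun v' => by
      rw [K.fr_th F v' hB, fr_g, F.bf_pb, eAB]
      exact hW _)
    (by rw [fr_g, F.bf_pb, eAB]; exact hY) hΦ
  rwa [Ev.fr_bx, Ev.fr_bx, Ev.fr_g2] at key

end KM

/-! ### rescaling -/

theorem Th_smul {ι : Type} [Fintype ι] [DecidableEq ι] (δ δ' : Der S) {g gi : Matrix ι ι S}
    (hg : g * gi = 1) {u w : S} (huw : u * w = 1) {c c' : ℂ} (h1 : δ u = -(kk c * u))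
    (h2 : δ' u = -(kk c' * u)) : Th δ δ' (u • g) (w • gi) = u • Th δ δ' g gi := by
  have hg' : gi * g = 1 := mul_eq_one_comm.1 hg
  have e1 : dM δ (u • g) = u • (dM δ g - (kk c : S) • g) := by
    rw [dM_smul, h1]; module
  have e2 : dM δ' (u • g) = u • (dM δ' g - (kk c' : S) • g) := by
    rw [dM_smul, h2]; module
  have e3 : dM δ (dM δ' (u • g)) = u • (dM δ (dM δ' g) - (kk c' : S) • dM δ g
      - (kk c : S) • (dM δ' g - (kk c' : S) • g)) := by
    rw [e2, dM_smul, h1, dM_sub, dM_smul, D_alg]; module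
  have e4 : u • (dM δ g - (kk c : S) • g) * w • gi * u • (dM δ' g - (kk c' : S) • g) =
      u • (dM δ g * gi * dM δ' g - (kk c' : S) • dM δ g
        - (kk c : S) • (dM δ' g - (kk c' : S) • g)) := by
    simp only [Matrix.smul_mul, Matrix.mul_smul, smul_smul, mul_comm w u, huw, mul_one]
    congr 1
    rw [Matrix.sub_mul, Matrix.smul_mul, hg, Matrix.sub_mul, Matrix.smul_mul, Matrix.one_mul,
      Matrix.mul_sub, Matrix.mul_smul, Matrix.mul_assoc (dM δ g) gi g, hg', Matrix.mul_one]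
  unfold Th
  rw [e3, e1, e2, e4]
  module

/-- a time function `θ = t - T₀` -/
structure Tm (R : DR n S) where
  θ : S
  θi : S
  τ : ℝ
  mul : θ * θi = 1
  cj : R.cj θ = θ
  d : ∀ k, R.d k θ = 0
  D : R.D θ = 1
  ev : R.ev θ = τ
  pos : 0 < τ

namespace Tm

variable (T : Tm R)

theorem mul' : T.θi * T.θ = 1 := by rw [mul_comm, T.mul]

theorem db (k : Fin n) : R.db k T.θ = 0 := by rw [← T.cj, ← R.cj_d, T.d, map_zero]

theorem cji : R.cj T.θi = T.θi := by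
  have h := congrArg R.cj T.mul
  rw [map_mul, T.cj, map_one] at h
  rw [← one_mul (R.cj T.θi), ← T.mul', mul_assoc, h, mul_one]

theorem deri (δ : Der S) : δ T.θi = -(T.θi * T.θi * δ T.θ) := by
  have h := congrArg δ T.mul
  rw [D_mul, D_one] at h
  linear_combination T.θi * h - δ T.θi * T.mul

theorem evi : R.ev T.θi = (T.τ⁻¹ : ℝ) := by
  have h := congrArg R.ev T.mul
  rw [map_mul, T.ev, map_one] at h
  rw [Complex.ofReal_inv]
  exact eq_inv_of_mul_eq_one_right h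

/-- the same ring with the time `log θ` -/
def dr : DR n S where
  d := R.d
  db := R.db
  D := T.θ • R.D
  cj := R.cj
  ev := R.ev
  ζ := R.ζ
  Pos f := R.Pos (T.θ * f)
  cj_cj := R.cj_cj
  cj_smul := R.cj_smul
  cj_d := R.cj_d
  cj_D f := by simp only [Derivation.smul_apply, smul_eq_mul, map_mul, T.cj, R.cj_D]
  ev_cj := R.ev_cj
  dd := R.dd
  ddb := R.ddb
  Dd k f := by simp only [Derivation.smul_apply, smul_eq_mul, D_mul, T.d, R.Dd, zero_mul, zero_add]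
  d_ζ := R.d_ζ
  db_ζ := R.db_ζ
  D_ζ l := by simp only [Derivation.smul_apply, R.D_ζ, smul_zero]
  ev_ζ := R.ev_ζ
  unit := R.unit
  pos_add f g hf hg := by rw [mul_add]; exact R.pos_add _ _ hf hg
  mp1 f hf h0 := by
    have := R.mp1 _ hf (by rw [map_mul, T.ev, Complex.re_ofReal_mul, h0, mul_zero])
    rwa [D_mul, T.D, one_mul, map_add, Complex.add_re, h0, zero_add] at this
  mp2 f hf h0 e := by
    have := R.mp2 _ hf (by rw [map_mul, T.ev, Complex.re_ofReal_mul, h0, mul_zero]) e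
    simp only [D_mul, T.d, T.db, zero_mul, zero_add, map_mul, T.ev, mul_left_comm _ (T.τ : ℂ),
      ← mul_sum, Complex.re_ofReal_mul] at this
    exact nonneg_of_mul_nonneg_right this T.pos |> fun h => h

theorem dr_D (f : S) : T.dr.D f = T.θ * R.D f := rfl

theorem hol_iff (f : S) : T.dr.Hol f ↔ R.Hol f := by
  refine and_congr Iff.rfl ⟨fun h => ?_, fun h => by rw [dr_D, h, mul_zero]⟩
  rw [← one_mul (R.D f), ← T.mul', mul_assoc, ← dr_D, h, mul_zero]

theorem dr_dv (a : Fin n → S) (c : ℂ) (f : S) :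
    T.dr.dv a c f = R.dv a 0 f + kk c * T.θ * R.D f := by
  rw [T.dr.dv_apply, R.dv_apply, zero_smul, add_zero, dr_D, Algebra.smul_def, mul_assoc]
  rfl

theorem dr_dbv (a : Fin n → S) (c : ℂ) (f : S) :
    T.dr.dbv a c f = R.dbv a 0 f + kk (conj c) * T.θ * R.D f := by
  rw [T.dr.dbv_apply, R.dbv_apply, map_zero, zero_smul, add_zero, dr_D, Algebra.smul_def, mul_assoc]
  rfl

theorem dv_θ (a : Fin n → S) : R.dv a 0 T.θ = 0 := by simp [R.dv_apply, T.d]

theorem dbv_θ (a : Fin n → S) : R.dbv a 0 T.θ = 0 := by simp [R.dbv_apply, T.db]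

end Tm

theorem dM_dv (a : Fin n → S) (M : Matrix (Fin n) (Fin n) S) :
    dM (R.dv a 0) M = ∑ k, a k • dM (R.d k) M := by
  ext i j; simp [R.dv_apply, Matrix.sum_apply]

theorem bf_sum {ι : Type*} (s : Finset ι) (M : ι → Matrix (Fin n) (Fin n) S) (x y : Fin n → S) :
    R.bf (∑ i ∈ s, M i) x y = ∑ i ∈ s, R.bf (M i) x y := by
  simp only [DR.bf, Matrix.sum_mulVec, dotProduct_sum]

namespace KM

variable (K : KM R) (T : Tm R)

theorem cj_ric (k l : Fin n) : R.cj (K.ric k l) = K.ric l k := by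
  have h : R.cj (Ev.be K (R.db l)) = Ev.be K (R.d l) := by
    simp only [Ev.be, tr, Matrix.trace, diag_apply, Matrix.mul_apply, map_sum, map_mul, dM_apply,
      K.cj_gi, R.cj_db, K.cj_g]
    exact sum_comm
  rw [Ev.ric_eq, Ev.ric_eq, map_neg, R.cj_d, h, Ev.be_symm K (R.ddb l k)]

/-- the rescaled metric `g / θ` -/
def rs : KM T.dr where
  g := T.θi • K.g
  gi := T.θ • K.gi
  inv := by rw [Matrix.smul_mul, Matrix.mul_smul, smul_smul, T.mul', K.inv, one_smul]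
  herm := by
    ext i j
    change R.cj (T.θi * K.g i j) = T.θi * K.g j i
    rw [map_mul, T.cji, K.cj_g]
  pos v := by
    change R.Pos (T.θ * R.bf (T.θi • K.g) v v)
    rw [R.bf_smul, ← mul_assoc, T.mul, one_mul]
    exact K.pos v
  pd := by
    have : T.dr.eM (T.θi • K.g) = ((T.τ⁻¹ : ℝ) : ℂ) • R.eM K.g := by
      ext i j
      change R.ev (T.θi * K.g i j) = _
      rw [map_mul, T.evi]; rfl
    rw [this]
    exact K.pd.smul (by exact_mod_cast inv_pos.2 T.pos)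
  closed a b c := by
    change R.d c (T.θi * K.g a b) = R.d a (T.θi * K.g c b)
    simp only [D_mul, T.deri, T.d, mul_zero, neg_zero, zero_mul, zero_add, K.closed a b c]

theorem rs_bf (x y : Fin n → S) : T.dr.bf (K.rs T).g x y = T.θi * R.bf K.g x y := R.bf_smul _ _ _ _

theorem rs_tr (M : Matrix (Fin n) (Fin n) S) : (K.rs T).tr M = T.θ * K.tr M := by
  change (T.θ • K.gi * M).trace = _
  rw [Matrix.smul_mul, Matrix.trace_smul]; rfl

theorem rs_ric : (K.rs T).ric = K.ric := by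
  ext k l
  change (K.rs T).tr (Th (R.d k) (R.db l) (T.θi • K.g) (T.θ • K.gi)) = _
  rw [Th_smul _ _ K.inv T.mul' (c := 0) (c' := 0) (by simp [T.deri, T.d]) (by simp [T.deri, T.db]),
    rs_tr, K.tr_smul, ← mul_assoc, T.mul, one_mul]
  rfl

theorem rs_bx (f : S) : Ev.bx (K.rs T) f = T.θ * Ev.bx K f := by
  unfold Ev.bx lap
  rw [rs_tr, T.dr_D, mul_sub]; rfl

theorem rs_g2 (f f' : S) : Ev.g2 (K.rs T) f f' = T.θ * Ev.g2 K f f' := K.rs_tr T _

theorem bx_θ (f : S) : Ev.bx K (T.θ * f) = T.θ * Ev.bx K f + f := by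
  have h1 : Ev.bx K T.θ = 1 := by simp [Ev.bx, Ev.lap_eq, T.D, T.db]
  rw [Ev.bx_mul, h1]
  simp [Ev.g2_eq, T.d, T.db]

theorem g2_θ (f : S) : Ev.g2 K (T.θ * f) (T.θ * f) = T.θ * T.θ * Ev.g2 K f f := by
  simp only [Ev.g2_eq, D_mul, T.d, T.db, zero_mul, zero_add, mul_sum]
  exact sum_congr rfl fun _ _ => sum_congr rfl fun _ _ => by ring

theorem bx_kk (c : ℂ) (f : S) : Ev.bx K (kk c * f) = kk c * Ev.bx K f := by
  simp only [Ev.bx, Ev.lap_eq, D_mul, D_alg, zero_mul, zero_add, mul_sub, mul_sum]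
  congr 1
  exact sum_congr rfl fun _ _ => sum_congr rfl fun _ _ => by ring

/-- `∇_k Ric` -/
def nab (k : Fin n) : Matrix (Fin n) (Fin n) S :=
  dM (R.d k) K.ric - dM (R.d k) K.g * K.gi * K.ric

/-- Cao's Harnack form, `u = 1 / τ` -/
def ly (u : S) (v a : Fin n → S) (e : S) : S :=
  e * R.cj e * R.bf (dM R.D K.ric + K.ric * K.gi * K.ric + u • K.ric) v v +
    (R.cj e * ∑ k, a k * R.bf (K.nab k) v v + R.cj (R.cj e * ∑ k, a k * R.bf (K.nab k) v v)) +
    K.th v a 0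

variable {K}

theorem Flow.rs (h : K.Flow 0) : (K.rs T).Flow 1 := by
  unfold Flow
  rw [rs_ric]
  ext i j
  have h1 : R.D (K.g i j) = -K.ric i j := congrFun (congrFun (Ev.D_g h) i) j
  change T.θ * R.D (T.θi * K.g i j) = -(((1 : ℝ) : ℂ) • (T.θi * K.g i j)) - K.ric i j
  rw [D_mul, T.deri, T.D, h1, Complex.ofReal_one, one_smul]
  linear_combination (-(T.θi * K.g i j) - K.ric i j) * T.mul

theorem rs_th (h : K.Flow 0) (v : Fin n → S) {a : Fin n → S} (ha : ∀ k, R.Hol (a k)) (c : ℂ) :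
    (K.rs T).th v a c = T.θi * K.ly T.θi v a (kk c * T.θ) := by
  have hg := Ev.D_g h
  have ce : R.cj (kk c * T.θ) = kk (conj c) * T.θ := by rw [map_mul, cj_kk, T.cj]
  have u1 : T.dr.dv a c T.θi = -(kk c * T.θi) := by
    rw [T.dr_dv, T.deri, T.deri, T.dv_θ, T.D]
    linear_combination (-(kk c * T.θi)) * T.mul
  have u2 : T.dr.dbv a c T.θi = -(kk (conj c) * T.θi) := by
    rw [T.dr_dbv, T.deri, T.deri, T.dbv_θ, T.D]
    linear_combination (-(kk (conj c) * T.θi)) * T.mul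
  have m1 : ∀ M : Matrix (Fin n) (Fin n) S,
      dM (T.dr.dv a c) M = dM (R.dv a 0) M + (kk c * T.θ) • dM R.D M := fun M => by
    ext i j; exact T.dr_dv a c _
  have m2 : ∀ M : Matrix (Fin n) (Fin n) S,
      dM (T.dr.dbv a c) M = dM (R.dbv a 0) M + (kk (conj c) * T.θ) • dM R.D M := fun M => by
    ext i j; exact T.dr_dbv a c _
  have m3 : dM R.D (dM (R.dbv a 0) K.g) = -dM (R.dbv a 0) K.ric := by
    rw [← dM_neg, ← hg]
    ext i j; exact DR.D_dbv ha 0 _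
  have m4 : T.dr.dv a c (kk (conj c) * T.θ) = kk c * T.θ * (kk (conj c) * T.θ) * T.θi := by
    rw [T.dr_dv, D_mul, D_mul, D_alg, D_alg, T.dv_θ, T.D]
    linear_combination (-(kk c * T.θ * kk (conj c))) * T.mul
  have m5 : ∑ k, a k • K.nab k = dM (R.dv a 0) K.ric - dM (R.dv a 0) K.g * K.gi * K.ric := by
    simp only [nab, dM_dv, smul_sub, sum_sub_distrib, Matrix.sum_mul, Matrix.smul_mul]
  have c1 : ∀ M : Matrix (Fin n) (Fin n) S, R.cM M = Mᵀ →
      R.cM (dM (R.dv a 0) M) = (dM (R.dbv a 0) M)ᵀ := fun M hM => by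
    ext i j
    have : R.cj (M i j) = M j i := congrFun (congrFun hM i) j
    simp only [DR.cM_apply, dM_apply, transpose_apply, R.cj_dv, this]
  have hr : R.cM K.ric = K.ricᵀ := by ext i j; exact K.cj_ric i j
  have m6 : (R.cM (dM (R.dv a 0) K.ric - dM (R.dv a 0) K.g * K.gi * K.ric))ᵀ =
      dM (R.dbv a 0) K.ric - K.ric * K.gi * dM (R.dbv a 0) K.g := by
    have : ∀ M N : Matrix (Fin n) (Fin n) S, R.cM (M - N) = R.cM M - R.cM N := fun M N => by
      ext i j; simp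
    rw [this, R.cM_mul, R.cM_mul, c1 _ hr, c1 _ K.herm, K.herm_gi, hr]
    simp only [transpose_sub, transpose_mul, transpose_transpose, Matrix.mul_assoc]
  have m7 : ∑ k, a k * R.bf (K.nab k) v v =
      R.bf (dM (R.dv a 0) K.ric - dM (R.dv a 0) K.g * K.gi * K.ric) v v := by
    simp only [← m5, bf_sum, R.bf_smul]
  change R.bf (Th (T.dr.dv a c) (T.dr.dbv a c) (T.θi • K.g) (T.θ • K.gi)) v v = _
  rw [Th_smul _ _ K.inv T.mul' u1 u2, R.bf_smul, ly, m7, map_mul R.cj (R.cj _), R.cj_cj, cj_bf,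
    m6, ce, th]
  simp only [← R.bf_smul, ← R.bf_add]
  congr 2
  unfold Th
  rw [m2 K.g, hg, dM_add, dM_smul, m4, m1, m1, m1, m3, hg, dM_neg, dM_neg]
  simp only [Matrix.mul_add, Matrix.add_mul, Matrix.mul_smul, Matrix.smul_mul, Matrix.mul_neg,
    Matrix.neg_mul]
  module

theorem lyh_num {N n τ B p q Y Z G Kc K' c2 : ℝ} (hτ : 0 < τ) (hp : 0 < p) (hq : 0 < q)
    (hn : 0 ≤ n) (hY : 0 ≤ Y) (hG : 0 ≤ G) (hK : 0 ≤ Kc) (hc : 0 ≤ c2) (hZ : Z = c2 * τ ^ 2)
    (hN : N = Y + q * Z) (hN0 : 0 < N)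
    (h : τ⁻¹ * Y * (τ * (τ * B + p)) + c2 * (τ * (q * (τ * (τ * B + p) + τ * p))) ≤
      1 * (τ * p) * (τ⁻¹ * Y) + n * (τ * Kc) * (p * N) +
      (n + 1) * (τ * p) * (K' * N + (1 + n * (τ * Kc)) ^ 2 * c2 + p * N) +
      τ * p * (τ⁻¹ * Y) * (τ * Kc + 2 * (τ * p)) + (1 + n * (τ * Kc)) ^ 2 * (τ * p) * c2 +
      τ⁻¹ * Y * (τ * (τ * τ * G)) / (τ * p)) :
    B ≤ p * (n * Kc + (n + 1) * (K' + p) + (n + 2) * (τ⁻¹ + n * Kc) ^ 2 / q + Kc + 2 * p) + G / p := by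
  have hZ0 : 0 ≤ Z := by rw [hZ]; positivity
  have hYN : Y ≤ N := by rw [hN]; nlinarith
  have hZN : Z ≤ N / q := by rw [le_div_iff₀ hq, hN]; nlinarith
  have e1 : τ⁻¹ * Y * (τ * (τ * B + p)) + c2 * (τ * (q * (τ * (τ * B + p) + τ * p))) =
      τ * N * B + p * Y + 2 * p * q * Z := by
    rw [hN, hZ]; field_simp; ring
  have e2 : 1 * (τ * p) * (τ⁻¹ * Y) + n * (τ * Kc) * (p * N) +
      (n + 1) * (τ * p) * (K' * N + (1 + n * (τ * Kc)) ^ 2 * c2 + p * N) +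
      τ * p * (τ⁻¹ * Y) * (τ * Kc + 2 * (τ * p)) + (1 + n * (τ * Kc)) ^ 2 * (τ * p) * c2 +
      τ⁻¹ * Y * (τ * (τ * τ * G)) / (τ * p) =
      p * Y + τ * N * (p * (n * Kc + (n + 1) * (K' + p))) +
      τ * p * (n + 2) * (τ⁻¹ + n * Kc) ^ 2 * Z + τ * (p * (Kc + 2 * p) + G / p) * Y := by
    rw [hZ]; field_simp; ring
  rw [e1, e2] at h
  have u1 := mul_le_mul_of_nonneg_left hZN
    (show 0 ≤ τ * p * (n + 2) * (τ⁻¹ + n * Kc) ^ 2 by positivity)
  have u2 := mul_le_mul_of_nonneg_left hYN (show 0 ≤ τ * (p * (Kc + 2 * p) + G / p) by positivity)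
  have u3 : 0 ≤ 2 * p * q * Z := by positivity
  refine le_of_mul_le_mul_left ?_ (mul_pos hτ hN0)
  have e3 : τ * N * (p * (n * Kc + (n + 1) * (K' + p) + (n + 2) * (τ⁻¹ + n * Kc) ^ 2 / q + Kc +
      2 * p) + G / p) = τ * N * (p * (n * Kc + (n + 1) * (K' + p))) +
      τ * p * (n + 2) * (τ⁻¹ + n * Kc) ^ 2 * (N / q) + τ * (p * (Kc + 2 * p) + G / p) * N := by ring
  rw [e3]
  linarith

/-- **null vector inequality for the Harnack form** -/
theorem lyh_ring (hF : K.Flow 0) {φ : S} (r : R.cj φ = φ) {p q : ℝ} (e : R.ev φ = p) (hp : 0 < p)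
    (hq : 0 < q) {c : ℂ}
    (hC : ∀ v a : Fin n → S, (∀ k, R.Hol (a k)) → R.Pos (K.ly T.θi v a (kk c * T.θ) +
      φ * (R.bf K.g a a + kk q * (kk (c * conj c) * (T.θ * T.θ))) * R.bf K.g v v))
    {v a : Fin n → S} (ha : ∀ k, R.Hol (a k)) (hv : (R.ev (R.bf K.g v v)).re ≠ 0)
    (h0 : (R.ev (K.ly T.θi v a (kk c * T.θ) +
      φ * (R.bf K.g a a + kk q * (kk (c * conj c) * (T.θ * T.θ))) * R.bf K.g v v)).re = 0)
    {Kc K' : ℝ} (hK0 : 0 ≤ Kc) (hK' : 0 ≤ K')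
    (hR : ∀ v' a' : Fin n → S, (∀ k, R.Hol (a' k)) → |(R.ev (K.th v' a' 0)).re| ≤
      Kc * (R.ev (R.bf K.g a' a')).re * (R.ev (R.bf K.g v' v')).re)
    {Y N G : ℝ} (hY : (R.ev (R.bf K.g a a)).re = Y) (hY0 : 0 ≤ Y)
    (hN : N = Y + q * (Complex.normSq c * T.τ ^ 2)) (hN0 : 0 < N)
    (hG : (R.ev (Ev.g2 K φ φ)).re = G) (hG0 : 0 ≤ G)
    (hW : ∀ v', (R.ev (K.ly T.θi v' a (kk c * T.θ))).re ≤ K' * N * (R.ev (R.bf K.g v' v')).re) :
    (R.ev (Ev.bx K φ)).re ≤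
      p * (n * Kc + (n + 1) * (K' + p) + (n + 2) * (T.τ⁻¹ + n * Kc) ^ 2 / q + Kc + 2 * p) + G / p := by
  have hτ := T.pos
  have E : ∀ v a : Fin n → S, (∀ k, R.Hol (a k)) → T.θ * ((K.rs T).th v a c +
      (T.θ * φ * T.dr.bf (K.rs T).g a a + kk q * (T.θ * (T.θ * φ)) * kk (c * conj c)) *
        T.dr.bf (K.rs T).g v v) = K.ly T.θi v a (kk c * T.θ) +
      φ * (R.bf K.g a a + kk q * (kk (c * conj c) * (T.θ * T.θ))) * R.bf K.g v v := by
    intro v a ha
    rw [rs_th T hF v ha, rs_bf, rs_bf]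
    linear_combination (K.ly T.θi v a (kk c * T.θ) + φ * R.bf K.g a a * R.bf K.g v v *
      (T.θ * T.θi + 1) + φ * kk q * kk (c * conj c) * T.θ * T.θ * R.bf K.g v v) * T.mul
  have eb : ∀ x : Fin n → S, (T.dr.ev (T.dr.bf (K.rs T).g x x)).re =
      T.τ⁻¹ * (R.ev (R.bf K.g x x)).re := fun x => by
    rw [rs_bf]
    change (R.ev _).re = _
    rw [map_mul, T.evi, Complex.re_ofReal_mul]
  have et : ∀ (v : Fin n → S) {a : Fin n → S} (_ : ∀ k, R.Hol (a k)) (c : ℂ),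
      (T.dr.ev ((K.rs T).th v a c)).re = T.τ⁻¹ * (R.ev (K.ly T.θi v a (kk c * T.θ))).re :=
    fun v a ha c => by
      rw [rs_th T hF v ha]
      change (R.ev _).re = _
      rw [map_mul, T.evi, Complex.re_ofReal_mul]
  have key := inv_ineq (K := K.rs T) (hF.rs T) (φ₁ := T.θ * φ) (φ₂ := kk q * (T.θ * (T.θ * φ)))
    (by change R.cj _ = _; rw [map_mul, T.cj, r])
    (by change R.cj _ = _; simp only [map_mul, T.cj, r, cj_kk, Complex.conj_ofReal]) (c := c)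
    (fun v a ha => by
      have ha' := fun k => (T.hol_iff _).1 (ha k)
      change R.Pos (T.θ * _)
      rw [E v a ha']
      exact hC v a ha')
    (v := v) (a := a) (fun k => (T.hol_iff _).2 (ha k))
    (by rw [eb]; exact mul_ne_zero (inv_ne_zero hτ.ne') hv)
    (by
      rw [← E v a ha, map_mul, T.ev, Complex.re_ofReal_mul] at h0
      exact (mul_eq_zero.1 h0).resolve_left hτ.ne')
    (p1 := T.τ * p) (p2 := q * (T.τ * (T.τ * p)))
    (by change R.ev _ = _; rw [map_mul, T.ev, e, Complex.ofReal_mul])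
    (by change R.ev _ = _; simp only [map_mul, T.ev, e, ev_kk, Complex.ofReal_mul])
    (by positivity) (by positivity) (Kc := T.τ * Kc) (ω := K' * N) (m := 1 + n * (T.τ * Kc))
    (by positivity) (by positivity) (by positivity) (by simp)
    (fun v' a' ha' => by
      have ha'' := fun k => (T.hol_iff _).1 (ha' k)
      have h1 := hR v' a' ha''
      have h2 : K.ly T.θi v' a' (kk 0 * T.θ) = K.th v' a' 0 := by simp [ly]
      rw [et v' ha'', eb, eb, h2, abs_mul, abs_of_pos (inv_pos.2 hτ)]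
      refine (mul_le_mul_of_nonneg_left h1 (inv_pos.2 hτ).le).trans_eq ?_
      field_simp)
    (fun v' => by
      rw [et v' ha, eb]
      exact (mul_le_mul_of_nonneg_left (hW v') (inv_pos.2 hτ).le).trans_eq (by ring))
    (Y := T.τ⁻¹ * Y) (Φ := p * N) (by rw [eb, hY]) (by rw [hN]; field_simp)
  have b1 : (T.dr.ev (Ev.bx (K.rs T) (T.θ * φ))).re = T.τ * (T.τ * (R.ev (Ev.bx K φ)).re + p) := by
    rw [rs_bx, bx_θ]
    change (R.ev _).re = _
    simp only [map_mul, map_add, T.ev, e, Complex.re_ofReal_mul, Complex.add_re, Complex.ofReal_re]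
  have b2 : (T.dr.ev (Ev.bx (K.rs T) (kk q * (T.θ * (T.θ * φ))))).re =
      T.τ * (q * (T.τ * (T.τ * (R.ev (Ev.bx K φ)).re + p) + T.τ * p)) := by
    rw [rs_bx, bx_kk, bx_θ, bx_θ]
    change (R.ev _).re = _
    simp only [map_mul, map_add, T.ev, e, ev_kk, Complex.re_ofReal_mul, Complex.add_re,
      Complex.ofReal_re]
  have b3 : (T.dr.ev (Ev.g2 (K.rs T) (T.θ * φ) (T.θ * φ))).re = T.τ * (T.τ * T.τ * G) := by
    rw [rs_g2, g2_θ]
    change (R.ev _).re = _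
    simp only [map_mul, T.ev, ← Complex.ofReal_mul, Complex.re_ofReal_mul, hG]
  rw [b1, b2, b3] at key
  exact lyh_num hτ hp hq n.cast_nonneg hY0 hG0 hK0 (Complex.normSq_nonneg c) rfl hN hN0 key

end KM

end

end Crest.Agent.T223.Cn
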