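import Mathlib
import Crest.Agent.T223.Fr_38

-- ▼ part T223/Gr1_44
section

/-!
# Row 223 (helper44): almost holomorphic functions of one variable

* `ah_circle` : Cauchy's formula up to the error `2 B R` if `|∂̄ f| ≤ B`,
* `ah_modulus`: `|f a - f 0| ≤ 2 A |a| / R + 4 B R`,
* `ah_limit`  : a uniform limit of functions with `∂̄ f_j → 0` is holomorphic,
* `subh_bound`: `Δ h ≥ 4 m` on a disc of radius `r` and `0 ≤ h ≤ Λ` give `m r² ≤ Λ`.
-/

set_option autoImplicit false

open Set Filter Topology Complex Metric MeasureTheory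
open scoped ContDiff ComplexConjugate Real

namespace Crest.Agent.T223.Gr

noncomputable section

/-- `∂̄` component of a real linear map -/
def dbL (L : ℂ →L[ℝ] ℂ) : ℂ := (L 1 + I * L I) / 2

/-- `∂` component of a real linear map -/
def dL (L : ℂ →L[ℝ] ℂ) : ℂ := (L 1 - I * L I) / 2

theorem apply_dL (L : ℂ →L[ℝ] ℂ) (v : ℂ) : L v = v * dL L + conj v * dbL L := by
  have h : v = v.re • (1 : ℂ) + v.im • I := by simp [Complex.re_add_im]
  have h2 : L v = v.re • L 1 + v.im • L I := by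
    conv_lhs => rw [h]
    rw [map_add, map_smul, map_smul]
  have hv : v = (v.re : ℂ) + (v.im : ℂ) * I := (Complex.re_add_im v).symm
  have hc : conj v = (v.re : ℂ) - (v.im : ℂ) * I := by
    apply Complex.ext <;> simp
  rw [h2, hc, dL, dbL]
  conv_rhs => rw [hv]
  simp only [real_smul, add_re, add_im, ofReal_re, ofReal_im, mul_re, mul_im, I_re, I_im, mul_zero,
    mul_one, zero_add, add_zero, sub_self]
  linear_combination ((v.im : ℂ) * L I) * I_mul_I

theorem ah_circle_global {g : ℂ → ℂ} (hg : ContDiff ℝ 1 g) {R B : ℝ} {a : ℂ}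
    (ha : a ∈ ball (0 : ℂ) R) (hB : ∀ w ∈ closedBall (0 : ℂ) R, ‖dbL (fderiv ℝ g w)‖ ≤ B) :
    ‖g a - (2 * π * I : ℂ)⁻¹ • ∮ z in C(0, R), (z - a)⁻¹ • g z‖ ≤ 2 * B * R := by
  have hR : 0 < R := dist_nonneg.trans_lt ha
  have ha' : ‖a‖ < R := by simpa using ha
  set u : ℝ → ℂ := circleMap 0 R with hu
  have hun : ∀ θ, ‖u θ‖ = R := fun θ => by simp [hu, abs_of_pos hR]
  have hne : ∀ θ, u θ - a ≠ 0 := fun θ h => by
    have := hun θ
    rw [sub_eq_zero.1 h] at this
    linarith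
  have huc : Continuous u := continuous_circleMap 0 R
  have hfd : Continuous (fderiv ℝ g) := hg.continuous_fderiv one_ne_zero
  have hgd : Differentiable ℝ g := hg.differentiable one_ne_zero
  have hk : Continuous fun θ => u θ * I * (u θ - a)⁻¹ :=
    (huc.mul continuous_const).mul ((huc.sub continuous_const).inv₀ hne)
  set F : ℝ → ℝ → ℂ := fun s θ => u θ * I * (u θ - a)⁻¹ * g (u θ - s • (u θ - a)) with hF
  set F' : ℝ → ℝ → ℂ := fun s θ =>
    u θ * I * (u θ - a)⁻¹ * fderiv ℝ g (u θ - s • (u θ - a)) (-(u θ - a)) with hF'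
  have hpt : Continuous fun p : ℝ × ℝ => u p.2 - p.1 • (u p.2 - a) := by fun_prop
  have hFc : Continuous fun p : ℝ × ℝ => F p.1 p.2 :=
    (hk.comp continuous_snd).mul (hg.continuous.comp hpt)
  have hF'c : Continuous fun p : ℝ × ℝ => F' p.1 p.2 :=
    (hk.comp continuous_snd).mul ((hfd.comp hpt).clm_apply (by fun_prop))
  have hder : ∀ s θ, HasDerivAt (fun s => F s θ) (F' s θ) s := by
    intro s θ
    have h1 : HasDerivAt (fun s : ℝ => u θ - s • (u θ - a)) (-(u θ - a)) s := by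
      simpa using ((hasDerivAt_id s).smul_const (u θ - a)).const_sub (u θ)
    exact ((hgd _).hasFDerivAt.comp_hasDerivAt s h1).const_mul _
  have hJ : ∀ s, HasDerivAt (fun s => ∫ θ in (0 : ℝ)..2 * π, F s θ)
      (∫ θ in (0 : ℝ)..2 * π, F' s θ) s := by
    intro s
    obtain ⟨C, hC⟩ := ((isCompact_Icc (a := s - 1) (b := s + 1)).prod
      (isCompact_uIcc (a := (0 : ℝ)) (b := 2 * π))).exists_bound_of_continuousOn hF'c.continuousOn
    refine (intervalIntegral.hasDerivAt_integral_of_dominated_loc_of_deriv_le (bound := fun _ => C)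
      (s := Icc (s - 1) (s + 1)) (Icc_mem_nhds (by linarith) (by linarith)) ?_ ?_ ?_ ?_ ?_ ?_).2
    · exact Eventually.of_forall fun x =>
        (hFc.comp (Continuous.prodMk_right x)).aestronglyMeasurable
    · exact (hFc.comp (Continuous.prodMk_right s)).intervalIntegrable _ _
    · exact (hF'c.comp (Continuous.prodMk_right s)).aestronglyMeasurable
    · exact Eventually.of_forall fun θ hθ x hx => hC (x, θ) ⟨hx, uIoc_subset_uIcc hθ⟩
    · exact intervalIntegrable_const
    · exact Eventually.of_forall fun θ _ x _ => hder x θ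
  have hbound : ∀ s ∈ Ico (0 : ℝ) 1, ‖∫ θ in (0 : ℝ)..2 * π, F' s θ‖ ≤ 2 * R * B * (2 * π) := by
    intro s hs
    set L : ℝ → ℂ →L[ℝ] ℂ := fun θ => fderiv ℝ g (u θ - s • (u θ - a)) with hL
    have hLc : Continuous L := hfd.comp (hpt.comp (Continuous.prodMk_right s))
    have hLc2 : Continuous fun θ => L θ (u θ * I) := hLc.clm_apply (by fun_prop)
    -- the exact part
    have hex : ∫ θ in (0 : ℝ)..2 * π, L θ (u θ * I) = 0 := by
      have h1 : ∀ θ, HasDerivAt (fun θ => g (u θ - s • (u θ - a))) ((1 - s) • L θ (u θ * I)) θ := by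
        intro θ
        have h0 : HasDerivAt u (u θ * I) θ := by
          simpa [hu] using hasDerivAt_circleMap 0 R θ
        have h2 : HasDerivAt (fun θ => u θ - s • (u θ - a)) ((1 - s) • (u θ * I)) θ := by
          have := h0.sub ((h0.sub_const a).const_smul s)
          rw [sub_smul, one_smul]
          exact this
        have := (hgd _).hasFDerivAt.comp_hasDerivAt θ h2
        rwa [map_smul] at this
      have h3 := intervalIntegral.integral_eq_sub_of_hasDerivAt (a := 0) (b := 2 * π)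
        (fun θ _ => h1 θ) ((hLc2.const_smul (1 - s)).intervalIntegrable _ _)
      have h4 : u (2 * π) = u 0 := by
        simpa [hu] using periodic_circleMap 0 R 0
      rw [h4, sub_self, intervalIntegral.integral_smul] at h3
      exact (smul_eq_zero.1 h3).resolve_left (by linarith [hs.2])
    have hsplit : ∀ θ, F' s θ = -L θ (u θ * I) +
        (conj (u θ * I) - u θ * I * (u θ - a)⁻¹ * conj (u θ - a)) * dbL (L θ) := by
      intro θ
      have := hne θ
      simp only [hF', hL]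
      rw [map_neg, apply_dL _ (u θ - a), apply_dL _ (u θ * I)]
      field_simp
      ring
    have hFs : Continuous fun θ => F' s θ := by
      have := hF'c.comp (Continuous.prodMk_right s)
      simpa only [Function.comp_def] using this
    have h5 : ∫ θ in (0 : ℝ)..2 * π, F' s θ =
        ∫ θ in (0 : ℝ)..2 * π, (F' s θ + L θ (u θ * I)) := by
      rw [intervalIntegral.integral_add (hFs.intervalIntegrable _ _)
        (hLc2.intervalIntegrable _ _), hex, add_zero]
    rw [h5]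
    refine (intervalIntegral.norm_integral_le_of_norm_le_const (C := 2 * R * B) ?_).trans ?_
    · intro θ _
      rw [hsplit θ, neg_add_cancel_comm, norm_mul]
      have hmem : u θ - s • (u θ - a) ∈ closedBall (0 : ℂ) R := by
        have : u θ - s • (u θ - a) = (1 - s) • u θ + s • a := by
          rw [sub_smul, one_smul, smul_sub]; ring
        rw [this]
        exact (convex_closedBall (0 : ℂ) R) (by simp [hun θ]) (ball_subset_closedBall ha)
          (by linarith [hs.2]) hs.1 (by ring)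
      have hb := hB _ hmem
      have h6 : ‖conj (u θ * I) - u θ * I * (u θ - a)⁻¹ * conj (u θ - a)‖ ≤ 2 * R := by
        refine (norm_sub_le _ _).trans ?_
        have h7 : ‖u θ - a‖ ≠ 0 := norm_ne_zero_iff.2 (hne θ)
        rw [norm_mul, norm_mul, RCLike.norm_conj, RCLike.norm_conj, norm_inv, norm_mul, hun θ,
          Complex.norm_I, mul_assoc, inv_mul_cancel₀ h7]
        linarith
      exact mul_le_mul h6 hb (norm_nonneg _) (by linarith)
    · rw [sub_zero, abs_of_pos (by positivity)]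
  have hmv := norm_image_sub_le_of_norm_deriv_le_segment_01'
    (f := fun s => ∫ θ in (0 : ℝ)..2 * π, F s θ) (fun s _ => (hJ s).hasDerivWithinAt) hbound
  have h1 : ∫ θ in (0 : ℝ)..2 * π, F 1 θ = (2 * π * I) * g a := by
    rw [← circleIntegral.integral_sub_inv_of_mem_ball ha, circleIntegral,
      ← intervalIntegral.integral_mul_const]
    refine intervalIntegral.integral_congr fun θ _ => ?_
    simp [hF, hu, deriv_circleMap]
  have h0 : ∫ θ in (0 : ℝ)..2 * π, F 0 θ = ∮ z in C(0, R), (z - a)⁻¹ • g z := by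
    rw [circleIntegral]
    refine intervalIntegral.integral_congr fun θ _ => ?_
    simp [hF, hu, deriv_circleMap, mul_assoc]
  simp only [h1, h0] at hmv
  have hp : (2 * π * I : ℂ) ≠ 0 := two_pi_I_ne_zero
  have : g a - (2 * π * I : ℂ)⁻¹ • ∮ z in C(0, R), (z - a)⁻¹ • g z =
      (2 * π * I : ℂ)⁻¹ * ((2 * π * I) * g a - ∮ z in C(0, R), (z - a)⁻¹ • g z) := by
    rw [smul_eq_mul]; field_simp
  rw [this, norm_mul, norm_inv]
  have hn : ‖(2 * π * I : ℂ)‖ = 2 * π := by simp [abs_of_pos Real.pi_pos]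
  rw [hn, inv_mul_le_iff₀ (by positivity)]
  linarith

/-- Cauchy's formula up to an error -/
theorem ah_circle {f : ℂ → ℂ} {R R' B : ℝ} (hRR : R < R') (hf : ContDiffOn ℝ 1 f (ball 0 R'))
    {a : ℂ} (ha : a ∈ ball (0 : ℂ) R)
    (hB : ∀ w ∈ closedBall (0 : ℂ) R, ‖dbL (fderiv ℝ f w)‖ ≤ B) :
    ‖f a - (2 * π * I : ℂ)⁻¹ • ∮ z in C(0, R), (z - a)⁻¹ • f z‖ ≤ 2 * B * R := by
  have hR : 0 < R := dist_nonneg.trans_lt ha
  let χ : ContDiffBump (0 : ℂ) := ⟨(2 * R + R') / 3, (R + 2 * R') / 3, by linarith, by linarith⟩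
  set g : ℂ → ℂ := fun w => χ w • f w with hg
  have hgc : ContDiff ℝ 1 g := by
    refine contDiff_iff_contDiffAt.2 fun x => ?_
    by_cases hx : x ∈ tsupport g
    swap
    · exact contDiffAt_const.congr_of_eventuallyEq (notMem_tsupport_iff_eventuallyEq.1 hx)
    have h1 : x ∈ closedBall (0 : ℂ) ((R + 2 * R') / 3) := by
      have := tsupport_smul_subset_left χ f hx
      rwa [χ.tsupport_eq] at this
    have h2 : x ∈ ball (0 : ℂ) R' := closedBall_subset_ball (by linarith) h1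
    exact χ.contDiff.contDiffAt.smul (hf.contDiffAt (isOpen_ball.mem_nhds h2))
  have heq : ∀ w ∈ closedBall (0 : ℂ) R, g =ᶠ[𝓝 w] f := by
    intro w hw
    have h2 : w ∈ ball (0 : ℂ) ((2 * R + R') / 3) := closedBall_subset_ball (by linarith) hw
    filter_upwards [isOpen_ball.mem_nhds h2] with x hx
    simp [hg, χ.one_of_mem_closedBall (ball_subset_closedBall hx)]
  have := ah_circle_global hgc ha (B := B) fun w hw => by
    rw [(heq w hw).fderiv_eq]; exact hB w hw
  rwa [(heq a (ball_subset_closedBall ha)).eq_of_nhds,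
    circleIntegral.integral_congr hR.le (g := fun z => (z - a)⁻¹ • f z) fun z hz => by
      simp only [(heq z (sphere_subset_closedBall hz)).eq_of_nhds]] at this

/-- modulus of continuity of an almost holomorphic function -/
theorem ah_modulus {f : ℂ → ℂ} {R R' A B : ℝ} (hR : 0 < R) (hRR : R < R')
    (hf : ContDiffOn ℝ 1 f (ball 0 R')) {a : ℂ} (ha : ‖a‖ ≤ R / 2)
    (hA : ∀ w ∈ closedBall (0 : ℂ) R, ‖f w‖ ≤ A)
    (hB : ∀ w ∈ closedBall (0 : ℂ) R, ‖dbL (fderiv ℝ f w)‖ ≤ B) :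
    ‖f a - f 0‖ ≤ 2 * A * ‖a‖ / R + 4 * B * R := by
  have ha' : a ∈ ball (0 : ℂ) R := by simp; linarith
  have h1 := ah_circle hRR hf ha' hB
  have h0 := ah_circle hRR hf (mem_ball_self hR) hB
  have hfc : ContinuousOn f (sphere (0 : ℂ) R) :=
    hf.continuousOn.mono (sphere_subset_closedBall.trans (closedBall_subset_ball hRR))
  have hza : ∀ z ∈ sphere (0 : ℂ) R, R / 2 ≤ ‖z - a‖ := fun z hz => by
    have : ‖z‖ = R := by simpa using hz
    have := norm_sub_norm_le z a
    linarith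
  have hi : ∀ b : ℂ, (∀ z ∈ sphere (0 : ℂ) R, z - b ≠ 0) →
      CircleIntegrable (fun z => (z - b)⁻¹ • f z) 0 R := fun b hb =>
    ContinuousOn.circleIntegrable hR.le
      (((continuousOn_id.sub continuousOn_const).inv₀ hb).smul hfc)
  have hna : ∀ z ∈ sphere (0 : ℂ) R, z - a ≠ 0 := fun z hz h => by
    have := hza z hz
    rw [h, norm_zero] at this; linarith
  have hn0 : ∀ z ∈ sphere (0 : ℂ) R, z - 0 ≠ 0 := fun z hz h => by
    have : ‖z‖ = R := by simpa using hz
    rw [sub_zero] at h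
    rw [h, norm_zero] at this; linarith
  have h2 : ‖(2 * π * I : ℂ)⁻¹ • (∮ z in C(0, R), (z - a)⁻¹ • f z) -
      (2 * π * I : ℂ)⁻¹ • ∮ z in C(0, R), (z - 0)⁻¹ • f z‖ ≤ R * (2 * A * ‖a‖ / R ^ 2) := by
    rw [← smul_sub, ← circleIntegral.integral_sub (hi a hna) (hi 0 hn0)]
    refine circleIntegral.norm_two_pi_i_inv_smul_integral_le_of_norm_le_const hR.le fun z hz => ?_
    have hz' : ‖z‖ = R := by simpa using hz
    have e : (z - a)⁻¹ • f z - (z - 0)⁻¹ • f z = (a * ((z - a)⁻¹ * z⁻¹)) * f z := by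
      have h3 := hna z hz
      have h4 := hn0 z hz
      rw [sub_zero] at h4
      simp only [smul_eq_mul, sub_zero]
      field_simp
      ring
    rw [e, norm_mul, norm_mul, norm_mul, norm_inv, norm_inv, hz']
    have h5 : ‖z - a‖⁻¹ ≤ (R / 2)⁻¹ := inv_anti₀ (by positivity) (hza z hz)
    have h6 := hA z (sphere_subset_closedBall hz)
    calc ‖a‖ * (‖z - a‖⁻¹ * R⁻¹) * ‖f z‖ ≤ ‖a‖ * ((R / 2)⁻¹ * R⁻¹) * A := by gcongr
      _ = 2 * A * ‖a‖ / R ^ 2 := by field_simp
  have h7 : R * (2 * A * ‖a‖ / R ^ 2) = 2 * A * ‖a‖ / R := by field_simp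
  set X := (2 * π * I : ℂ)⁻¹ • (∮ z in C(0, R), (z - a)⁻¹ • f z)
  set Y := (2 * π * I : ℂ)⁻¹ • (∮ z in C(0, R), (z - 0)⁻¹ • f z)
  have h8 : f a - f 0 = (f a - X) + (X - Y) - (f 0 - Y) := by ring
  rw [h8]
  have := norm_sub_le ((f a - X) + (X - Y)) (f 0 - Y)
  have := norm_add_le (f a - X) (X - Y)
  linarith

/-- uniform limits of almost holomorphic functions are holomorphic -/
theorem ah_limit {f : ℕ → ℂ → ℂ} {g : ℂ → ℂ} {R R' : ℝ} {B : ℕ → ℝ} (hR : 0 < R) (hRR : R < R')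
    (hf : ∀ j, ContDiffOn ℝ 1 (f j) (ball 0 R'))
    (hB : ∀ j, ∀ w ∈ closedBall (0 : ℂ) R, ‖dbL (fderiv ℝ (f j) w)‖ ≤ B j)
    (hB0 : Tendsto B atTop (𝓝 0)) (hg : TendstoUniformlyOn f g atTop (ball 0 R)) :
    DifferentiableOn ℂ g (ball 0 R) := by
  set H : ℕ → ℂ → ℂ := fun j a => (2 * π * I : ℂ)⁻¹ • ∮ z in C(0, R), (z - a)⁻¹ • f j z with hH
  have hHd : ∀ j, DifferentiableOn ℂ (H j) (ball 0 R) := by
    intro j
    have hfc : ContinuousOn (f j) (sphere (0 : ℂ) R) :=
      (hf j).continuousOn.mono (sphere_subset_closedBall.trans (closedBall_subset_ball hRR))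
    lift R to NNReal using hR.le with R0
    have := hasFPowerSeriesOn_cauchy_integral (R := R0) (c := 0)
      (hfc.circleIntegrable hR.le) (by exact_mod_cast hR)
    have h2 := this.differentiableOn
    rw [Metric.eball_coe] at h2
    rw [hH]
    exact h2
  have hlim : TendstoUniformlyOn H g atTop (ball 0 R) := by
    rw [Metric.tendstoUniformlyOn_iff] at hg ⊢
    intro ε hε
    have h1 : Tendsto (fun j => 2 * B j * R) atTop (𝓝 0) := by
      simpa using (hB0.const_mul 2).mul_const R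
    filter_upwards [hg (ε / 2) (by linarith), h1.eventually (gt_mem_nhds (half_pos hε))]
      with j h2 h3 a ha
    have h4 := ah_circle hRR (hf j) ha (hB j)
    have h5 := h2 a ha
    rw [← dist_eq_norm] at h4
    have := dist_triangle (g a) (f j a) (H j a)
    linarith
  exact hlim.tendstoLocallyUniformlyOn.differentiableOn (Eventually.of_forall hHd) isOpen_ball

section line

variable {E : Type*} [NormedAddCommGroup E] [NormedSpace ℝ E]

theorem hasDerivAt_line (z v : E) (t : ℝ) : HasDerivAt (fun s : ℝ => z + s • v) v t := by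
  simpa using ((hasDerivAt_id t).smul_const v).const_add z

/-- second derivative test along a line, with a quadratic correction -/
theorem snd_le_of_max {u : E → ℝ} {z v : E} (hu : ContDiffAt ℝ 2 u z) {m b : ℝ}
    (hm : ∀ᶠ t in 𝓝 (0 : ℝ), u (z + t • v) - (b * t + m * t ^ 2) ≤ u z) :
    fderiv ℝ (fderiv ℝ u) z v v ≤ 2 * m := by
  by_contra hcon
  push Not at hcon
  set g : ℝ → ℝ := fun t => u (z + t • v) - (b * t + m * t ^ 2) with hg
  have hg0 : g 0 = u z := by simp [hg]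
  have hmax : IsLocalMax g 0 := by
    filter_upwards [hm] with t ht
    rwa [hg0]
  have htend : Tendsto (fun t : ℝ => z + t • v) (𝓝 0) (𝓝 z) := by
    simpa using (hasDerivAt_line z v 0).continuousAt.tendsto
  have hd1 : ∀ᶠ t in 𝓝 (0 : ℝ), HasDerivAt g (fderiv ℝ u (z + t • v) v - (b + 2 * m * t)) t := by
    have := (hu.of_le (m := 1) (by norm_num)).eventually (by simp)
    filter_upwards [htend.eventually this] with t ht
    have h1 := (ht.differentiableAt (by simp)).hasFDerivAt.comp_hasDerivAt t (hasDerivAt_line z v t)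
    have h2 : HasDerivAt (fun t : ℝ => b * t + m * t ^ 2) (b + 2 * m * t) t := by
      have := ((hasDerivAt_id t).const_mul b).add ((hasDerivAt_pow 2 t).const_mul m)
      exact this.congr_deriv (by simp; ring)
    exact h1.sub h2
  have hdg : deriv g =ᶠ[𝓝 0] fun t => fderiv ℝ u (z + t • v) v - (b + 2 * m * t) := by
    filter_upwards [hd1] with t ht using ht.deriv
  have hd2 : HasDerivAt (fun t : ℝ => fderiv ℝ u (z + t • v) v - (b + 2 * m * t))
      (fderiv ℝ (fderiv ℝ u) z v v - 2 * m) 0 := by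
    have h2 : HasFDerivAt (fderiv ℝ u) (fderiv ℝ (fderiv ℝ u) z) (z + (0 : ℝ) • v) := by
      simpa using ((hu.fderiv_right (m := 1) (by norm_num)).differentiableAt (by simp)).hasFDerivAt
    have h2' : HasDerivAt (fun t : ℝ => fderiv ℝ u (z + t • v)) (fderiv ℝ (fderiv ℝ u) z v) 0 :=
      HasFDerivAt.comp_hasDerivAt (f := fun t : ℝ => z + t • v) (0 : ℝ) h2 (hasDerivAt_line z v 0)
    have h3 : HasDerivAt (fun t : ℝ => fderiv ℝ u (z + t • v) v)
        (fderiv ℝ (fderiv ℝ u) z v v) 0 :=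
      (h2'.clm_apply (hasDerivAt_const (0 : ℝ) v)).congr_deriv (by simp)
    have h4 : HasDerivAt (fun t : ℝ => b + 2 * m * t) (2 * m) 0 := by
      simpa using ((hasDerivAt_id (0 : ℝ)).const_mul (2 * m)).const_add b
    exact h3.sub h4
  have h10 : deriv (deriv g) 0 = fderiv ℝ (fderiv ℝ u) z v v - 2 * m := by
    rw [hdg.deriv_eq, hd2.deriv]
  have hmin : IsLocalMin g 0 :=
    isLocalMin_of_deriv_deriv_pos (by rw [h10]; linarith) hmax.deriv_eq_zero
      hd1.self_of_nhds.continuousAt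
  have hconst : g =ᶠ[𝓝 0] fun _ => g 0 := by
    filter_upwards [hmax, hmin] with t h8 h9
    exact le_antisymm h8 h9
  have h11 : deriv g =ᶠ[𝓝 0] fun _ => (0 : ℝ) := by
    filter_upwards [hconst.deriv] with t ht
    rw [ht]; simp
  rw [h11.deriv_eq] at h10
  simp at h10
  linarith

end line

/-- a bounded function cannot have a large Laplacian on a large complex disc -/
theorem subh_bound {E : Type*} [NormedAddCommGroup E] [NormedSpace ℂ E] {u : E → ℝ} {z v : E}
    {r m Λ : ℝ} (hr : 0 < r)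
    (hu : ∀ ζ ∈ closedBall (0 : ℂ) r, ContDiffAt ℝ 2 u (z + ζ • v))
    (hl : ∀ ζ ∈ closedBall (0 : ℂ) r, 4 * m ≤ fderiv ℝ (fderiv ℝ u) (z + ζ • v) v v +
      fderiv ℝ (fderiv ℝ u) (z + ζ • v) (I • v) (I • v))
    (h0 : 0 ≤ u z) (hΛ : ∀ ζ ∈ closedBall (0 : ℂ) r, u (z + ζ • v) ≤ Λ) : m * r ^ 2 ≤ Λ := by
  by_contra hcon
  push Not at hcon
  obtain ⟨m', h1, h2⟩ : ∃ m', Λ < m' * r ^ 2 ∧ m' < m := by
    refine ⟨(Λ / r ^ 2 + m) / 2, ?_, ?_⟩
    · have : (Λ / r ^ 2 + m) / 2 * r ^ 2 = (Λ + m * r ^ 2) / 2 := by field_simp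
      rw [this]; linarith
    · have : Λ / r ^ 2 < m := by rw [div_lt_iff₀ (by positivity)]; exact hcon
      linarith
  set φ : ℂ → ℝ := fun ζ => u (z + ζ • v) - m' * ‖ζ‖ ^ 2 with hφ
  have hφc : ContinuousOn φ (closedBall 0 r) := fun ζ hζ =>
    (((hu ζ hζ).continuousAt.comp (f := fun ζ : ℂ => z + ζ • v) (by fun_prop)).sub
      (by fun_prop)).continuousWithinAt
  obtain ⟨ζ, hζ, hmax⟩ := (isCompact_closedBall (0 : ℂ) r).exists_isMaxOn
    ⟨0, mem_closedBall_self hr.le⟩ hφc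
  have hφ0 : φ 0 ≤ φ ζ := hmax (mem_closedBall_self hr.le)
  have hlt : ‖ζ‖ < r := by
    refine lt_of_le_of_ne (by simpa using hζ) fun h => ?_
    have := hΛ ζ hζ
    simp only [hφ, h, zero_smul, add_zero, norm_zero] at hφ0
    nlinarith
  have key : ∀ w : ℂ, ‖w‖ = 1 →
      fderiv ℝ (fderiv ℝ u) (z + ζ • v) (w • v) (w • v) ≤ 2 * m' := by
    intro w hw
    refine snd_le_of_max (hu ζ hζ) (b := 2 * m' * (ζ * conj w).re) ?_
    have hc : Tendsto (fun t : ℝ => ζ + t • w) (𝓝 0) (𝓝 ζ) := by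
      simpa using (hasDerivAt_line ζ w 0).continuousAt.tendsto
    filter_upwards [hc.eventually (isOpen_ball.mem_nhds (mem_ball_zero_iff.2 hlt))] with t ht
    have h3 : φ (ζ + t • w) ≤ φ ζ := hmax (ball_subset_closedBall ht)
    have h4 : z + (ζ + t • w) • v = z + ζ • v + t • w • v := by
      rw [add_smul, smul_assoc, add_assoc]
    have h5 : ‖ζ + t • w‖ ^ 2 = ‖ζ‖ ^ 2 + 2 * t * (ζ * conj w).re + t ^ 2 := by
      have h6 : w.re ^ 2 + w.im ^ 2 = 1 := by
        have := Complex.sq_norm w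
        rw [hw, Complex.normSq_apply] at this
        nlinarith
      rw [Complex.sq_norm, Complex.sq_norm, Complex.normSq_apply, Complex.normSq_apply]
      simp only [add_re, add_im, real_smul, mul_re, mul_im, ofReal_re, ofReal_im, conj_re, conj_im]
      linear_combination t ^ 2 * h6
    simp only [hφ, h4, h5] at h3
    linarith
  have k1 := key 1 (by simp)
  have k2 := key I (by simp)
  rw [one_smul] at k1
  have := hl ζ hζ
  linarith

end

end Crest.Agent.T223.Gr
end

-- ▼ part T223/Gr2_44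

/-!
# Row 223 (helper44): matrix facts, Christoffel symbols `Gam G c = ∂_c G · G⁻¹`

* `polar`, `hC_herm`, `entry_le`, `det_ne_zero_of_lo`, `inv_entry_le`
* `wdM_mul`, `wdM_ct`, `Rm_ct`, `Rm_entry_le`
* `HB G z0 r Λ K` (Hermitian, `Λ`-comparable to the flat metric, `|bis| ≤ K` on a ball)
* `HB.wd_Gam` : `∂̄_d Γ_c = - Rm c d · G⁻¹`
-/

set_option autoImplicit false

open Set Filter Topology Complex Metric
open scoped ContDiff ComplexConjugate Matrix

namespace Crest.Agent.T223.Gr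

open Crest.Agent.R275.Geo Crest.Agent.R275.EDR890 Crest.Agent.R273.Hess_333
open Crest.Agent.T223.Br Crest.Agent.T223.Tr

noncomputable section

variable {n : ℕ}

theorem nq_eq_hC (H : Mat n) (v : Cn n) : nq H v = (hC H v).re := rfl

theorem hC_pair (H : Mat n) (a b : Fin n) (l : ℂ) :
    hC H (EuclideanSpace.single a 1 + EuclideanSpace.single b l) =
      H a a + H a b * conj l + H b a * l + H b b * l * conj l := by
  simp only [hC, PiLp.add_apply, PiLp.single_apply, map_add, mul_add, add_mul,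
    Finset.sum_add_distrib, apply_ite (starRingEnd ℂ), map_one, map_zero, mul_ite, mul_one, mul_zero,
    ite_mul, zero_mul, Finset.sum_ite_eq', Finset.mem_univ, if_true]
  ring

/-- polarisation -/
theorem polar {H : Mat n} {K : ℝ} (h : ∀ v : Cn n, ‖hC H v‖ ≤ K * ‖v‖ ^ 2) (a b : Fin n) :
    ‖H a b‖ ≤ 4 * K := by
  have hK : 0 ≤ K := by
    have := (norm_nonneg _).trans (h (EuclideanSpace.single a 1))
    simpa using this
  have hb : ∀ l : ℂ, ‖l‖ = 1 →
      ‖hC H (EuclideanSpace.single a 1 + EuclideanSpace.single b l)‖ ≤ 4 * K := by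
    intro l hl
    refine (h _).trans ?_
    have h1 : ‖(EuclideanSpace.single a 1 + EuclideanSpace.single b l : Cn n)‖ ≤ 2 := by
      refine (norm_add_le _ _).trans ?_
      simp [hl]; norm_num
    have h2 : ‖(EuclideanSpace.single a 1 + EuclideanSpace.single b l : Cn n)‖ ^ 2 ≤ 4 := by
      nlinarith [norm_nonneg (EuclideanSpace.single a 1 + EuclideanSpace.single b l : Cn n)]
    nlinarith
  have e : (4 : ℂ) * H a b =
      hC H (EuclideanSpace.single a 1 + EuclideanSpace.single b 1)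
      - hC H (EuclideanSpace.single a 1 + EuclideanSpace.single b (-1))
      + I * hC H (EuclideanSpace.single a 1 + EuclideanSpace.single b I)
      - I * hC H (EuclideanSpace.single a 1 + EuclideanSpace.single b (-I)) := by
    simp only [hC_pair, map_one, map_neg, conj_I]
    linear_combination (2 * H a b - 2 * H b a) * I_mul_I
  have h1 := hb 1 (by simp)
  have h2 := hb (-1) (by simp)
  have h3 := hb I (by simp)
  have h4 := hb (-I) (by simp)
  have h5 : ‖(4 : ℂ) * H a b‖ ≤ 16 * K := by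
    rw [e]
    refine (norm_sub_le _ _).trans ?_
    refine (add_le_add (norm_add_le _ _) le_rfl).trans ?_
    refine (add_le_add (add_le_add (norm_sub_le _ _) le_rfl) le_rfl).trans ?_
    rw [norm_mul, norm_mul, Complex.norm_I]
    linarith
  rw [norm_mul] at h5
  have : ‖(4 : ℂ)‖ = 4 := by simp
  rw [this] at h5
  linarith

theorem hC_herm {H : Mat n} (h : H.IsHermitian) (v : Cn n) : hC H v = (nq H v : ℂ) := by
  rw [nq_eq_hC]
  symm
  rw [← Complex.conj_eq_iff_re]
  simp only [hC, map_sum, map_mul, Complex.conj_conj]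
  rw [Finset.sum_comm]
  refine Finset.sum_congr rfl fun a _ => Finset.sum_congr rfl fun b _ => ?_
  have : conj (H b a) = H a b := h.apply a b
  rw [this]; ring

theorem entry_le {H : Mat n} (h : H.IsHermitian) {K : ℝ} (hK : ∀ v : Cn n, |nq H v| ≤ K * ‖v‖ ^ 2)
    (a b : Fin n) : ‖H a b‖ ≤ 4 * K :=
  polar (fun v => by rw [hC_herm h, Complex.norm_real]; exact hK v) a b

theorem hC_vecMul (H : Mat n) (u : Fin n → ℂ) :
    hC H (WithLp.toLp 2 u) = ∑ b, (u ᵥ* H) b * conj (u b) := by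
  simp only [hC, Matrix.vecMul, dotProduct, Finset.sum_mul]
  rw [Finset.sum_comm]
  refine Finset.sum_congr rfl fun a _ => Finset.sum_congr rfl fun b _ => ?_
  ring

theorem det_ne_zero_of_lo {H : Mat n} {Λ : ℝ} (h : ∀ v : Cn n, ‖v‖ ^ 2 ≤ Λ * nq H v) :
    H.det ≠ 0 := by
  intro hd
  obtain ⟨u, hu, h0⟩ := Matrix.exists_vecMul_eq_zero_iff.2 hd
  have h1 := h (WithLp.toLp 2 u)
  rw [nq_eq_hC, hC_vecMul, h0] at h1
  simp only [Pi.zero_apply, zero_mul, Finset.sum_const_zero, zero_re, mul_zero] at h1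
  have h2 : (WithLp.toLp 2 u : Cn n) = 0 := by
    rw [← norm_eq_zero]; nlinarith [norm_nonneg (WithLp.toLp 2 u : Cn n)]
  exact hu (by simpa using h2)

theorem inv_entry_le {H : Mat n} {Λ : ℝ} (hΛ : 0 ≤ Λ) (h : ∀ v : Cn n, ‖v‖ ^ 2 ≤ Λ * nq H v)
    (p q : Fin n) : ‖H⁻¹ p q‖ ≤ Λ := by
  have hd := det_ne_zero_of_lo h
  have hi : H⁻¹ * H = 1 := Matrix.nonsing_inv_mul H (isUnit_iff_ne_zero.2 hd)
  set u : Fin n → ℂ := fun a => H⁻¹ p a with hu
  have h1 : ∀ b, (u ᵥ* H) b = if p = b then 1 else 0 := fun b => by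
    have := congrFun (congrFun hi p) b
    rw [Matrix.one_apply] at this
    rw [← this]; rfl
  have h2 := h (WithLp.toLp 2 u)
  rw [nq_eq_hC, hC_vecMul] at h2
  simp only [h1, ite_mul, one_mul, zero_mul, Finset.sum_ite_eq, Finset.mem_univ, if_true,
    conj_re] at h2
  have h3 : ∀ a, ‖u a‖ ≤ ‖(WithLp.toLp 2 u : Cn n)‖ := fun a =>
    PiLp.norm_apply_le (WithLp.toLp 2 u : Cn n) a
  have h4 : (u p).re ≤ ‖(WithLp.toLp 2 u : Cn n)‖ := (Complex.re_le_norm _).trans (h3 p)
  have h5 : ‖(WithLp.toLp 2 u : Cn n)‖ ≤ Λ := by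
    by_contra hc
    push Not at hc
    nlinarith [mul_le_mul_of_nonneg_left h4 hΛ]
  exact (h3 q).trans h5

theorem mul_entry_le {A B : Mat n} {α β : ℝ} (hA : ∀ a b, ‖A a b‖ ≤ α) (hB : ∀ a b, ‖B a b‖ ≤ β)
    (a b : Fin n) : ‖(A * B) a b‖ ≤ n * α * β := by
  rw [Matrix.mul_apply]
  refine (norm_sum_le _ _).trans ?_
  calc ∑ k, ‖A a k * B k b‖ ≤ ∑ _k : Fin n, α * β := Finset.sum_le_sum fun k _ => by
        rw [norm_mul]
        exact mul_le_mul (hA _ _) (hB _ _) (norm_nonneg _) ((norm_nonneg _).trans (hA a k))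
    _ = n * α * β := by simp [mul_assoc]

theorem wdM_apply (s : WI n) (g : Cn n → Mat n) (z : Cn n) (a b : Fin n) :
    wdM s g z a b = wd s (fun w => g w a b) z := rfl

theorem wdM_congr {A B : Cn n → Mat n} {z : Cn n} (h : A =ᶠ[𝓝 z] B) (s : WI n) :
    wdM s A z = wdM s B z := by
  ext a b
  refine wd_congr ?_ s
  filter_upwards [h] with w hw
  rw [hw]

theorem wdM_mul {A B : Cn n → Mat n} {z : Cn n}
    (hA : ∀ a b, DifferentiableAt ℝ (fun w => A w a b) z)
    (hB : ∀ a b, DifferentiableAt ℝ (fun w => B w a b) z) (s : WI n) :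
    wdM s (fun w => A w * B w) z = wdM s A z * B z + A z * wdM s B z := by
  ext a b
  simp only [wdM_apply, Matrix.mul_apply, Matrix.add_apply]
  rw [wd_sum _ (f := fun k w => A w a k * B w k b) fun k _ => (hA a k).mul (hB k b),
    ← Finset.sum_add_distrib]
  exact Finset.sum_congr rfl fun k _ => wd_mul (hA a k) (hB k b) s

theorem wdM_ct {A : Cn n → Mat n} {z : Cn n}
    (hA : ∀ a b, DifferentiableAt ℝ (fun w => A w a b) z) (s : WI n) :
    (wdM s A z)ᴴ = wdM (!s.1, s.2) (fun w => (A w)ᴴ) z := by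
  ext a b
  simp only [Matrix.conjTranspose_apply, wdM_apply]
  exact conj_wd s (hA b a)

/-- Christoffel symbols -/
def Gam (G : Cn n → Mat n) (c : Fin n) (z : Cn n) : Mat n := wdM (false, c) G z * (G z)⁻¹

/-- smooth Hermitian matrix field on a ball, comparable to the flat one, with bounded curvature -/
structure HB (G : Cn n → Mat n) (z0 : Cn n) (r Λ K : ℝ) : Prop where
  sm : ∀ a b, ContDiffOn ℝ ∞ (fun z => G z a b) (ball z0 r)
  herm : ∀ z ∈ ball z0 r, (G z).IsHermitian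
  lo : ∀ z ∈ ball z0 r, ∀ v, ‖v‖ ^ 2 ≤ Λ * nq (G z) v
  hi : ∀ z ∈ ball z0 r, ∀ v, nq (G z) v ≤ Λ * ‖v‖ ^ 2
  cur : ∀ z ∈ ball z0 r, ∀ v w, |bis G z v w| ≤ K * nq (G z) v * nq (G z) w
  Λ_pos : 0 < Λ
  K_nonneg : 0 ≤ K

namespace HB

variable {G : Cn n → Mat n} {z0 z : Cn n} {r Λ K : ℝ}

theorem nq_nonneg (H : HB G z0 r Λ K) (hz : z ∈ ball z0 r) (v : Cn n) : 0 ≤ nq (G z) v :=
  nonneg_of_mul_nonneg_right ((sq_nonneg _).trans (H.lo z hz v)) H.Λ_pos

theorem mono (H : HB G z0 r Λ K) {z1 : Cn n} {r1 K1 : ℝ} (h : ball z1 r1 ⊆ ball z0 r)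
    (hK : K ≤ K1) : HB G z1 r1 Λ K1 where
  sm a b := (H.sm a b).mono h
  herm z hz := H.herm z (h hz)
  lo z hz := H.lo z (h hz)
  hi z hz := H.hi z (h hz)
  cur z hz v w := (H.cur z (h hz) v w).trans
    (mul_le_mul_of_nonneg_right (mul_le_mul_of_nonneg_right hK (H.nq_nonneg (h hz) v))
      (H.nq_nonneg (h hz) w))
  Λ_pos := H.Λ_pos
  K_nonneg := H.K_nonneg.trans hK

theorem cd (H : HB G z0 r Λ K) (hz : z ∈ ball z0 r) (a b : Fin n) :
    ContDiffAt ℝ ∞ (fun z => G z a b) z := (H.sm a b).contDiffAt (isOpen_ball.mem_nhds hz)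

theorem df (H : HB G z0 r Λ K) (hz : z ∈ ball z0 r) (a b : Fin n) :
    DifferentiableAt ℝ (fun z => G z a b) z := (H.cd hz a b).differentiableAt (by simp)

theorem cd_wdM (H : HB G z0 r Λ K) (hz : z ∈ ball z0 r) (s : WI n) (a b : Fin n) :
    ContDiffAt ℝ ∞ (fun z => wdM s G z a b) z := contDiffAt_wd (H.cd hz a b) s

theorem det_ne (H : HB G z0 r Λ K) (hz : z ∈ ball z0 r) : (G z).det ≠ 0 :=
  det_ne_zero_of_lo (H.lo z hz)

theorem inv_mul (H : HB G z0 r Λ K) (hz : z ∈ ball z0 r) : (G z)⁻¹ * G z = 1 :=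
  Matrix.nonsing_inv_mul _ (isUnit_iff_ne_zero.2 (H.det_ne hz))

theorem mul_inv (H : HB G z0 r Λ K) (hz : z ∈ ball z0 r) : G z * (G z)⁻¹ = 1 :=
  Matrix.mul_nonsing_inv _ (isUnit_iff_ne_zero.2 (H.det_ne hz))

theorem cd_inv (H : HB G z0 r Λ K) (hz : z ∈ ball z0 r) (a b : Fin n) :
    ContDiffAt ℝ ∞ (fun z => (G z)⁻¹ a b) z :=
  (Crest.Agent.R273.Ric_798.contDiffOn_inv H.sm (fun _ h => H.det_ne h) a b).contDiffAt
    (isOpen_ball.mem_nhds hz)

theorem cd_Gam (H : HB G z0 r Λ K) (hz : z ∈ ball z0 r) (c a b : Fin n) :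
    ContDiffAt ℝ ∞ (fun z => Gam G c z a b) z := by
  simp only [Gam, Matrix.mul_apply]
  exact ContDiffAt.sum fun k _ => (H.cd_wdM hz _ a k).mul (H.cd_inv hz k b)

theorem G_le (H : HB G z0 r Λ K) (hz : z ∈ ball z0 r) (a b : Fin n) : ‖G z a b‖ ≤ 4 * Λ :=
  entry_le (H.herm z hz) (fun v => by rw [abs_of_nonneg (H.nq_nonneg hz v)]; exact H.hi z hz v) a b

theorem inv_le (H : HB G z0 r Λ K) (hz : z ∈ ball z0 r) (a b : Fin n) : ‖(G z)⁻¹ a b‖ ≤ Λ :=
  inv_entry_le H.Λ_pos.le (H.lo z hz) a b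

theorem Gam_mul (H : HB G z0 r Λ K) (hz : z ∈ ball z0 r) (c : Fin n) :
    Gam G c z * G z = wdM (false, c) G z := by
  rw [Gam, Matrix.mul_assoc, H.inv_mul hz, Matrix.mul_one]

theorem wdM_ct' (H : HB G z0 r Λ K) (hz : z ∈ ball z0 r) (s : WI n) :
    (wdM s G z)ᴴ = wdM (!s.1, s.2) G z := by
  rw [wdM_ct (H.df hz)]
  refine wdM_congr ?_ _
  filter_upwards [isOpen_ball.mem_nhds hz] with w hw using (H.herm w hw).eq

theorem wdM_comm (H : HB G z0 r Λ K) (hz : z ∈ ball z0 r) (s t : WI n) :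
    wdM s (wdM t G) z = wdM t (wdM s G) z := by
  ext a b
  exact wd_comm (H.cd hz a b) s t

theorem Rm_ct (H : HB G z0 r Λ K) (hz : z ∈ ball z0 r) (c d : Fin n) :
    (Rm G z c d)ᴴ = Rm G z d c := by
  have h1 : (wdM (false, c) (wdM (true, d) G) z)ᴴ = wdM (false, d) (wdM (true, c) G) z := by
    rw [wdM_ct fun a b => (H.cd_wdM hz _ a b).differentiableAt (by simp), H.wdM_comm hz]
    refine wdM_congr ?_ _
    filter_upwards [isOpen_ball.mem_nhds hz] with w hw using H.wdM_ct' hw (true, d)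
  simp only [Rm, Matrix.conjTranspose_add, Matrix.conjTranspose_neg, h1, Matrix.conjTranspose_mul,
    H.wdM_ct' hz, (H.herm z hz).inv.eq, Matrix.mul_assoc, Bool.not_true, Bool.not_false]

theorem Rm_le (H : HB G z0 r Λ K) (hz : z ∈ ball z0 r) (c d a b : Fin n) :
    ‖Rm G z c d a b‖ ≤ 16 * K * Λ ^ 2 := by
  have h1 : ∀ w : Cn n, ∀ a b,
      ‖hC (Matrix.of fun c d => Rm G z c d a b) w‖ ≤ 4 * (K * Λ ^ 2 * ‖w‖ ^ 2) := by
    intro w a b
    have hh : (Matrix.of fun a b => hC (Matrix.of fun c d => Rm G z c d a b) w :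
        Mat n).IsHermitian := by
      ext a b
      simp only [Matrix.conjTranspose_apply, Matrix.of_apply, hC, star_def, map_sum, map_mul,
        Complex.conj_conj]
      rw [Finset.sum_comm]
      refine Finset.sum_congr rfl fun c _ => Finset.sum_congr rfl fun d _ => ?_
      have : conj (Rm G z d c b a) = Rm G z c d a b := by
        rw [← H.Rm_ct hz d c]; rfl
      rw [this]; ring
    refine entry_le hh (K := K * Λ ^ 2 * ‖w‖ ^ 2) (fun v => ?_) a b
    have e : nq (Matrix.of fun a b => hC (Matrix.of fun c d => Rm G z c d a b) w) v =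
        bis G z v w := by
      simp only [nq, bis, hC, Matrix.of_apply, Finset.sum_mul]
      congr 1
      refine Finset.sum_congr rfl fun a _ => Finset.sum_congr rfl fun b _ =>
        Finset.sum_congr rfl fun c _ => Finset.sum_congr rfl fun d _ => ?_
      ring
    rw [e]
    refine (H.cur z hz v w).trans ?_
    have h2 := H.hi z hz v
    have h3 := H.hi z hz w
    have h4 := H.nq_nonneg hz w
    have h5 := H.K_nonneg
    have h6 := H.Λ_pos
    calc K * nq (G z) v * nq (G z) w ≤ K * (Λ * ‖v‖ ^ 2) * (Λ * ‖w‖ ^ 2) := by gcongr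
      _ = _ := by ring
  have := polar (H := Matrix.of fun c d => Rm G z c d a b) (K := 4 * K * Λ ^ 2)
    (fun w => (h1 w a b).trans_eq (by ring)) c d
  rw [Matrix.of_apply] at this
  linarith

theorem wd_Gam (H : HB G z0 r Λ K) (hz : z ∈ ball z0 r) (c d : Fin n) :
    wdM (true, d) (Gam G c) z = -(Rm G z c d * (G z)⁻¹) := by
  have h1 : wdM (true, d) (fun w => Gam G c w * G w) z = wdM (true, d) (wdM (false, c) G) z := by
    refine wdM_congr ?_ _
    filter_upwards [isOpen_ball.mem_nhds hz] with w hw using H.Gam_mul hw c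
  rw [wdM_mul (fun a b => (H.cd_Gam hz c a b).differentiableAt (by simp)) (H.df hz),
    H.wdM_comm hz] at h1
  have h2 : wdM (true, d) (Gam G c) z * G z = -Rm G z c d := by
    rw [Rm, ← h1, Gam]; abel
  rw [← Matrix.neg_mul, ← h2, Matrix.mul_assoc, H.mul_inv hz, Matrix.mul_one]

theorem wd_Gam_le (H : HB G z0 r Λ K) (hz : z ∈ ball z0 r) (c d a b : Fin n) :
    ‖wd (true, d) (fun w => Gam G c w a b) z‖ ≤ n * (16 * K * Λ ^ 2) * Λ := by
  rw [← wdM_apply, H.wd_Gam hz, Matrix.neg_apply, norm_neg]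
  exact mul_entry_le (H.Rm_le hz c d) (H.inv_le hz) a b

end HB

end

end Crest.Agent.T223.Gr
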