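import Crest.Agent.T223.LbDef_78
import Crest.Agent.T223.TrPb_90
import Crest.Agent.N250.B1.Ex
import Crest.Agent.R247.Ray2_97
import Crest.Agent.R247.HR_216
import Crest.Agent.R273.HessB_333
import Crest.Agent.R273.C0a_390

-- ▼ part T223/LbLeaf_78
section

/-!
# Row 223 (S0345), module LB (helper78): the Riemannian leaves of the energy trick

* `Ray K γ ℓ b` : `γ : [0,b] → M` is a minimiser of constant speed `ℓ`
* `GeoStmt` : minimisers are `C¹` up to the end points in the charts of the atlas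
* `LenStmt` : `d² ≤ (t - s) · energy` for a `C¹` path inside one chart
* `RayStmt` : minimisers exist; a horofunction with asymptotic rays
-/

set_option autoImplicit false
set_option linter.unusedVariables false

open Set Filter Topology Metric
open scoped ContDiff ComplexConjugate Matrix ComplexOrder

namespace Crest.Agent.T223.Lb

open Crest.Agent.R275.Geo Crest.Agent.R275.EDR890 Crest.Agent.R273.Kah_333
open Crest.Agent.R273.Hess_333 Crest.Agent.R273.RMan4_798
open Crest.Agent.T223.Br Crest.Agent.T223.Tr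

/-- `γ : [0,b] → M` is a minimiser of constant speed `ℓ` -/
def Ray {n : ℕ} {M : Type} [TopologicalSpace M] [T2Space M] [ConnectedSpace M] {A : Atl n M}
    (K : Kah A) (γ : ℝ → M) (ℓ b : ℝ) : Prop :=
  ∀ s ∈ Icc (0 : ℝ) b, ∀ t ∈ Icc (0 : ℝ) b, dK K (γ s) (γ t) = ℓ * |s - t|

/-- leaf GEO: minimisers are `C¹` up to the end points, with speed `ℓ`, in every chart -/
def GeoStmt (n : ℕ) : Prop :=
  ∀ (M : Type) [TopologicalSpace M] [T2Space M] [ConnectedSpace M] (A : Atl n M) (K : Kah A),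
    ProperSpace (ofKah K).M → ∀ (γ : ℝ → M) (ℓ b : ℝ), 0 < ℓ → 0 < b → Ray K γ ℓ b →
    ∃ vel : A.ι → ℝ → Cn n, ∀ i, ∀ t ∈ Icc (0 : ℝ) b, γ t ∈ (A.e i).source →
      HasDerivWithinAt (fun s => A.e i (γ s)) (vel i t) (Icc 0 b) t ∧
      ContinuousWithinAt (vel i) (Icc 0 b) t ∧ nq (K.g i (γ t)) (vel i t) = ℓ ^ 2

/-- leaf LEN: distance and energy of a `C¹` path inside one chart -/
def LenStmt (n : ℕ) : Prop :=
  ∀ (M : Type) [TopologicalSpace M] [T2Space M] [ConnectedSpace M] (A : Atl n M) (K : Kah A)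
    (i : A.ι) (c c' : ℝ → Cn n) (s t : ℝ), s ≤ t → (∀ τ ∈ Icc s t, c τ ∈ (A.e i).target) →
    (∀ τ ∈ Icc s t, HasDerivWithinAt c (c' τ) (Icc s t) τ) → ContinuousOn c' (Icc s t) →
    dK K ((A.e i).symm (c s)) ((A.e i).symm (c t)) ^ 2 ≤
      (t - s) * ∫ τ in s..t, nq (gc K i (c τ)) (c' τ)

/-- leaf RAY: minimisers between two points; a horofunction with asymptotic rays -/
def RayStmt (n : ℕ) : Prop :=
  ∀ (M : Type) [TopologicalSpace M] [T2Space M] [ConnectedSpace M] (A : Atl n M) (K : Kah A),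
    ProperSpace (ofKah K).M →
    (∀ x y : M, ∃ γ : ℝ → M, γ 0 = x ∧ γ 1 = y ∧ Ray K γ (dK K x y) 1) ∧
    (NoncompactSpace M → ∃ b : M → ℝ, (∀ x y, |b x - b y| ≤ dK K x y) ∧
      ∀ x : M, ∃ γ : ℝ → M, γ 0 = x ∧ ∀ T : ℝ, 0 ≤ T → Ray K γ 1 T ∧ b (γ T) = b x + T)

end Crest.Agent.T223.Lb
end

-- ▼ part T223/LbDv_78
section

/-!
# Row 223 (S0345), module LB (helper78): directional Wirtinger calculus

`dv b ξ f z` is `∂_ξ f` (`b = false`) or `∂̄_ξ f` (`b = true`), `dd ξ f z = ∂_ξ ∂̄_ξ f`.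
-/

set_option autoImplicit false
set_option linter.unusedVariables false

open Set Filter Topology Metric Complex
open scoped ContDiff ComplexConjugate Matrix ComplexOrder

namespace Crest.Agent.T223.Lb

open Crest.Agent.R275.Geo Crest.Agent.R275.EDR890 Crest.Agent.R273.Kah_333
open Crest.Agent.R273.Hess_333 Crest.Agent.R273.HessB_333 Crest.Agent.R273.RMan4_798
open Crest.Agent.T223.Br Crest.Agent.T223.Tr

noncomputable section

variable {n : ℕ}

/-- directional Wirtinger derivative -/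
def dv (b : Bool) (ξ : Cn n) (f : Cn n → ℂ) (z : Cn n) : ℂ :=
  (1 / 2 : ℂ) * (fderiv ℝ f z ξ + cI b * fderiv ℝ f z (I • ξ))

/-- `∂_ξ ∂̄_ξ` -/
def dd (ξ : Cn n) (f : Cn n → ℂ) (z : Cn n) : ℂ := dv false ξ (dv true ξ f) z

theorem dv_eq_sum (b : Bool) (ξ : Cn n) (f : Cn n → ℂ) (z : Cn n) :
    dv b ξ f z = ∑ a, cj b (ξ a) * wd (b, a) f z := wdL_vec b (fderiv ℝ f z) ξ

theorem dv_congr {f g : Cn n → ℂ} {z : Cn n} (h : f =ᶠ[𝓝 z] g) (b : Bool) (ξ : Cn n) :
    dv b ξ f z = dv b ξ g z := by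
  simp only [dv, h.fderiv_eq]

theorem dv_congr' {f g : Cn n → ℂ} {z : Cn n} (h : f =ᶠ[𝓝 z] g) (b : Bool) (ξ : Cn n) :
    dv b ξ f =ᶠ[𝓝 z] dv b ξ g := by
  filter_upwards [h.eventuallyEq_nhds] with w hw using dv_congr hw b ξ

theorem dd_congr {f g : Cn n → ℂ} {z : Cn n} (h : f =ᶠ[𝓝 z] g) (ξ : Cn n) :
    dd ξ f z = dd ξ g z := dv_congr (dv_congr' h true ξ) false ξ

theorem dv_const (b : Bool) (ξ : Cn n) (c : ℂ) (z : Cn n) : dv b ξ (fun _ => c) z = 0 := by
  simp [dv]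

theorem dv_add {f g : Cn n → ℂ} {z : Cn n} (hf : DifferentiableAt ℝ f z)
    (hg : DifferentiableAt ℝ g z) (b : Bool) (ξ : Cn n) :
    dv b ξ (fun w => f w + g w) z = dv b ξ f z + dv b ξ g z := by
  simp only [dv_eq_sum, wd_add hf hg, mul_add, Finset.sum_add_distrib]

theorem dv_mul {f g : Cn n → ℂ} {z : Cn n} (hf : DifferentiableAt ℝ f z)
    (hg : DifferentiableAt ℝ g z) (b : Bool) (ξ : Cn n) :
    dv b ξ (fun w => f w * g w) z = dv b ξ f z * g z + f z * dv b ξ g z := by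
  simp only [dv_eq_sum, wd_mul hf hg, Finset.sum_mul, Finset.mul_sum, ← Finset.sum_add_distrib]
  exact Finset.sum_congr rfl fun a _ => by ring

theorem dv_sum {ι : Type*} (S : Finset ι) {f : ι → Cn n → ℂ} {z : Cn n}
    (hf : ∀ i ∈ S, DifferentiableAt ℝ (f i) z) (b : Bool) (ξ : Cn n) :
    dv b ξ (fun w => ∑ i ∈ S, f i w) z = ∑ i ∈ S, dv b ξ (f i) z := by
  simp only [dv_eq_sum, wd_sum S hf, Finset.mul_sum]
  rw [Finset.sum_comm]

theorem dv_const_mul {f : Cn n → ℂ} {z : Cn n} (c : ℂ) (hf : DifferentiableAt ℝ f z)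
    (b : Bool) (ξ : Cn n) : dv b ξ (fun w => c * f w) z = c * dv b ξ f z := by
  rw [dv_mul (differentiableAt_const c) hf, dv_const, zero_mul, zero_add]

theorem contDiffAt_dv {f : Cn n → ℂ} {z : Cn n} (hf : ContDiffAt ℝ ∞ f z) (b : Bool) (ξ : Cn n) :
    ContDiffAt ℝ ∞ (dv b ξ f) z := by
  have h : dv b ξ f = fun w => ∑ a, cj b (ξ a) * wd (b, a) f w := funext fun w => dv_eq_sum b ξ f w
  rw [h]
  exact ContDiffAt.sum fun a _ => contDiffAt_const.mul (contDiffAt_wd hf _)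

theorem ev_diff {W : Type*} [NormedAddCommGroup W] [NormedSpace ℝ W] {f : Cn n → W} {z : Cn n}
    (hf : ContDiffAt ℝ ∞ f z) : ∀ᶠ w in 𝓝 z, DifferentiableAt ℝ f w := by
  have := (hf.of_le (m := 1) (by exact_mod_cast le_top)).eventually (by simp)
  filter_upwards [this] with y hy
  exact hy.differentiableAt (by simp)

theorem diffAt {W : Type*} [NormedAddCommGroup W] [NormedSpace ℝ W] {f : Cn n → W} {z : Cn n}
    (hf : ContDiffAt ℝ ∞ f z) : DifferentiableAt ℝ f z := hf.differentiableAt (by simp)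

theorem dv_comp {f : Cn n → ℂ} {T : Cn n → Cn n} {z : Cn n} (hf : DifferentiableAt ℝ f (T z))
    (hT : DifferentiableAt ℂ T z) (b : Bool) (ξ : Cn n) :
    dv b ξ (fun w => f (T w)) z = dv b (fderiv ℂ T z ξ) f (T z) := by
  have h1 : fderiv ℝ (fun w => f (T w)) z =
      (fderiv ℝ f (T z)).comp ((fderiv ℂ T z).restrictScalars ℝ) :=
    (hf.hasFDerivAt.comp z (hT.hasFDerivAt.restrictScalars ℝ)).fderiv
  simp only [dv, h1, ContinuousLinearMap.comp_apply, ContinuousLinearMap.coe_restrictScalars',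
    map_smul]

theorem dv_true_hol {f : Cn n → ℂ} {z : Cn n} (hf : DifferentiableAt ℂ f z) (ξ : Cn n) :
    dv true ξ f z = 0 := by
  simp only [dv_eq_sum, wd_hol hf, mul_zero, Finset.sum_const_zero]

theorem dv_false_hol {f : Cn n → ℂ} {z : Cn n} (hf : DifferentiableAt ℂ f z) (ξ : Cn n) :
    dv false ξ f z = fderiv ℂ f z ξ := by
  simp only [dv, hf.fderiv_restrictScalars ℝ, ContinuousLinearMap.coe_restrictScalars', map_smul,
    cI_false, smul_eq_mul]
  linear_combination (-(1 / 2 : ℂ) * fderiv ℂ f z ξ) * I_mul_I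

theorem conj_dv {f : Cn n → ℂ} {z : Cn n} (hf : DifferentiableAt ℝ f z) (b : Bool) (ξ : Cn n) :
    conj (dv b ξ f z) = dv (!b) ξ (fun w => conj (f w)) z := by
  simp only [dv_eq_sum, map_sum, map_mul, conj_wd _ hf]
  refine Finset.sum_congr rfl fun a _ => ?_
  cases b <;> simp

theorem diff_conj {f : Cn n → ℂ} {z : Cn n} (hf : DifferentiableAt ℝ f z) :
    DifferentiableAt ℝ (fun w => conj (f w)) z :=
  (conjCLE : ℂ →L[ℝ] ℂ).differentiableAt.comp z hf

theorem dv_false_conj {f : Cn n → ℂ} {z : Cn n} (hf : DifferentiableAt ℂ f z) (ξ : Cn n) :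
    dv false ξ (fun w => conj (f w)) z = 0 := by
  have h := conj_dv (hf.restrictScalars ℝ) true ξ
  rw [dv_true_hol hf, map_zero] at h
  exact h.symm

theorem dv_true_conj {f : Cn n → ℂ} {z : Cn n} (hf : DifferentiableAt ℂ f z) (ξ : Cn n) :
    dv true ξ (fun w => conj (f w)) z = conj (fderiv ℂ f z ξ) := by
  have h := conj_dv (hf.restrictScalars ℝ) false ξ
  rw [dv_false_hol hf] at h
  exact h.symm

theorem conj_dv_real {u : Cn n → ℝ} {z : Cn n} (hu : DifferentiableAt ℝ u z) (b : Bool)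
    (ξ : Cn n) : conj (dv b ξ (cu u) z) = dv (!b) ξ (cu u) z := by
  have h1 : DifferentiableAt ℝ (cu u) z := Complex.ofRealCLM.differentiableAt.comp z hu
  rw [conj_dv h1]
  congr 1
  funext w
  simp [cu]

theorem dd_eq_sum {f : Cn n → ℂ} {z : Cn n} (hf : ContDiffAt ℝ ∞ f z) (ξ : Cn n) :
    dd ξ f z = ∑ c, ∑ d, wd (false, c) (wd (true, d) f) z * ξ c * conj (ξ d) := by
  have h : dv true ξ f = fun w => ∑ d, conj (ξ d) * wd (true, d) f w :=
    funext fun w => dv_eq_sum true ξ f w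
  rw [dd, h, dv_sum _ fun d _ => (diffAt (contDiffAt_wd hf _)).const_mul _, Finset.sum_comm]
  refine Finset.sum_congr rfl fun d _ => ?_
  rw [dv_const_mul _ (diffAt (contDiffAt_wd hf _)), dv_eq_sum, Finset.mul_sum]
  refine Finset.sum_congr rfl fun c _ => ?_
  simp only [cj_false]
  ring

theorem nq_hess {u : Cn n → ℝ} {z : Cn n} (hu : ContDiffAt ℝ ∞ u z) (ξ : Cn n) :
    nq (hess u z) ξ = (dd ξ (cu u) z).re := by
  rw [dd_eq_sum (contDiffAt_cu hu)]
  rfl

theorem hol_contDiffAt {W : Type} [NormedAddCommGroup W] [NormedSpace ℂ W] [CompleteSpace W]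
    {T : Cn n → W} {z : Cn n} (hT : ∀ᶠ w in 𝓝 z, DifferentiableAt ℂ T w) :
    AnalyticAt ℂ T z := by
  obtain ⟨U, hU, hUo, hUz⟩ := _root_.eventually_nhds_iff.1 hT
  have h1 : DifferentiableOn ℂ T U := fun w hw => (hU w hw).differentiableWithinAt
  exact Crest.Agent.R266.SCV.analyticOnNhd_of_differentiableOn hUo h1 z hUz

theorem hol_smooth {T : Cn n → Cn n} {z : Cn n} (hT : ∀ᶠ w in 𝓝 z, DifferentiableAt ℂ T w) :
    ContDiffAt ℝ ∞ T z :=
  ((hol_contDiffAt hT).contDiffAt (n := ∞)).restrict_scalars ℝ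

theorem dd_comp {f : Cn n → ℂ} {T : Cn n → Cn n} {z : Cn n} (hf : ContDiffAt ℝ ∞ f (T z))
    (hT : ∀ᶠ w in 𝓝 z, DifferentiableAt ℂ T w) (ξ : Cn n) :
    dd ξ (fun w => f (T w)) z = dd (fderiv ℂ T z ξ) f (T z) := by
  have hTz : DifferentiableAt ℂ T z := hT.self_of_nhds
  have h1 : dv true ξ (fun w => f (T w)) =ᶠ[𝓝 z] fun w => ∑ d,
      conj (fderiv ℂ T w ξ d) * wd (true, d) f (T w) := by
    filter_upwards [hT, hTz.continuousAt.eventually (ev_diff hf)] with w hw hw'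
    rw [dv_comp hw' hw, dv_eq_sum]
    rfl
  have hJ : ∀ d : Fin n, DifferentiableAt ℂ (fun w => fderiv ℂ T w ξ d) z := by
    intro d
    have h3 : DifferentiableAt ℂ (fderiv ℂ T) z := (hol_contDiffAt hT).fderiv.differentiableAt
    have h4 : DifferentiableAt ℂ (fun w => fderiv ℂ T w ξ) z :=
      h3.clm_apply (differentiableAt_const ξ)
    exact (EuclideanSpace.proj d : Cn n →L[ℂ] ℂ).differentiableAt.comp z h4
  have hW : ∀ d : Fin n, DifferentiableAt ℝ (fun w => wd (true, d) f (T w)) z := fun d =>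
    (diffAt (contDiffAt_wd hf _)).comp z (hTz.restrictScalars ℝ)
  have h : dv true (fderiv ℂ T z ξ) f = fun w => ∑ d, conj (fderiv ℂ T z ξ d) * wd (true, d) f w :=
    funext fun w => dv_eq_sum true _ f w
  rw [dd, dv_congr h1, dd, h,
    dv_sum _ fun d _ => (diff_conj ((hJ d).restrictScalars ℝ)).fun_mul (hW d),
    dv_sum _ fun d _ => (diffAt (contDiffAt_wd hf _)).const_mul _]
  refine Finset.sum_congr rfl fun d _ => ?_
  rw [dv_mul (diff_conj ((hJ d).restrictScalars ℝ)) (hW d), dv_false_conj (hJ d), zero_mul,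
    zero_add, dv_comp (diffAt (contDiffAt_wd hf _)) hTz,
    dv_const_mul _ (diffAt (contDiffAt_wd hf _))]

theorem nq_hess_comp {u : Cn n → ℝ} {T : Cn n → Cn n} {z : Cn n} (hu : ContDiffAt ℝ ∞ u (T z))
    (hT : ∀ᶠ w in 𝓝 z, DifferentiableAt ℂ T w) (ξ : Cn n) :
    nq (hess (fun w => u (T w)) z) ξ = nq (hess u (T z)) (fderiv ℂ T z ξ) := by
  rw [nq_hess (u := fun w => u (T w)) (hu.comp z (hol_smooth hT)), nq_hess hu, ← dd_comp (contDiffAt_cu hu) hT]
  rfl


theorem dd_mul {f g : Cn n → ℂ} {z : Cn n} (hf : ContDiffAt ℝ ∞ f z) (hg : ContDiffAt ℝ ∞ g z)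
    (ξ : Cn n) : dd ξ (fun w => f w * g w) z = dd ξ f z * g z + dv true ξ f z * dv false ξ g z +
      dv false ξ f z * dv true ξ g z + f z * dd ξ g z := by
  have h1 : dv true ξ (fun w => f w * g w) =ᶠ[𝓝 z]
      fun w => dv true ξ f w * g w + f w * dv true ξ g w := by
    filter_upwards [ev_diff hf, ev_diff hg] with w h1 h2 using dv_mul h1 h2 _ _
  have h2 := diffAt (contDiffAt_dv hf true ξ)
  have h3 := diffAt (contDiffAt_dv hg true ξ)
  rw [dd, dv_congr h1, dv_add (h2.fun_mul (diffAt hg)) ((diffAt hf).fun_mul h3), dv_mul h2 (diffAt hg),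
    dv_mul (diffAt hf) h3]
  simp only [dd]
  ring

theorem dd_sum {ι : Type*} (S : Finset ι) {f : ι → Cn n → ℂ} {z : Cn n}
    (hf : ∀ i ∈ S, ContDiffAt ℝ ∞ (f i) z) (ξ : Cn n) :
    dd ξ (fun w => ∑ i ∈ S, f i w) z = ∑ i ∈ S, dd ξ (f i) z := by
  have h1 : dv true ξ (fun w => ∑ i ∈ S, f i w) =ᶠ[𝓝 z] fun w => ∑ i ∈ S, dv true ξ (f i) w := by
    have h2 : ∀ᶠ w in 𝓝 z, ∀ i ∈ S, DifferentiableAt ℝ (f i) w :=
      (Finset.eventually_all S).2 fun i hi => ev_diff (hf i hi)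
    filter_upwards [h2] with w hw using dv_sum S hw _ _
  rw [dd, dv_congr h1, dv_sum S fun i hi => diffAt (contDiffAt_dv (hf i hi) _ _)]
  rfl

/-- chain rule with a real function of one variable -/
theorem dv_real_comp {u : Cn n → ℝ} {φ : ℝ → ℝ} {φ' : ℝ} {z : Cn n}
    (hu : DifferentiableAt ℝ u z) (hφ : HasDerivAt φ φ' (u z)) (b : Bool) (ξ : Cn n) :
    dv b ξ (cu fun w => φ (u w)) z = φ' * dv b ξ (cu u) z := by
  have h1 : HasFDerivAt (cu fun w => φ (u w)) (ofRealCLM.comp (φ' • fderiv ℝ u z)) z :=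
    ofRealCLM.hasFDerivAt.comp z (hφ.comp_hasFDerivAt z hu.hasFDerivAt)
  have h2 : HasFDerivAt (cu u) (ofRealCLM.comp (fderiv ℝ u z)) z :=
    ofRealCLM.hasFDerivAt.comp z hu.hasFDerivAt
  simp only [dv, h1.fderiv, h2.fderiv, ContinuousLinearMap.comp_apply,
    _root_.smul_apply, smul_eq_mul, ofRealCLM_apply, ofReal_mul]
  ring

/-- the Levi form of a logarithm -/
theorem nq_hess_log {u : Cn n → ℝ} {z : Cn n} (hu : ContDiffAt ℝ ∞ u z) (h0 : 0 < u z)
    (ξ : Cn n) : nq (hess (fun w => Real.log (u w)) z) ξ =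
      nq (hess u z) ξ / u z - ‖dv false ξ (cu u) z‖ ^ 2 / u z ^ 2 := by
  have hpos : ∀ᶠ w in 𝓝 z, 0 < u w := hu.continuousAt.eventually (lt_mem_nhds h0)
  have hinv : ContDiffAt ℝ ∞ (fun w => (u w)⁻¹) z := hu.inv h0.ne'
  have h1 : dv true ξ (cu fun w => Real.log (u w)) =ᶠ[𝓝 z]
      fun w => cu (fun w => (u w)⁻¹) w * dv true ξ (cu u) w := by
    filter_upwards [hpos, ev_diff hu] with w h1 h2
    rw [dv_real_comp h2 (Real.hasDerivAt_log h1.ne')]
    rfl
  rw [nq_hess (hu.log h0.ne'), nq_hess hu, dd, dv_congr h1,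
    dv_mul (diffAt (contDiffAt_cu hinv)) (diffAt (contDiffAt_dv (contDiffAt_cu hu) _ _)),
    dv_real_comp (diffAt hu) (hasDerivAt_inv h0.ne')]
  have h2 := conj_dv_real (diffAt hu) false ξ
  simp only [Bool.not_false] at h2
  rw [← h2, mul_assoc, Complex.mul_conj, Complex.normSq_eq_norm_sq]
  simp only [cu, dd, add_re, re_ofReal_mul, ofReal_re]
  field_simp
  ring

end

end Crest.Agent.T223.Lb
end

-- ▼ part T223/LbVar_78
section

/-!
# Row 223 (S0345), module LB (helper78): first and second variation of the energy density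

`h2 H v w = ∑ H a b v_a conj w_b`, `dM b X g z` the matrix of the derivatives `∂_X g`, `∂̄_X g`,
`Gam g z X u` the Chern connection; `var1`, `var2`: the variation formulas; `hasDeriv_nq`: metric
compatibility along a curve.
-/

set_option autoImplicit false
set_option linter.unusedVariables false

open Set Filter Topology Metric Complex
open scoped ContDiff ComplexConjugate Matrix ComplexOrder

namespace Crest.Agent.T223.Lb

open Crest.Agent.R275.Geo Crest.Agent.R275.EDR890 Crest.Agent.R273.Kah_333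
open Crest.Agent.R273.Hess_333 Crest.Agent.R273.HessB_333 Crest.Agent.R273.RMan4_798
open Crest.Agent.T223.Br Crest.Agent.T223.Tr

noncomputable section

variable {n : ℕ}

/-- the sesquilinear form of a matrix -/
def h2 (H : Mat n) (v w : Cn n) : ℂ := ∑ a, ∑ b, H a b * v a * conj (w b)

theorem nq_eq_h2 (H : Mat n) (v : Cn n) : nq H v = (h2 H v v).re := rfl

theorem h2_eq_dot (H : Mat n) (v w : Cn n) :
    h2 H v w = (v.ofLp ᵥ* H) ⬝ᵥ fun b => conj (w b) := by
  simp only [h2, dotProduct, Matrix.vecMul, Finset.sum_mul]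
  rw [Finset.sum_comm]
  exact Finset.sum_congr rfl fun b _ => Finset.sum_congr rfl fun a _ => by ring

theorem h2_add_left (H : Mat n) (v v' w : Cn n) : h2 H (v + v') w = h2 H v w + h2 H v' w := by
  simp only [h2, PiLp.add_apply, ← Finset.sum_add_distrib]
  exact Finset.sum_congr rfl fun a _ => Finset.sum_congr rfl fun b _ => by ring

theorem h2_add_right (H : Mat n) (v w w' : Cn n) : h2 H v (w + w') = h2 H v w + h2 H v w' := by
  simp only [h2, PiLp.add_apply, map_add, ← Finset.sum_add_distrib]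
  exact Finset.sum_congr rfl fun a _ => Finset.sum_congr rfl fun b _ => by ring

theorem h2_smul_left (H : Mat n) (c : ℂ) (v w : Cn n) : h2 H (c • v) w = c * h2 H v w := by
  simp only [h2, PiLp.smul_apply, smul_eq_mul, Finset.mul_sum]
  exact Finset.sum_congr rfl fun a _ => Finset.sum_congr rfl fun b _ => by ring

theorem h2_smul_right (H : Mat n) (c : ℂ) (v w : Cn n) : h2 H v (c • w) = conj c * h2 H v w := by
  simp only [h2, PiLp.smul_apply, smul_eq_mul, Finset.mul_sum, map_mul]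
  exact Finset.sum_congr rfl fun a _ => Finset.sum_congr rfl fun b _ => by ring

theorem h2_add_mat (H H' : Mat n) (v w : Cn n) : h2 (H + H') v w = h2 H v w + h2 H' v w := by
  simp only [h2, Matrix.add_apply, ← Finset.sum_add_distrib]
  exact Finset.sum_congr rfl fun a _ => Finset.sum_congr rfl fun b _ => by ring

theorem h2_neg_mat (H : Mat n) (v w : Cn n) : h2 (-H) v w = -h2 H v w := by
  simp only [h2, Matrix.neg_apply, ← Finset.sum_neg_distrib]
  exact Finset.sum_congr rfl fun a _ => Finset.sum_congr rfl fun b _ => by ring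

theorem conj_h2 (H : Mat n) (v w : Cn n) : conj (h2 H v w) = h2 Hᴴ w v := by
  simp only [h2, map_sum, map_mul, Matrix.conjTranspose_apply, RCLike.star_def, Complex.conj_conj]
  rw [Finset.sum_comm]
  exact Finset.sum_congr rfl fun a _ => Finset.sum_congr rfl fun b _ => by ring

theorem h2_real {H : Mat n} (h : H.IsHermitian) (v : Cn n) : ((nq H v : ℝ) : ℂ) = h2 H v v := by
  have h1 := conj_h2 H v v
  rw [h.eq] at h1
  exact Complex.conj_eq_iff_re.1 h1

theorem nq_rsmul (H : Mat n) (c : ℝ) (v : Cn n) : nq H ((c : ℂ) • v) = c ^ 2 * nq H v := by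
  rw [nq_eq_h2, h2_smul_left, h2_smul_right, Complex.conj_ofReal, ← mul_assoc, ← ofReal_mul,
    re_ofReal_mul, nq_eq_h2]
  ring

/-- `∂_X g`, `∂̄_X g` -/
def dM (b : Bool) (X : Cn n) (g : Cn n → Mat n) (z : Cn n) : Mat n :=
  Matrix.of fun a c => dv b X (fun w => g w a c) z

theorem dM_eq_sum (b : Bool) (X : Cn n) (g : Cn n → Mat n) (z : Cn n) :
    dM b X g z = ∑ c, cj b (X c) • wdM (b, c) g z := by
  ext a d
  simp only [dM, Matrix.of_apply, dv_eq_sum, Matrix.sum_apply, Matrix.smul_apply, wdM, smul_eq_mul]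

/-- the Chern connection: `Gam g z X u = u ∂_X g g⁻¹` -/
def Gam (g : Cn n → Mat n) (z X u : Cn n) : Cn n :=
  WithLp.toLp 2 (u.ofLp ᵥ* (dM false X g z * (g z)⁻¹))

variable {g : Cn n → Mat n} {z : Cn n}

theorem KahAt.herm (h : KahAt g z) : (g z).IsHermitian := h.pos.self_of_nhds.isHermitian

theorem KahAt.unit (h : KahAt g z) : IsUnit (g z).det :=
  (Matrix.isUnit_iff_isUnit_det _).1 h.pos.self_of_nhds.isUnit

theorem dM_conj (h : KahAt g z) (X : Cn n) : (dM false X g z)ᴴ = dM true X g z := by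
  ext a c
  rw [Matrix.conjTranspose_apply, RCLike.star_def]
  simp only [dM, Matrix.of_apply]
  rw [conj_dv (diffAt (h.sm c a))]
  refine dv_congr ?_ _ _
  filter_upwards [h.pos] with w hw
  exact hw.isHermitian.apply a c

theorem Gam_symm (h : KahAt g z) (X u : Cn n) : Gam g z X u = Gam g z u X := by
  have h1 : u.ofLp ᵥ* dM false X g z = X.ofLp ᵥ* dM false u g z := by
    funext b
    simp only [Matrix.vecMul, dotProduct, dM, Matrix.of_apply, dv_eq_sum, Finset.mul_sum, cj_false]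
    rw [Finset.sum_comm]
    refine Finset.sum_congr rfl fun c _ => Finset.sum_congr rfl fun a _ => ?_
    rw [h.closed.self_of_nhds a b c]
    ring
  unfold Gam
  rw [← Matrix.vecMul_vecMul, h1, Matrix.vecMul_vecMul]

theorem h2_Gam_left (h : KahAt g z) (X u w : Cn n) :
    h2 (g z) (Gam g z X u) w = h2 (dM false X g z) u w := by
  rw [h2_eq_dot, h2_eq_dot]
  simp only [Gam, Matrix.vecMul_vecMul]
  rw [Matrix.mul_assoc, Matrix.nonsing_inv_mul _ (KahAt.unit h), Matrix.mul_one]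

theorem h2_Gam_right (h : KahAt g z) (X u w : Cn n) :
    h2 (g z) w (Gam g z X u) = h2 (dM true X g z) w u := by
  have h1 := congrArg conj (h2_Gam_left h X u w)
  rwa [conj_h2, conj_h2, (KahAt.herm h).eq, dM_conj h] at h1

theorem h2_Gam_Gam (h : KahAt g z) (X u : Cn n) :
    h2 (g z) (Gam g z X u) (Gam g z X u) =
      h2 (dM false X g z * (g z)⁻¹ * dM true X g z) u u := by
  rw [h2_Gam_right h, h2_eq_dot, h2_eq_dot]
  simp only [Gam, Matrix.vecMul_vecMul]

/-- the matrix of the `∂_X ∂̄_X g_{a b̄}` -/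
def ddM (X : Cn n) (g : Cn n → Mat n) (z : Cn n) : Mat n :=
  Matrix.of fun a c => dd X (fun w => g w a c) z

theorem bis_eq (h : KahAt g z) (u X : Cn n) : bis g z u X =
    (-h2 (ddM X g z) u u + h2 (dM false X g z * (g z)⁻¹ * dM true X g z) u u).re := by
  have h1 : -ddM X g z + dM false X g z * (g z)⁻¹ * dM true X g z =
      ∑ c, ∑ d, (X c * conj (X d)) • Rm g z c d := by
    have h2 : ddM X g z = ∑ c, ∑ d, (X c * conj (X d)) • wdM (false, c) (wdM (true, d) g) z := by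
      ext a b
      simp only [ddM, Matrix.of_apply, dd_eq_sum (h.sm a b), Matrix.sum_apply, Matrix.smul_apply,
        smul_eq_mul]
      refine Finset.sum_congr rfl fun c _ => Finset.sum_congr rfl fun d _ => ?_
      change wd (false, c) (wd (true, d) fun w => g w a b) z * X c * conj (X d) =
        X c * conj (X d) * wd (false, c) (wd (true, d) fun w => g w a b) z
      ring
    rw [h2, dM_eq_sum, dM_eq_sum]
    simp only [Rm, smul_add, Finset.sum_add_distrib, smul_neg, Finset.sum_neg_distrib,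
      Finset.sum_mul, Finset.mul_sum, cj_false, cj_true, Matrix.smul_mul, Matrix.mul_smul,
      smul_smul]
    congr 1
    rw [Finset.sum_comm]
    refine Finset.sum_congr rfl fun c _ => Finset.sum_congr rfl fun d _ => ?_
    rw [mul_comm]
  rw [← h2_neg_mat, ← h2_add_mat, h1]
  unfold bis h2
  congr 1
  refine Finset.sum_congr rfl fun a _ => Finset.sum_congr rfl fun b _ => ?_
  simp only [Matrix.sum_apply, Matrix.smul_apply, smul_eq_mul, Finset.sum_mul]
  exact Finset.sum_congr rfl fun c _ => Finset.sum_congr rfl fun d _ => by ring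

section var

variable {Z : Cn n → Cn n} (u : Cn n) (Y : Cn n →L[ℂ] Cn n)

theorem aff_hol (a : Fin n) (w : Cn n) : HasFDerivAt (fun w => (u + Y w) a)
    ((EuclideanSpace.proj a : Cn n →L[ℂ] ℂ).comp Y) w :=
  (EuclideanSpace.proj a : Cn n →L[ℂ] ℂ).hasFDerivAt.comp w (Y.hasFDerivAt.const_add u)

theorem aff_sm (a : Fin n) (w : Cn n) : ContDiffAt ℝ ∞ (fun w => (u + Y w) a) w := by
  have h : ContDiff ℂ ∞ (fun w => (u + Y w) a) :=
    (EuclideanSpace.proj a : Cn n →L[ℂ] ℂ).contDiff.comp (contDiff_const.add Y.contDiff)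
  exact (h.restrict_scalars ℝ).contDiffAt

theorem aff_smc (a : Fin n) (w : Cn n) : ContDiffAt ℝ ∞ (fun w => conj ((u + Y w) a)) w :=
  (conjCLE : ℂ →L[ℝ] ℂ).contDiff.contDiffAt.comp w (aff_sm u Y a w)

theorem dv_aff2_false (a b : Fin n) (w ξ : Cn n) :
    dv false ξ (fun w => (u + Y w) a * conj ((u + Y w) b)) w = Y ξ a * conj ((u + Y w) b) := by
  rw [dv_mul (diffAt (aff_sm u Y a w)) (diffAt (aff_smc u Y b w)),
    dv_false_conj (aff_hol u Y b w).differentiableAt, dv_false_hol (aff_hol u Y a w).differentiableAt,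
    (aff_hol u Y a w).fderiv]
  simp

theorem dv_aff2_true (a b : Fin n) (w ξ : Cn n) :
    dv true ξ (fun w => (u + Y w) a * conj ((u + Y w) b)) w = (u + Y w) a * conj (Y ξ b) := by
  rw [dv_mul (diffAt (aff_sm u Y a w)) (diffAt (aff_smc u Y b w)),
    dv_true_conj (aff_hol u Y b w).differentiableAt, dv_true_hol (aff_hol u Y a w).differentiableAt,
    (aff_hol u Y b w).fderiv]
  simp

theorem dd_aff2 (a b : Fin n) (w ξ : Cn n) :
    dd ξ (fun w => (u + Y w) a * conj ((u + Y w) b)) w = Y ξ a * conj (Y ξ b) := by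
  have h : dv true ξ (fun w => (u + Y w) a * conj ((u + Y w) b)) =
      fun w => (u + Y w) a * conj (Y ξ b) := funext fun w => dv_aff2_true u Y a b w ξ
  rw [dd, h, dv_mul (diffAt (aff_sm u Y a w)) (differentiableAt_const _), dv_const,
    dv_false_hol (aff_hol u Y a w).differentiableAt, (aff_hol u Y a w).fderiv]
  simp

theorem cu_energy (h : KahAt g (Z 0)) (hZ : ContinuousAt Z 0) :
    (cu fun w => nq (g (Z w)) (u + Y w)) =ᶠ[𝓝 0]
      fun w => ∑ a, ∑ b, g (Z w) a b * ((u + Y w) a * conj ((u + Y w) b)) := by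
  filter_upwards [hZ.eventually h.pos] with w hw
  change ((nq (g (Z w)) (u + Y w) : ℝ) : ℂ) = _
  rw [h2_real hw.isHermitian]
  simp only [h2, mul_assoc]

/-- first variation -/
theorem var1 (h : KahAt g (Z 0)) (hZ : ∀ᶠ w in 𝓝 (0 : Cn n), DifferentiableAt ℂ Z w) (ξ : Cn n) :
    dv false ξ (cu fun w => nq (g (Z w)) (u + Y w)) 0 =
      h2 (g (Z 0)) (Y ξ + Gam g (Z 0) u (fderiv ℂ Z 0 ξ)) u := by
  have hZ0 := hZ.self_of_nhds
  have hs : ∀ a b, ContDiffAt ℝ ∞ (fun w => g (Z w) a b) 0 := fun a b =>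
    (h.sm a b).comp 0 (hol_smooth hZ)
  have hp : ∀ a b, ContDiffAt ℝ ∞ (fun w => (u + Y w) a * conj ((u + Y w) b)) 0 := fun a b =>
    (aff_sm u Y a 0).mul (aff_smc u Y b 0)
  rw [dv_congr (cu_energy u Y h hZ0.continuousAt),
    dv_sum _ fun a _ => diffAt (ContDiffAt.sum fun b _ => (hs a b).mul (hp a b)), Gam_symm h,
    h2_add_left, h2_Gam_left h]
  simp only [h2, ← Finset.sum_add_distrib]
  refine Finset.sum_congr rfl fun a _ => ?_
  rw [dv_sum _ fun b _ => diffAt ((hs a b).mul (hp a b))]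
  refine Finset.sum_congr rfl fun b _ => ?_
  rw [dv_mul (diffAt (hs a b)) (diffAt (hp a b)), dv_aff2_false,
    dv_comp (f := fun w => g w a b) (diffAt (h.sm a b)) hZ0]
  simp only [map_zero, add_zero, dM, Matrix.of_apply]
  ring

/-- second variation -/
theorem var2 (h : KahAt g (Z 0)) (hZ : ∀ᶠ w in 𝓝 (0 : Cn n), DifferentiableAt ℂ Z w) (ξ : Cn n) :
    (dd ξ (cu fun w => nq (g (Z w)) (u + Y w)) 0).re =
      nq (g (Z 0)) (Y ξ + Gam g (Z 0) u (fderiv ℂ Z 0 ξ)) - bis g (Z 0) u (fderiv ℂ Z 0 ξ) := by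
  have hZ0 := hZ.self_of_nhds
  have hs : ∀ a b, ContDiffAt ℝ ∞ (fun w => g (Z w) a b) 0 := fun a b =>
    (h.sm a b).comp 0 (hol_smooth hZ)
  have hp : ∀ a b, ContDiffAt ℝ ∞ (fun w => (u + Y w) a * conj ((u + Y w) b)) 0 := fun a b =>
    (aff_sm u Y a 0).mul (aff_smc u Y b 0)
  set X := fderiv ℂ Z 0 ξ with hX
  have key : dd ξ (cu fun w => nq (g (Z w)) (u + Y w)) 0 = h2 (ddM X g (Z 0)) u u +
      h2 (dM true X g (Z 0)) (Y ξ) u + h2 (dM false X g (Z 0)) u (Y ξ) +
        h2 (g (Z 0)) (Y ξ) (Y ξ) := by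
    rw [dd_congr (cu_energy u Y h hZ0.continuousAt),
      dd_sum _ fun a _ => ContDiffAt.sum fun b _ => (hs a b).mul (hp a b)]
    simp only [h2, ← Finset.sum_add_distrib]
    refine Finset.sum_congr rfl fun a _ => ?_
    rw [dd_sum _ fun b _ => (hs a b).mul (hp a b)]
    refine Finset.sum_congr rfl fun b _ => ?_
    rw [dd_mul (hs a b) (hp a b), dv_aff2_false, dv_aff2_true, dd_aff2,
      dv_comp (f := fun w => g w a b) (diffAt (h.sm a b)) hZ0,
      dv_comp (f := fun w => g w a b) (diffAt (h.sm a b)) hZ0,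
      dd_comp (f := fun w => g w a b) (h.sm a b) hZ]
    simp only [map_zero, add_zero, dM, ddM, Matrix.of_apply, ← hX]
    ring
  rw [key, bis_eq h, nq_eq_h2, Gam_symm h, h2_add_left, h2_add_right, h2_add_right, h2_Gam_Gam h,
    h2_Gam_left h, h2_Gam_right h]
  simp only [add_re, neg_re]
  ring

end var

/-- metric compatibility along a curve -/
theorem hasDeriv_nq {c v : ℝ → Cn n} {c' v' : Cn n} {S : Set ℝ} {τ : ℝ} (h : KahAt g (c τ))
    (hc : HasDerivWithinAt c c' S τ) (hv : HasDerivWithinAt v v' S τ) :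
    HasDerivWithinAt (fun s => nq (g (c s)) (v s))
      (2 * (h2 (g (c τ)) (v' + Gam g (c τ) c' (v τ)) (v τ)).re) S τ := by
  have h1 : ∀ a b, HasDerivWithinAt (fun s => g (c s) a b)
      (dM false c' g (c τ) a b + dM true c' g (c τ) a b) S τ := by
    intro a b
    have h2 := (diffAt (h.sm a b)).hasFDerivAt.comp_hasDerivWithinAt τ hc
    refine h2.congr_deriv ?_
    simp only [dM, Matrix.of_apply, dv, cI_false, cI_true]
    ring
  have h3 : ∀ a, HasDerivWithinAt (fun s => v s a) (v' a) S τ := fun a =>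
    ((EuclideanSpace.proj a : Cn n →L[ℂ] ℂ).restrictScalars ℝ).hasFDerivAt.comp_hasDerivWithinAt
      τ hv
  have h4 : ∀ a, HasDerivWithinAt (fun s => conj (v s a)) (conj (v' a)) S τ := fun a =>
    (conjCLE : ℂ →L[ℝ] ℂ).hasFDerivAt.comp_hasDerivWithinAt τ (h3 a)
  have h5 : HasDerivWithinAt (fun s => h2 (g (c s)) (v s) (v s))
      (h2 (g (c τ)) (v' + Gam g (c τ) c' (v τ)) (v τ) +
        h2 (g (c τ)) (v τ) (v' + Gam g (c τ) c' (v τ))) S τ := by
    have h6 := HasDerivWithinAt.fun_sum (u := Finset.univ) fun a _ =>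
      HasDerivWithinAt.fun_sum (u := Finset.univ) fun b _ =>
        ((h1 a b).fun_mul (h3 a)).fun_mul (h4 b)
    refine h6.congr_deriv ?_
    rw [h2_add_left, h2_add_right, h2_Gam_left h, h2_Gam_right h]
    simp only [h2, ← Finset.sum_add_distrib]
    exact Finset.sum_congr rfl fun a _ => Finset.sum_congr rfl fun b _ => by ring
  have h7 := Complex.reCLM.hasFDerivAt.comp_hasDerivWithinAt τ h5
  refine h7.congr_deriv ?_
  have h8 := conj_h2 (g (c τ)) (v' + Gam g (c τ) c' (v τ)) (v τ)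
  rw [(KahAt.herm h).eq] at h8
  rw [← h8]
  simp only [reCLM_apply, add_re, conj_re]
  ring

end

end Crest.Agent.T223.Lb
end

-- ▼ part T223/LbPar_78
section

/-!
# Row 223 (S0345), module LB (helper78): integrals `∫ F (p τ, w) dτ` with `F` smooth and `p` only
continuous: smoothness in `w`, Wirtinger derivatives under the integral sign.
-/

set_option autoImplicit false
set_option linter.unusedVariables false
set_option linter.unusedSectionVars false

open Set Filter Topology Metric Complex MeasureTheory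
open scoped ContDiff ComplexConjugate Matrix ComplexOrder

namespace Crest.Agent.T223.Lb

open Crest.Agent.R275.Geo Crest.Agent.R275.EDR890 Crest.Agent.R273.Hess_333

noncomputable section

section gen

variable {X W : Type} [NormedAddCommGroup X] [NormedSpace ℝ X] [NormedAddCommGroup W]
  [NormedSpace ℝ W] [FiniteDimensional ℝ W] {O : Set (X × W)} {p : ℝ → X} {s t : ℝ}

/-- the partial derivative in the second variable -/
def d2 {G : Type} [NormedAddCommGroup G] [NormedSpace ℝ G] (F : X × W → G) (q : X × W) :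
    W →L[ℝ] G := (fderiv ℝ F q).comp (ContinuousLinearMap.inr ℝ X W)

theorem d2_smooth {G : Type} [NormedAddCommGroup G] [NormedSpace ℝ G] {F : X × W → G}
    (hO : IsOpen O) (hF : ContDiffOn ℝ ∞ F O) : ContDiffOn ℝ ∞ (d2 F) O :=
  (hF.fderiv_of_isOpen hO (by simp)).clm_comp contDiffOn_const

theorem d2_has {G : Type} [NormedAddCommGroup G] [NormedSpace ℝ G] {F : X × W → G}
    (hO : IsOpen O) (hF : ContDiffOn ℝ ∞ F O) {x : X} {w : W} (h : (x, w) ∈ O) :
    HasFDerivAt (fun y => F (x, y)) (d2 F (x, w)) w :=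
  ((hF.contDiffAt (hO.mem_nhds h)).differentiableAt (by simp)).hasFDerivAt.comp w
    (hasFDerivAt_prodMk_right x w)

theorem par_tube (hO : IsOpen O) (hp : ContinuousOn p (Icc s t)) {w0 : W}
    (h0 : ∀ τ ∈ Icc s t, (p τ, w0) ∈ O) :
    ∃ r > 0, ∀ τ ∈ Icc s t, ∀ w ∈ closedBall w0 r, (p τ, w) ∈ O := by
  have hK : IsCompact (p '' Icc s t) := isCompact_Icc.image_of_continuousOn hp
  obtain ⟨u, v, -, hv, h1, h2, h3⟩ := generalized_tube_lemma hK (isCompact_singleton (x := w0)) hO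
    (by rintro ⟨x, w⟩ ⟨⟨τ, hτ, rfl⟩, rfl⟩; exact h0 τ hτ)
  obtain ⟨r, hr, hb⟩ := Metric.nhds_basis_closedBall.mem_iff.1 (hv.mem_nhds (h2 rfl))
  exact ⟨r, hr, fun τ hτ w hw => h3 ⟨h1 ⟨τ, hτ, rfl⟩, hb hw⟩⟩

theorem par_open (hO : IsOpen O) (hp : ContinuousOn p (Icc s t)) :
    IsOpen {w : W | ∀ τ ∈ Icc s t, (p τ, w) ∈ O} := by
  rw [Metric.isOpen_iff]
  intro w hw
  obtain ⟨r, hr, h⟩ := par_tube hO hp hw
  exact ⟨r, hr, fun y hy τ hτ => h τ hτ y (ball_subset_closedBall hy)⟩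

theorem par_cont {G : Type} [NormedAddCommGroup G] {F : X × W → G} (hF : ContinuousOn F O)
    (hp : ContinuousOn p (Icc s t)) {w : W} (h0 : ∀ τ ∈ Icc s t, (p τ, w) ∈ O) :
    ContinuousOn (fun τ => F (p τ, w)) (Icc s t) :=
  hF.comp (hp.prodMk continuousOn_const) h0

theorem par_deriv {G : Type} [NormedAddCommGroup G] [NormedSpace ℝ G] [CompleteSpace G]
    {F : X × W → G} (hO : IsOpen O) (hF : ContDiffOn ℝ ∞ F O) (hst : s ≤ t)
    (hp : ContinuousOn p (Icc s t)) {w0 : W} (h0 : ∀ τ ∈ Icc s t, (p τ, w0) ∈ O) :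
    HasFDerivAt (fun w => ∫ τ in s..t, F (p τ, w)) (∫ τ in s..t, d2 F (p τ, w0)) w0 := by
  obtain ⟨r, hr, h⟩ := par_tube hO hp h0
  have : ProperSpace W := FiniteDimensional.proper_real W
  have hK : IsCompact ((p '' Icc s t) ×ˢ closedBall w0 r) :=
    (isCompact_Icc.image_of_continuousOn hp).prod (isCompact_closedBall w0 r)
  have hKO : (p '' Icc s t) ×ˢ closedBall w0 r ⊆ O := by
    rintro ⟨x, w⟩ ⟨⟨τ, hτ, rfl⟩, hw⟩
    exact h τ hτ w hw
  obtain ⟨C, hC⟩ := hK.exists_bound_of_continuousOn ((d2_smooth hO hF).continuousOn.mono hKO)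
  have hI : uIoc s t ⊆ Icc s t := by rw [uIoc_of_le hst]; exact Ioc_subset_Icc_self
  refine intervalIntegral.hasFDerivAt_integral_of_dominated_of_fderiv_le (𝕜 := ℝ) (μ := volume)
    (F := fun w τ => F (p τ, w)) (F' := fun w τ => d2 F (p τ, w)) (bound := fun _ => C)
    (s := ball w0 r) (ball_mem_nhds w0 hr) ?_ ?_ ?_ ?_ ?_ ?_
  · filter_upwards [closedBall_mem_nhds w0 hr] with w hw
    exact ((par_cont hF.continuousOn hp fun τ hτ => h τ hτ w hw).mono hI).aestronglyMeasurable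
      measurableSet_uIoc
  · exact (par_cont hF.continuousOn hp h0).intervalIntegrable_of_Icc hst
  · exact ((par_cont (d2_smooth hO hF).continuousOn hp h0).mono hI).aestronglyMeasurable
      measurableSet_uIoc
  · exact Eventually.of_forall fun τ hτ w hw =>
      hC (p τ, w) ⟨⟨τ, hI hτ, rfl⟩, ball_subset_closedBall hw⟩
  · exact intervalIntegrable_const
  · exact Eventually.of_forall fun τ hτ w hw =>
      d2_has hO hF (h τ (hI hτ) w (ball_subset_closedBall hw))

theorem par_smooth_nat (hO : IsOpen O) (hst : s ≤ t) (hp : ContinuousOn p (Icc s t)) (k : ℕ) :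
    ∀ {G : Type} [NormedAddCommGroup G] [NormedSpace ℝ G] [CompleteSpace G] {F : X × W → G},
      ContDiffOn ℝ ∞ F O → ContDiffOn ℝ k (fun w => ∫ τ in s..t, F (p τ, w))
        {w : W | ∀ τ ∈ Icc s t, (p τ, w) ∈ O} := by
  have hU := par_open hO hp
  induction k with
  | zero =>
    intro G _ _ _ F hF
    rw [Nat.cast_zero, contDiffOn_zero]
    exact fun w hw => (par_deriv hO hF hst hp hw).continuousAt.continuousWithinAt
  | succ k ih =>
    intro G _ _ _ F hF
    rw [Nat.cast_add, Nat.cast_one, contDiffOn_succ_iff_fderiv_of_isOpen hU]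
    refine ⟨fun w hw => (par_deriv hO hF hst hp hw).differentiableAt.differentiableWithinAt,
      by simp, ?_⟩
    exact (ih (d2_smooth hO hF)).congr fun w hw => (par_deriv hO hF hst hp hw).fderiv

theorem par_smooth {G : Type} [NormedAddCommGroup G] [NormedSpace ℝ G] [CompleteSpace G]
    {F : X × W → G} (hO : IsOpen O) (hF : ContDiffOn ℝ ∞ F O) (hst : s ≤ t)
    (hp : ContinuousOn p (Icc s t)) {w0 : W} (h0 : ∀ τ ∈ Icc s t, (p τ, w0) ∈ O) :
    ContDiffAt ℝ ∞ (fun w => ∫ τ in s..t, F (p τ, w)) w0 :=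
  (contDiffOn_infty.2 fun k => par_smooth_nat hO hst hp k hF).contDiffAt
    ((par_open hO hp).mem_nhds h0)

end gen

variable {n : ℕ} {X : Type} [NormedAddCommGroup X] [NormedSpace ℝ X] {O : Set (X × Cn n)}
  {p : ℝ → X} {s t : ℝ} {F : X × Cn n → ℂ}

/-- the Wirtinger derivative in the second variable -/
def Dv (b : Bool) (ξ : Cn n) (F : X × Cn n → ℂ) (q : X × Cn n) : ℂ :=
  (1 / 2 : ℂ) * (d2 F q ξ + cI b * d2 F q (I • ξ))

theorem Dv_smooth (hO : IsOpen O) (hF : ContDiffOn ℝ ∞ F O) (b : Bool) (ξ : Cn n) :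
    ContDiffOn ℝ ∞ (Dv b ξ F) O :=
  contDiffOn_const.mul (((d2_smooth hO hF).clm_apply contDiffOn_const).add
    (contDiffOn_const.mul ((d2_smooth hO hF).clm_apply contDiffOn_const)))

theorem Dv_eq (hO : IsOpen O) (hF : ContDiffOn ℝ ∞ F O) (b : Bool) (ξ : Cn n) {x : X} {w : Cn n}
    (h : (x, w) ∈ O) : Dv b ξ F (x, w) = dv b ξ (fun y => F (x, y)) w := by
  rw [dv, (d2_has hO hF h).fderiv]
  rfl

theorem Dv_Dv_eq (hO : IsOpen O) (hF : ContDiffOn ℝ ∞ F O) (ξ : Cn n) {x : X} {w : Cn n}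
    (h : (x, w) ∈ O) : Dv false ξ (Dv true ξ F) (x, w) = dd ξ (fun y => F (x, y)) w := by
  rw [Dv_eq hO (Dv_smooth hO hF true ξ) false ξ h, dd]
  refine dv_congr ?_ _ _
  have h1 : ∀ᶠ y in 𝓝 w, (x, y) ∈ O :=
    (continuous_const.prodMk continuous_id).continuousAt.eventually (hO.mem_nhds h)
  filter_upwards [h1] with y hy using Dv_eq hO hF true ξ hy

theorem par_Dv (hO : IsOpen O) (hF : ContDiffOn ℝ ∞ F O) (hst : s ≤ t)
    (hp : ContinuousOn p (Icc s t)) {w0 : Cn n} (h0 : ∀ τ ∈ Icc s t, (p τ, w0) ∈ O) (b : Bool)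
    (ξ : Cn n) :
    dv b ξ (fun w => ∫ τ in s..t, F (p τ, w)) w0 = ∫ τ in s..t, Dv b ξ F (p τ, w0) := by
  have hc := par_cont (d2_smooth hO hF).continuousOn hp h0
  have hi : IntervalIntegrable (fun τ => d2 F (p τ, w0)) volume s t :=
    hc.intervalIntegrable_of_Icc hst
  have hi' : ∀ v : Cn n, IntervalIntegrable (fun τ => d2 F (p τ, w0) v) volume s t := fun v =>
    (hc.clm_apply continuousOn_const).intervalIntegrable_of_Icc hst
  rw [dv, (par_deriv hO hF hst hp h0).fderiv, ContinuousLinearMap.intervalIntegral_apply hi,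
    ContinuousLinearMap.intervalIntegral_apply hi]
  simp only [Dv]
  rw [intervalIntegral.integral_const_mul, intervalIntegral.integral_add (hi' _)
    ((hi' _).const_mul _), intervalIntegral.integral_const_mul]

theorem par_dv (hO : IsOpen O) (hF : ContDiffOn ℝ ∞ F O) (hst : s ≤ t)
    (hp : ContinuousOn p (Icc s t)) {w0 : Cn n} (h0 : ∀ τ ∈ Icc s t, (p τ, w0) ∈ O) (b : Bool)
    (ξ : Cn n) : dv b ξ (fun w => ∫ τ in s..t, F (p τ, w)) w0 =
      ∫ τ in s..t, dv b ξ (fun y => F (p τ, y)) w0 := by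
  rw [par_Dv hO hF hst hp h0]
  refine intervalIntegral.integral_congr fun τ hτ => ?_
  rw [uIcc_of_le hst] at hτ
  exact Dv_eq hO hF b ξ (h0 τ hτ)

theorem par_dd (hO : IsOpen O) (hF : ContDiffOn ℝ ∞ F O) (hst : s ≤ t)
    (hp : ContinuousOn p (Icc s t)) {w0 : Cn n} (h0 : ∀ τ ∈ Icc s t, (p τ, w0) ∈ O) (ξ : Cn n) :
    ContinuousOn (fun τ => dd ξ (fun y => F (p τ, y)) w0) (Icc s t) ∧
    dd ξ (fun w => ∫ τ in s..t, F (p τ, w)) w0 =
      ∫ τ in s..t, dd ξ (fun y => F (p τ, y)) w0 := by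
  have h2 := Dv_smooth hO hF true ξ
  refine ⟨(par_cont (Dv_smooth hO h2 false ξ).continuousOn hp h0).congr fun τ hτ =>
    (Dv_Dv_eq hO hF ξ (h0 τ hτ)).symm, ?_⟩
  have h1 : dv true ξ (fun w => ∫ τ in s..t, F (p τ, w)) =ᶠ[𝓝 w0]
      fun w => ∫ τ in s..t, Dv true ξ F (p τ, w) := by
    filter_upwards [(par_open hO hp).mem_nhds h0] with w hw using par_Dv hO hF hst hp hw true ξ
  rw [dd, dv_congr h1, par_Dv hO h2 hst hp h0]
  refine intervalIntegral.integral_congr fun τ hτ => ?_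
  rw [uIcc_of_le hst] at hτ
  exact Dv_Dv_eq hO hF ξ (h0 τ hτ)

end

end Crest.Agent.T223.Lb
end

-- ▼ part T223/LbLen_13
section

/-!
# Row 223, module LB (helper13): the distance is at most the length of a `C¹` curve in a chart
-/

set_option autoImplicit false

open Set Filter Topology Manifold Bundle MeasureTheory
open scoped ContDiff Manifold ComplexConjugate Matrix

namespace Crest.Agent.T223.Lb13

open Crest.Agent.R275.Geo Crest.Agent.R273.Kah_333 Crest.Agent.R273.RMan4_798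
open Crest.Agent.R273.Ric_798 Crest.Agent.R273.RMan_798
open Crest.Agent.T223.Br Crest.Agent.T223.Tr

noncomputable section

theorem ch_mem {d : ℕ} {X : Type} [TopologicalSpace X] (R : RAtl d X) (i : R.ι) :
    R.ch i ∈ atlas (EE d) R.M := mem_range_self i

theorem mfderiv_ch_symm {d : ℕ} {X : Type} [TopologicalSpace X] (R : RAtl d X) (i : R.ι) {y : EE d}
    (hy : y ∈ (R.c i).target) :
    mfderiv (𝓡 d) (𝓡 d) (R.ch i).symm y = R.T i (R.idx ((R.ch i).symm y)) ((R.ch i).symm y) := by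
  set q : R.M := (R.ch i).symm y with hq
  have h1 : MDifferentiableAt (𝓡 d) (𝓡 d) (R.ch i).symm y :=
    mdifferentiableAt_atlas_symm (I := 𝓡 d) (ch_mem R i) hy
  rw [h1.mfderiv]
  simp only [writtenInExtChartAt, extChartAt_model_space_eq_id, modelWithCornersSelf_coe, range_id,
    fderivWithin_univ]
  have h2 : R.c i q = y := (R.ch i).right_inv hy
  unfold RAtl.T
  rw [h2]
  rfl

theorem len_ratl {d : ℕ} {X : Type} [TopologicalSpace X] [T2Space X] [ConnectedSpace X]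
    (R : RAtl d X) (i : R.ι) {c c' : ℝ → EE d} {a b : ℝ} (hab : a ≤ b)
    (hm : ∀ t ∈ Icc a b, c t ∈ (R.c i).target)
    (hd : ∀ t ∈ Icc a b, HasDerivWithinAt c (c' t) (Icc a b) t) (hc : ContinuousOn c' (Icc a b)) :
    dist (α := R.M) ((R.c i).symm (c a)) ((R.c i).symm (c b))
      ≤ ∫ t in a..b, √(R.bil i (c t) (c' t) (c' t)) := by
  rcases hab.eq_or_lt with rfl | hab'
  · rw [intervalIntegral.integral_same]
    exact (dist_self (α := R.M) _).le
  have hu := uniqueDiffOn_Icc hab'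
  have hc1 : ContDiffOn ℝ 1 c (Icc a b) := by
    rw [contDiffOn_one_iff_derivWithin hu]
    exact ⟨fun t ht => (hd t ht).differentiableWithinAt,
      hc.congr fun t ht => (hd t ht).derivWithin (hu t ht)⟩
  have hs : ContMDiffOn (𝓡 d) (𝓡 d) 1 (R.ch i).symm (R.ch i).target :=
    contMDiffOn_symm_of_mem_maximalAtlas (IsManifold.subset_maximalAtlas ⟨i, rfl⟩)
  have hγ : ContMDiffOn 𝓘(ℝ, ℝ) (𝓡 d) 1 ((R.ch i).symm ∘ c) (Icc a b) :=
    hs.comp hc1.contMDiffOn hm
  have hcont : ContinuousOn (fun t => √(R.bil i (c t) (c' t) (c' t))) (Icc a b) :=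
    ((((R.contDiffOn_bil i).continuousOn.comp hc1.continuousOn hm).clm_apply hc).clm_apply hc).sqrt
  have h1 : edist (α := R.M) ((R.ch i).symm (c a)) ((R.ch i).symm (c b)) ≤
      ENNReal.ofReal (∫ t in a..b, √(R.bil i (c t) (c' t) (c' t))) := by
    rw [IsRiemannianManifold.out (I := 𝓡 d)]
    refine (riemannianEDist_le_pathELength hγ rfl rfl hab).trans (le_of_eq ?_)
    rw [pathELength_eq_lintegral_mfderivWithin_Icc, intervalIntegral.integral_of_le hab,
      ← integral_Icc_eq_integral_Ioc, ofReal_integral_eq_lintegral_ofReal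
        (hcont.integrableOn_Icc) (Eventually.of_forall fun t => Real.sqrt_nonneg _)]
    refine setLIntegral_congr_fun measurableSet_Icc fun t ht => ?_
    have h2 : mfderivWithin 𝓘(ℝ, ℝ) (𝓡 d) ((R.ch i).symm ∘ c) (Icc a b) t =
        (mfderiv (𝓡 d) (𝓡 d) (R.ch i).symm (c t)).comp
          (mfderivWithin 𝓘(ℝ, ℝ) (𝓡 d) c (Icc a b) t) := by
      apply mfderiv_comp_mfderivWithin
      · exact mdifferentiableAt_atlas_symm (I := 𝓡 d) (ch_mem R i) (hm t ht)
      · exact hc1.contMDiffOn.mdifferentiableOn (by simp) t ht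
      · rw [uniqueMDiffWithinAt_iff_uniqueDiffWithinAt]
        exact hu t ht
    have h3 : (mfderivWithin 𝓘(ℝ, ℝ) (𝓡 d) c (Icc a b) t (1 : ℝ) : EE d) = c' t := by
      rw [mfderivWithin_eq_fderivWithin]
      exact (hd t ht).derivWithin (hu t ht)
    set q : R.M := (R.ch i).symm (c t) with hq
    have h4 : (mfderivWithin 𝓘(ℝ, ℝ) (𝓡 d) ((R.ch i).symm ∘ c) (Icc a b) t (1 : ℝ) : EE d)
        = R.T i (R.idx q) q (c' t) := by
      have := congrArg (fun L => L (1 : ℝ)) h2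
      refine this.trans ?_
      rw [mfderiv_ch_symm R i (hm t ht)]
      exact congrArg (R.T i (R.idx q) q) h3
    have h5 := R.bil_tr i (R.idx q) ((R.ch i).map_target (hm t ht)) (R.idx_mem q) (c' t) (c' t)
    have h6 : R.c i q = c t := (R.ch i).right_inv (hm t ht)
    rw [h6] at h5
    change ‖mfderivWithin 𝓘(ℝ, ℝ) (𝓡 d) ((R.ch i).symm ∘ c) (Icc a b) t (1 : ℝ)‖ₑ = _
    rw [← ofReal_norm, norm_eq_sqrt_real_inner, RAtl.inner_M, h4, h5]
    rfl
  rw [edist_dist] at h1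
  exact (ENNReal.ofReal_le_ofReal_iff
    (intervalIntegral.integral_nonneg hab fun t _ => Real.sqrt_nonneg _)).1 h1

variable {n : ℕ} {M : Type} [TopologicalSpace M] {A : Atl n M}

theorem nq_eq_G (K : Kah A) (i : A.ι) (z v : Cn n) : nq (gc K i z) v = G (KK K i) z v v := by
  unfold nq G
  congr 1
  simp only [dotProduct, Matrix.mulVec, Finset.mul_sum, Pi.star_apply, RCLike.star_def, KK, gc,
    Matrix.transpose_apply]
  rw [Finset.sum_comm]
  refine Finset.sum_congr rfl fun a _ => Finset.sum_congr rfl fun b _ => ?_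
  ring

theorem bil_eq_nq (K : Kah A) (i : A.ι) {z : Cn n} (hz : z ∈ (A.e i).target) (v : Cn n) :
    (ofKah K).bil i (eR n z) (eR n v) (eR n v) = nq (gc K i z) v := by
  have hz' : (eR n).symm (eR n z) ∈ (A.e i).target := by simpa using hz
  rw [nq_eq_G]
  refine (RAtl.bil_apply (ofKah K) i _ _ _).trans ?_
  refine (sum_hm (eR n) ((kd K i).pd _ hz').1 (eR n v) (eR n v)).trans ?_
  simp

theorem nq_gc_nonneg (K : Kah A) (i : A.ι) {z : Cn n} (hz : z ∈ (A.e i).target) (v : Cn n) :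
    0 ≤ nq (gc K i z) v := by
  rw [nq_eq_G]
  by_cases hv : v = 0
  · simp [hv, G]
  · exact (G_self_pos ((kd K i).pd z hz) hv).le

theorem continuousOn_nq (K : Kah A) (i : A.ι) {c c' : ℝ → Cn n} {s : Set ℝ}
    (hm : ∀ t ∈ s, c t ∈ (A.e i).target) (hc : ContinuousOn c s) (hc' : ContinuousOn c' s) :
    ContinuousOn (fun t => nq (gc K i (c t)) (c' t)) s := by
  unfold nq
  refine Complex.continuous_re.comp_continuousOn ?_
  have hp : ∀ a, ContinuousOn (fun t => c' t a) s := fun a =>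
    (EuclideanSpace.proj a : Cn n →L[ℂ] ℂ).continuous.comp_continuousOn hc'
  refine continuousOn_finsetSum _ fun a _ => continuousOn_finsetSum _ fun b _ => ?_
  exact (((K.sm i a b).continuousOn.comp hc hm).mul (hp a)).mul
    (Complex.continuous_conj.comp_continuousOn (hp b))

variable [T2Space M] [ConnectedSpace M]

/-- **length bound** for a `C¹` curve in a holomorphic chart -/
theorem dK_le_len (K : Kah A) (i : A.ι) {c c' : ℝ → Cn n} {a b : ℝ} (hab : a ≤ b)
    (hm : ∀ t ∈ Icc a b, c t ∈ (A.e i).target)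
    (hd : ∀ t ∈ Icc a b, HasDerivWithinAt c (c' t) (Icc a b) t) (hc : ContinuousOn c' (Icc a b)) :
    dK K ((A.e i).symm (c a)) ((A.e i).symm (c b)) ≤ ∫ t in a..b, √(nq (gc K i (c t)) (c' t)) := by
  have h := len_ratl (ofKah K) i (c := fun t => eR n (c t)) (c' := fun t => eR n (c' t)) hab
    (fun t ht => (Set.ext_iff.1 (cR_target (A := A) i) _).2 (by simpa using hm t ht))
    (fun t ht => (eR n : Cn n →L[ℝ] EE (2 * n)).hasFDerivAt.comp_hasDerivWithinAt t (hd t ht))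
    ((eR n).continuous.comp_continuousOn hc)
  have e : ∀ z : Cn n, ((ofKah K).c i).symm (eR n z) = (A.e i).symm z := fun z =>
    congrArg (A.e i).symm ((eR n).symm_apply_apply z)
  rw [e, e] at h
  refine h.trans (le_of_eq (intervalIntegral.integral_congr fun t ht => ?_))
  rw [uIcc_of_le hab] at ht
  simp only [bil_eq_nq K i (hm t ht)]

theorem sq_integral_sqrt_le {f : ℝ → ℝ} {a b : ℝ} (hab : a ≤ b) (hf : ContinuousOn f (Icc a b))
    (h0 : ∀ t ∈ Icc a b, 0 ≤ f t) : (∫ t in a..b, √(f t)) ^ 2 ≤ (b - a) * ∫ t in a..b, f t := by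
  rcases hab.eq_or_lt with rfl | hab'
  · simp
  have hi : IntervalIntegrable f volume a b := (hf.mono (uIcc_of_le hab).le).intervalIntegrable
  have hi' : IntervalIntegrable (fun t => √(f t)) volume a b :=
    (hf.sqrt.mono (uIcc_of_le hab).le).intervalIntegrable
  set m := (∫ t in a..b, √(f t)) / (b - a) with hm
  have hba : 0 < b - a := sub_pos.2 hab'
  have h1 : ∫ t in a..b, (2 * m * √(f t) - m ^ 2) ≤ ∫ t in a..b, f t := by
    refine intervalIntegral.integral_mono_on hab ((hi'.const_mul _).sub (by simp)) hi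
      fun t ht => ?_
    have := Real.sq_sqrt (h0 t ht)
    nlinarith [sq_nonneg (√(f t) - m)]
  rw [intervalIntegral.integral_sub (hi'.const_mul _) (by simp),
    intervalIntegral.integral_const_mul, intervalIntegral.integral_const, smul_eq_mul] at h1
  have h2 : ∫ t in a..b, √(f t) = m * (b - a) := by rw [hm]; field_simp
  rw [h2] at h1 ⊢
  nlinarith

/-- **energy bound** for a `C¹` curve in a holomorphic chart -/
theorem dK_sq_le_energy (K : Kah A) (i : A.ι) {c c' : ℝ → Cn n} {a b : ℝ} (hab : a ≤ b)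
    (hm : ∀ t ∈ Icc a b, c t ∈ (A.e i).target)
    (hd : ∀ t ∈ Icc a b, HasDerivWithinAt c (c' t) (Icc a b) t) (hc : ContinuousOn c' (Icc a b)) :
    dK K ((A.e i).symm (c a)) ((A.e i).symm (c b)) ^ 2
      ≤ (b - a) * ∫ t in a..b, nq (gc K i (c t)) (c' t) :=
  (pow_le_pow_left₀ dist_nonneg (dK_le_len K i hab hm hd hc) 2).trans (sq_integral_sqrt_le hab
    (continuousOn_nq K i hm (fun t ht => (hd t ht).continuousWithinAt) hc)
    fun t ht => nq_gc_nonneg K i (hm t ht) _)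

end

end Crest.Agent.T223.Lb13

theorem Crest.Agent.T223.Lb.lenStmt (n : ℕ) : Crest.Agent.T223.Lb.LenStmt n :=
  fun _ _ _ _ _ K i _ _ _ _ hst hm hd hc => Crest.Agent.T223.Lb13.dK_sq_le_energy K i hst hm hd hc
end

-- ▼ part T223/LbWin_78
section

/-!
# Row 223 (S0345), module LB (helper78): the energy of a holomorphic family of paths in one chart,
parallel transport.
-/

set_option autoImplicit false
set_option linter.unusedVariables false
set_option linter.unusedSectionVars false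

open Set Filter Topology Metric Complex MeasureTheory
open scoped ContDiff ComplexConjugate Matrix ComplexOrder

namespace Crest.Agent.T223.Lb

open Crest.Agent.R275.Geo Crest.Agent.R275.EDR890 Crest.Agent.R273.Kah_333
open Crest.Agent.R273.Hess_333 Crest.Agent.R273.HessB_333 Crest.Agent.R273.RMan4_798
open Crest.Agent.T223.Br Crest.Agent.T223.Tr

noncomputable section

variable {n : ℕ} {M : Type} [TopologicalSpace M] {A : Atl n M}

theorem kah_gc (K : Kah A) {i : A.ι} {z : Cn n} (hz : z ∈ (A.e i).target) : KahAt (gc K i) z where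
  smE := by
    filter_upwards [(A.e i).open_target.mem_nhds hz] with w hw a b
    exact (K.sm i a b).contDiffAt ((A.e i).open_target.mem_nhds hw)
  pos := by
    filter_upwards [(A.e i).open_target.mem_nhds hz] with w hw
    exact K.pos i _ ((A.e i).map_target hw)
  closed := by
    filter_upwards [(A.e i).open_target.mem_nhds hz] with w hw using K.closed i w hw
  closed' := by
    filter_upwards [(A.e i).open_target.mem_nhds hz] with w hw using K.closed' i w hw

/-- a `C¹` curve in the chart `i` -/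
structure Cur (A : Atl n M) (i : A.ι) (c c' : ℝ → Cn n) (s t : ℝ) : Prop where
  le : s ≤ t
  mem : ∀ τ ∈ Icc s t, c τ ∈ (A.e i).target
  der : ∀ τ ∈ Icc s t, HasDerivWithinAt c (c' τ) (Icc s t) τ
  cont : ContinuousOn c' (Icc s t)

theorem Cur.cont0 {i : A.ι} {c c' : ℝ → Cn n} {s t : ℝ} (h : Cur A i c c' s t) :
    ContinuousOn c (Icc s t) := fun τ hτ => (h.der τ hτ).continuousWithinAt

/-- the parameter space -/
abbrev PX (n : ℕ) : Type := Cn n × Cn n × (Cn n →L[ℝ] Cn n) × (Cn n →L[ℝ] Cn n)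

theorem sm_pos : ContDiff ℝ ∞ (fun q : PX n × Cn n => q.1.1 + q.1.2.2.1 q.2) :=
  contDiff_fst.fst.add (contDiff_fst.snd.snd.fst.clm_apply contDiff_snd)

theorem sm_vel : ContDiff ℝ ∞ (fun q : PX n × Cn n => q.1.2.1 + q.1.2.2.2 q.2) :=
  contDiff_fst.snd.fst.add (contDiff_fst.snd.snd.snd.clm_apply contDiff_snd)

theorem contDiffOn_nq {Y : Type*} [NormedAddCommGroup Y] [NormedSpace ℝ Y] (K : Kah A) (i : A.ι)
    {z v : Y → Cn n} {O : Set Y} (hz : ContDiffOn ℝ ∞ z O) (hv : ContDiffOn ℝ ∞ v O)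
    (hm : ∀ q ∈ O, z q ∈ (A.e i).target) :
    ContDiffOn ℝ ∞ (fun q => nq (gc K i (z q)) (v q)) O := by
  have h1 : ∀ a, ContDiffOn ℝ ∞ (fun q => v q a) O := fun a =>
    ((EuclideanSpace.proj a : Cn n →L[ℂ] ℂ).restrictScalars ℝ).contDiff.comp_contDiffOn hv
  have h2 : ∀ a, ContDiffOn ℝ ∞ (fun q => conj (v q a)) O := fun a =>
    (conjCLE : ℂ →L[ℝ] ℂ).contDiff.comp_contDiffOn (h1 a)
  refine Complex.reCLM.contDiff.comp_contDiffOn
    (ContDiffOn.sum fun a _ => ContDiffOn.sum fun b _ => ?_)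
  exact (((K.sm i a b).comp hz hm).mul (h1 a)).mul (h2 b)

variable [T2Space M] [ConnectedSpace M]

/-- **the energy of a holomorphic family of paths in one chart** -/
theorem window (K : Kah A) {i : A.ι} {c c' : ℝ → Cn n} {s t : ℝ} (hc : Cur A i c c' s t)
    {V V' : ℝ → Cn n →L[ℂ] Cn n}
    (hV : ∀ w, ∀ τ ∈ Icc s t, HasDerivWithinAt (fun τ => V τ w) (V' τ w) (Icc s t) τ)
    (hV' : ∀ w, ContinuousOn (fun τ => V' τ w) (Icc s t)) {Q : Cn n → Cn n}
    (hQ : ∀ᶠ w in 𝓝 (0 : Cn n), DifferentiableAt ℂ Q w) (hQ0 : Q 0 = 0) (hQ1 : fderiv ℂ Q 0 = 0) :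
    ∃ E : Cn n → ℝ, ContDiffAt ℝ ∞ E 0 ∧ E 0 = ∫ τ in s..t, nq (gc K i (c τ)) (c' τ) ∧
      (∀ᶠ w in 𝓝 (0 : Cn n), dK K ((A.e i).symm (c s + V s w + Q w))
        ((A.e i).symm (c t + V t w + Q w)) ^ 2 ≤ (t - s) * E w) ∧
      (∀ ξ, dv false ξ (cu E) 0 = ∫ τ in s..t,
        h2 (gc K i (c τ)) (V' τ ξ + Gam (gc K i) (c τ) (c' τ) (V τ ξ)) (c' τ)) ∧
      ∀ ξ, ContinuousOn (fun τ => nq (gc K i (c τ)) (V' τ ξ + Gam (gc K i) (c τ) (c' τ) (V τ ξ)) -
          bis (gc K i) (c τ) (c' τ) (V τ ξ)) (Icc s t) ∧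
        nq (hess E 0) ξ = ∫ τ in s..t,
          (nq (gc K i (c τ)) (V' τ ξ + Gam (gc K i) (c τ) (c' τ) (V τ ξ)) -
            bis (gc K i) (c τ) (c' τ) (V τ ξ)) := by
  obtain ⟨U, hU, hUo, hU0⟩ := _root_.eventually_nhds_iff.1 hQ
  have hQs : ContDiffOn ℝ ∞ Q U := fun w hw =>
    (hol_smooth (Filter.mem_of_superset (hUo.mem_nhds hw) hU)).contDiffWithinAt
  set U' : Set (PX n × Cn n) := {q | q.2 ∈ U} with hU'
  have hU'o : IsOpen U' := hUo.preimage continuous_snd
  set Z : PX n × Cn n → Cn n := fun q => q.1.1 + q.1.2.2.1 q.2 + Q q.2 with hZ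
  have hZs : ContDiffOn ℝ ∞ Z U' :=
    sm_pos.contDiffOn.add (hQs.comp contDiff_snd.contDiffOn fun q hq => hq)
  set O : Set (PX n × Cn n) := U' ∩ Z ⁻¹' (A.e i).target with hO
  have hOo : IsOpen O := hZs.continuousOn.isOpen_inter_preimage hU'o (A.e i).open_target
  set Fr : PX n × Cn n → ℝ := fun q => nq (gc K i (Z q)) (q.1.2.1 + q.1.2.2.2 q.2) with hFr
  have hFrs : ContDiffOn ℝ ∞ Fr O :=
    contDiffOn_nq K i (hZs.mono inter_subset_left) sm_vel.contDiffOn fun q hq => hq.2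
  have hFs : ContDiffOn ℝ ∞ (fun q => (Fr q : ℂ)) O := Complex.ofRealCLM.contDiff.comp_contDiffOn hFrs
  set p : ℝ → PX n := fun τ =>
    (c τ, c' τ, (V τ).restrictScalars ℝ, (V' τ).restrictScalars ℝ) with hp
  have hVc : ∀ w, ContinuousOn (fun τ => V τ w) (Icc s t) := fun w τ hτ =>
    (hV w τ hτ).continuousWithinAt
  have hpc : ContinuousOn p (Icc s t) :=
    hc.cont0.prodMk (hc.cont.prodMk (ContinuousOn.prodMk
      (continuousOn_clm_apply.2 fun w => hVc w) (continuousOn_clm_apply.2 fun w => hV' w)))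
  have hZ0 : ∀ τ, Z (p τ, 0) = c τ := fun τ => by simp [hZ, hp, hQ0]
  have h0 : ∀ τ ∈ Icc s t, (p τ, (0 : Cn n)) ∈ O := fun τ hτ =>
    ⟨hU0, by rw [mem_preimage, hZ0]; exact hc.mem τ hτ⟩
  have hcu : cu (fun w => ∫ τ in s..t, Fr (p τ, w)) = fun w => ∫ τ in s..t, (Fr (p τ, w) : ℂ) := by
    funext w
    exact (intervalIntegral.integral_ofReal).symm
  have hZh : ∀ τ, ∀ᶠ w in 𝓝 (0 : Cn n), DifferentiableAt ℂ (fun w => Z (p τ, w)) w := fun τ => by
    filter_upwards [hQ] with w hw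
    exact ((V τ).differentiableAt.const_add (c τ)).add hw
  have hZd : ∀ τ, fderiv ℂ (fun w => Z (p τ, w)) 0 = V τ := fun τ => by
    have h1 : HasFDerivAt (fun w => Z (p τ, w)) (V τ + fderiv ℂ Q 0) 0 :=
      ((V τ).hasFDerivAt.const_add (c τ)).add hQ.self_of_nhds.hasFDerivAt
    rw [h1.fderiv, hQ1, add_zero]
  have hk : ∀ τ ∈ Icc s t, KahAt (gc K i) (Z (p τ, 0)) := fun τ hτ => by
    rw [hZ0]; exact kah_gc K (hc.mem τ hτ)
  refine ⟨fun w => ∫ τ in s..t, Fr (p τ, w), par_smooth hOo hFrs hc.le hpc h0, ?_, ?_, ?_, ?_⟩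
  · refine intervalIntegral.integral_congr fun τ _ => ?_
    simp only [hFr, hZ0]
    simp [hp]
  · filter_upwards [(par_open hOo hpc).mem_nhds h0] with w hw
    exact lenStmt n M A K i (fun τ => c τ + V τ w + Q w) (fun τ => c' τ + V' τ w) s t hc.le
      (fun τ hτ => (hw τ hτ).2) (fun τ hτ => ((hc.der τ hτ).add (hV w τ hτ)).add_const _)
      (hc.cont.add (hV' w))
  · intro ξ
    rw [hcu, par_dv hOo hFs hc.le hpc h0]
    refine intervalIntegral.integral_congr fun τ hτ => ?_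
    rw [uIcc_of_le hc.le] at hτ
    have h1 := var1 (Z := fun w => Z (p τ, w)) (c' τ) (V' τ) (hk τ hτ) (hZh τ) ξ
    rw [hZd, hZ0] at h1
    exact h1
  · intro ξ
    obtain ⟨h1, h2⟩ := par_dd hOo hFs hc.le hpc h0 ξ
    have h3 : ∀ τ ∈ Icc s t, (dd ξ (fun y => (Fr (p τ, y) : ℂ)) 0).re =
        nq (gc K i (c τ)) (V' τ ξ + Gam (gc K i) (c τ) (c' τ) (V τ ξ)) -
          bis (gc K i) (c τ) (c' τ) (V τ ξ) := by
      intro τ hτ
      have h1 := var2 (Z := fun w => Z (p τ, w)) (c' τ) (V' τ) (hk τ hτ) (hZh τ) ξ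
      rw [hZd, hZ0] at h1
      exact h1
    refine ⟨(Complex.continuous_re.comp_continuousOn h1).congr fun τ hτ => (h3 τ hτ).symm, ?_⟩
    rw [nq_hess (par_smooth hOo hFrs hc.le hpc h0), hcu, h2]
    have h4 := Complex.reCLM.intervalIntegral_comp_comm (h1.intervalIntegrable_of_Icc (μ := volume) hc.le)
    simp only [reCLM_apply] at h4
    rw [← h4]
    refine intervalIntegral.integral_congr fun τ hτ => ?_
    rw [uIcc_of_le hc.le] at hτ
    exact h3 τ hτ

/-! ### the connection along a curve -/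

/-- `Gam` as a continuous linear map -/
def GamL (g : Cn n → Mat n) (z X : Cn n) : Cn n →L[ℂ] Cn n :=
  LinearMap.toContinuousLinearMap
    { toFun := fun u => Gam g z X u
      map_add' := fun u v => by
        simp only [Gam, WithLp.ofLp_add, Matrix.add_vecMul, WithLp.toLp_add]
      map_smul' := fun a u => by
        simp only [Gam, WithLp.ofLp_smul, Matrix.smul_vecMul, WithLp.toLp_smul, RingHom.id_apply] }

theorem GamL_apply (g : Cn n → Mat n) (z X u : Cn n) : GamL g z X u = Gam g z X u := rfl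

theorem Cur.cont_Gam (K : Kah A) {i : A.ι} {c c' : ℝ → Cn n} {s t : ℝ} (hc : Cur A i c c' s t) :
    ContinuousOn (fun τ => GamL (gc K i) (c τ) (c' τ)) (Icc s t) := by
  refine continuousOn_clm_apply.2 fun u => ?_
  have hg : ContinuousOn (fun τ => gc K i (c τ)) (Icc s t) := by
    refine continuousOn_pi.2 fun a => continuousOn_pi.2 fun b => ?_
    exact (K.sm i a b).continuousOn.comp hc.cont0 hc.mem
  have hinv : ContinuousOn (fun τ => (gc K i (c τ))⁻¹) (Icc s t) := by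
    intro τ hτ
    have h1 : ContinuousAt (Ring.inverse : ℂ → ℂ) (gc K i (c τ)).det := by
      have h2 := (KahAt.unit (kah_gc K (hc.mem τ hτ))).ne_zero
      rw [Ring.inverse_eq_inv']
      exact continuousAt_inv₀ h2
    exact (continuousAt_matrix_inv _ h1).comp_continuousWithinAt (f := fun τ => gc K i (c τ))
      (hg τ hτ)
  have hd : ∀ a b, ContinuousOn (fun τ => dM false (c' τ) (gc K i) (c τ) a b) (Icc s t) := by
    intro a b
    simp only [dM, Matrix.of_apply, dv_eq_sum, cj_false]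
    refine continuousOn_finsetSum _ fun d _ => ContinuousOn.mul ?_ ?_
    · exact (EuclideanSpace.proj d : Cn n →L[ℂ] ℂ).continuous.comp_continuousOn hc.cont
    · exact (contDiffOn_wd (A.e i).open_target (K.sm i a b) _).continuousOn.comp hc.cont0 hc.mem
  refine (PiLp.continuous_toLp 2 _).comp_continuousOn (continuousOn_pi.2 fun b => ?_)
  simp only [Matrix.vecMul, dotProduct, Matrix.mul_apply]
  refine continuousOn_finsetSum _ fun a _ => continuousOn_const.mul
    (continuousOn_finsetSum _ fun d _ => (hd a d).mul ?_)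
  exact continuousOn_pi.1 (continuousOn_pi.1 hinv d) b

set_option synthInstance.maxHeartbeats 400000 in
/-- parallel transport, normalised at the right end point -/
theorem Cur.exists_par (K : Kah A) {i : A.ι} {c c' : ℝ → Cn n} {s t : ℝ} (hc : Cur A i c c' s t) :
    ∃ P : ℝ → Cn n →L[ℂ] Cn n, P t = ContinuousLinearMap.id ℂ (Cn n) ∧
      (∀ w, ∀ τ ∈ Icc s t, HasDerivWithinAt (fun τ => P τ w)
        (-Gam (gc K i) (c τ) (c' τ) (P τ w)) (Icc s t) τ) ∧
      ∀ w, ∀ τ ∈ Icc s t, nq (gc K i (c τ)) (P τ w) = nq (gc K i (c t)) w := by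
  set L : ℝ → (Cn n →L[ℂ] Cn n) →L[ℝ] (Cn n →L[ℂ] Cn n) := fun τ =>
    (ContinuousLinearMap.compL ℂ (Cn n) (Cn n) (Cn n)
      (-GamL (gc K i) (c τ) (c' τ))).restrictScalars ℝ with hL
  have hLc : ContinuousOn L (Icc s t) := by
    refine continuousOn_clm_apply.2 fun P => ?_
    exact (hc.cont_Gam K).neg.clm_comp continuousOn_const
  obtain ⟨P, hP0, hP⟩ := Crest.Agent.N250.B1.exists_ivp_right hc.le hLc (G := fun _ => 0)
    continuousOn_const (ContinuousLinearMap.id ℂ (Cn n))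
  have hD : ∀ w, ∀ τ ∈ Icc s t, HasDerivWithinAt (fun τ => P τ w)
      (-Gam (gc K i) (c τ) (c' τ) (P τ w)) (Icc s t) τ := by
    intro w τ hτ
    have h1 := ((ContinuousLinearMap.apply ℂ (Cn n) w).restrictScalars ℝ).hasFDerivAt.comp_hasDerivWithinAt
      τ (hP τ hτ)
    refine h1.congr_deriv ?_
    simp [hL, GamL_apply]
  refine ⟨P, hP0, hD, fun w τ hτ => ?_⟩
  have h1 : ∀ τ ∈ Icc s t, HasDerivWithinAt (fun τ => nq (gc K i (c τ)) (P τ w)) 0 (Icc s t) τ := by
    intro τ hτ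
    refine (hasDeriv_nq (kah_gc K (hc.mem τ hτ)) (hc.der τ hτ) (hD w τ hτ)).congr_deriv ?_
    simp [h2]
  have h2 := (convex_Icc s t).norm_image_sub_le_of_norm_hasDerivWithin_le (C := 0) h1
    (fun _ _ => by simp) hτ (right_mem_Icc.2 hc.le)
  rw [zero_mul, norm_le_zero_iff, sub_eq_zero, hP0] at h2
  exact h2.symm

/-- the field with `∇ X = c'` and given value at the left end point -/
theorem Cur.exists_rad (K : Kah A) {i : A.ι} {c c' : ℝ → Cn n} {s t : ℝ} (hc : Cur A i c c' s t)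
    (x0 : Cn n) : ∃ X : ℝ → Cn n, X s = x0 ∧ ∀ τ ∈ Icc s t, HasDerivWithinAt X
      (-Gam (gc K i) (c τ) (c' τ) (X τ) + c' τ) (Icc s t) τ := by
  set L : ℝ → Cn n →L[ℝ] Cn n := fun τ => -((GamL (gc K i) (c τ) (c' τ)).restrictScalars ℝ) with hL
  have hLc : ContinuousOn L (Icc s t) := by
    refine ContinuousOn.neg ?_
    refine continuousOn_clm_apply.2 fun u => ?_
    exact (hc.cont_Gam K).clm_apply continuousOn_const
  obtain ⟨X, hX0, hX⟩ := Crest.Agent.N250.B1.exists_ivp_left hc.le hLc hc.cont x0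
  exact ⟨X, hX0, fun τ hτ => hX τ hτ⟩

end

end Crest.Agent.T223.Lb
end

-- ▼ part T223/LbInd_78
section

/-!
# Row 223 (S0345), module LB (helper78): propagation of the barrier of `d²` along a minimiser
-/

set_option autoImplicit false
set_option linter.unusedVariables false
set_option linter.unusedSectionVars false

open Set Filter Topology Metric Complex MeasureTheory
open scoped ContDiff ComplexConjugate Matrix ComplexOrder

namespace Crest.Agent.T223.Lb

open Crest.Agent.R275.Geo Crest.Agent.R275.EDR890 Crest.Agent.R273.Kah_333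
open Crest.Agent.R273.Hess_333 Crest.Agent.R273.HessB_333 Crest.Agent.R273.RMan4_798
open Crest.Agent.R275.Core144
open Crest.Agent.T223.Br Crest.Agent.T223.Tr

noncomputable section

/-- induction along an interval -/
theorem ind_Icc {P : ℝ → Prop} {b : ℝ} (h0 : P 0)
    (hstep : ∀ τ ∈ Icc (0 : ℝ) b, ∃ δ > 0, ∀ s t, 0 ≤ s → s < t → t ≤ b → τ - δ < s → t < τ + δ →
      P s → P t) : ∀ t ∈ Icc (0 : ℝ) b, P t := by
  by_contra hcon
  push Not at hcon
  set S : Set ℝ := {t | t ∈ Icc (0 : ℝ) b ∧ ¬ P t} with hS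
  have hne : S.Nonempty := hcon
  have hbd : BddBelow S := ⟨0, fun t ht => ht.1.1⟩
  set τ := sInf S with hτ
  have hτ0 : 0 ≤ τ := le_csInf hne fun t ht => ht.1.1
  obtain ⟨t0, ht0⟩ := hne
  have hτb : τ ≤ b := (csInf_le hbd ht0).trans ht0.1.2
  obtain ⟨δ, hδ, h⟩ := hstep τ ⟨hτ0, hτb⟩
  obtain ⟨t, ht, htl⟩ := exists_lt_of_csInf_lt ⟨t0, ht0⟩ (show sInf S < τ + δ by linarith)
  have hτt : τ ≤ t := csInf_le hbd ht
  have hs : P (max 0 (τ - δ / 2)) := by
    rcases le_total (τ - δ / 2) 0 with h1 | h1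
    · rwa [max_eq_left h1]
    · rw [max_eq_right h1]
      by_contra h2
      have h3 : τ ≤ τ - δ / 2 := csInf_le hbd ⟨⟨h1, by linarith⟩, h2⟩
      linarith
  have ht0' : 0 < t := by
    rcases ht.1.1.eq_or_lt with h1 | h1
    · exact absurd (h1 ▸ h0) ht.2
    · exact h1
  exact ht.2 (h _ t (le_max_left _ _) (max_lt ht0' (by linarith)) ht.1.2
    (lt_max_of_lt_right (by linarith)) htl hs)

theorem sq_add_le {a b s r F E : ℝ} (hs : 0 ≤ s) (hr : 0 ≤ r) (hF : 0 ≤ F) (hE : 0 ≤ E)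
    (ha : a ^ 2 ≤ s * F) (hb : b ^ 2 ≤ r * E) : (a + b) ^ 2 ≤ (s + r) * (F + E) := by
  have h1 : (a * b) ^ 2 ≤ ((s * E + r * F) / 2) ^ 2 := by
    have h2 : a ^ 2 * b ^ 2 ≤ (s * F) * (r * E) :=
      mul_le_mul ha hb (sq_nonneg _) (mul_nonneg hs hF)
    nlinarith [sq_nonneg (s * E - r * F)]
  have h3 : a * b ≤ (s * E + r * F) / 2 := (abs_le_of_sq_le_sq' h1 (by positivity)).2
  nlinarith

variable {n : ℕ} {M : Type} [TopologicalSpace M] {A : Atl n M}

theorem nq_hess_add {u v : Cn n → ℝ} {z : Cn n} (hu : ContDiffAt ℝ ∞ u z) (hv : ContDiffAt ℝ ∞ v z)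
    (ξ : Cn n) : nq (hess (fun w => u w + v w) z) ξ = nq (hess u z) ξ + nq (hess v z) ξ := by
  rw [hess_add hu hv, nq_eq_h2, h2_add_mat, add_re]
  rfl

theorem nq_hess_mul {u : Cn n → ℝ} {z : Cn n} (c : ℝ) (hu : ContDiffAt ℝ ∞ u z) (ξ : Cn n) :
    nq (hess (fun w => c * u w) z) ξ = c * nq (hess u z) ξ := by
  rw [hess_const_mul c hu, nq_smul]

theorem nq_hess_const (c : ℝ) (z ξ : Cn n) : nq (hess (fun _ => c) z) ξ = 0 := by
  rw [nq_hess contDiffAt_const]
  have h : dv true ξ (cu fun _ : Cn n => c) = fun _ => 0 := funext fun w => dv_const true ξ _ w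
  rw [dd, h, dv_const, zero_re]

theorem bis_nonneg {K : Kah A} (h : BKpos K) {i : A.ι} {z : Cn n} (hz : z ∈ (A.e i).target)
    (u η : Cn n) : 0 ≤ bis (gc K i) z u η := by
  by_cases hu : u = 0
  · simp [bis, hu]
  by_cases hη : η = 0
  · simp [bis, hη]
  exact (h i z hz u η hu hη).le

/-! ### change of charts -/

theorem tr_hol {i j : A.ι} {y : M} (hi : y ∈ (A.e i).source) (hj : y ∈ (A.e j).source) :
    ∀ᶠ w in 𝓝 (A.e i y), DifferentiableAt ℂ (fun w => A.e j ((A.e i).symm w)) w := by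
  have ho : IsOpen (A.ov i j) := isOpen_ov i j
  filter_upwards [ho.mem_nhds (mem_ov ⟨hi, hj⟩)] with w hw
  exact (A.holo i j).differentiableAt (ho.mem_nhds hw)

theorem tr_symm {i j : A.ι} {y : M} (hi : y ∈ (A.e i).source) (hj : y ∈ (A.e j).source) :
    ∀ᶠ w in 𝓝 (A.e i y), (A.e j).symm (A.e j ((A.e i).symm w)) = (A.e i).symm w := by
  have ho : IsOpen (A.ov i j) := isOpen_ov i j
  filter_upwards [ho.mem_nhds (mem_ov ⟨hi, hj⟩)] with w hw
  exact (A.e j).left_inv hw.2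

theorem gc_at (K : Kah A) {i : A.ι} {y : M} (hi : y ∈ (A.e i).source) :
    gc K i (A.e i y) = K.g i y := by
  rw [gc, (A.e i).left_inv hi]

theorem nq_tr (K : Kah A) {i j : A.ι} {y : M} (hi : y ∈ (A.e i).source) (hj : y ∈ (A.e j).source)
    (v : Cn n) : nq (K.g i y) v =
      nq (K.g j y) (fderiv ℂ (fun w => A.e j ((A.e i).symm w)) (A.e i y) v) := by
  rw [K.tr i j y ⟨hi, hj⟩, ← nq_pull]
  rfl

theorem USup.tr {i j : A.ι} {y : M} (hi : y ∈ (A.e i).source) (hj : y ∈ (A.e j).source)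
    {f : M → ℝ} {b : Cn n → ℝ} (h : USup A j f y b) (K : Kah A) {c : ℝ}
    (hb : ∀ v, nq (hess b (A.e j y)) v ≤ c * nq (K.g j y) v) :
    ∃ b', USup A i f y b' ∧ ∀ v, nq (hess b' (A.e i y)) v ≤ c * nq (K.g i y) v := by
  have h0 : A.e j ((A.e i).symm (A.e i y)) = A.e j y := by rw [(A.e i).left_inv hi]
  have hs : ContDiffAt ℝ ∞ b (A.e j ((A.e i).symm (A.e i y))) := by rw [h0]; exact h.sm
  have hT := tr_hol hi hj
  refine ⟨fun w => b (A.e j ((A.e i).symm w)), 
    ⟨hs.comp (f := fun w => A.e j ((A.e i).symm w)) _ (hol_smooth hT), ?_, ?_⟩, fun v => ?_⟩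
  · rw [h0]; exact h.eq
  · have h1 : Tendsto (fun w => A.e j ((A.e i).symm w)) (𝓝 (A.e i y)) (𝓝 (A.e j y)) := by
      rw [← h0]; exact hT.self_of_nhds.continuousAt
    filter_upwards [h1.eventually h.le, tr_symm hi hj] with w h2 h3
    rwa [h3] at h2
  · rw [nq_hess_comp (T := fun w => A.e j ((A.e i).symm w)) hs hT, h0, nq_tr K hi hj]
    exact hb _

variable [T2Space M] [ConnectedSpace M]

theorem dK_nonneg (K : Kah A) (x y : M) : 0 ≤ dK K x y := dist_nonneg

theorem dK_tri (K : Kah A) (x y z : M) : dK K x z ≤ dK K x y + dK K y z :=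
  dist_triangle (α := (ofKah K).M) x y z

theorem dK_self (K : Kah A) (x : M) : dK K x x = 0 := dist_self (α := (ofKah K).M) x

theorem dK_pos (K : Kah A) {x y : M} (h : x ≠ y) : 0 < dK K x y :=
  (dist_pos (γ := (ofKah K).M)).2 h

/-- a minimiser with its velocity in the charts -/
structure RV (K : Kah A) (γ : ℝ → M) (ℓ b : ℝ) (vel : A.ι → ℝ → Cn n) : Prop where
  nn : 0 ≤ ℓ
  ray : Ray K γ ℓ b
  der : ∀ i, ∀ t ∈ Icc (0 : ℝ) b, γ t ∈ (A.e i).source →
    HasDerivWithinAt (fun s => A.e i (γ s)) (vel i t) (Icc 0 b) t ∧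
      ContinuousWithinAt (vel i) (Icc 0 b) t ∧ nq (K.g i (γ t)) (vel i t) = ℓ ^ 2

variable {K : Kah A} {γ : ℝ → M} {ℓ b : ℝ} {vel : A.ι → ℝ → Cn n}

theorem Ray.cont (h : Ray K γ ℓ b) (hl : 0 ≤ ℓ) : ContinuousOn γ (Icc 0 b) := by
  have h1 : LipschitzOnWith (β := (ofKah K).M) ⟨ℓ, hl⟩ γ (Icc 0 b) := by
    refine LipschitzOnWith.of_dist_le_mul fun s hs t ht => ?_
    rw [Real.dist_eq]
    exact (h s hs t ht).le
  exact h1.continuousOn

theorem Ray.dist0 (h : Ray K γ ℓ b) {t : ℝ} (ht : t ∈ Icc (0 : ℝ) b) :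
    dK K (γ 0) (γ t) = ℓ * t := by
  rw [h 0 ⟨le_rfl, ht.1.trans ht.2⟩ t ht, zero_sub, abs_neg, abs_of_nonneg ht.1]

theorem Ray.win (h : Ray K γ ℓ b) (hl : 0 ≤ ℓ) {τ : ℝ} (hτ : τ ∈ Icc (0 : ℝ) b) {i : A.ι}
    (hi : γ τ ∈ (A.e i).source) :
    ∃ δ > 0, ∀ u ∈ Icc (0 : ℝ) b, τ - δ < u → u < τ + δ → γ u ∈ (A.e i).source := by
  have h1 := (h.cont hl τ hτ).eventually ((A.e i).open_source.mem_nhds hi)
  obtain ⟨δ, hδ, h2⟩ := Metric.mem_nhdsWithin_iff.1 h1
  refine ⟨δ, hδ, fun u hu h3 h4 => h2 ⟨?_, hu⟩⟩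
  rw [mem_ball, Real.dist_eq, abs_lt]
  constructor <;> linarith

theorem RV.cur (h : RV K γ ℓ b vel) {i : A.ι} {s t : ℝ} (hs : 0 ≤ s) (hst : s ≤ t) (ht : t ≤ b)
    (hi : ∀ τ ∈ Icc s t, γ τ ∈ (A.e i).source) : Cur A i (fun τ => A.e i (γ τ)) (vel i) s t where
  le := hst
  mem τ hτ := (A.e i).map_source (hi τ hτ)
  der τ hτ := (h.der i τ ⟨hs.trans hτ.1, hτ.2.trans ht⟩ (hi τ hτ)).1.mono (Icc_subset_Icc hs ht)
  cont τ hτ := (h.der i τ ⟨hs.trans hτ.1, hτ.2.trans ht⟩ (hi τ hτ)).2.1.mono (Icc_subset_Icc hs ht)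

theorem RV.speed (h : RV K γ ℓ b vel) {i : A.ι} {τ : ℝ} (hτ : τ ∈ Icc (0 : ℝ) b)
    (hi : γ τ ∈ (A.e i).source) : nq (gc K i (A.e i (γ τ))) (vel i τ) = ℓ ^ 2 := by
  rw [gc_at K hi]
  exact (h.der i τ hτ hi).2.2

/-- **one step** -/
theorem step1 (h : RV K γ ℓ b vel) {i : A.ι} {s t κ : ℝ} (hs : 0 ≤ s) (hst : s < t) (ht : t ≤ b)
    (hi : ∀ τ ∈ Icc s t, γ τ ∈ (A.e i).source) (hκ0 : 0 ≤ κ)
    (hκ : ∀ τ ∈ Icc s t, ∀ u η, κ * nq (gc K i (A.e i (γ τ))) u * nq (gc K i (A.e i (γ τ))) η ≤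
      bis (gc K i) (A.e i (γ τ)) u η)
    (hB : s = 0 ∨ ∃ B, USup A i (fun z => dK K (γ 0) z ^ 2) (γ s) B ∧
      ∀ v, nq (hess B (A.e i (γ s))) v ≤ 1 * nq (K.g i (γ s)) v) :
    ∃ B, USup A i (fun z => dK K (γ 0) z ^ 2) (γ t) B ∧
      ∀ v, nq (hess B (A.e i (γ t))) v ≤
        (1 - κ * ℓ ^ 2 * s ^ 2 * (t - s) / t) * nq (K.g i (γ t)) v := by
  have ht0 : 0 < t := hs.trans_lt hst
  have hc := h.cur hs hst.le ht hi
  set c : ℝ → Cn n := fun τ => A.e i (γ τ) with hcdef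
  have hsI : s ∈ Icc s t := left_mem_Icc.2 hst.le
  have htI : t ∈ Icc s t := right_mem_Icc.2 hst.le
  have hI : ∀ τ ∈ Icc s t, τ ∈ Icc (0 : ℝ) b := fun τ hτ => ⟨hs.trans hτ.1, hτ.2.trans ht⟩
  obtain ⟨P, hP1, hP, hPn⟩ := hc.exists_par K
  set V : ℝ → Cn n →L[ℂ] Cn n := fun τ => ((τ / t : ℝ) : ℂ) • P τ with hV
  set V' : ℝ → Cn n →L[ℂ] Cn n := fun τ => ((1 / t : ℝ) : ℂ) • P τ -
    ((τ / t : ℝ) : ℂ) • (GamL (gc K i) (c τ) (vel i τ)).comp (P τ) with hV'
  have hPc : ∀ w, ContinuousOn (fun τ => P τ w) (Icc s t) := fun w τ hτ =>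
    (hP w τ hτ).continuousWithinAt
  have hVd : ∀ w, ∀ τ ∈ Icc s t, HasDerivWithinAt (fun τ => V τ w) (V' τ w) (Icc s t) τ := by
    intro w τ hτ
    have h1 : HasDerivWithinAt (fun τ : ℝ => ((τ / t : ℝ) : ℂ)) ((1 / t : ℝ) : ℂ) (Icc s t) τ :=
      ((hasDerivAt_id' τ).div_const t).ofReal_comp.hasDerivWithinAt
    refine (h1.smul (hP w τ hτ)).congr_deriv ?_
    simp only [hV', _root_.sub_apply, _root_.smul_apply,
      ContinuousLinearMap.comp_apply, GamL_apply, smul_neg]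
    abel
  have hV'c : ∀ w, ContinuousOn (fun τ => V' τ w) (Icc s t) := by
    intro w
    have h1 : ContinuousOn (fun τ : ℝ => ((τ / t : ℝ) : ℂ)) (Icc s t) := by fun_prop
    exact ((hPc w).const_smul _).sub (h1.smul ((hc.cont_Gam K).clm_apply (hPc w)))
  obtain ⟨E, hE1, hE2, hE3, -, hE5⟩ := window K hc hVd hV'c (Q := fun _ => 0)
    (Eventually.of_forall fun _ => differentiableAt_const _) rfl (by simp)
  have hN : ∀ ξ, 0 ≤ nq (gc K i (c t)) ξ := fun ξ => Lb13.nq_gc_nonneg K i (hc.mem t htI) ξ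
  have hE2' : E 0 = (t - s) * ℓ ^ 2 := by
    rw [hE2, intervalIntegral.integral_congr (g := fun _ => ℓ ^ 2), intervalIntegral.integral_const,
      smul_eq_mul]
    intro τ hτ
    rw [uIcc_of_le hst.le] at hτ
    exact h.speed (hI τ hτ) (hi τ hτ)
  have hVn : ∀ τ ∈ Icc s t, ∀ ξ, nq (gc K i (c τ)) (V τ ξ) = (τ / t) ^ 2 * nq (gc K i (c t)) ξ := by
    intro τ hτ ξ
    rw [← hPn ξ τ hτ, ← nq_rsmul]
    rfl
  have hE5' : ∀ ξ, nq (hess E 0) ξ ≤
      (t - s) * (((1 / t) ^ 2 - κ * ℓ ^ 2 * (s / t) ^ 2) * nq (gc K i (c t)) ξ) := by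
    intro ξ
    obtain ⟨h1, h2⟩ := hE5 ξ
    rw [h2, ← smul_eq_mul, ← intervalIntegral.integral_const]
    refine intervalIntegral.integral_mono_on hst.le (h1.intervalIntegrable_of_Icc hst.le)
      intervalIntegrable_const fun τ hτ => ?_
    have h3 : V' τ ξ + Gam (gc K i) (c τ) (vel i τ) (V τ ξ) = ((1 / t : ℝ) : ℂ) • P τ ξ := by
      rw [← GamL_apply]
      simp only [hV', hV, _root_.sub_apply, _root_.smul_apply,
        ContinuousLinearMap.comp_apply, map_smul]
      abel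
    have h4 := hκ τ hτ (vel i τ) (V τ ξ)
    rw [h.speed (hI τ hτ) (hi τ hτ), hVn τ hτ] at h4
    rw [h3, nq_rsmul, hPn ξ τ hτ]
    have h5 : (s / t) ^ 2 ≤ (τ / t) ^ 2 :=
      pow_le_pow_left₀ (div_nonneg hs ht0.le) (div_le_div_of_nonneg_right hτ.1 ht0.le) 2
    have h6 : κ * ℓ ^ 2 * ((s / t) ^ 2 * nq (gc K i (c t)) ξ) ≤
        κ * ℓ ^ 2 * ((τ / t) ^ 2 * nq (gc K i (c t)) ξ) :=
      mul_le_mul_of_nonneg_left (mul_le_mul_of_nonneg_right h5 (hN ξ)) (by positivity)
    change _ - bis (gc K i) (A.e i (γ τ)) (vel i τ) (V τ ξ) ≤ _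
    nlinarith
  -- the old barrier
  obtain ⟨F, hF1, hF2, hF3, hF4⟩ : ∃ F : Cn n → ℝ, ContDiffAt ℝ ∞ F 0 ∧ F 0 = s * ℓ ^ 2 ∧
      (∀ᶠ w in 𝓝 (0 : Cn n), 0 ≤ F w ∧ dK K (γ 0) ((A.e i).symm (c s + V s w)) ^ 2 ≤ s * F w) ∧
      ∀ ξ, nq (hess F 0) ξ ≤ s / t ^ 2 * nq (gc K i (c t)) ξ := by
    rcases hs.eq_or_lt with rfl | hs0
    · refine ⟨fun _ => 0, contDiffAt_const, by simp, Eventually.of_forall fun w => ⟨le_rfl, ?_⟩,
        fun ξ => by rw [nq_hess_const]; simp⟩
      have h1 : c 0 + V 0 w = A.e i (γ 0) := by simp [hV, hcdef]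
      rw [h1, (A.e i).left_inv (hi 0 hsI), dK_self]
      simp
    obtain ⟨B, hB1, hB2⟩ := hB.resolve_left hs0.ne'
    have hT : ∀ w, HasFDerivAt (fun w => c s + V s w) (V s) w := fun w =>
      (V s).hasFDerivAt.const_add _
    have hT' : ∀ᶠ w in 𝓝 (0 : Cn n), DifferentiableAt ℂ (fun w => c s + V s w) w :=
      Eventually.of_forall fun w => (hT w).differentiableAt
    have h0 : c s + V s 0 = A.e i (γ s) := by simp [hcdef]
    have hBs : ContDiffAt ℝ ∞ B (c s + V s 0) := by rw [h0]; exact hB1.sm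
    have hBc : ContDiffAt ℝ ∞ (fun w => B (c s + V s w)) 0 :=
      hBs.comp (f := fun w => c s + V s w) 0 (hol_smooth hT')
    refine ⟨fun w => s⁻¹ * B (c s + V s w), contDiffAt_const.mul hBc, ?_, ?_, fun ξ => ?_⟩
    · simp only [h0, hB1.eq, h.ray.dist0 (hI s hsI)]
      field_simp
    · have h1 : Tendsto (fun w => c s + V s w) (𝓝 0) (𝓝 (A.e i (γ s))) := by
        rw [← h0]; exact (hT 0).continuousAt
      filter_upwards [h1.eventually hB1.le] with w hw
      refine ⟨mul_nonneg (inv_nonneg.2 hs) ((sq_nonneg _).trans hw), ?_⟩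
      rwa [← mul_assoc, mul_inv_cancel₀ hs0.ne', one_mul]
    · rw [nq_hess_mul _ hBc, nq_hess_comp (T := fun w => c s + V s w) hBs hT', (hT 0).fderiv, h0]
      have h1 := hB2 (V s ξ)
      rw [one_mul, ← gc_at K (hi s hsI), hVn s hsI] at h1
      refine (mul_le_mul_of_nonneg_left h1 (inv_nonneg.2 hs)).trans (le_of_eq ?_)
      field_simp
  have hT : ∀ z, HasFDerivAt (fun z => z - c t) (ContinuousLinearMap.id ℂ (Cn n)) z := fun z =>
    (hasFDerivAt_id z).sub_const _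
  have hT' : ∀ᶠ z in 𝓝 (c t), DifferentiableAt ℂ (fun z => z - c t) z :=
    Eventually.of_forall fun z => (hT z).differentiableAt
  have hG : ContDiffAt ℝ ∞ (fun w => t * (F w + E w)) (c t - c t) := by
    rw [sub_self]; exact contDiffAt_const.mul (hF1.add hE1)
  refine ⟨fun z => t * (F (z - c t) + E (z - c t)),
    ⟨hG.comp (f := fun z => z - c t) (c t) (hol_smooth hT'), ?_, ?_⟩, fun v => ?_⟩
  · change t * (F (c t - c t) + E (c t - c t)) = _
    rw [sub_self, hF2, hE2', h.ray.dist0 (hI t htI)]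
    ring
  · have h1 : Tendsto (fun z => z - c t) (𝓝 (c t)) (𝓝 0) := by
      rw [← sub_self (c t)]; exact (hT _).continuousAt
    filter_upwards [h1.eventually hF3, h1.eventually hE3] with z h2 h3
    have h4 : c t + V t (z - c t) + 0 = z := by
      simp [hV, hP1, ht0.ne']
    rw [h4, add_zero] at h3
    have h5 : 0 ≤ E (z - c t) :=
      nonneg_of_mul_nonneg_right ((sq_nonneg _).trans h3) (sub_pos.2 hst)
    have h6 := sq_add_le hs (sub_pos.2 hst).le h2.1 h5 h2.2 h3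
    rw [add_sub_cancel] at h6
    exact (pow_le_pow_left₀ (dK_nonneg K _ _) (dK_tri K _ _ _) 2).trans h6
  · change nq (hess (fun z => (fun w => t * (F w + E w)) (z - c t)) (c t)) v ≤ _
    rw [nq_hess_comp (T := fun z => z - c t) hG hT', (hT _).fderiv, sub_self,
      nq_hess_mul _ (hF1.add hE1), nq_hess_add hF1 hE1, ← gc_at K (hi t htI)]
    refine (mul_le_mul_of_nonneg_left (add_le_add (hF4 _) (hE5' _)) ht0.le).trans (le_of_eq ?_)
    simp only [ContinuousLinearMap.id_apply, hcdef]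
    field_simp
    ring

/-- the barrier along the whole minimiser -/
theorem lb_ray (hK : BKpos K) (h : RV K γ ℓ b vel) : ∀ t ∈ Icc (0 : ℝ) b, t = 0 ∨
    ∀ i, γ t ∈ (A.e i).source → ∃ B, USup A i (fun z => dK K (γ 0) z ^ 2) (γ t) B ∧
      ∀ v, nq (hess B (A.e i (γ t))) v ≤ 1 * nq (K.g i (γ t)) v := by
  refine ind_Icc (Or.inl rfl) fun τ hτ => ?_
  obtain ⟨j, hj⟩ := A.cover (γ τ)
  obtain ⟨δ, hδ, hw⟩ := h.ray.win h.nn hτ hj
  refine ⟨δ, hδ, fun s t hs hst ht h1 h2 hP => Or.inr fun i hi => ?_⟩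
  have hj' : ∀ u ∈ Icc s t, γ u ∈ (A.e j).source := fun u hu =>
    hw u ⟨hs.trans hu.1, hu.2.trans ht⟩ (h1.trans_le hu.1) (hu.2.trans_lt h2)
  obtain ⟨B, hB1, hB2⟩ := step1 h (κ := 0) hs hst ht hj' le_rfl
    (fun u hu a η => by
      rw [zero_mul, zero_mul]; exact bis_nonneg hK ((A.e j).map_source (hj' u hu)) a η)
    (hP.imp id fun h3 => h3 j (hj' s (left_mem_Icc.2 hst.le)))
  simp only [zero_mul, zero_div, sub_zero] at hB2
  exact hB1.tr hi (hj' t (right_mem_Icc.2 hst.le)) K hB2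

end

end Crest.Agent.T223.Lb
end

-- ▼ part T223/LbLog_78
section

/-!
# Row 223 (S0345), module LB (helper78): the barrier for `log d`
-/

set_option autoImplicit false
set_option linter.unusedVariables false
set_option linter.unusedSectionVars false

open Set Filter Topology Metric Complex MeasureTheory
open scoped ContDiff ComplexConjugate Matrix ComplexOrder

namespace Crest.Agent.T223.Lb

open Crest.Agent.R275.Geo Crest.Agent.R275.EDR890 Crest.Agent.R273.Kah_333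
open Crest.Agent.R273.Hess_333 Crest.Agent.R273.HessB_333 Crest.Agent.R273.RMan4_798
open Crest.Agent.R275.Core144
open Crest.Agent.T223.Br Crest.Agent.T223.Tr

noncomputable section

variable {n : ℕ} {M : Type} [TopologicalSpace M] {A : Atl n M} [T2Space M] [ConnectedSpace M]

/-- a holomorphic family of end points with its energy -/
structure Fam (K : Kah A) (x : M) (i : A.ι) (y : M) (s e : ℝ) (v : Cn n) (D : Cn n → Cn n)
    (E : Cn n → ℝ) : Prop where
  hol : ∀ᶠ w in 𝓝 (0 : Cn n), DifferentiableAt ℂ D w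
  zero : D 0 = A.e i y
  sm : ContDiffAt ℝ ∞ E 0
  val : E 0 = e
  le : ∀ᶠ w in 𝓝 (0 : Cn n), 0 ≤ E w ∧ dK K x ((A.e i).symm (D w)) ^ 2 ≤ s * E w
  d1 : dv false v (cu E) 0 = (e : ℂ)

variable {K : Kah A} {γ : ℝ → M} {ℓ b : ℝ} {vel : A.ι → ℝ → Cn n}

theorem Fam.tr {x y : M} {i j : A.ι} {s e : ℝ} {v : Cn n} {D : Cn n → Cn n} {E : Cn n → ℝ}
    (h : Fam K x i y s e v D E) (hi : y ∈ (A.e i).source) (hj : y ∈ (A.e j).source) :
    Fam K x j y s e v (fun w => A.e j ((A.e i).symm (D w))) E := by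
  have h1 : Tendsto D (𝓝 0) (𝓝 (A.e i y)) := by
    rw [← h.zero]; exact h.hol.self_of_nhds.continuousAt
  refine ⟨?_, ?_, h.sm, h.val, ?_, h.d1⟩
  · filter_upwards [h.hol, h1.eventually (tr_hol hi hj)] with w h2 h3
    exact h3.comp w h2
  · rw [h.zero, (A.e i).left_inv hi]
  · filter_upwards [h.le, h1.eventually (tr_symm hi hj)] with w h2 h3
    rwa [h3]

theorem stepL (hK : BKpos K) (h : RV K γ ℓ b vel) (hl : 0 < ℓ) {i : A.ι} {s t : ℝ} (hs : 0 ≤ s)
    (hst : s < t) (ht : t ≤ b) (hi : ∀ τ ∈ Icc s t, γ τ ∈ (A.e i).source) {v : Cn n} (hv : v ≠ 0)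
    {D : Cn n → Cn n} {E : Cn n → ℝ} (hF : Fam K (γ 0) i (γ s) s (s * ℓ ^ 2) v D E)
    (hE : nq (hess E 0) v ≤ s * ℓ ^ 2) :
    ∃ D' E', Fam K (γ 0) i (γ t) t (t * ℓ ^ 2) v D' E' ∧ nq (hess E' 0) v < t * ℓ ^ 2 := by
  have hc := h.cur hs hst.le ht hi
  set c : ℝ → Cn n := fun τ => A.e i (γ τ) with hcdef
  have hsI : s ∈ Icc s t := left_mem_Icc.2 hst.le
  have htI : t ∈ Icc s t := right_mem_Icc.2 hst.le
  have hI : ∀ τ ∈ Icc s t, τ ∈ Icc (0 : ℝ) b := fun τ hτ => ⟨hs.trans hτ.1, hτ.2.trans ht⟩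
  have hsp : ∀ τ ∈ Icc s t, nq (gc K i (c τ)) (vel i τ) = ℓ ^ 2 := fun τ hτ =>
    h.speed (hI τ hτ) (hi τ hτ)
  set L := fderiv ℂ D 0 with hL
  obtain ⟨X, hX0, hX⟩ := hc.exists_rad K (L v)
  set lam : Cn n →L[ℂ] ℂ := ((‖v‖ ^ 2 : ℝ) : ℂ)⁻¹ • innerSL ℂ v with hlam
  have hlv : lam v = 1 := by
    have h1 : ((‖v‖ ^ 2 : ℝ) : ℂ) ≠ 0 := by
      exact_mod_cast pow_ne_zero 2 (norm_ne_zero_iff.2 hv)
    simp only [hlam, _root_.smul_apply, innerSL_apply_apply, inner_self_eq_norm_sq_to_K,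
      smul_eq_mul]
    rw [inv_mul_eq_one₀ h1]
    simp
  set X' : ℝ → Cn n := fun τ => -Gam (gc K i) (c τ) (vel i τ) (X τ) + vel i τ with hX'
  set V : ℝ → Cn n →L[ℂ] Cn n := fun τ => L + lam.smulRight (X τ - X s) with hV
  set V' : ℝ → Cn n →L[ℂ] Cn n := fun τ => lam.smulRight (X' τ) with hV'
  have hXc : ContinuousOn X (Icc s t) := fun τ hτ => (hX τ hτ).continuousWithinAt
  have hX'c : ContinuousOn X' (Icc s t) := ((hc.cont_Gam K).clm_apply hXc).neg.add hc.cont
  have hVd : ∀ w, ∀ τ ∈ Icc s t, HasDerivWithinAt (fun τ => V τ w) (V' τ w) (Icc s t) τ :=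
    fun w τ hτ => (((hX τ hτ).sub_const (X s)).const_smul (lam w)).const_add (L w)
  have hV'c : ∀ w, ContinuousOn (fun τ => V' τ w) (Icc s t) := fun w => hX'c.const_smul (lam w)
  have hVv : ∀ τ, V τ v = X τ := fun τ => by
    simp only [hV, _root_.add_apply, ContinuousLinearMap.smulRight_apply, hlv, one_smul, ← hX0]
    abel
  have hcov : ∀ τ, V' τ v + Gam (gc K i) (c τ) (vel i τ) (V τ v) = vel i τ := fun τ => by
    simp only [hVv, hV', ContinuousLinearMap.smulRight_apply, hlv, one_smul, hX']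
    abel
  set Q : Cn n → Cn n := fun w => D w - c s - L w with hQ
  have hQh : ∀ᶠ w in 𝓝 (0 : Cn n), DifferentiableAt ℂ Q w := by
    filter_upwards [hF.hol] with w hw using (hw.sub_const _).sub L.differentiableAt
  have hQ0 : Q 0 = 0 := by simp [hQ, hF.zero, hcdef]
  have hQ1 : fderiv ℂ Q 0 = 0 := by
    have h1 : HasFDerivAt Q (L - L) 0 :=
      (hF.hol.self_of_nhds.hasFDerivAt.sub_const _).sub L.hasFDerivAt
    rw [h1.fderiv, sub_self]
  obtain ⟨E1, hE1, hE2, hE3, hE4, hE5⟩ := window K hc hVd hV'c hQh hQ0 hQ1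
  have hE2' : E1 0 = (t - s) * ℓ ^ 2 := by
    rw [hE2, intervalIntegral.integral_congr (g := fun _ => ℓ ^ 2), intervalIntegral.integral_const,
      smul_eq_mul]
    intro τ hτ
    rw [uIcc_of_le hst.le] at hτ
    exact hsp τ hτ
  have hE4' : dv false v (cu E1) 0 = (((t - s) * ℓ ^ 2 : ℝ) : ℂ) := by
    rw [hE4, intervalIntegral.integral_congr (g := fun _ => ((ℓ ^ 2 : ℝ) : ℂ)),
      intervalIntegral.integral_const]
    · simp
    intro τ hτ
    rw [uIcc_of_le hst.le] at hτ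
    simp only [hcov]
    rw [← h2_real (KahAt.herm (kah_gc K (hc.mem τ hτ))), hsp τ hτ]
  have hvel : ∀ τ ∈ Icc s t, vel i τ ≠ 0 := fun τ hτ h0 => by
    have h1 := hsp τ hτ
    rw [h0] at h1
    simp only [nq, PiLp.zero_apply, mul_zero, map_zero, Finset.sum_const_zero, zero_re] at h1
    exact (pow_pos hl 2).ne h1
  have hex : ∃ τ ∈ Icc s t, X τ ≠ 0 := by
    by_contra hcon
    push Not at hcon
    have h1 : HasDerivWithinAt X 0 (Icc s t) s :=
      (hasDerivWithinAt_const s (Icc s t) (0 : Cn n)).congr hcon (hcon s hsI)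
    have h2 := (uniqueDiffOn_Icc hst s hsI).eq_deriv _ (hX s hsI) h1
    rw [hcon s hsI, ← GamL_apply, map_zero, neg_zero, zero_add] at h2
    exact hvel s hsI h2
  have hE5' : nq (hess E1 0) v < (t - s) * ℓ ^ 2 := by
    obtain ⟨h1, h2⟩ := hE5 v
    rw [h2, ← smul_eq_mul, ← intervalIntegral.integral_const]
    refine intervalIntegral.integral_lt_integral_of_continuousOn_of_le_of_exists_lt hst h1
      continuousOn_const (fun τ hτ => ?_) ?_
    · have hτ' := Ioc_subset_Icc_self hτ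
      rw [hcov, hsp τ hτ']
      linarith [bis_nonneg hK (hc.mem τ hτ') (vel i τ) (V τ v)]
    · obtain ⟨τ, hτ, h3⟩ := hex
      refine ⟨τ, hτ, ?_⟩
      rw [hcov, hsp τ hτ, hVv]
      linarith [hK i _ (hc.mem τ hτ) (vel i τ) (X τ) (hvel τ hτ) h3]
  refine ⟨fun w => c t + V t w + Q w, fun w => E w + E1 w, ⟨?_, ?_, hF.sm.add hE1, ?_, ?_, ?_⟩, ?_⟩
  · filter_upwards [hQh] with w hw using ((V t).differentiableAt.const_add _).add hw
  · simp [hQ0, hcdef]
  · rw [hF.val, hE2']; ring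
  · filter_upwards [hF.le, hE3] with w h2 h3
    have h4 : c s + V s w + Q w = D w := by
      simp only [hV, hQ, sub_self, _root_.add_apply, ContinuousLinearMap.smulRight_apply, smul_zero]
      abel
    rw [h4] at h3
    have h5 : 0 ≤ E1 w := nonneg_of_mul_nonneg_right ((sq_nonneg _).trans h3) (sub_pos.2 hst)
    have h6 := sq_add_le hs (sub_pos.2 hst).le h2.1 h5 h2.2 h3
    rw [add_sub_cancel] at h6
    exact ⟨add_nonneg h2.1 h5, (pow_le_pow_left₀ (dK_nonneg K _ _) (dK_tri K _ _ _) 2).trans h6⟩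
  · have h1 : (cu fun w => E w + E1 w) = fun w => cu E w + cu E1 w := by
      funext w; simp [cu]
    rw [h1, dv_add (diffAt (contDiffAt_cu hF.sm)) (diffAt (contDiffAt_cu hE1)), hF.d1, hE4']
    push_cast
    ring
  · rw [nq_hess_add hF.sm hE1]
    linarith

theorem log_ray (hK : BKpos K) (h : RV K γ ℓ b vel) (hl : 0 < ℓ) {v : Cn n} (hv : v ≠ 0) :
    ∀ t ∈ Icc (0 : ℝ) b, ∀ i, γ t ∈ (A.e i).source →
      ∃ D E, Fam K (γ 0) i (γ t) t (t * ℓ ^ 2) v D E ∧ nq (hess E 0) v ≤ t * ℓ ^ 2 ∧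
        (0 < t → nq (hess E 0) v < t * ℓ ^ 2) := by
  refine ind_Icc (fun i hi => ?_) fun τ hτ => ?_
  · refine ⟨fun _ => A.e i (γ 0), fun _ => 0, ⟨Eventually.of_forall fun _ =>
      differentiableAt_const _, rfl, contDiffAt_const, by simp, Eventually.of_forall fun w =>
      ⟨le_rfl, ?_⟩, ?_⟩, by rw [nq_hess_const]; simp, fun h => absurd h (lt_irrefl _)⟩
    · rw [(A.e i).left_inv hi, dK_self]; simp
    · have h1 : (cu fun _ : Cn n => (0 : ℝ)) = fun _ => 0 := by funext w; simp [cu]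
      rw [h1, dv_const]; simp
  obtain ⟨j, hj⟩ := A.cover (γ τ)
  obtain ⟨δ, hδ, hw⟩ := h.ray.win h.nn hτ hj
  refine ⟨δ, hδ, fun s t hs hst ht h1 h2 hP i hi => ?_⟩
  have hj' : ∀ u ∈ Icc s t, γ u ∈ (A.e j).source := fun u hu =>
    hw u ⟨hs.trans hu.1, hu.2.trans ht⟩ (h1.trans_le hu.1) (hu.2.trans_lt h2)
  obtain ⟨D, E, hF, hE, -⟩ := hP j (hj' s (left_mem_Icc.2 hst.le))
  obtain ⟨D', E', hF', hE'⟩ := stepL hK h hl hs hst ht hj' hv hF hE
  exact ⟨_, E', hF'.tr (hj' t (right_mem_Icc.2 hst.le)) hi, hE'.le, fun _ => hE'⟩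

theorem log_of (hK : BKpos K)
    (hR : ∀ x y : M, x ≠ y → ∃ γ vel, γ 0 = x ∧ γ 1 = y ∧ RV K γ (dK K x y) 1 vel) : LOG K := by
  intro x i y hy hxy
  obtain ⟨γ, vel, rfl, rfl, h⟩ := hR x y hxy
  have hl := dK_pos K hxy
  set ℓ := dK K (γ 0) (γ 1) with hℓ
  have h1 : (1 : ℝ) ∈ Icc (0 : ℝ) 1 := right_mem_Icc.2 zero_le_one
  have hv : vel i 1 ≠ 0 := fun h0 => by
    have h2 := (h.der i 1 h1 hy).2.2
    rw [h0] at h2
    simp only [nq, PiLp.zero_apply, mul_zero, map_zero, Finset.sum_const_zero, zero_re] at h2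
    exact (pow_pos hl 2).ne h2
  obtain ⟨D, E, hF, -, hE⟩ := log_ray hK h hl hv 1 h1 i hy
  have hE' := hE one_pos
  rw [one_mul] at hE' hF
  have hE0 : 0 < E 0 := by rw [hF.val]; exact pow_pos hl 2
  have hls : ContDiffAt ℝ ∞ (fun w => Real.log (E w)) 0 := hF.sm.log hE0.ne'
  refine ⟨D, fun w => (1 / 2) * Real.log (E w), vel i 1, hF.hol, hF.zero,
    contDiffAt_const.mul hls, ?_, ?_, ?_⟩
  · simp only [hF.val, Real.log_pow]
    push_cast
    ring
  · have h2 : ContinuousAt (fun w => dK K (γ 0) ((A.e i).symm (D w))) 0 := by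
      have h3 : Continuous fun z : M => dK K (γ 0) z :=
        (continuous_const.dist continuous_id : Continuous fun z : (ofKah K).M =>
          dist (α := (ofKah K).M) (γ 0) z)
      refine h3.continuousAt.comp (f := fun w => (A.e i).symm (D w)) ?_
      refine ContinuousAt.comp (f := D) ?_ hF.hol.self_of_nhds.continuousAt
      rw [hF.zero]
      exact (A.e i).continuousAt_symm ((A.e i).map_source hy)
    have h4 : 0 < dK K (γ 0) ((A.e i).symm (D 0)) := by
      rw [hF.zero, (A.e i).left_inv hy]; exact hl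
    filter_upwards [hF.le, h2.eventually (lt_mem_nhds h4)] with w h5 h6
    have h7 := Real.log_le_log (pow_pos h6 2) h5.2
    rw [one_mul, Real.log_pow] at h7
    push_cast at h7
    linarith
  · rw [nq_hess_mul _ hls, nq_hess_log hF.sm hE0, hF.d1, hF.val, Complex.norm_real,
      Real.norm_of_nonneg (sq_nonneg ℓ), div_self (pow_pos (pow_pos hl 2) 2).ne']
    have h3 : nq (hess E 0) (vel i 1) / ℓ ^ 2 < 1 := (div_lt_one (pow_pos hl 2)).2 hE'
    linarith

end

end Crest.Agent.T223.Lb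
end

-- ▼ part T223/LbGeo_13
section

/-!
# Row 223, module LB (helper13): minimisers are `C¹` up to the end points in the atlas charts
-/

set_option autoImplicit false
set_option maxSynthPendingDepth 3
set_option linter.unusedSectionVars false

open Bundle Set Filter Topology Metric
open scoped Manifold ContDiff

namespace Crest.Agent.T223.Lb13

section Riem

open Crest.GeometryTopology.CoordMetric Crest.GeometryTopology.ChartCurvature
open Crest.Agent.R226.ChartMet842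
open Crest.Agent.R226.CutSmooth77 (SC)
open Crest.Agent.R202.Tens Crest.Agent.R247.Ms322 Crest.Agent.R247.Bo84
open Crest.Agent.R247.Sm879 Crest.Agent.R247.Ray97

variable {d : ℕ} {X : Type*} [MetricSpace X] [ChartedSpace (EuclideanSpace ℝ (Fin d)) X]
  [IsManifold (𝓡 d) ∞ X]
  [RiemannianBundle (fun p : X => TangentSpace (𝓡 d) p)]
  [IsContMDiffRiemannianBundle (𝓡 d) ∞ (EuclideanSpace ℝ (Fin d)) (fun p : X => TangentSpace (𝓡 d) p)]
  [IsRiemannianManifold (𝓡 d) X] [ProperSpace X]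

local notation "𝔼" => EuclideanSpace ℝ (Fin d)

theorem ray_cont {γ : ℝ → X} {ℓ b : ℝ}
    (hγ : ∀ s ∈ Icc (0 : ℝ) b, ∀ t ∈ Icc (0 : ℝ) b, dist (γ s) (γ t) = ℓ * |s - t|) {t : ℝ}
    (ht : t ∈ Icc (0 : ℝ) b) : ContinuousWithinAt γ (Icc 0 b) t := by
  rw [ContinuousWithinAt, tendsto_iff_dist_tendsto_zero]
  have h0 : Tendsto (fun s : ℝ => ℓ * |s - t|) (𝓝 t) (𝓝 (ℓ * |t - t|)) :=
    (by fun_prop : Continuous fun s : ℝ => ℓ * |s - t|).tendsto t
  rw [sub_self, abs_zero, mul_zero] at h0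
  refine (h0.mono_left nhdsWithin_le_nhds).congr' ?_
  filter_upwards [self_mem_nhdsWithin] with s hs
  exact (hγ s hs t ht).symm

theorem loc_vel0 (x₀ : X) {γ : ℝ → X} {ℓ b : ℝ} (hℓ : 0 < ℓ) (hb : 0 < b)
    (hγ : ∀ s ∈ Icc (0 : ℝ) b, ∀ t ∈ Icc (0 : ℝ) b, dist (γ s) (γ t) = ℓ * |s - t|) {t : ℝ}
    (ht : t ∈ Icc (0 : ℝ) b) (ht' : t < 3 / 4 * b) (hp : γ t ∈ (chartAt 𝔼 x₀).source) :
    ∃ u : ℝ → 𝔼, ContinuousWithinAt u (Icc 0 b) t ∧
      gm x₀ (chartAt 𝔼 x₀ (γ t)) (u t) (u t) = ℓ ^ 2 ∧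
      ∀ᶠ s in 𝓝[Icc 0 b] t, HasDerivWithinAt (fun r => chartAt 𝔼 x₀ (γ r)) (u s) (Icc 0 b) s := by
  have hm : ExM X := ExM.of_exactMid (R247.HR216.exactMid_of_riemannian d X)
  set c := 3 / 4 * b with hc
  have hcm : c ∈ Icc (0 : ℝ) b := ⟨by linarith, by linarith⟩
  have hbm : b ∈ Icc (0 : ℝ) b := ⟨hb.le, le_rfl⟩
  have hdist : ∀ s ∈ Icc (0 : ℝ) b, s < c → dist (γ c) (γ s) = ℓ * (c - s) := by
    intro s hs hsc
    rw [hγ c hcm s hs, abs_of_pos (by linarith)]
  have hsc : ∀ s ∈ Icc (0 : ℝ) b, s < c → SC d (γ c) (γ s) := by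
    intro s hs hsc
    refine sc_symm (sc_of_btw hm (y' := γ b) ?_ ?_)
    · rw [hγ s hs c hcm, hγ c hcm b hbm, hγ s hs b hbm, abs_of_neg (by linarith),
        abs_of_neg (by linarith), abs_of_neg (by linarith)]
      ring
    · intro h
      have h1 := hγ c hcm b hbm
      rw [h, dist_self, abs_of_neg (by linarith)] at h1
      have : 0 < ℓ * -(c - b) := mul_pos hℓ (by linarith)
      linarith
  have ha : chartAt 𝔼 x₀ (γ t) ∈ (chartAt 𝔼 x₀).target := (chartAt 𝔼 x₀).map_source hp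
  have hsa : (chartAt 𝔼 x₀).symm (chartAt 𝔼 x₀ (γ t)) = γ t := (chartAt 𝔼 x₀).left_inv hp
  have h' : SC d (γ c) ((chartAt 𝔼 x₀).symm (chartAt 𝔼 x₀ (γ t))) := by
    rw [hsa]
    exact hsc t ht ht'
  refine ⟨fun s => -((c - s)⁻¹ • grad (chartMetric d X x₀) (fz (γ c) x₀) (chartAt 𝔼 x₀ (γ s))),
    ?_, ?_, ?_⟩
  · have h1 : ContinuousAt (grad (chartMetric d X x₀) (fz (γ c) x₀)) (chartAt 𝔼 x₀ (γ t)) :=
      (contDiffAt_grad (isRiemannianOn_chartMetric (n := d) (M := X) x₀) ha (m := 0)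
        (contDiffAt_fz ha h') (by simp) (by simp)).continuousAt
    have h2 : ContinuousWithinAt (fun s => chartAt 𝔼 x₀ (γ s)) (Icc 0 b) t :=
      ((chartAt 𝔼 x₀).continuousAt hp).comp_continuousWithinAt (ray_cont hγ ht)
    have h3 : ContinuousAt (fun s : ℝ => (c - s)⁻¹) t :=
      (continuousAt_const.sub continuousAt_id).inv₀ (sub_pos.2 ht').ne'
    exact (h3.continuousWithinAt.smul
      (ContinuousAt.comp_continuousWithinAt (f := fun s => chartAt 𝔼 x₀ (γ s)) h1 h2)).neg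
  · have g2 := (grad_fz hm ha h').2
    have hct : c - t ≠ 0 := by linarith
    simp only [map_neg, map_smul, neg_apply, smul_apply, smul_eq_mul]
    rw [g2, hsa, hdist t ht ht']
    field_simp
  · filter_upwards [self_mem_nhdsWithin, mem_nhdsWithin_of_mem_nhds (Iio_mem_nhds ht'),
      (ray_cont hγ ht).eventually ((chartAt 𝔼 x₀).open_source.mem_nhds hp)] with s hs hs' hsp
    refine hasDerivWithinAt_to hm x₀ hs' hsp (hsc s hs hs') hℓ.le (hdist s hs hs') ?_ ?_
    · filter_upwards [self_mem_nhdsWithin, mem_nhdsWithin_of_mem_nhds (Iio_mem_nhds hs')]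
        with r hr hr'
      exact hdist r hr hr'
    · filter_upwards [self_mem_nhdsWithin] with r hr
      exact (hγ r hr s hs).le

theorem loc_vel (x₀ : X) {γ : ℝ → X} {ℓ b : ℝ} (hℓ : 0 < ℓ) (hb : 0 < b)
    (hγ : ∀ s ∈ Icc (0 : ℝ) b, ∀ t ∈ Icc (0 : ℝ) b, dist (γ s) (γ t) = ℓ * |s - t|) {t : ℝ}
    (ht : t ∈ Icc (0 : ℝ) b) (hp : γ t ∈ (chartAt 𝔼 x₀).source) :
    ∃ u : ℝ → 𝔼, ContinuousWithinAt u (Icc 0 b) t ∧
      gm x₀ (chartAt 𝔼 x₀ (γ t)) (u t) (u t) = ℓ ^ 2 ∧
      ∀ᶠ s in 𝓝[Icc 0 b] t, HasDerivWithinAt (fun r => chartAt 𝔼 x₀ (γ r)) (u s) (Icc 0 b) s := by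
  by_cases ht' : t < 3 / 4 * b
  · exact loc_vel0 x₀ hℓ hb hγ ht ht' hp
  have hr : ∀ s ∈ Icc (0 : ℝ) b, b - s ∈ Icc (0 : ℝ) b := fun s hs =>
    ⟨by linarith [hs.2], by linarith [hs.1]⟩
  obtain ⟨u, h1, h2, h3⟩ := loc_vel0 x₀ (γ := fun s => γ (b - s)) hℓ hb
    (fun s hs r hr' => by
      rw [hγ _ (hr s hs) _ (hr r hr'), show b - s - (b - r) = -(s - r) by ring, abs_neg])
    (hr t ht) (by linarith) (by simpa using hp)
  have hc : ContinuousWithinAt (fun s : ℝ => b - s) (Icc 0 b) t :=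
    (continuous_const.sub continuous_id).continuousWithinAt
  have hT : Tendsto (fun s : ℝ => b - s) (𝓝[Icc 0 b] t) (𝓝[Icc 0 b] (b - t)) :=
    hc.tendsto_nhdsWithin hr
  refine ⟨fun s => -u (b - s), (ContinuousWithinAt.comp (f := fun s : ℝ => b - s) h1 hc hr).neg,
    ?_, ?_⟩
  · simp only [sub_sub_cancel] at h2
    simpa using h2
  · filter_upwards [hT.eventually h3] with s hs
    have h4 := HasDerivWithinAt.scomp (h := fun s : ℝ => b - s) (h' := -1) (s := Icc 0 b) s hs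
      ((hasDerivAt_id s).const_sub b).hasDerivWithinAt hr
    simp only [Function.comp_def, sub_sub_cancel, neg_smul, one_smul] at h4
    exact h4

end Riem

open Crest.Agent.R275.Geo Crest.Agent.R273.Kah_333 Crest.Agent.R273.RMan4_798
open Crest.Agent.R273.Ric_798 Crest.Agent.R273.RMan_798 Crest.Agent.R275.Core144
open Crest.Agent.T223.Br Crest.Agent.T223.Tr Crest.Agent.T223.Lb

theorem geo (n : ℕ) : GeoStmt n := by
  intro M _ _ _ A K hP γ ℓ b hℓ hb hγ
  refine ⟨fun i t => derivWithin (fun s => A.e i (γ s)) (Icc 0 b) t, fun i t ht hi => ?_⟩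
  have hu := uniqueDiffOn_Icc hb
  set x₀ : (ofKah K).M := γ t with hx₀
  set j : A.ι := (ofKah K).idx x₀ with hj
  have hjs : γ t ∈ (A.e j).source :=
    (Set.ext_iff.1 (cR_source (A := A) j) _).1 ((ofKah K).idx_mem x₀)
  obtain ⟨u, h1, h2, h3⟩ := loc_vel (d := 2 * n) (X := (ofKah K).M) x₀ (γ := γ) hℓ hb hγ ht
    ((ofKah K).idx_mem x₀)
  have hγc : ∀ s ∈ Icc (0 : ℝ) b, ContinuousWithinAt γ (Icc 0 b) s := fun s hs =>
    ray_cont (X := (ofKah K).M) hγ hs
  set T : Cn n → Cn n := fun w => A.e i ((A.e j).symm w) with hT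
  have hTs : ContDiffOn ℝ ∞ T (A.ov j i) :=
    ((Crest.Agent.R266.SCV.contDiffOn_omega_of_differentiableOn (isOpen_ov j i)
      (A.holo j i)).restrict_scalars ℝ).of_le le_top
  have hTa : ∀ x ∈ (A.e j).source ∩ (A.e i).source, ContDiffAt ℝ ∞ T (A.e j x) := fun x hx =>
    hTs.contDiffAt ((isOpen_ov j i).mem_nhds (mem_ov hx))
  have h4 : ∀ᶠ s in 𝓝[Icc 0 b] t, HasDerivWithinAt (fun r => A.e i (γ r))
      (fderiv ℝ T (A.e j (γ s)) ((eR n).symm (u s))) (Icc 0 b) s := by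
    filter_upwards [h3, self_mem_nhdsWithin,
      (hγc t ht).eventually ((A.e j).open_source.mem_nhds hjs),
      (hγc t ht).eventually ((A.e i).open_source.mem_nhds hi)] with s hs hsm hsj hsi
    have h5 : HasDerivWithinAt (fun r => A.e j (γ r)) ((eR n).symm (u s)) (Icc 0 b) s := by
      have h6 := ((eR n).symm : EE (2 * n) →L[ℝ] Cn n).hasFDerivAt.comp_hasDerivWithinAt s hs
      refine h6.congr (fun r _ => ?_) ?_ <;> exact ((eR n).symm_apply_apply _).symm
    have h7 := ((hTa _ ⟨hsj, hsi⟩).differentiableAt (by simp)).hasFDerivAt.comp_hasDerivWithinAt s h5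
    refine h7.congr_of_eventuallyEq ?_ ?_
    · filter_upwards [(hγc s hsm).eventually ((A.e j).open_source.mem_nhds hsj)] with r hr
      simp only [Function.comp_apply, hT, (A.e j).left_inv hr]
    · simp only [Function.comp_apply, hT, (A.e j).left_inv hsj]
  have h8 : ∀ᶠ s in 𝓝[Icc 0 b] t, derivWithin (fun r => A.e i (γ r)) (Icc 0 b) s =
      fderiv ℝ T (A.e j (γ s)) ((eR n).symm (u s)) := by
    filter_upwards [h4, self_mem_nhdsWithin] with s hs hsm
    exact hs.derivWithin (hu s hsm)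
  have h9 := h8.self_of_nhdsWithin ht
  refine ⟨?_, ?_, ?_⟩
  · simp only
    rw [h9]
    exact h4.self_of_nhdsWithin ht
  · refine ContinuousWithinAt.congr_of_eventuallyEq ?_ h8 h9
    have h10 : ContinuousAt (fderiv ℝ T) (A.e j (γ t)) :=
      ((hTa _ ⟨hjs, hi⟩).fderiv_right (m := 0) (by simp)).continuousAt
    have h11 : ContinuousWithinAt (fun s => A.e j (γ s)) (Icc 0 b) t :=
      ((A.e j).continuousAt hjs).comp_continuousWithinAt (hγc t ht)
    exact (ContinuousAt.comp_continuousWithinAt (f := fun s => A.e j (γ s)) h10 h11).clm_apply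
      ((eR n).symm.continuous.continuousAt.comp_continuousWithinAt h1)
  · simp only
    have e1 : K.g i (γ t) = gc K i (A.e i (γ t)) := by rw [gc, (A.e i).left_inv hi]
    rw [h9, e1, nq_eq_G, ← G_tr K ⟨hjs, hi⟩, ← nq_eq_G, ← bil_eq_nq K j ((A.e j).map_source hjs),
      ← h2, ← R247.Sm879.bil_chartMetric, R202.Tens.bil_apply,
      ContinuousLinearEquiv.apply_symm_apply]
    refine (RAtl.bil_apply (ofKah K) j _ _ _).trans ?_
    have e2 := (ofKah K).chartMetric_eq x₀ ((ofKah K).mem_target x₀)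
    exact Finset.sum_congr rfl fun a _ => Finset.sum_congr rfl fun c _ =>
      congrArg (fun m : Matrix (Fin (2 * n)) (Fin (2 * n)) ℝ => m a c * u t a * u t c) e2.symm

end Crest.Agent.T223.Lb13

theorem Crest.Agent.T223.Lb.geoStmt (n : ℕ) : Crest.Agent.T223.Lb.GeoStmt n :=
  Crest.Agent.T223.Lb13.geo n
end

-- ▼ part T223/LbRay_51
section

/-!
# Row 223 (S0345), module LB (helper51): minimisers, a horofunction with asymptotic rays
-/

set_option autoImplicit false

open Set Filter Topology Metric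

namespace Crest.Agent.T223.Lb

open Crest.Agent.R275.Geo Crest.Agent.R273.Kah_333 Crest.Agent.R273.RMan4_798

namespace Ray51

theorem exists_lim {α X : Type*} [TopologicalSpace X] (U : Ultrafilter α) {f : α → X} {K : Set X}
    (hK : IsCompact K) (h : ∀ᶠ a in (U : Filter α), f a ∈ K) : ∃ c, Tendsto f U (𝓝 c) := by
  obtain ⟨c, -, hc⟩ := hK.ultrafilter_le_nhds (U.map f) (le_principal_iff.2 h)
  exact ⟨c, hc⟩

/-- a horofunction with asymptotic rays on a proper noncompact geodesic space -/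
theorem horo {X : Type*} [MetricSpace X] [ProperSpace X] [NoncompactSpace X]
    (hg : ∀ x y : X, ∃ γ : ℝ → X, γ 0 = x ∧ γ 1 = y ∧
      ∀ s ∈ Icc (0 : ℝ) 1, ∀ t ∈ Icc (0 : ℝ) 1, dist (γ s) (γ t) = |s - t| * dist x y) :
    ∃ b : X → ℝ, (∀ x y, |b x - b y| ≤ dist x y) ∧ ∀ x : X, ∃ γ : ℝ → X, γ 0 = x ∧
      (∀ s t : ℝ, 0 ≤ s → 0 ≤ t → dist (γ s) (γ t) = |s - t|) ∧
      ∀ T : ℝ, 0 ≤ T → b (γ T) = b x + T := by
  obtain ⟨p⟩ : Nonempty X := by
    by_contra h
    rw [not_nonempty_iff] at h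
    exact noncompact_univ X (by rw [univ_eq_empty_iff.2 h]; exact isCompact_empty)
  let U : Ultrafilter X := Ultrafilter.of (cocompact X)
  have hU : ∀ x : X, Tendsto (fun q => dist x q) U atTop := fun x =>
    (tendsto_dist_left_cocompact_atTop x).mono_left (Ultrafilter.of_le _)
  have hb : ∀ z : X, ∃ c, Tendsto (fun q => dist p q - dist z q) U (𝓝 c) := fun z =>
    exists_lim U (isCompact_Icc (a := -dist p z) (b := dist p z))
      (Eventually.of_forall fun q => abs_le.1 (abs_dist_sub_le p z q))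
  choose b hb using hb
  have hlip : ∀ x y, |b x - b y| ≤ dist x y := fun x y => by
    refine le_of_tendsto ((hb x).sub (hb y)).abs (Eventually.of_forall fun q => ?_)
    have := abs_dist_sub_le y x q
    rwa [dist_comm y x, show dist y q - dist x q =
      dist p q - dist x q - (dist p q - dist y q) by ring] at this
  refine ⟨b, hlip, fun x => ?_⟩
  choose g g0 g1 hg using hg x
  have hd : ∀ s t : ℝ, 0 ≤ s → 0 ≤ t → ∀ q, s ≤ dist x q → t ≤ dist x q → 0 < dist x q →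
      dist (g q (s / dist x q)) (g q (t / dist x q)) = |s - t| := by
    intro s t hs ht q h1 h2 h3
    rw [hg q _ ⟨by positivity, (div_le_one h3).2 h1⟩ _ ⟨by positivity, (div_le_one h3).2 h2⟩,
      ← sub_div, abs_div, abs_of_pos h3, div_mul_cancel₀ _ h3.ne']
  have hl : ∀ T : ℝ, ∃ c, 0 ≤ T → Tendsto (fun q => g q (T / dist x q)) U (𝓝 c) := fun T => by
    by_cases hT : 0 ≤ T
    · obtain ⟨c, hc⟩ := exists_lim U (f := fun q => g q (T / dist x q)) (isCompact_closedBall x T) (by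
        filter_upwards [(hU x).eventually_ge_atTop T, (hU x).eventually_gt_atTop 0] with q h1 h2
        have := hd T 0 hT le_rfl q h1 h2.le h2
        rw [zero_div, g0, sub_zero, abs_of_nonneg hT] at this
        exact mem_closedBall.2 this.le)
      exact ⟨c, fun _ => hc⟩
    · exact ⟨x, fun h => absurd h hT⟩
  choose γ hγ using hl
  refine ⟨γ, ?_, fun s t hs ht => ?_, fun T hT => ?_⟩
  · refine tendsto_nhds_unique (hγ 0 le_rfl) ?_
    simp only [zero_div, g0]
    exact tendsto_const_nhds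
  · refine tendsto_nhds_unique ((hγ s hs).dist (hγ t ht)) (tendsto_const_nhds.congr' ?_)
    filter_upwards [(hU x).eventually_ge_atTop s, (hU x).eventually_ge_atTop t,
      (hU x).eventually_gt_atTop 0] with q h1 h2 h3
    exact (hd s t hs ht q h1 h2 h3).symm
  · have h1 : Tendsto (fun q => dist (g q (T / dist x q)) q - dist (γ T) q) U (𝓝 0) := by
      refine squeeze_zero_norm (fun q => abs_dist_sub_le _ _ q) ?_
      exact tendsto_iff_dist_tendsto_zero.1 (hγ T hT)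
    have h2 := ((hb x).add_const T).add h1
    rw [add_zero] at h2
    refine tendsto_nhds_unique (hb (γ T)) (h2.congr' ?_)
    filter_upwards [(hU x).eventually_ge_atTop T, (hU x).eventually_gt_atTop 0] with q h3 h4
    have := hd T (dist x q) hT h4.le q h3 le_rfl h4
    rw [div_self h4.ne', g1, abs_of_nonpos (by linarith)] at this
    rw [this]
    ring

end Ray51

/-- leaf RAY -/
theorem rayStmt (n : ℕ) : RayStmt n := by
  intro M _ _ _ A K hP
  have hg := fun x y : (ofKah K).M => R247.HR216.exists_geodesic_of_riemannian (2 * n) x y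
  refine ⟨fun x y => ?_, fun hN => ?_⟩
  · obtain ⟨γ, h0, h1, h2⟩ := hg x y
    exact ⟨γ, h0, h1, fun s hs t ht => (h2 s hs t ht).trans (mul_comm _ _)⟩
  · have : NoncompactSpace (ofKah K).M := hN
    obtain ⟨b, h1, h2⟩ := Ray51.horo hg
    refine ⟨b, h1, fun x => ?_⟩
    obtain ⟨γ, h3, h4, h5⟩ := h2 x
    exact ⟨γ, h3, fun T hT => ⟨fun s hs t ht => (h4 s t hs.1 ht.1).trans (one_mul _).symm, h5 T hT⟩⟩

end Crest.Agent.T223.Lb
end

-- ▼ part T223/LbTC_24

/-!
# Row 223 (S0345), module LB, leaf TC (helper24): three circles from the barrier for `log d`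
-/

set_option autoImplicit false
set_option linter.unusedVariables false

open Set Filter Topology Metric
open scoped ContDiff ComplexConjugate Matrix ComplexOrder

namespace Crest.Agent.T223.Lb

open Crest.Agent.R275.Geo Crest.Agent.R275.EDR890 Crest.Agent.R273.Kah_333
open Crest.Agent.R273.Hess_333 Crest.Agent.R273.HessB_333 Crest.Agent.R273.RMan4_798
open Crest.Agent.R273.Defs_333
open Crest.Agent.T223.Br Crest.Agent.T223.Tr

noncomputable section

variable {n : ℕ}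

namespace TC24

/-- at a local minimum the Levi form is nonnegative -/
theorem nq_hess_nonneg {u : Cn n → ℝ} {z : Cn n} (hu : ContDiffAt ℝ ∞ u z)
    (hm : IsLocalMin u z) (v : Cn n) : 0 ≤ nq (hess u z) v := by
  have h1 : nq (hess u z) v = lev u z v / 4 := hq_re hu v
  have h2 : ContDiffAt ℝ 2 u z := hu.of_le (WithTop.coe_le_coe.2 le_top)
  have h3 : 0 ≤ lev u z v := by
    simp only [lev, iteratedFDeriv_two_apply]
    exact add_nonneg (R273.C0a_390.fderiv2_nonneg h2 hm _) (R273.C0a_390.fderiv2_nonneg h2 hm _)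
  rw [h1]
  positivity

theorem nq_sub (g h : Matrix (Fin n) (Fin n) ℂ) (v : Cn n) : nq (g - h) v = nq g v - nq h v := by
  unfold nq
  rw [← Complex.sub_re, ← Finset.sum_sub_distrib]
  congr 1
  refine Finset.sum_congr rfl fun a _ => ?_
  rw [← Finset.sum_sub_distrib]
  refine Finset.sum_congr rfl fun b _ => ?_
  rw [Matrix.sub_apply]
  ring

theorem contDiffAt_hol {T : Cn n → Cn n} {z : Cn n} (hT : ∀ᶠ w in 𝓝 z, DifferentiableAt ℂ T w) :
    ContDiffAt ℝ ∞ T z := by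
  obtain ⟨U, hU, hUo, hUz⟩ := _root_.eventually_nhds_iff.1 hT
  have h1 : DifferentiableOn ℂ T U := fun w hw => (hU w hw).differentiableWithinAt
  exact (((Crest.Agent.R266.SCV.contDiffOn_omega_of_differentiableOn hUo h1).restrict_scalars
    ℝ).of_le le_top).contDiffAt (hUo.mem_nhds hUz)

/-- the Levi form of a composition with a holomorphic map -/
theorem nq_hess_comp {u : Cn n → ℝ} {T : Cn n → Cn n} {z : Cn n} (hu : ContDiffAt ℝ ∞ u (T z))
    (hT : ∀ᶠ w in 𝓝 z, DifferentiableAt ℂ T w) (v : Cn n) :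
    nq (hess (fun w => u (T w)) z) v = nq (hess u (T z)) (fderiv ℂ T z v) := by
  rw [← nq_pull]
  congr 1
  ext a b
  rw [hess_comp hu hT]
  simp only [Matrix.mul_apply, Matrix.transpose_apply, Matrix.map_apply, mat, Matrix.of_apply,
    Finset.sum_mul]
  rw [Finset.sum_comm]

variable {M : Type} [TopologicalSpace M] [T2Space M] [ConnectedSpace M] {A : Atl n M}

theorem cont_dK (K : Kah A) (x : M) : Continuous fun y : M => dK K x y := by
  have h : Continuous fun y : (ofKah K).M => dist (α := (ofKah K).M) x y :=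
    continuous_const.dist continuous_id
  exact h

theorem compact_dK (K : Kah A) (hP : ProperSpace (ofKah K).M) (x : M) (r : ℝ) :
    IsCompact {y : M | dK K x y ≤ r} := by
  have h : IsCompact (closedBall (α := (ofKah K).M) x r) := isCompact_closedBall _ _
  have e : {y : M | dK K x y ≤ r} = closedBall (α := (ofKah K).M) x r := by
    ext y
    exact (mem_closedBall' (α := (ofKah K).M)).symm
  rw [e]
  exact h

/-- `log w - c log d(x,·)` has no local maximum away from `x` and from the zeros of `w` -/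
theorem no_max (K : Kah A) (hL : LOG K) {w : M → ℝ} (hp : LogPsh A w) {x y : M} (hxy : x ≠ y)
    (hy : 0 < w y) {c : ℝ} (hc : 0 < c)
    (hm : ∀ᶠ y' in 𝓝 y, Real.log (w y') - c * Real.log (dK K x y') ≤
      Real.log (w y) - c * Real.log (dK K x y)) : False := by
  obtain ⟨i, hi⟩ := A.cover y
  obtain ⟨b, hb, hb0⟩ := hp i y hi hy
  obtain ⟨D, E, v, hD, hD0, hE, hE0, hEle, hv⟩ := hL x i y hi hxy
  have hDt : Tendsto D (𝓝 0) (𝓝 (A.e i y)) := by
    rw [← hD0]
    exact hD.self_of_nhds.continuousAt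
  have hst : Tendsto (A.e i).symm (𝓝 (A.e i y)) (𝓝 y) := by
    have := (A.e i).continuousAt_symm ((A.e i).map_source hi)
    rwa [ContinuousAt, (A.e i).left_inv hi] at this
  have hbD : ContDiffAt ℝ ∞ b (D 0) := by rw [hD0]; exact hb.sm
  have hf1 : ContDiffAt ℝ ∞ (fun w => b (D w)) 0 := hbD.comp 0 (contDiffAt_hol hD)
  have hf2 : ContDiffAt ℝ ∞ (fun w => c * E w) 0 := contDiffAt_const.mul hE
  have hmin : IsLocalMin (fun w => c * E w - b (D w)) 0 := by
    filter_upwards [hEle, hDt.eventually hb.le, (hst.comp hDt).eventually hm] with z h1 h2 h3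
    have h4 := mul_le_mul_of_nonneg_left h1 hc.le
    have h5 := hb.eq
    simp only [Function.comp] at h3
    rw [hD0, hE0, h5]
    linarith
  have h6 := nq_hess_nonneg (hf2.sub hf1) hmin v
  rw [hess_sub hf2 hf1, nq_sub, hess_const_mul c hE, nq_smul, nq_hess_comp hbD hD, hD0] at h6
  have h7 := hb0 (fderiv ℂ D 0 v)
  have h8 := mul_neg_of_pos_of_neg hc hv
  linarith

end TC24

open TC24

end

/-- **three circles** -/
theorem tcStmt (n : ℕ) : TCStmt n := by
  intro M _ _ _ A K hP hL w hw hw0 hp x r1 r2 r3 m1 m3 h1 h12 h23 h13 hm1 hm3 y hy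
  have h2 : 0 < r2 := h1.trans_le h12
  have h3 : 0 < r3 := h1.trans h13
  have hl : 0 < Real.log (r3 / r1) := Real.log_pos ((one_lt_div h1).2 h13)
  have ha : 0 ≤ Real.log (r3 / r2) := Real.log_nonneg ((one_le_div h2).2 h23)
  have hb : 0 ≤ Real.log (r2 / r1) := Real.log_nonneg ((one_le_div h1).2 h12)
  have hab : Real.log (r3 / r2) + Real.log (r2 / r1) = Real.log (r3 / r1) := by
    rw [Real.log_div h3.ne' h2.ne', Real.log_div h2.ne' h1.ne', Real.log_div h3.ne' h1.ne']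
    ring
  rcases le_or_gt m3 m1 with hle | hlt
  · refine (hm3 y (hy.le.trans h23)).trans (Real.exp_le_exp.2 ?_)
    rw [le_div_iff₀ hl, ← hab]
    nlinarith [mul_le_mul_of_nonneg_left hle ha]
  · set c : ℝ := (m3 - m1) / Real.log (r3 / r1) with hc
    have hc0 : 0 < c := div_pos (sub_pos.2 hlt) hl
    set h : M → ℝ := fun y => m1 + c * (Real.log (dK K x y) - Real.log r1) with hh
    set Q : Set M := {y | r1 ≤ dK K x y ∧ dK K x y ≤ r3} with hQ
    have hd := TC24.cont_dK K x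
    have hQc : IsCompact Q := by
      have e : Q = {y | dK K x y ≤ r3} ∩ {y | r1 ≤ dK K x y} := by
        ext y; simp only [hQ, mem_ofPred_eq, mem_inter_iff]; tauto
      rw [e]
      exact (TC24.compact_dK K hP x r3).inter_right (isClosed_le continuous_const hd)
    have hyQ : y ∈ Q := ⟨by rw [hy]; exact h12, by rw [hy]; exact h23⟩
    have hcont : ContinuousOn (fun y => w y * Real.exp (-h y)) Q := by
      refine hw.continuousOn.mul (Real.continuous_exp.comp_continuousOn ?_)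
      refine ContinuousOn.neg (continuousOn_const.add (continuousOn_const.mul
        (ContinuousOn.sub ?_ continuousOn_const)))
      exact hd.continuousOn.log fun y hy => (h1.trans_le hy.1).ne'
    obtain ⟨y0, hy0, hmax⟩ := hQc.exists_isMaxOn ⟨y, hyQ⟩ hcont
    have key : w y0 * Real.exp (-h y0) ≤ 1 := by
      by_contra hcon
      push Not at hcon
      have hgt : Real.exp (h y0) < w y0 := by
        have := mul_lt_mul_of_pos_right hcon (Real.exp_pos (h y0))
        rwa [one_mul, mul_assoc, ← Real.exp_add, neg_add_cancel, Real.exp_zero, mul_one] at this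
      have hw1 : 0 < w y0 := (Real.exp_pos _).trans hgt
      have hn1 : r1 < dK K x y0 := by
        refine lt_of_le_of_ne hy0.1 fun e => ?_
        have h4 := hm1 y0 e.ge
        have h5 : h y0 = m1 := by simp only [hh, ← e, sub_self, mul_zero, add_zero]
        rw [h5] at hgt
        linarith
      have hn3 : dK K x y0 < r3 := by
        refine lt_of_le_of_ne hy0.2 fun e => ?_
        have h4 := hm3 y0 e.le
        have h5 : h y0 = m3 := by
          simp only [hh, e]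
          rw [← Real.log_div h3.ne' h1.ne', hc, div_mul_cancel₀ _ hl.ne']
          ring
        rw [h5] at hgt
        linarith
      have hxy : x ≠ y0 := by
        rintro rfl
        have : dK K x x = 0 := dist_self (α := (ofKah K).M) x
        linarith
      refine TC24.no_max K hL hp hxy hw1 hc0 ?_
      have e1 : ∀ᶠ y' in 𝓝 y0, r1 < dK K x y' := hd.continuousAt.eventually (lt_mem_nhds hn1)
      have e2 : ∀ᶠ y' in 𝓝 y0, dK K x y' < r3 := hd.continuousAt.eventually (gt_mem_nhds hn3)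
      have e3 : ∀ᶠ y' in 𝓝 y0, 0 < w y' := hw.continuousAt.eventually (lt_mem_nhds hw1)
      filter_upwards [e1, e2, e3] with y' a1 a2 a3
      have a4 : w y' * Real.exp (-h y') ≤ w y0 * Real.exp (-h y0) := hmax ⟨a1.le, a2.le⟩
      have a5 := Real.log_le_log (mul_pos a3 (Real.exp_pos _)) a4
      rw [Real.log_mul a3.ne' (Real.exp_pos _).ne', Real.log_mul hw1.ne' (Real.exp_pos _).ne',
        Real.log_exp, Real.log_exp] at a5
      simp only [hh] at a5
      linarith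
    have h6 : w y * Real.exp (-h y) ≤ 1 := (hmax hyQ).trans key
    have h7 : w y ≤ Real.exp (h y) := by
      have := mul_le_mul_of_nonneg_right h6 (Real.exp_pos (h y)).le
      rwa [one_mul, mul_assoc, ← Real.exp_add, neg_add_cancel, Real.exp_zero, mul_one] at this
    refine h7.trans (Real.exp_le_exp.2 (le_of_eq ?_))
    simp only [hh, hy]
    rw [← Real.log_div h2.ne' h1.ne', hc, eq_div_iff hl.ne', add_mul, mul_right_comm,
      div_mul_cancel₀ _ hl.ne', ← hab]
    ring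

end Crest.Agent.T223.Lb
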