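import Crest.Agent.T223.LoLip_18
import Crest.Agent.T223.LoCal_18

/-!
# T223, module LOWER (helper18), part 3: static facts (one time slice)

* `fderiv_sq_le`, `grLe_of_gsq` : `|df(v)|² ≤ 4 |∂f|²_G G(v,v)`; gradient bound for `g₀`
* `zeta_supp`  : upper support of `√(a² + d(x,·)²)` with `∂∂̄ ≤ (C / 2a) g₀`
* `low_u`      : lower bound for `u` from three circles
* `dist_num`   : the numerical inequality behind `d₀ ≤ (3/2) ρ + C (1+t)²`
-/

set_option autoImplicit false
set_option linter.unusedSectionVars false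
set_option linter.unusedVariables false

open Set Filter Topology Metric Matrix
open scoped ContDiff ComplexConjugate ComplexOrder

noncomputable section

namespace Crest.Agent.T223.Lo

open Crest.Agent.R275.Geo Crest.Agent.R273.Hess_333 Crest.Agent.R273.HessB_333
open Crest.Agent.R275.EDR890 Crest.Agent.T223.Tr Crest.Agent.T223.Br
open Crest.Agent.R273.Kah_333 Crest.Agent.R273.RMan4_798 Crest.Agent.R273.Ric_798

variable {n : ℕ}

theorem fderiv_eq_dz {f : Cn n → ℝ} {z : Cn n} (hf : DifferentiableAt ℝ f z) (v : Cn n) :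
    fderiv ℝ f z v = 2 * (∑ a, dz f z a * v a).re := by
  have h0 : fderiv ℝ (cu f) z = Complex.ofRealCLM.comp (fderiv ℝ f z) :=
    (Complex.ofRealCLM.hasFDerivAt.comp z hf.hasFDerivAt).fderiv
  have h1 := wdL_vec false (fderiv ℝ (cu f) z) v
  have h2 : ∑ a, cj false (v a) • wdL (false, a) (fderiv ℝ (cu f) z) = ∑ a, dz f z a * v a := by
    refine Finset.sum_congr rfl fun a _ => ?_
    simp only [cj_false, smul_eq_mul, dz, wd]
    ring
  rw [h2, h0] at h1
  rw [← h1]
  simp [cI]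

/-- Cauchy-Schwarz between vectors and covectors -/
theorem re_sq_le {G : Mat n} (hG : G.PosDef) (ξ v : Cn n) :
    (∑ a, ξ a * v a).re ^ 2 ≤ nqi G ξ * nq G v := by
  have hu : IsUnit G.det := hG.det_pos.ne'.isUnit
  set η : Cn n := WithLp.toLp 2 fun b => conj ((G⁻¹ *ᵥ ξ.ofLp) b) with hη
  have hH : ∀ a b, conj (G a b) = G b a := fun a b => hG.isHermitian.apply b a
  have hHi : ∀ a b, conj (G⁻¹ a b) = G⁻¹ b a := fun a b => hG.isHermitian.inv.apply b a
  have e1 : ∀ a, ∑ b, G a b * conj (η b) = ξ a := by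
    intro a
    have h1 : G *ᵥ (G⁻¹ *ᵥ ξ.ofLp) = ξ.ofLp := by
      rw [Matrix.mulVec_mulVec, Matrix.mul_nonsing_inv _ hu, Matrix.one_mulVec]
    have h2 := congrFun h1 a
    rw [← h2]
    simp only [hη, Complex.conj_conj]
    rfl
  have e2 : ∀ w : Cn n, ∑ a, ∑ b, G a b * w a * conj (η b) = ∑ a, ξ a * w a := by
    intro w
    refine Finset.sum_congr rfl fun a _ => ?_
    rw [← e1 a, Finset.sum_mul]
    exact Finset.sum_congr rfl fun b _ => by ring
  have e3 : ∀ w : Cn n, ∑ a, ∑ b, G a b * η a * conj (w b) = conj (∑ a, ξ a * w a) := by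
    intro w
    rw [← e2 w, map_sum, Finset.sum_comm]
    refine Finset.sum_congr rfl fun a _ => ?_
    rw [map_sum]
    refine Finset.sum_congr rfl fun b _ => ?_
    simp only [map_mul, hH, Complex.conj_conj]
    ring
  have e4 : nq G η = nqi G ξ := by
    unfold nq nqi
    rw [e2 η]
    congr 1
    refine Finset.sum_congr rfl fun a _ => ?_
    simp only [hη, Matrix.mulVec, dotProduct, map_sum, map_mul, hHi, Finset.mul_sum]
    exact Finset.sum_congr rfl fun b _ => by ring
  have key : ∀ l : ℝ, 0 ≤ nqi G ξ * (l * l) + (-2 * (∑ a, ξ a * v a).re) * l + nq G v := by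
    intro l
    have h1 := nq_nonneg hG.posSemidef (v - (l : ℂ) • η)
    have h2 : (∑ a, ∑ b, G a b * (v - (l : ℂ) • η) a * conj ((v - (l : ℂ) • η) b)) =
        (∑ a, ∑ b, G a b * v a * conj (v b)) - l * (∑ a, ∑ b, G a b * v a * conj (η b))
          - l * (∑ a, ∑ b, G a b * η a * conj (v b))
          + l * l * (∑ a, ∑ b, G a b * η a * conj (η b)) := by
      simp only [Finset.mul_sum, ← Finset.sum_sub_distrib, ← Finset.sum_add_distrib]
      refine Finset.sum_congr rfl fun a _ => Finset.sum_congr rfl fun b _ => ?_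
      simp only [PiLp.sub_apply, PiLp.smul_apply, smul_eq_mul, map_sub, map_mul,
        Complex.conj_ofReal]
      ring
    unfold nq at h1
    rw [h2, e2 v, e3 v] at h1
    have h3 : (∑ a, ∑ b, G a b * η a * conj (η b)).re = nqi G ξ := e4
    have h4 : (∑ a, ∑ b, G a b * v a * conj (v b)).re = nq G v := rfl
    rw [← Complex.ofReal_mul] at h1
    simp only [Complex.add_re, Complex.sub_re, Complex.re_ofReal_mul, Complex.conj_re, h3, h4] at h1
    linarith
  have h5 := discrim_le_zero key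
  unfold discrim at h5
  nlinarith

theorem nqi_nonneg {G : Mat n} (hG : G.PosDef) (ξ : Cn n) : 0 ≤ nqi G ξ := by
  have h1 := nq_nonneg hG.inv.posSemidef.transpose ξ
  exact h1

/-- `|df(v)|² ≤ 4 |∂f|²_G G(v,v)` -/
theorem fderiv_sq_le {f : Cn n → ℝ} {z : Cn n} (hf : DifferentiableAt ℝ f z) {G : Mat n}
    (hG : G.PosDef) (v : Cn n) : (fderiv ℝ f z v) ^ 2 ≤ 4 * nqi G (dz f z) * nq G v := by
  rw [fderiv_eq_dz hf]
  have := re_sq_le hG (dz f z) v
  nlinarith

theorem hess_const' (c : ℝ) (z : Cn n) : hess (fun _ : Cn n => c) z = 0 := by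
  ext a b
  rw [hess_apply]
  have h6 : wd (true, b) (cu fun _ : Cn n => c) = fun _ => 0 := by
    funext w
    exact wd_const (c : ℂ) w _
  rw [h6, wd_const]
  rfl

variable {M : Type} [TopologicalSpace M] {A : Atl n M}

theorem G_KK (K : Kah A) (i : A.ι) (z v : Cn n) : G (KK K i) z v v = nq (gc K i z) v := by
  unfold G KK nq gc
  congr 1
  simp only [dotProduct, Matrix.mulVec, Matrix.transpose_apply, Finset.mul_sum, Pi.star_apply,
    RCLike.star_def]
  rw [Finset.sum_comm]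
  exact Finset.sum_congr rfl fun a _ => Finset.sum_congr rfl fun b _ => by ring

/-- gradient bound for `g₀` from `|∂f|²_G ≤ β` and `G ≤ c g₀` -/
theorem grLe_of_gsq (K : Kah A) {f : M → ℝ} {x : M} {i : A.ι} (hx : x ∈ (A.e i).source)
    (hf : ContDiffAt ℝ 1 (inC A i f) (A.e i x)) {g : Cn n → Mat n} (hg : (g (A.e i x)).PosDef)
    {β c b : ℝ} (hc : 0 ≤ c) (hβ : gsq g (inC A i f) (A.e i x) ≤ β)
    (hle : ∀ v, nq (g (A.e i x)) v ≤ c * nq (gc K i (A.e i x)) v) (hb : 4 * β * c ≤ b ^ 2) :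
    GrLe K f x b := by
  refine ⟨i, hx, hf, fun v => ?_⟩
  have h1 := fderiv_sq_le (hf.differentiableAt (by simp)) hg v
  have h2 := nqi_nonneg hg (dz (inC A i f) (A.e i x))
  have h3 := nq_nonneg hg.posSemidef v
  have h4 : 0 ≤ nq (gc K i (A.e i x)) v :=
    nq_nonneg (K.pos i _ ((A.e i).map_target ((A.e i).map_source hx))).posSemidef v
  rw [G_KK]
  unfold gsq at hβ
  calc _ ≤ 4 * nqi (g (A.e i x)) (dz (inC A i f) (A.e i x)) * nq (g (A.e i x)) v := h1
    _ ≤ 4 * β * (c * nq (gc K i (A.e i x)) v) := by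
        have h5 : 0 ≤ β := h2.trans hβ
        exact mul_le_mul (by linarith) (hle v) h3 (by positivity)
    _ = (4 * β * c) * nq (gc K i (A.e i x)) v := by ring
    _ ≤ _ := mul_le_mul_of_nonneg_right hb h4

theorem kahAt_gc (K : Kah A) {i : A.ι} {z : Cn n} (hz : z ∈ (A.e i).target) :
    KahAt (gc K i) z := by
  have hU := (A.e i).open_target.mem_nhds hz
  refine ⟨?_, ?_, ?_, ?_⟩
  · filter_upwards [hU] with w hw a b
    exact (K.sm i a b).contDiffAt ((A.e i).open_target.mem_nhds hw)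
  · filter_upwards [hU] with w hw
    exact K.pos i _ ((A.e i).map_target hw)
  · filter_upwards [hU] with w hw
    exact K.closed i w hw
  · filter_upwards [hU] with w hw
    exact K.closed' i w hw

variable [T2Space M] [ConnectedSpace M] {K0 : Kah A} {p : M}


theorem dK_nonneg (K : Kah A) (x y : M) : 0 ≤ dK K x y := dist_nonneg




theorem continuous_dK (K : Kah A) (x : M) : Continuous (dK K x) :=
  Continuous.dist (α := (ofKah K).M) (f := fun _ : (ofKah K).M => (x : (ofKah K).M))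
    (g := fun y : (ofKah K).M => y) continuous_const continuous_id

/-- `√(a² + d(x,·)²)` -/
def zeta (K : Kah A) (x : M) (a : ℝ) (y : M) : ℝ := √(a ^ 2 + dK K x y ^ 2)

theorem continuous_zeta (K : Kah A) (x : M) (a : ℝ) : Continuous (zeta K x a) :=
  (continuous_const.add ((continuous_dK K x).pow 2)).sqrt

theorem le_zeta (K : Kah A) (x : M) (a : ℝ) (y : M) : a ≤ zeta K x a y :=
  Real.le_sqrt_of_sq_le (by nlinarith [sq_nonneg (dK K x y)])



/-- upper support function of `ζ` with small Levi form -/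
theorem zeta_supp (I : Init K0 p) (x : M) {a : ℝ} (ha : 0 < a) {i : A.ι} {y : M}
    (hy : y ∈ (A.e i).source) : ∃ b : Cn n → ℝ, ContDiffAt ℝ ∞ b (A.e i y) ∧
      b (A.e i y) = zeta K0 x a y ∧ (∀ᶠ w in 𝓝 (A.e i y), zeta K0 x a ((A.e i).symm w) ≤ b w) ∧
      ∀ v, nq (hess b (A.e i y)) v ≤ I.C / (2 * a) * nq (gc K0 i (A.e i y)) v := by
  obtain ⟨b, h1, h2, h3, h4⟩ := I.levi x i y hy
  set Z := zeta K0 x a y with hZ
  have hZa : a ≤ Z := le_zeta K0 x a y
  have hZ0 : 0 < Z := ha.trans_le hZa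
  have hZ2 : Z ^ 2 = a ^ 2 + dK K0 x y ^ 2 := Real.sq_sqrt (by positivity)
  refine ⟨fun w => (2 * Z)⁻¹ * b w + (Z - (2 * Z)⁻¹ * dK K0 x y ^ 2), ?_, ?_, ?_, fun v => ?_⟩
  · exact (contDiffAt_const.mul h1).add contDiffAt_const
  · simp only [h2]; ring
  · filter_upwards [h3] with w hw
    unfold zeta
    set D := dK K0 x ((A.e i).symm w) ^ 2 with hD
    have hD0 : 0 ≤ D := sq_nonneg _
    have e : (2 * Z)⁻¹ * b w + (Z - (2 * Z)⁻¹ * dK K0 x y ^ 2) =
        (b w + a ^ 2 + Z ^ 2) / (2 * Z) := by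
      field_simp
      linarith
    rw [e, le_div_iff₀ (by positivity)]
    have h5 : √(a ^ 2 + D) ^ 2 = a ^ 2 + D := Real.sq_sqrt (by positivity)
    nlinarith [sq_nonneg (√(a ^ 2 + D) - Z)]
  · have e : hess (fun w => (2 * Z)⁻¹ * b w + (Z - (2 * Z)⁻¹ * dK K0 x y ^ 2)) (A.e i y) =
        (((2 * Z)⁻¹ : ℝ) : ℂ) • hess b (A.e i y) := by
      rw [hess_add (contDiffAt_const.mul h1) contDiffAt_const, hess_const', add_zero,
        hess_const_mul _ h1]
    rw [e, nq_smul]
    have h5 : 0 ≤ nq (gc K0 i (A.e i y)) v :=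
      nq_nonneg (K0.pos i _ ((A.e i).map_target ((A.e i).map_source hy))).posSemidef v
    have hC : 0 ≤ I.C := zero_le_one.trans I.one_le
    calc (2 * Z)⁻¹ * nq (hess b (A.e i y)) v ≤ (2 * Z)⁻¹ * (I.C * nq (gc K0 i (A.e i y)) v) :=
          mul_le_mul_of_nonneg_left (h4 v) (by positivity)
      _ ≤ (2 * a)⁻¹ * (I.C * nq (gc K0 i (A.e i y)) v) := by
          gcongr
      _ = _ := by ring

end Crest.Agent.T223.Lo
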