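import Crest.Agent.T223.Rich2_37
import Crest.Agent.T223.LbDef_78
import Crest.Agent.T223.LbTC_24_Mg
import Crest.Agent.T223.FrA_38
import Crest.Agent.T223.Tch_45
import Crest.Agent.T223.CnZ_87
import Crest.Agent.T223.EvC_41
import Crest.Agent.T223.OsLaDef_10
import Crest.Agent.T223.CnF_87
import Crest.Agent.T223.EvA_41
import Crest.Agent.T223.OsTch_24
import Crest.Agent.T223.OsKitA_61
import Crest.Agent.T223.OsLp_84
import Crest.Agent.T223.LoSt_18
import Crest.Agent.T223.StDefB_88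
import Crest.Agent.T223.Gr2_44
import Crest.Agent.T223.OsKitB_61

-- ▼ part T223/Rich3_37
section

/-!
# Row 223, module RICH (helper37), file 3: the statement `RichStmt` of `LbDef_78`
-/

set_option autoImplicit false

open Set Filter Topology

namespace Crest.Agent.T223.Rich

open Crest.Agent.R275.Geo Crest.Agent.R275.EDR890 Crest.Agent.R273.Kah_333
open Crest.Agent.R273.Hess_333 Crest.Agent.T223.Lb

theorem richStmt (n : ℕ) : RichStmt n := by
  intro M _ _ _ A b hb hs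
  obtain ⟨ψ, h1, h2, h3⟩ := rich A hb fun x => by
    obtain ⟨i, hx⟩ := A.cover x
    obtain ⟨φ, hφ, hpos⟩ := hs i x hx
    exact ⟨i, hx, φ, hφ.sm, hφ.eq, hφ.le, hpos⟩
  refine ⟨ψ, h1, fun x => ?_, fun i z hz => ?_⟩
  · rw [abs_le]
    constructor <;> linarith [(h2 x).1, (h2 x).2]
  · have h4 := h3 i _ ((A.e i).map_target hz)
    unfold hsf at h4
    rw [(A.e i).right_inv hz] at h4
    exact h4

end Crest.Agent.T223.Rich
end

-- ▼ part T223/LbFin_78
section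

/-!
# Row 223 (S0345), module LB (helper78): Busemann barriers, `enStmt`, `lbStmt`
-/

set_option autoImplicit false
set_option linter.unusedVariables false
set_option linter.unusedSectionVars false

open Set Filter Topology Metric Complex MeasureTheory
open scoped ContDiff ComplexConjugate Matrix ComplexOrder

namespace Crest.Agent.T223.Lb

open Crest.Agent.R275.Geo Crest.Agent.R275.EDR890 Crest.Agent.R273.Kah_333
open Crest.Agent.R273.Hess_333 Crest.Agent.R273.HessB_333 Crest.Agent.R273.RMan4_798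
open Crest.Agent.R275.Core144
open Crest.Agent.T223.Br Crest.Agent.T223.Tr

noncomputable section

variable {n : ℕ} {M : Type} [TopologicalSpace M] {A : Atl n M}

theorem bis_rsmul (g : Cn n → Mat n) (z u η : Cn n) (a c : ℝ) :
    bis g z ((a : ℂ) • u) ((c : ℂ) • η) = a ^ 2 * c ^ 2 * bis g z u η := by
  unfold bis
  rw [← re_ofReal_mul]
  congr 1
  simp only [Finset.mul_sum, PiLp.smul_apply, smul_eq_mul, map_mul, Complex.conj_ofReal]
  refine Finset.sum_congr rfl fun _ _ => Finset.sum_congr rfl fun _ _ =>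
    Finset.sum_congr rfl fun _ _ => Finset.sum_congr rfl fun _ _ => ?_
  push_cast
  ring

theorem cont_Rm (K : Kah A) (i : A.ι) (a b c d : Fin n) :
    ContinuousOn (fun z => Rm (gc K i) z c d a b) (A.e i).target := by
  intro z hz
  have h := kah_gc K hz
  have h0 : SmM (gc K i) z := h.sm
  have h1 : SmM (fun w => Rm (gc K i) w c d) z :=
    ((h0.wdM _).wdM _).neg.add (((h0.wdM _).mul (h0.inv (KahAt.unit h).ne_zero)).mul (h0.wdM _))
  exact (h1 a b).continuousAt.continuousWithinAt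

theorem nq_pos {g : Mat n} (h : g.PosDef) {v : Cn n} (hv : v ≠ 0) : 0 < nq g v := by
  rw [nq_eq_dot]
  have h0 : (fun a => conj (v a)) ≠ 0 := by
    intro h1
    apply hv
    ext a
    simpa using congrFun h1 a
  exact (Complex.lt_def.1 (h.dotProduct_mulVec_pos h0)).1

/-- a uniform positive lower bound of the bisectional curvature on a compact set -/
theorem exists_kappa {K : Kah A} (hK : BKpos K) {i : A.ι} {C : Set (Cn n)} (hC : IsCompact C)
    (hCi : C ⊆ (A.e i).target) : ∃ κ > 0, ∀ z ∈ C, ∀ u η,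
      κ * nq (gc K i z) u * nq (gc K i z) η ≤ bis (gc K i) z u η := by
  set W : Set (Cn n × Cn n × Cn n) := C ×ˢ sphere 0 1 ×ˢ sphere 0 1 with hW
  have hWc : IsCompact W := hC.prod ((isCompact_sphere _ _).prod (isCompact_sphere _ _))
  have hp : ∀ a, Continuous fun v : Cn n => v a := fun a =>
    (EuclideanSpace.proj a : Cn n →L[ℂ] ℂ).continuous
  have hpc : ∀ a, Continuous fun v : Cn n => conj (v a) := fun a =>
    Complex.continuous_conj.comp (hp a)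
  have hF : ContinuousOn (fun q : Cn n × Cn n × Cn n => bis (gc K i) q.1 q.2.1 q.2.2) W := by
    refine Complex.continuous_re.comp_continuousOn (continuousOn_finsetSum _ fun a _ =>
      continuousOn_finsetSum _ fun b _ => continuousOn_finsetSum _ fun c _ =>
        continuousOn_finsetSum _ fun d _ => ?_)
    exact (((((cont_Rm K i a b c d).comp continuousOn_fst fun q hq => hCi hq.1).mul
      ((hp a).comp continuous_snd.fst).continuousOn).mul
      ((hpc b).comp continuous_snd.fst).continuousOn).mul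
      ((hp c).comp continuous_snd.snd).continuousOn).mul
      ((hpc d).comp continuous_snd.snd).continuousOn
  have hN : ContinuousOn (fun q : Cn n × Cn n × Cn n =>
      nq (gc K i q.1) q.2.1 * nq (gc K i q.1) q.2.2) W :=
    (contDiffOn_nq K i contDiffOn_fst contDiff_snd.fst.contDiffOn
      fun q hq => hCi hq.1).continuousOn.mul
    (contDiffOn_nq K i contDiffOn_fst contDiff_snd.snd.contDiffOn
      fun q hq => hCi hq.1).continuousOn
  have hne : ∀ v ∈ sphere (0 : Cn n) 1, v ≠ 0 := fun v hv h0 => by simp [h0] at hv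
  obtain ⟨Λ, hΛ, h⟩ := Tch.exists_lt_forall_pos hWc hF hN (Λ := 0) fun q hq => by
    rw [zero_mul, add_zero]
    exact hK i _ (hCi hq.1) _ _ (hne _ hq.2.1) (hne _ hq.2.2)
  refine ⟨-Λ, neg_pos.2 hΛ, fun z hz u η => ?_⟩
  by_cases hu : u = 0
  · simp [hu, bis, nq]
  by_cases hη : η = 0
  · simp [hη, bis, nq]
  have hs : ∀ v : Cn n, v ≠ 0 → ((‖v‖⁻¹ : ℝ) : ℂ) • v ∈ sphere (0 : Cn n) 1 := fun v hv => by
    simp [norm_smul, hv]
  have h1 := h (z, ((‖u‖⁻¹ : ℝ) : ℂ) • u, ((‖η‖⁻¹ : ℝ) : ℂ) • η) ⟨hz, hs u hu, hs η hη⟩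
  simp only [bis_rsmul, nq_rsmul] at h1
  have h2 : 0 < ‖u‖⁻¹ ^ 2 * ‖η‖⁻¹ ^ 2 := by positivity
  have h3 : 0 < ‖u‖⁻¹ ^ 2 * ‖η‖⁻¹ ^ 2 *
      (bis (gc K i) z u η + Λ * nq (gc K i z) u * nq (gc K i z) η) := by
    linarith
  have h4 := (pos_iff_pos_of_mul_pos h3).1 h2
  linarith

variable [T2Space M] [ConnectedSpace M] {K : Kah A}

theorem exists_RV (hP : ProperSpace (ofKah K).M) {γ : ℝ → M} {ℓ b : ℝ} (hl : 0 < ℓ) (hb : 0 < b)
    (h : Ray K γ ℓ b) : ∃ vel, RV K γ ℓ b vel := by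
  obtain ⟨vel, hv⟩ := geoStmt n M A K hP γ ℓ b hl hb h
  exact ⟨vel, hl.le, h, hv⟩

theorem exists_RV' (hP : ProperSpace (ofKah K).M) (x y : M) :
    ∃ γ vel, γ 0 = x ∧ γ 1 = y ∧ RV K γ (dK K x y) 1 vel := by
  by_cases hxy : x = y
  · subst hxy
    refine ⟨fun _ => x, fun _ _ => 0, rfl, rfl, dK_nonneg K _ _, fun s _ t _ => ?_,
      fun i t _ _ => ⟨hasDerivWithinAt_const _ _ _, continuousWithinAt_const, ?_⟩⟩
    · rw [dK_self, zero_mul]
    · simp [dK_self, nq]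
  obtain ⟨γ, h0, h1, h⟩ := (rayStmt n M A K hP).1 x y
  obtain ⟨vel, hv⟩ := exists_RV hP (dK_pos K hxy) one_pos h
  exact ⟨γ, vel, h0, h1, hv⟩

/-- `∂∂̄ d(x,·)² ≤ g` in the support sense -/
theorem lb_one (hP : ProperSpace (ofKah K).M) (hK : BKpos K) (x : M) (i : A.ι) {y : M}
    (hy : y ∈ (A.e i).source) : ∃ b, USup A i (fun z => dK K x z ^ 2) y b ∧
      ∀ v, nq (hess b (A.e i y)) v ≤ nq (gc K i (A.e i y)) v := by
  obtain ⟨γ, vel, rfl, rfl, h⟩ := exists_RV' hP x y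
  obtain ⟨B, h1, h2⟩ := (lb_ray hK h 1 (right_mem_Icc.2 zero_le_one)).resolve_left one_ne_zero i hy
  refine ⟨B, h1, fun v => ?_⟩
  rw [gc_at K hy, ← one_mul (nq (K.g i _) v)]
  exact h2 v

theorem lb1 (hP : ProperSpace (ofKah K).M) (hK : BKpos K) : LB1 K := by
  intro x i y hy
  obtain ⟨B, h1, h2⟩ := lb_one hP hK x i hy
  refine ⟨B, h1, fun v => ?_⟩
  linarith [h2 v, Lb13.nq_gc_nonneg K i ((A.e i).map_source hy) v]

theorem bus [NoncompactSpace M] (hP : ProperSpace (ofKah K).M) (hK : BKpos K) : BUS K := by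
  obtain ⟨b, hb, hr⟩ := (rayStmt n M A K hP).2 inferInstance
  refine ⟨b, hb, fun i y hy => ?_⟩
  obtain ⟨γ, rfl, hγ⟩ := hr y
  obtain ⟨δ', hδ', hw⟩ := (hγ 1 zero_le_one).1.win zero_le_one (left_mem_Icc.2 zero_le_one) hy
  set δ := min (δ' / 2) 1 with hδdef
  have hδ : 0 < δ := lt_min (half_pos hδ') one_pos
  have hδi : ∀ u ∈ Icc (0 : ℝ) δ, γ u ∈ (A.e i).source := fun u hu =>
    hw u ⟨hu.1, hu.2.trans (min_le_right _ _)⟩ (by linarith [hu.1])
      (by linarith [hu.2.trans (min_le_left _ _)])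
  have hCc : IsCompact ((fun u => A.e i (γ u)) '' Icc 0 δ) :=
    isCompact_Icc.image_of_continuousOn
      ((A.e i).continuousOn.comp ((hγ δ hδ.le).1.cont zero_le_one) hδi)
  obtain ⟨κ, hκ, hκ'⟩ := exists_kappa hK hCc (by
    rintro _ ⟨u, hu, rfl⟩; exact (A.e i).map_source (hδi u hu))
  set T := 2 * δ + 8 / (κ * δ) with hT
  have h8 : 0 < 8 / (κ * δ) := by positivity
  have hT0 : 0 < T := by positivity
  have hσ : Ray K (fun τ => γ (T - τ)) 1 T := by
    intro s hs t ht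
    rw [(hγ T hT0.le).1 (T - s) ⟨by linarith [hs.2], by linarith [hs.1]⟩ (T - t)
      ⟨by linarith [ht.2], by linarith [ht.1]⟩, abs_sub_comm]
    congr 2
    ring
  obtain ⟨vel, hv⟩ := exists_RV hP one_pos hT0 hσ
  have hs0 : 0 < T - δ := by linarith
  have hwin : ∀ τ ∈ Icc (T - δ) T, T - τ ∈ Icc (0 : ℝ) δ := fun τ hτ =>
    ⟨by linarith [hτ.2], by linarith [hτ.1]⟩
  have hprev := (lb_ray hK hv (T - δ) ⟨hs0.le, by linarith⟩).resolve_left hs0.ne' i
    (hδi _ (hwin _ ⟨le_rfl, by linarith⟩))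
  obtain ⟨B, hB1, hB2⟩ := step1 hv hs0.le (by linarith : T - δ < T) le_rfl
    (fun τ hτ => hδi _ (hwin τ hτ)) hκ.le (fun τ hτ => hκ' _ ⟨_, hwin τ hτ, rfl⟩) (Or.inr hprev)
  simp only [sub_self, sub_zero] at hB1 hB2
  have hd : dK K (γ T) (γ 0) = T := by
    rw [(hγ T hT0.le).1 T (right_mem_Icc.2 hT0.le) 0 (left_mem_Icc.2 hT0.le), sub_zero,
      abs_of_pos hT0, one_mul]
  have hgain : 2 ≤ κ * 1 ^ 2 * (T - δ) ^ 2 * (T - (T - δ)) / T := by
    rw [le_div_iff₀ hT0, sub_sub_cancel]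
    have h1 : T / 2 ≤ T - δ := by linarith
    have h2 : (T / 2) ^ 2 ≤ (T - δ) ^ 2 := pow_le_pow_left₀ (by positivity) h1 2
    have h3 : 8 ≤ κ * δ * T := by
      have h4 : κ * δ * (8 / (κ * δ)) = 8 := by field_simp
      have h5 : 8 / (κ * δ) ≤ T := by linarith
      nlinarith [mul_le_mul_of_nonneg_left h5 (mul_pos hκ hδ).le]
    have h6 := mul_le_mul_of_nonneg_left h2 (mul_pos hκ hδ).le
    nlinarith
  have hms : ContDiffAt ℝ ∞ (fun z => -(1 / (2 * T)) * B z) (A.e i (γ 0)) :=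
    contDiffAt_const.mul hB1.sm
  refine ⟨fun z => (b (γ 0) + T / 2) + -(1 / (2 * T)) * B z,
    ⟨contDiffAt_const.add hms, ?_, ?_⟩, fun v hv0 => ?_⟩
  · rw [hB1.eq, hd]
    field_simp
    ring
  · filter_upwards [hB1.le] with z hz
    have h1 := (abs_le.1 (hb (γ T) ((A.e i).symm z))).2
    rw [(hγ T hT0.le).2] at h1
    set d := dK K (γ T) ((A.e i).symm z)
    have h2 : d ≤ T / 2 + 1 / (2 * T) * d ^ 2 := by
      have h3 : T / 2 + 1 / (2 * T) * d ^ 2 - d = 1 / (2 * T) * (d - T) ^ 2 := by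
        field_simp
        ring
      have h4 : 0 ≤ 1 / (2 * T) * (d - T) ^ 2 := by positivity
      linarith
    have h5 : 1 / (2 * T) * d ^ 2 ≤ 1 / (2 * T) * B z :=
      mul_le_mul_of_nonneg_left hz (by positivity)
    linarith
  · rw [nq_hess_add contDiffAt_const hms, nq_hess_const, nq_hess_mul _ hB1.sm, zero_add]
    have h1 := nq_pos (K.pos i _ hy) hv0
    have h2 : nq (hess B (A.e i (γ 0))) v < 0 := (hB2 v).trans_lt
      (mul_neg_of_neg_of_pos (by linarith) h1)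
    have h3 : 0 < 1 / (2 * T) := by positivity
    nlinarith

end

/-- **the energy trick** -/
theorem enStmt (n : ℕ) : EnStmt n := fun M _ _ _ _ A K hP hK =>
  ⟨lb1 hP hK, log_of hK fun x y _ => exists_RV' hP x y, bus hP hK⟩

/-- **module LB** -/
theorem lbStmt (n : ℕ) : LbStmt n := lb_of (enStmt n) (tcStmt n) (Rich.richStmt n)

end Crest.Agent.T223.Lb
end

-- ▼ part T223/CnW_87
section

/-!
# Row 223 (helper87), CONE module, part W: the null vector inequality in a chart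

`lyhP` (past version, sharp constants), `lyhPtStmt : Os.LyhPtStmt n`.
-/

set_option autoImplicit false
set_option linter.unusedSectionVars false

open Set Filter Topology
open scoped ContDiff ComplexConjugate ComplexOrder Matrix

namespace Crest.Agent.T223.Cn

open Crest.Agent.R275.Geo Crest.Agent.R275.EDR890 Crest.Agent.R273.Hess_333
open Crest.Agent.T223.Br Crest.Agent.T223.Tr Crest.Agent.T223.Ev
open Crest.Agent.T223.Os (lyhS)

noncomputable section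

variable {n : ℕ} {p : ℝ × Cn n}

theorem smP_θ (p : ℝ × Cn n) (T0 : ℝ) : SmP p fun t _ => ((t - T0 : ℝ) : ℂ) :=
  (smP_time (a := fun t => t - T0) (contDiffAt_id.sub contDiffAt_const)).ofReal

theorem smP_θi {T0 : ℝ} (h : T0 < p.1) : SmP p fun t _ => (((t - T0)⁻¹ : ℝ) : ℂ) :=
  (smP_time (a := fun t => (t - T0)⁻¹)
    ((contDiffAt_id.sub contDiffAt_const).inv (sub_pos.2 h).ne')).ofReal

/-- the time function `t - T₀` -/
def tmG {T0 : ℝ} (h : T0 < p.1) : Tm (gdr p) where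
  θ := mk (smP_θ p T0)
  θi := mk (smP_θi h)
  τ := p.1 - T0
  mul := ((smP_θ p T0).rep.mul (smP_θi h).rep).ext Rep.one (by
    have : ∀ᶠ q : ℝ × Cn n in 𝓝 p, T0 < q.1 := continuousAt_fst.eventually (lt_mem_nhds h)
    filter_upwards [nhdsWithin_le_nhds this] with q hq
    rw [← Complex.ofReal_mul, mul_inv_cancel₀ (sub_pos.2 hq).ne', Complex.ofReal_one])
  cj := (smP_θ p T0).rep.cj_real
  d k := ((smP_θ p T0).rep.d k).ext Rep.zero (Eventually.of_forall fun q => wd_const _ _ _)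
  D := (smP_θ p T0).rep.D_eq Rep.one (Eventually.of_forall fun q =>
    ((hasDerivAt_id q.1).sub_const T0).ofReal_comp.hasDerivWithinAt)
  ev := (smP_θ p T0).rep.ev
  pos := sub_pos.2 h

/-- a vector field from its components -/
def vf (u : Fin n → ℝ → Cn n → ℂ) (t : ℝ) (z : Cn n) : Cn n := WithLp.toLp 2 fun i => u i t z

variable {g : ℝ → Cn n → Mat n} {v a : Fin n → Gm p} {V A : Fin n → ℝ → Cn n → ℂ}

theorem RepM.hC {Φ : Matrix (Fin n) (Fin n) (Gm p)} {f : ℝ → Cn n → Mat n} (h : RepM Φ f)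
    (hv : ∀ i, Rep (v i) (V i)) : Rep ((gdr p).bf Φ v v) fun t z => hC (f t z) (vf V t z) :=
  h.bf hv hv

theorem KahP.rep_nq (h : KahP g p) (hv : ∀ i, Rep (v i) (V i)) :
    Rep ((gdr p).bf h.km.g v v) fun t z => (nq (g t z) (vf V t z) : ℂ) :=
  (h.rep_g.hC hv).re_of_cj (by rw [cj_bf, h.km.herm, Matrix.transpose_transpose])

theorem KahP.rep_th (h : KahP g p) (hv : ∀ i, Rep (v i) (V i)) (ha : ∀ i, Rep (a i) (A i))
    (hol : ∀ k, (gdr p).Hol (a k)) : ∃ F, Rep (h.km.th v a 0) F ∧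
      ∀ t z, (F t z).re = bis (g t) z (vf V t z) (vf A t z) := by
  rw [KM.th, KM.Th_dv hol]
  simp only [bf_sum, DR.bf_smul]
  refine ⟨_, Rep.sum Finset.univ fun c => Rep.sum Finset.univ fun d =>
    ((ha c).mul (ha d).cj).mul ((h.rep_Th c d).hC hv), fun t z => ?_⟩
  unfold bis T223.hC
  congr 1
  simp only [Finset.mul_sum]
  calc _ = ∑ c, ∑ i, ∑ d, ∑ j, A c t z * conj (A d t z) *
        (Rm (g t) z c d i j * vf V t z i * conj (vf V t z j)) :=
        Finset.sum_congr rfl fun _ _ => Finset.sum_comm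
    _ = ∑ i, ∑ c, ∑ d, ∑ j, A c t z * conj (A d t z) *
        (Rm (g t) z c d i j * vf V t z i * conj (vf V t z j)) := Finset.sum_comm
    _ = ∑ i, ∑ c, ∑ j, ∑ d, A c t z * conj (A d t z) *
        (Rm (g t) z c d i j * vf V t z i * conj (vf V t z j)) :=
        Finset.sum_congr rfl fun _ _ => Finset.sum_congr rfl fun _ _ => Finset.sum_comm
    _ = ∑ i, ∑ j, ∑ c, ∑ d, A c t z * conj (A d t z) *
        (Rm (g t) z c d i j * vf V t z i * conj (vf V t z j)) :=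
        Finset.sum_congr rfl fun _ _ => Finset.sum_comm
    _ = _ := Finset.sum_congr rfl fun _ _ => Finset.sum_congr rfl fun _ _ =>
        Finset.sum_congr rfl fun _ _ => Finset.sum_congr rfl fun _ _ => by
          simp only [vf]; ring

theorem KRFp.rep_ly (h : KRFp g p) {u e : Gm p} {τ : ℝ → ℝ} {E : ℝ → Cn n → ℂ}
    (hu : Rep u fun t _ => (((τ t)⁻¹ : ℝ) : ℂ)) (he : Rep e E) (hv : ∀ i, Rep (v i) (V i))
    (ha : ∀ i, Rep (a i) (A i)) (hol : ∀ k, (gdr p).Hol (a k)) :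
    ∃ F, Rep (h.toKahP.km.ly u v a e) F ∧
      ∀ t z, (F t z).re = lyhS (g t) (τ t) z (E t z) (vf A t z) (vf V t z) := by
  obtain ⟨F, hF, eF⟩ := h.toKahP.rep_th hv ha hol
  have h1 := ((h.rep_ricT.add ((h.toKahP.rep_ric.mul h.toKahP.rep_gi).mul h.toKahP.rep_ric)).add
    (RepM.smul hu h.toKahP.rep_ric)).hC hv
  have h2 := he.cj.mul (Rep.sum Finset.univ fun k => (ha k).mul ((h.toKahP.rep_nabRic k).hC hv))
  refine ⟨_, (((he.mul he.cj).mul h1).add (h2.add h2.cj)).add hF, fun t z => ?_⟩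
  simp only [Complex.add_re, eF, Complex.conj_re, Complex.mul_conj, Complex.re_ofReal_mul,
    Complex.normSq_eq_norm_sq]
  rw [← two_mul]
  rfl

theorem rep_cst (x : Cn n) (i : Fin n) : Rep (cst (fun i => x i) i : Gm p) fun _ _ => x i :=
  Rep.const _

/-- **null vector inequality for the Harnack form**, past version -/
theorem lyhP (h : KRFp g p) {φ : ℝ → Cn n → ℝ} (hφ : SmP p φ) {T0 q Kc K' : ℝ} (hT : T0 < p.1)
    (hq : 0 < q) (hp : 0 < φ p.1 p.2) (hK : 0 ≤ Kc) (hK' : 0 ≤ K') (h1 : BKge (g p.1) p.2 Kc)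
    (h2 : BKle (g p.1) p.2 Kc)
    (hC : ∀ᶠ x in past p, ∀ (c : ℂ) (a v : Cn n), 0 ≤ lyhS (g x.1) (x.1 - T0) x.2 c a v +
      φ x.1 x.2 * (nq (g x.1 x.2) a + q * ‖c‖ ^ 2) * nq (g x.1 x.2) v)
    {c : ℂ} {a v : Cn n} (hv : v ≠ 0) (hac : a ≠ 0 ∨ c ≠ 0)
    (h3 : ∀ w, lyhS (g p.1) (p.1 - T0) p.2 c a w ≤
      K' * (nq (g p.1 p.2) a + q * ‖c‖ ^ 2) * nq (g p.1 p.2) w)
    (h0 : lyhS (g p.1) (p.1 - T0) p.2 c a v +
      φ p.1 p.2 * (nq (g p.1 p.2) a + q * ‖c‖ ^ 2) * nq (g p.1 p.2) v = 0) :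
    boxp g φ p.1 p.2 ≤ φ p.1 p.2 * (n * Kc + (n + 1) * (K' + φ p.1 p.2) +
      (n + 2) * ((p.1 - T0)⁻¹ + n * Kc) ^ 2 / q + Kc + 2 * φ p.1 p.2) +
      gsq (g p.1) (φ p.1) p.2 / φ p.1 p.2 := by
  have hτ := sub_pos.2 hT
  have hk := h.toKahP
  have rφ := hφ.ofReal.rep
  have rθ : Rep (tmG hT).θ fun t _ => ((t - T0 : ℝ) : ℂ) := (smP_θ p T0).rep
  have rθi : Rep (tmG hT).θi fun t _ => (((t - T0)⁻¹ : ℝ) : ℂ) := (smP_θi hT).rep
  obtain ⟨c0, hc0⟩ : ∃ c0 : ℂ, c0 * ((p.1 - T0 : ℝ) : ℂ) = c :=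
    ⟨_, div_mul_cancel₀ c (Complex.ofReal_ne_zero.2 hτ.ne')⟩
  have re := (Rep.const (p := p) c0).mul rθ
  have hn : ∀ t : ℝ, ‖c0 * ((t - T0 : ℝ) : ℂ)‖ ^ 2 = Complex.normSq c0 * (t - T0) ^ 2 := fun t => by
    rw [← Complex.normSq_eq_norm_sq, map_mul, Complex.normSq_ofReal, sq]
  have main : ∀ {v a : Fin n → Gm p} {V A : Fin n → ℝ → Cn n → ℂ}, (∀ i, Rep (v i) (V i)) →
      (∀ i, Rep (a i) (A i)) → (∀ k, (gdr p).Hol (a k)) →
      ∃ F, Rep (hk.km.ly (tmG hT).θi v a (kk c0 * (tmG hT).θ) + mk hφ.ofReal *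
        ((gdr p).bf hk.km.g a a + kk q * (kk (c0 * conj c0) * ((tmG hT).θ * (tmG hT).θ))) *
          (gdr p).bf hk.km.g v v) F ∧ ∀ t z, (F t z).re =
        lyhS (g t) (t - T0) z (c0 * ((t - T0 : ℝ) : ℂ)) (vf A t z) (vf V t z) + φ t z *
          (nq (g t z) (vf A t z) + q * ‖c0 * ((t - T0 : ℝ) : ℂ)‖ ^ 2) * nq (g t z) (vf V t z) := by
    intro v a V A hv ha hol
    obtain ⟨F, hF, eF⟩ := h.rep_ly (τ := fun t => t - T0) rθi re hv ha hol
    refine ⟨_, hF.add ((rφ.mul ((hk.rep_nq ha).add ((Rep.const (q : ℂ)).mul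
      ((Rep.const (c0 * conj c0)).mul (rθ.mul rθ))))).mul (hk.rep_nq hv)), fun t z => ?_⟩
    rw [Complex.add_re, eF, hn, Complex.mul_conj, sq]
    simp only [← Complex.ofReal_mul, ← Complex.ofReal_add, Complex.ofReal_re]
  have eq : ∀ {v : Fin n → Gm p} {V : Fin n → ℝ → Cn n → ℂ}, (∀ i, Rep (v i) (V i)) →
      ((gdr p).ev ((gdr p).bf hk.km.g v v)).re = nq (g p.1 p.2) (vf V p.1 p.2) := fun hv => by
    rw [(hk.rep_nq hv).ev, Complex.ofReal_re]
  have hN : 0 < nq (g p.1 p.2) a + q * ‖c‖ ^ 2 := by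
    rcases hac with ha | hc
    · exact add_pos_of_pos_of_nonneg (nq_pos hk.pd ha) (by positivity)
    · exact add_pos_of_nonneg_of_pos (Ev.nq_nonneg hk.pd.posSemidef a) (by positivity)
  have key := KM.lyh_ring (tmG hT) h.flow0 rφ.cj_real rφ.ev hp hq (c := c0)
    (fun v a hol => by
      choose V hV using fun i => exists_rep (v i)
      choose A hA using fun i => exists_rep (a i)
      obtain ⟨F, hF, eF⟩ := main hV hA hol
      exact hF.pos (hC.mono fun x hx => by rw [eF]; exact hx _ _ _))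
    (v := cst fun i => v i) (a := cst fun i => a i) (hol_cst _)
    (by rw [eq (rep_cst v)]; exact (nq_pos hk.pd hv).ne')
    (by
      obtain ⟨F, hF, eF⟩ := main (rep_cst v) (rep_cst a) (hol_cst _)
      rw [hF.ev, eF, hc0]
      exact h0)
    hK hK'
    (fun v a hol => by
      choose V hV using fun i => exists_rep (v i)
      choose A hA using fun i => exists_rep (a i)
      obtain ⟨F, hF, eF⟩ := hk.rep_th hV hA hol
      rw [hF.ev, eF, eq hV, eq hA, mul_right_comm]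
      exact abs_le.2 ⟨h1 _ _, h2 _ _⟩)
    (eq (rep_cst a)) (Ev.nq_nonneg hk.pd.posSemidef a) (N := nq (g p.1 p.2) a + q * ‖c‖ ^ 2)
    (by rw [← hc0, hn]; rfl) hN (G := gsq (g p.1) (φ p.1) p.2)
    (by rw [(hk.rep_gsq rφ).ev, Complex.ofReal_re]) (gsq_nonneg hk.pd)
    (fun v => by
      choose V hV using fun i => exists_rep (v i)
      obtain ⟨F, hF, eF⟩ := h.rep_ly (τ := fun t => t - T0) rθi re hV (rep_cst a) (hol_cst _)
      rw [hF.ev, eF, eq hV, hc0]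
      exact h3 _)
  rwa [hk.ev_bx rφ, Complex.ofReal_re] at key

/-- **(LYHpt)** -/
theorem lyhPtStmt (n : ℕ) : Os.LyhPtStmt n := by
  intro K hK
  refine ⟨(3 * n + 6) * K + (n + 2) * (1 + n * K) ^ 2, ?_⟩
  intro g φ t T0 q z hg hφ hq hτ hp hpK hG h1 h2 h3 hC c a v hv hac h0
  have hT : 0 < t - T0 := (mul_pos_iff_of_pos_right hq).1 (zero_lt_one.trans_le hτ)
  have hKq : 0 ≤ K * q := by positivity
  have key := lyhP (p := (t, z)) hg.krfp (SmP.of_contDiffAt hφ) (sub_pos.1 hT) hq hp hKq hKq h1 h2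
    hC hv hac (fun w => (abs_le.1 (h3 c a w)).2) h0
  rw [boxp_eq_box' (hφ.differentiableAt (by simp))] at key
  simp only at key
  have u1 : gsq (g t) (φ t) z / φ t z ≤ K * q * φ t z := by
    rw [div_le_iff₀ hp]; nlinarith
  have u2 : (t - T0)⁻¹ ≤ q := by rw [inv_le_iff_one_le_mul₀' hT]; exact hτ
  have u3 : (n + 2) * ((t - T0)⁻¹ + n * (K * q)) ^ 2 / q ≤ (n + 2) * (1 + n * K) ^ 2 * q := by
    rw [div_le_iff₀ hq]
    have : ((t - T0)⁻¹ + n * (K * q)) ^ 2 ≤ ((1 + n * K) * q) ^ 2 :=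
      pow_le_pow_left₀ (by positivity) (by linarith) 2
    nlinarith [mul_le_mul_of_nonneg_left this (show (0 : ℝ) ≤ n + 2 by positivity)]
  have u4 : n * (K * q) + (n + 1) * (K * q + φ t z) +
      (n + 2) * ((t - T0)⁻¹ + n * (K * q)) ^ 2 / q + K * q + 2 * φ t z ≤
      ((3 * n + 5) * K + (n + 2) * (1 + n * K) ^ 2) * q := by
    nlinarith [mul_le_mul_of_nonneg_left hpK (show (0 : ℝ) ≤ n + 3 by positivity)]
  nlinarith [mul_le_mul_of_nonneg_left u4 hp.le]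

end

end Crest.Agent.T223.Cn
end

-- ▼ part T223/CnL_43
section

/-!
# Row 223 (helper43), CONE module, part L: the Lichnerowicz maximum principle in the ring

`η` a closed Hermitian matrix field with `D η = ∂∂̄ (tr_g η) + src`, `η + φ g ≥ 0` in the past
with a null vector at the base point.  Then `(D - Δ) φ ≤ n K φ + l (tr η + n φ) + m`.
-/

set_option autoImplicit false
set_option linter.unusedSectionVars false

open Finset Matrix
open scoped ComplexConjugate ComplexOrder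

namespace Crest.Agent.T223.CnL

open Crest.Agent.T223.Cn

noncomputable section

variable {n : ℕ} {S : Type} [CommRing S] [Algebra ℂ S]

/-- constant vector field -/
def cst (S : Type) [CommRing S] [Algebra ℂ S] (v : Fin n → ℂ) : Fin n → S :=
  fun i => algebraMap ℂ S (v i)

/-- complex sesquilinear form -/
def qf (M : Matrix (Fin n) (Fin n) ℂ) (x : Fin n → ℂ) : ℂ := ∑ i, ∑ j, x i * conj (x j) * M i j

variable {R : DR n S}

theorem hol_cst (v : Fin n → ℂ) (k : Fin n) : R.Hol (cst S v k) := R.hol_alg _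

theorem ev_cst (v : Fin n → ℂ) (k : Fin n) : R.ev (cst S v k) = v k := by simp [cst]

theorem ev_bf (M : Matrix (Fin n) (Fin n) S) (x : Fin n → S) :
    R.ev (R.bf M x x) = qf (R.eM M) fun i => R.ev (x i) := by
  simp only [R.bf_eq, map_sum, map_mul, R.ev_cj, qf, DR.eM_apply]

theorem ev_bf_cst (M : Matrix (Fin n) (Fin n) S) (v : Fin n → ℂ) :
    R.ev (R.bf M (cst S v) (cst S v)) = qf (R.eM M) v := by
  rw [ev_bf]; simp only [ev_cst]

theorem der_bf_cst (δ : Der S) (M : Matrix (Fin n) (Fin n) S) (v : Fin n → ℂ) :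
    δ (R.bf M (cst S v) (cst S v)) = R.bf (dM δ M) (cst S v) (cst S v) := by
  simp only [R.bf_eq, map_sum, D_mul, cst, R.cj_alg, D_alg, dM_apply, zero_mul, mul_zero, add_zero,
    zero_add]




theorem qf_one (x : Fin n → ℂ) :
    qf (1 : Matrix (Fin n) (Fin n) ℂ) x = ((∑ i, ‖x i‖ ^ 2 : ℝ) : ℂ) := by
  simp only [qf, Matrix.one_apply, mul_ite, mul_one, mul_zero, sum_ite_eq, mem_univ, if_true,
    Complex.mul_conj, Complex.normSq_eq_norm_sq]
  push_cast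
  rfl

theorem qf_zero (x : Fin n → ℂ) : qf (0 : Matrix (Fin n) (Fin n) ℂ) x = 0 := by simp [qf]

theorem qf_single (M : Matrix (Fin n) (Fin n) ℂ) (i : Fin n) :
    qf M (Pi.single i 1) = M i i := by
  simp [qf, Pi.single_apply, apply_ite conj]

theorem psd_of_qf {P : Matrix (Fin n) (Fin n) ℂ} (hP : P.IsHermitian)
    (h : ∀ x, 0 ≤ (qf P x).re) : P.PosSemidef := by
  refine PosSemidef.of_dotProduct_mulVec_nonneg hP fun x => ?_
  have e : star x ⬝ᵥ P *ᵥ x = qf P fun i => conj (x i) := by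
    simp only [qf, dotProduct, mulVec, Pi.star_apply, mul_sum, RCLike.star_def, Complex.conj_conj]
    exact sum_congr rfl fun _ _ => sum_congr rfl fun _ _ => by ring
  refine Complex.nonneg_iff.2 ⟨by rw [e]; exact h _, ?_⟩
  have h2 : conj (star x ⬝ᵥ P *ᵥ x) = star x ⬝ᵥ P *ᵥ x := by
    have h3 : star (star x ⬝ᵥ P *ᵥ x) = star (P *ᵥ x) ⬝ᵥ x := by
      rw [star_dotProduct, star_star]
    rw [← RCLike.star_def, h3, star_mulVec, hP.eq, dotProduct_mulVec]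
  exact (Complex.conj_eq_iff_im.1 h2).symm

/-- `tr (T P) ≥ - c tr P` if `T ≥ -c` and `P ≥ 0` -/
theorem trace_mul_ge {T P : Matrix (Fin n) (Fin n) ℂ} (hP : P.PosSemidef) {c : ℝ}
    (hT : ∀ x, -(c * ∑ i, ‖x i‖ ^ 2) ≤ (qf T x).re) :
    -(c * P.trace.re) ≤ (T * P).trace.re := by
  open scoped MatrixOrder in
  obtain ⟨B, hB⟩ := CStarAlgebra.nonneg_iff_eq_star_mul_self.1 hP.nonneg
  have e : ∀ T : Matrix (Fin n) (Fin n) ℂ, (T * P).trace = ∑ k, qf T fun i => B k i := by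
    intro T
    rw [hB]
    simp only [Matrix.trace, Matrix.diag_apply, Matrix.mul_apply, Matrix.star_apply, qf, mul_sum,
      RCLike.star_def]
    calc _ = ∑ i, ∑ k, ∑ j, T i j * (conj (B k j) * B k i) := sum_congr rfl fun _ _ => sum_comm
      _ = ∑ k, ∑ i, ∑ j, T i j * (conj (B k j) * B k i) := sum_comm
      _ = _ := sum_congr rfl fun _ _ => sum_congr rfl fun _ _ => sum_congr rfl fun _ _ => by ring
  have e1 := e 1
  rw [Matrix.one_mul] at e1
  rw [e, e1, Complex.re_sum, Complex.re_sum, mul_sum, ← sum_neg_distrib]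
  refine sum_le_sum fun k _ => ?_
  rw [qf_one, Complex.ofReal_re]
  exact hT _

theorem trace_le {T : Matrix (Fin n) (Fin n) ℂ} {c : ℝ}
    (hT : ∀ x, (qf T x).re ≤ c * ∑ i, ‖x i‖ ^ 2) : T.trace.re ≤ n * c := by
  have h : ∀ i, (T i i).re ≤ c := by
    intro i
    have := hT (Pi.single i 1)
    rw [qf_single] at this
    refine this.trans (le_of_eq ?_)
    have : ∑ j, ‖(Pi.single i 1 : Fin n → ℂ) j‖ ^ 2 = 1 := by
      rw [Finset.sum_eq_single i] <;> simp +contextual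
    rw [this, mul_one]
  simp only [Matrix.trace, Matrix.diag_apply, Complex.re_sum]
  calc _ ≤ ∑ _i : Fin n, c := sum_le_sum fun i _ => h i
    _ = _ := by simp

/-- a closed Hermitian matrix field: `∂_k ∂̄_k η_{a b̄} = ∂_a ∂̄_b η_{k k̄}` -/
theorem swap_closed {η : Matrix (Fin n) (Fin n) S} (hη : R.cM η = ηᵀ)
    (hcl : ∀ a b c, R.d c (η a b) = R.d a (η c b)) (k a b : Fin n) :
    R.d k (R.db k (η a b)) = R.d a (R.db b (η k k)) := by
  have cj : ∀ a b, R.cj (η a b) = η b a := fun a b => congrFun (congrFun hη a) b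
  have hcl' : ∀ a b c, R.db c (η a b) = R.db b (η a c) := fun a b c =>
    R.cj_inj (by rw [R.cj_db, R.cj_db, cj, cj, hcl])
  rw [hcl' a b k, R.ddb, hcl a k k, ← R.ddb]

theorem bf_hs_cst (f : S) (v : Fin n → ℂ) :
    R.bf (R.hs f) (cst S v) (cst S v) = R.dv (cst S v) 0 (R.dbv (cst S v) 0 f) := by
  simp only [R.bf_eq, DR.hs, of_apply, R.dv_apply, R.dbv_apply, map_zero, zero_smul, add_zero,
    map_sum, D_mul, (hol_cst v _).d_cj, zero_mul, zero_add, mul_sum, mul_assoc]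

namespace Normal

variable {K : KM R} (hN : K.Normal)
include hN

theorem gi0 : R.eM K.gi = 1 := by
  have := congrArg R.eM K.inv
  rwa [R.eM_mul, hN.g0, Matrix.one_mul, R.eM_one] at this

theorem g1b (k : Fin n) : R.eM (dM (R.db k) K.g) = 0 := by
  ext a b
  have h := congrFun (congrFun (hN.g1 k) b) a
  simp only [DR.eM_apply, dM_apply, Matrix.zero_apply] at h ⊢
  rw [← K.cj_g, ← R.cj_d, R.ev_cj, h, map_zero]

theorem gdv (a : Fin n → S) : R.eM (dM (R.dv a 0) K.g) = 0 := by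
  ext i j
  have h := fun k => congrFun (congrFun (hN.g1 k) i) j
  simp only [DR.eM_apply, dM_apply, Matrix.zero_apply] at h ⊢
  simp [R.dv_apply, h]

theorem gdbv (a : Fin n → S) : R.eM (dM (R.dbv a 0) K.g) = 0 := by
  ext i j
  have h := fun k => congrFun (congrFun (g1b hN k) i) j
  simp only [DR.eM_apply, dM_apply, Matrix.zero_apply] at h ⊢
  simp [R.dbv_apply, h]

theorem gi_der {δ : Der S} (h : R.eM (dM δ K.g) = 0) : R.eM (dM δ K.gi) = 0 := by
  rw [dM_inv δ K.inv, R.eM_neg, R.eM_mul, R.eM_mul, h, Matrix.mul_zero, Matrix.zero_mul, neg_zero]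

theorem Th_ev {δ δ' : Der S} (h : R.eM (dM δ K.g) = 0) :
    R.eM (Th δ δ' K.g K.gi) = -R.eM (dM δ (dM δ' K.g)) := by
  rw [Th, R.eM_add, R.eM_neg, R.eM_mul, R.eM_mul, h, Matrix.zero_mul, Matrix.zero_mul, add_zero]

theorem gi_der2 {δ δ' : Der S} (h : R.eM (dM δ K.g) = 0) :
    R.eM (dM δ (dM δ' K.gi)) = R.eM (Th δ δ' K.g K.gi) := by
  have := congrArg R.eM (Th_inv δ δ' K.inv)
  rw [R.eM_sub, R.eM_mul, R.eM_mul, R.eM_mul, R.eM_mul, gi_der hN h, gi0 hN, Matrix.mul_zero,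
    sub_zero, Matrix.one_mul, Matrix.mul_one] at this
  exact this

theorem tr_ev (M : Matrix (Fin n) (Fin n) S) : R.ev (K.tr M) = (R.eM M).trace := by
  rw [KM.tr, R.ev_trace, R.eM_mul, gi0 hN, Matrix.one_mul]

theorem lap_ev (f : S) : R.ev (K.lap f) = ∑ k, R.ev (R.d k (R.db k f)) := by
  rw [KM.lap, tr_ev hN]
  simp [Matrix.trace, DR.hs]

/-- second derivative of a trace -/
theorem dd_tr {δ δ' : Der S} (h : R.eM (dM δ K.g) = 0) (h' : R.eM (dM δ' K.g) = 0)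
    (M : Matrix (Fin n) (Fin n) S) :
    R.ev (δ (δ' (K.tr M))) =
      (R.eM (Th δ δ' K.g K.gi) * R.eM M).trace + (R.eM (dM δ (dM δ' M))).trace := by
  rw [KM.tr, D_trace, D_trace, R.ev_trace, dM_mul, dM_add, dM_mul, dM_mul]
  simp only [R.eM_add, R.eM_mul, gi_der hN h, gi_der hN h', gi_der2 hN h, gi0 hN, Matrix.zero_mul,
    Matrix.one_mul, add_zero, zero_add, Matrix.trace_add]

end Normal

/-- sum of the pure second derivatives of a closed Hermitian field -/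
theorem sum_dd_bf {η : Matrix (Fin n) (Fin n) S} (hη : R.cM η = ηᵀ)
    (hcl : ∀ a b c, R.d c (η a b) = R.d a (η c b)) (v : Fin n → ℂ) :
    ∑ k, R.d k (R.db k (R.bf η (cst S v) (cst S v))) =
      (dM (R.dv (cst S v) 0) (dM (R.dbv (cst S v) 0) η)).trace := by
  simp only [der_bf_cst, Matrix.trace, Matrix.diag_apply, dM_apply, ← bf_hs_cst]
  refine sum_congr rfl fun k _ => ?_
  congr 1
  ext a b
  exact swap_closed hη hcl k a b

theorem bf_ric_cst (K : KM R) (v : Fin n → ℂ) :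
    R.bf K.ric (cst S v) (cst S v) =
      K.tr (Th (R.dv (cst S v) 0) (R.dbv (cst S v) 0) K.g K.gi) := by
  rw [KM.Th_dv (hol_cst v)]
  simp only [K.tr_sum, K.tr_smul, R.bf_eq, KM.ric, of_apply]

/-- the maximum principle: `(D - Δ) f ≤ 0` at a past minimum -/
theorem box_nonpos (K : KM R) {f : S} (hf : R.Pos f) (h0 : (R.ev f).re = 0) :
    (R.ev (R.D f - K.lap f)).re ≤ 0 := by
  obtain ⟨F, hN⟩ := K.exists_normal
  have h1 := R.mp1 f hf h0
  have h2 : 0 ≤ (R.ev (K.lap f)).re := by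
    rw [← K.fr_lap F, ← F.dr_ev, Normal.lap_ev hN, Complex.re_sum]
    refine sum_nonneg fun k _ => ?_
    have := F.dr.mp2 f hf h0 (Pi.single k 1)
    simpa [Pi.single_apply, apply_ite conj] using this
  rw [map_sub, Complex.sub_re]
  linarith

/-- LICH in a normal frame: the pointwise identity -/
theorem lich_id {K : KM R} (hN : K.Normal) (hF : K.Flow 0) {η src : Matrix (Fin n) (Fin n) S}
    (hη : R.cM η = ηᵀ) (hcl : ∀ a b c, R.d c (η a b) = R.d a (η c b))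
    (hev : dM R.D η = R.hs (K.tr η) + src) (φ : S) (v : Fin n → ℂ) :
    R.ev (R.D (R.bf (η + φ • K.g) (cst S v) (cst S v)) -
        K.lap (R.bf (η + φ • K.g) (cst S v) (cst S v))) =
      R.ev (R.D φ - K.lap φ) * ((∑ i, ‖v i‖ ^ 2 : ℝ) : ℂ) +
        (R.eM (Th (R.dv (cst S v) 0) (R.dbv (cst S v) 0) K.g K.gi) * R.eM η).trace +
        qf (R.eM src) v := by
  set δ := R.dv (cst S v) 0 with hδ
  set δ' := R.dbv (cst S v) 0 with hδ'
  have h1 : R.eM (dM δ K.g) = 0 := Normal.gdv hN _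
  have h2 : R.eM (dM δ' K.g) = 0 := Normal.gdbv hN _
  set T := R.eM (Th δ δ' K.g K.gi) with hT
  set N : S := R.bf K.g (cst S v) (cst S v) with hNv
  have eN : R.ev N = ((∑ i, ‖v i‖ ^ 2 : ℝ) : ℂ) := by rw [hNv, ev_bf_cst, hN.g0, qf_one]
  have eNd : ∀ k, R.ev (R.d k N) = 0 := fun k => by
    rw [hNv, der_bf_cst, ev_bf_cst, hN.g1, qf_zero]
  have eNb : ∀ k, R.ev (R.db k N) = 0 := fun k => by
    rw [hNv, der_bf_cst, ev_bf_cst, Normal.g1b hN, qf_zero]
  have eND : R.ev (R.D N) = -T.trace := by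
    have hF' : dM R.D K.g = -K.ric := by
      have := hF
      unfold KM.Flow at this
      rw [this]; simp
    rw [hNv, der_bf_cst, hF', R.bf_neg, map_neg, bf_ric_cst, Normal.tr_ev hN]
  have eNL : ∑ k, R.ev (R.d k (R.db k N)) = -T.trace := by
    rw [← map_sum, hNv, sum_dd_bf K.herm K.closed, R.ev_trace, hT, Normal.Th_ev hN h1,
      Matrix.trace_neg, neg_neg]
  have eηD : R.ev (R.D (R.bf η (cst S v) (cst S v))) =
      (T * R.eM η).trace + (R.eM (dM δ (dM δ' η))).trace + qf (R.eM src) v := by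
    rw [der_bf_cst, hev, R.bf_add, map_add, bf_hs_cst, Normal.dd_tr hN h1 h2, ev_bf_cst]
  have eηL : ∑ k, R.ev (R.d k (R.db k (R.bf η (cst S v) (cst S v)))) =
      (R.eM (dM δ (dM δ' η))).trace := by
    rw [← map_sum, sum_dd_bf hη hcl, R.ev_trace]
  have eφL : ∑ k, R.ev (R.d k (R.db k (φ * N))) =
      (∑ k, R.ev (R.d k (R.db k φ))) * R.ev N + R.ev φ * ∑ k, R.ev (R.d k (R.db k N)) := by
    rw [sum_mul, mul_sum, ← sum_add_distrib]
    refine sum_congr rfl fun k _ => ?_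
    simp only [D_mul, map_add, map_mul, eNd, eNb, mul_zero, add_zero, zero_add]
  rw [R.bf_add, R.bf_smul, ← hNv, map_sub, map_sub, Normal.lap_ev hN, Normal.lap_ev hN]
  simp only [map_add, sum_add_distrib]
  rw [eηD, eηL, eφL, eNL, D_mul, map_add, map_mul, map_mul, eND, eN]
  ring

/-- lower curvature bound at the base point -/
def Lo (K : KM R) (l : ℝ) : Prop := ∀ v a : Fin n → S, (∀ k, R.Hol (a k)) →
  -(l * (R.ev (R.bf K.g v v)).re * (R.ev (R.bf K.g a a)).re) ≤ (R.ev (K.th v a 0)).re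

/-- upper curvature bound at the base point -/
def Hi (K : KM R) (c : ℝ) : Prop := ∀ v a : Fin n → S, (∀ k, R.Hol (a k)) →
  (R.ev (K.th v a 0)).re ≤ c * (R.ev (R.bf K.g v v)).re * (R.ev (R.bf K.g a a)).re

theorem Lo.fr {K : KM R} {l : ℝ} (h : Lo K l) (F : Frm R) : Lo (K.fr F) l := by
  intro v a ha
  rw [K.fr_th F v ha, K.fr_g, F.bf_pb, F.bf_pb]
  exact h _ _ (F.hol_mulVec ha)

theorem Hi.fr {K : KM R} {l : ℝ} (h : Hi K l) (F : Frm R) : Hi (K.fr F) l := by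
  intro v a ha
  rw [K.fr_th F v ha, K.fr_g, F.bf_pb, F.bf_pb]
  exact h _ _ (F.hol_mulVec ha)

theorem lich_normal {K : KM R} (hN : K.Normal) (hF : K.Flow 0)
    {η src : Matrix (Fin n) (Fin n) S}
    (hη : R.cM η = ηᵀ) (hcl : ∀ a b c, R.d c (η a b) = R.d a (η c b))
    (hev : dM R.D η = R.hs (K.tr η) + src) {φ : S} (hφ : R.cj φ = φ) (hφ0 : 0 ≤ (R.ev φ).re)
    (hpos : ∀ w, R.Pos (R.bf (η + φ • K.g) w w))
    (hP : ∀ w, 0 ≤ (R.ev (R.bf (η + φ • K.g) w w)).re)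
    {l c m : ℝ} (hl : Lo K l) (hc : Hi K c) {v : Fin n → S}
    (hv : 0 < (R.ev (R.bf K.g v v)).re) (h0 : (R.ev (R.bf (η + φ • K.g) v v)).re = 0)
    (hm : -(m * (R.ev (R.bf K.g v v)).re) ≤ (R.ev (R.bf src v v)).re) :
    (R.ev (R.D φ - K.lap φ)).re ≤
      n * c * (R.ev φ).re + l * ((R.ev (K.tr η)).re + n * (R.ev φ).re) + m := by
  set u : Fin n → ℂ := fun i => R.ev (v i) with hu
  have ev : ∀ M, R.ev (R.bf M v v) = qf (R.eM M) u := fun M => ev_bf M v
  have eg : ∀ x : Fin n → ℂ, (R.ev (R.bf K.g (cst S x) (cst S x))).re = ∑ i, ‖x i‖ ^ 2 := fun x => by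
    rw [ev_bf_cst, hN.g0, qf_one, Complex.ofReal_re]
  rw [ev, hN.g0, qf_one, Complex.ofReal_re] at hv hm
  rw [ev] at hm
  set N : ℝ := ∑ i, ‖u i‖ ^ 2 with hNd
  have h1 := box_nonpos K (hpos (cst S u)) (by rw [ev_bf_cst, ← ev]; exact h0)
  rw [lich_id hN hF hη hcl hev] at h1
  set T := R.eM (Th (R.dv (cst S u) 0) (R.dbv (cst S u) 0) K.g K.gi) with hT
  have eT : ∀ x : Fin n → ℂ, R.ev (K.th (cst S x) (cst S u) 0) = qf T x := fun x => by
    rw [KM.th, ev_bf_cst]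
  obtain ⟨f, hf⟩ : ∃ f : ℝ, R.ev φ = f :=
    ⟨(R.ev φ).re, by apply Complex.ext <;> simp [R.im_ev hφ]⟩
  have eP : R.eM (η + φ • K.g) = R.eM η + (f : ℂ) • 1 := by
    rw [R.eM_add, ← hN.g0, ← hf]
    congr 1
    ext i j
    simp
  have hH : (R.eM η + (f : ℂ) • (1 : Matrix (Fin n) (Fin n) ℂ)).IsHermitian := by
    refine Matrix.IsHermitian.add ?_ ?_
    · ext i j
      have := congrFun (congrFun hη j) i
      simp only [DR.cM_apply, Matrix.transpose_apply] at this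
      simp only [Matrix.conjTranspose_apply, DR.eM_apply, RCLike.star_def, ← R.ev_cj, this]
    · ext i j
      simp [Matrix.one_apply, eq_comm, apply_ite conj]
  have hPS := psd_of_qf hH fun x => by rw [← eP, ← ev_bf_cst]; exact hP _
  have h2 := trace_mul_ge (T := T) hPS (c := l * N) fun x => by
    have := hl (cst S x) (cst S u) (hol_cst u)
    rw [eT, eg, eg] at this
    linarith
  have h3 := trace_le (T := T) (c := c * N) fun x => by
    have := hc (cst S x) (cst S u) (hol_cst u)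
    rw [eT, eg, eg] at this
    linarith
  rw [Matrix.mul_add, Matrix.mul_smul, Matrix.mul_one, Matrix.trace_add, Matrix.trace_add,
    Matrix.trace_smul, Matrix.trace_smul, Matrix.trace_one] at h2
  simp only [smul_eq_mul, Complex.add_re, Complex.re_ofReal_mul, Fintype.card_fin,
    Complex.natCast_re] at h2
  simp only [Complex.add_re, Complex.re_mul_ofReal] at h1
  rw [Normal.tr_ev hN]
  rw [hf, Complex.ofReal_re] at hφ0 ⊢
  have h4 : f * T.trace.re ≤ f * (n * (c * N)) := mul_le_mul_of_nonneg_left h3 hφ0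
  refine le_of_mul_le_mul_right ?_ hv
  nlinarith

/-- **LICH in the ring** -/
theorem lich (K : KM R) (hF : K.Flow 0) {η src : Matrix (Fin n) (Fin n) S}
    (hη : R.cM η = ηᵀ) (hcl : ∀ a b c, R.d c (η a b) = R.d a (η c b))
    (hev : dM R.D η = R.hs (K.tr η) + src) {φ : S} (hφ : R.cj φ = φ) (hφ0 : 0 ≤ (R.ev φ).re)
    (hpos : ∀ w, R.Pos (R.bf (η + φ • K.g) w w))
    (hP : ∀ w, 0 ≤ (R.ev (R.bf (η + φ • K.g) w w)).re)
    {l c m : ℝ} (hl : Lo K l) (hc : Hi K c) {v : Fin n → S}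
    (hv : 0 < (R.ev (R.bf K.g v v)).re) (h0 : (R.ev (R.bf (η + φ • K.g) v v)).re = 0)
    (hm : -(m * (R.ev (R.bf K.g v v)).re) ≤ (R.ev (R.bf src v v)).re) :
    (R.ev (R.D φ - K.lap φ)).re ≤
      n * c * (R.ev φ).re + l * ((R.ev (K.tr η)).re + n * (R.ev φ).re) + m := by
  obtain ⟨F, hN⟩ := K.exists_normal
  have e : ∀ M, F.dr.bf (F.pb M) (F.B *ᵥ v) (F.B *ᵥ v) = R.bf M v v := fun M => by
    rw [F.bf_pb, Matrix.mulVec_mulVec, F.AB, Matrix.one_mulVec]
  have e2 : F.pb η + φ • (K.fr F).g = F.pb (η + φ • K.g) := by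
    rw [F.pb_add, F.pb_smul, K.fr_g]
  have := lich_normal (R := F.dr) hN (hF.fr F) (η := F.pb η) (src := F.pb src) (F.cM_pb hη)
    (F.closed_pb hcl) (by rw [F.dr_D, F.D_pb, hev, F.pb_add, K.fr_tr, F.dr_hs]) hφ hφ0
    (fun w => by rw [e2, F.bf_pb]; exact hpos _) (fun w => by rw [e2, F.bf_pb]; exact hP _)
    (hl.fr F) (hc.fr F) (v := F.B *ᵥ v) (m := m) (by rw [K.fr_g, e]; exact hv)
    (by rw [e2, e]; exact h0) (by rw [K.fr_g, e, e]; exact hm)
  rwa [K.fr_lap, K.fr_tr] at this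

end

end Crest.Agent.T223.CnL
end

-- ▼ part T223/CnL2_43
section

/-!
# Row 223 (helper43), CONE module: LICH for `η = ∂∂̄ u - Ric`, `(∂_t - Δ) u = 0`, in the ring
-/

set_option autoImplicit false
set_option linter.unusedSectionVars false

open Finset Matrix
open scoped ComplexConjugate ComplexOrder

namespace Crest.Agent.T223.CnL

open Crest.Agent.T223.Cn Crest.Agent.T223.Ev

noncomputable section

variable {n : ℕ} {S : Type} [CommRing S] [Algebra ℂ S] {R : DR n S}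

theorem hs_herm {u : S} (hu : R.cj u = u) : R.cM (R.hs u) = (R.hs u)ᵀ := by
  ext k l
  simp only [DR.cM_apply, DR.hs, of_apply, transpose_apply, R.cj_d, R.cj_db, hu, R.ddb]

theorem hs_closed (u : S) (a b c : Fin n) : R.d c (R.hs u a b) = R.d a (R.hs u c b) := by
  simp only [DR.hs, of_apply, R.dd c a]

theorem cj_be (K : KM R) (b : Fin n) : R.cj (be K (R.db b)) = be K (R.d b) := by
  simp only [be, KM.tr, Matrix.trace, Matrix.diag_apply, Matrix.mul_apply, dM_apply, map_sum,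
    map_mul, K.cj_gi, R.cj_db, K.cj_g]
  exact sum_comm

theorem ric_herm (K : KM R) : R.cM K.ric = K.ricᵀ := by
  ext a b
  rw [DR.cM_apply, transpose_apply, ric_eq, ric_eq, map_neg, R.cj_d, cj_be,
    be_symm K (R.ddb b a)]

theorem ric_closed (K : KM R) (a b c : Fin n) : R.d c (K.ric a b) = R.d a (K.ric c b) := by
  rw [ric_eq, ric_eq, map_neg, map_neg, R.dd]

theorem cM_sub (M N : Matrix (Fin n) (Fin n) S) : R.cM (M - N) = R.cM M - R.cM N := by
  ext a b; simp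

/-- LICH for `η = ∂∂̄ u - Ric` with a source: `(∂_t - Δ) u = f` -/
theorem lich_u (K : KM R) (hF : K.Flow 0) {u : S} (hu : R.cj u = u)
    {φ : S} (hφ : R.cj φ = φ) (hφ0 : 0 ≤ (R.ev φ).re)
    (hpos : ∀ w, R.Pos (R.bf (R.hs u - K.ric + φ • K.g) w w))
    (hP : ∀ w, 0 ≤ (R.ev (R.bf (R.hs u - K.ric + φ • K.g) w w)).re)
    {l c m : ℝ} (hl : Lo K l) (hc : Hi K c) {v : Fin n → S}
    (hv : 0 < (R.ev (R.bf K.g v v)).re)
    (h0 : (R.ev (R.bf (R.hs u - K.ric + φ • K.g) v v)).re = 0)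
    (hm : -(m * (R.ev (R.bf K.g v v)).re) ≤ (R.ev (R.bf (R.hs (bx K u)) v v)).re) :
    (R.ev (bx K φ)).re ≤
      n * c * (R.ev φ).re + l * ((R.ev (K.lap u - sc K)).re + n * (R.ev φ).re) + m := by
  have e : K.tr (R.hs u - K.ric) = K.lap u - sc K := by rw [K.tr_sub]; rfl
  have := lich K hF (η := R.hs u - K.ric) (src := R.hs (bx K u))
    (by rw [cM_sub, hs_herm hu, ric_herm, transpose_sub])
    (fun a b c => by simp only [Matrix.sub_apply, map_sub, hs_closed u a b c, ric_closed K a b c])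
    (by rw [e, dM_sub, D_hs, D_ric hF, bx, hs_sub, hs_sub]; abel) hφ hφ0 hpos hP hl hc hv h0 hm
  rwa [e] at this

end

end Crest.Agent.T223.CnL
end

-- ▼ part T223/CnW_43
section

/-!
# Row 223 (helper43): LICH in a chart (names of `Fr_38`)

`lich_pt` : `η = ∂∂̄ u - Ric ≥ -φ g` in the past with a null vector at the point, `u` a solution of
the heat equation, `-l ≤ bis ≤ c`  ⟹  `(∂_t - Δ) φ ≤ n c φ + l (Δ u - R + n φ)`.
-/

set_option autoImplicit false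
set_option linter.unusedSectionVars false

open Set Filter Topology
open scoped ContDiff ComplexConjugate ComplexOrder Matrix

namespace Crest.Agent.T223.CnL

open Crest.Agent.R275.Geo Crest.Agent.R275.EDR890 Crest.Agent.R273.Hess_333
open Crest.Agent.T223.Br Crest.Agent.T223.Cn Crest.Agent.T223.Ev
open Crest.Agent.T223.Tr (nq)

noncomputable section

variable {n : ℕ} {p : ℝ × Cn n} {g : ℝ → Cn n → Mat n}

theorem qf_re (H : Mat n) (x : Fin n → ℂ) : (qf H x).re = nq H (WithLp.toLp 2 x) := by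
  unfold qf nq
  congr 1
  exact Finset.sum_congr rfl fun _ _ => Finset.sum_congr rfl fun _ _ => by ring

/-- value of a quadratic form of germs -/
theorem ev_bf_rep {Φ : Matrix (Fin n) (Fin n) (Gm p)} {f : ℝ → Cn n → Mat n} (hf : RepM Φ f)
    (x : Fin n → Gm p) :
    ((gdr p).ev ((gdr p).bf Φ x x)).re =
      nq (f p.1 p.2) (WithLp.toLp 2 fun i => (gdr p).ev (x i)) := by
  rw [ev_bf, hf.ev, qf_re]

/-- a form that is nonnegative in the past gives positive germs -/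
theorem pos_bf_rep {Φ : Matrix (Fin n) (Fin n) (Gm p)} {f : ℝ → Cn n → Mat n} (hf : RepM Φ f)
    (h : ∀ᶠ q in Cn.past p, ∀ v, 0 ≤ nq (f q.1 q.2) v) (x : Fin n → Gm p) :
    (gdr p).Pos ((gdr p).bf Φ x x) := by
  choose u hu using fun a => exists_rep (x a)
  refine (hf.bf hu hu).pos ?_
  filter_upwards [h] with q hq
  exact hq (WithLp.toLp 2 fun a => u a q.1 q.2)

/-- the curvature form is the bisectional curvature -/
theorem ev_th (h : KahP g p) (v a : Fin n → Gm p) (ha : ∀ k, (gdr p).Hol (a k)) :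
    ((gdr p).ev (h.km.th v a 0)).re = bis (g p.1) p.2 (WithLp.toLp 2 fun i => (gdr p).ev (v i))
      (WithLp.toLp 2 fun i => (gdr p).ev (a i)) := by
  rw [KM.th, KM.Th_dv ha, ev_bf, bis]
  congr 1
  have e : ∀ c d i j, (gdr p).ev (Th ((gdr p).d c) ((gdr p).db d) h.km.g h.km.gi i j) =
      Rm (g p.1) p.2 c d i j := fun c d i j => (h.rep_Th c d i j).ev
  simp only [qf, DR.eM_apply, Matrix.sum_apply, Matrix.smul_apply, smul_eq_mul, map_sum, map_mul,
    (gdr p).ev_cj, e, Finset.mul_sum]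
  exact Finset.sum_congr rfl fun _ _ => Finset.sum_congr rfl fun _ _ =>
    Finset.sum_congr rfl fun _ _ => Finset.sum_congr rfl fun _ _ => by ring

theorem lo_of_bkge (h : KahP g p) {l : ℝ} (hl : BKge (g p.1) p.2 l) : Lo h.km l := by
  intro v a ha
  rw [ev_th h v a ha, ev_bf_rep h.rep_g, ev_bf_rep h.rep_g]
  exact hl _ _

theorem hi_of_bkle (h : KahP g p) {c : ℝ} (hc : BKle (g p.1) p.2 c) : Hi h.km c := by
  intro v a ha
  rw [ev_th h v a ha, ev_bf_rep h.rep_g, ev_bf_rep h.rep_g]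
  exact hc _ _

theorem nq_comb (H R G : Mat n) (c : ℝ) (v : Cn n) :
    nq (H - R + (c : ℂ) • G) v = nq H v - nq R v + c * nq G v := by
  have h1 := Ev.nq_add (H - R) ((c : ℂ) • G) v
  rw [Ev.nq_sub, Ev.nq_smul] at h1
  exact h1

/-- **LICH in a chart**, past version -/
theorem lich_ptp (h : KRFp g p) {u φ : ℝ → Cn n → ℝ} (hu : HeatP g u p) (hφ : SmP p φ)
    (hφ0 : 0 ≤ φ p.1 p.2)
    (hpos : ∀ᶠ q in Cn.past p, ∀ v, -(φ q.1 q.2 * nq (g q.1 q.2) v) ≤
      nq (hess (u q.1) q.2) v - nq (ric (g q.1) q.2) v)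
    {l c : ℝ} (hl : BKge (g p.1) p.2 l) (hc : BKle (g p.1) p.2 c) {v : Cn n} (hv : v ≠ 0)
    (h0 : nq (hess (u p.1) p.2) v - nq (ric (g p.1) p.2) v + φ p.1 p.2 * nq (g p.1 p.2) v = 0) :
    boxp g φ p.1 p.2 ≤ n * c * φ p.1 p.2 +
      l * (lap (g p.1) (u p.1) p.2 - scal (g p.1) p.2 + n * φ p.1 p.2) := by
  have hk := h.toKahP
  have ru := hu.sm.ofReal.rep
  have rφ := hφ.ofReal.rep
  have rP := (ru.hs.sub hk.rep_ric).add (RepM.smul rφ hk.rep_g)
  have hpos' : ∀ᶠ q in Cn.past p, ∀ v, 0 ≤ nq (hess (u q.1) q.2 - ric (g q.1) q.2 +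
      (φ q.1 q.2 : ℂ) • g q.1 q.2) v := hpos.mono fun q hq v => by
    rw [nq_comb]; linarith [hq v]
  have ev : (WithLp.toLp 2 fun i => (gdr p).ev (cst (Gm p) v.ofLp i) : Cn n) = v := by
    ext i; exact ev_cst _ i
  have := lich_u hk.km h.flow0 ru.cj_real rφ.cj_real (by rw [rφ.ev]; exact hφ0)
    (pos_bf_rep rP hpos')
    (fun w => by rw [ev_bf_rep rP]; exact hpos'.self_of_nhdsWithin (mem_Pa p) _)
    (lo_of_bkge hk hl) (hi_of_bkle hk hc) (v := cst (Gm p) v.ofLp) (m := 0)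
    (by rw [ev_bf_rep hk.rep_g, ev]; exact Ev.nq_pos hk.pd hv)
    (by rw [ev_bf_rep rP, ev, nq_comb]; exact h0)
    (by
      rw [hu.bx_eq hk]
      have : (gdr p).hs (0 : Gm p) = 0 := by ext a b; simp [DR.hs]
      rw [this]
      simp [DR.bf])
  rw [hk.ev_bx rφ, map_sub, (hk.rep_lap ru).ev, hk.rep_scal.ev, rφ.ev] at this
  simpa using this

/-- **LICH in a chart** -/
theorem lich_pt {t : ℝ} {z : Cn n} (h : KRFat g t z) {u φ : ℝ → Cn n → ℝ} (hu : HeatAt g u t z)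
    (hφ : ContDiffAt ℝ ∞ (fun q : ℝ × Cn n => φ q.1 q.2) (t, z)) (hφ0 : 0 ≤ φ t z)
    (hpos : ∀ᶠ q in T223.past t z, ∀ v, -(φ q.1 q.2 * nq (g q.1 q.2) v) ≤
      nq (hess (u q.1) q.2) v - nq (ric (g q.1) q.2) v)
    {l c : ℝ} (hl : BKge (g t) z l) (hc : BKle (g t) z c) {v : Cn n} (hv : v ≠ 0)
    (h0 : nq (hess (u t) z) v - nq (ric (g t) z) v + φ t z * nq (g t z) v = 0) :
    box g φ t z ≤ n * c * φ t z + l * (lap (g t) (u t) z - scal (g t) z + n * φ t z) := by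
  have := lich_ptp (p := (t, z)) h.krfp hu.heatP (SmP.of_contDiffAt hφ) hφ0 hpos hl hc hv h0
  rwa [boxp_eq_box' (hφ.differentiableAt (by simp))] at this

end

end Crest.Agent.T223.CnL
end

-- ▼ part T223/OsLb_43
section

/-!
# Row 223, module OSG (helper43): the leaf (b), `∂∂̄ u - Ric ≥ -(n+1) K q E g`

Tensor maximum principle (`Tch.touch_MD_pred`) with the pointwise inequality `CnL.lich_pt`.
-/

set_option autoImplicit false
set_option linter.unusedVariables false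
set_option linter.unusedSectionVars false

open Set Filter Topology Metric
open scoped ContDiff ComplexConjugate Matrix ComplexOrder

namespace Crest.Agent.T223.Os.Lb43

open Crest.Agent.R275.Geo Crest.Agent.R273.Kah_333 Crest.Agent.R273.Hess_333
open Crest.Agent.R275.EDR890 (wd wdL WI)
open Crest.Agent.T223.Br Crest.Agent.T223.Tr
open Crest.Agent.T223.Db (dom SmST)
open Crest.Agent.T223.Os.T24

noncomputable section

variable {n : ℕ}

/-! ### joint smoothness up to the end points -/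

section sm

variable {a b : ℝ} {D : Set (Cn n)}

theorem cdOn_wd (hab : a < b) (hD : IsOpen D) {f : ℝ → Cn n → ℂ}
    (hf : ContDiffOn ℝ ∞ (fun q : ℝ × Cn n => f q.1 q.2) (Icc a b ×ˢ D)) (s : WI n) :
    ContDiffOn ℝ ∞ (fun q : ℝ × Cn n => wd s (f q.1) q.2) (Icc a b ×ˢ D) := by
  have h3 : ContDiff ℝ ∞ fun L : Cn n →L[ℝ] ℂ => wdL s L := by
    unfold wdL
    fun_prop
  exact h3.comp_contDiffOn (cdOn_fderiv_slice hab hD hf)

theorem cdOn_hess (hab : a < b) (hD : IsOpen D) {f : ℝ → Cn n → ℝ}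
    (hf : ContDiffOn ℝ ∞ (fun q : ℝ × Cn n => f q.1 q.2) (Icc a b ×ˢ D)) (k l : Fin n) :
    ContDiffOn ℝ ∞ (fun q : ℝ × Cn n => hess (f q.1) q.2 k l) (Icc a b ×ˢ D) :=
  cdOn_wd hab hD (f := fun s => wd (true, l) (cu (f s)))
    (cdOn_wd hab hD (f := fun s => cu (f s)) (Complex.ofRealCLM.contDiff.comp_contDiffOn hf) _) _

theorem cdOn_ldet {g : ℝ → Cn n → Mat n} {Z : Set (ℝ × Cn n)}
    (h : ∀ k l, ContDiffOn ℝ ∞ (fun q : ℝ × Cn n => g q.1 q.2 k l) Z)
    (hp : ∀ q ∈ Z, (g q.1 q.2).PosDef) :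
    ContDiffOn ℝ ∞ (fun q : ℝ × Cn n => ldet (g q.1) q.2) Z := by
  have h1 : ContDiffOn ℝ ∞ (fun q : ℝ × Cn n => (g q.1 q.2).det) Z := by
    simp only [Matrix.det_apply']
    exact ContDiffOn.sum fun σ _ => contDiffOn_const.mul (contDiffOn_prod fun i _ => h _ _)
  exact (Complex.reCLM.contDiff.comp_contDiffOn h1).log fun q hq =>
    (Complex.pos_iff.1 (hp q hq).det_pos).1.ne'

theorem cdOn_ric (hab : a < b) (hD : IsOpen D) {g : ℝ → Cn n → Mat n}
    (h : ∀ k l, ContDiffOn ℝ ∞ (fun q : ℝ × Cn n => g q.1 q.2 k l) (Icc a b ×ˢ D))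
    (hp : ∀ q ∈ Icc a b ×ˢ D, (g q.1 q.2).PosDef) (k l : Fin n) :
    ContDiffOn ℝ ∞ (fun q : ℝ × Cn n => ric (g q.1) q.2 k l) (Icc a b ×ˢ D) :=
  (cdOn_hess hab hD (f := fun s => ldet (g s)) (cdOn_ldet h hp) k l).neg

end sm

theorem contOn_nq {Y : Type} [TopologicalSpace Y] {D : Set Y} {H : Y → Mat n}
    (h : ∀ k l, ContinuousOn (fun y => H y k l) D) (W : Set (Cn n)) :
    ContinuousOn (fun q : Y × Cn n => nq (H q.1) q.2) (D ×ˢ W) := by
  unfold nq
  refine Complex.continuous_re.comp_continuousOn ?_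
  refine continuousOn_finsetSum _ fun k _ => continuousOn_finsetSum _ fun l _ => ?_
  have h1 : ContinuousOn (fun q : Y × Cn n => H q.1 k l) (D ×ˢ W) :=
    (h k l).comp continuousOn_fst fun q hq => hq.1
  have h2 : ∀ k, Continuous fun q : Y × Cn n => q.2 k := fun k => by fun_prop
  exact (h1.mul (h2 k).continuousOn).mul (Complex.continuous_conj.comp (h2 l)).continuousOn

theorem cont_nq (H : Mat n) : Continuous (nq H) := by
  unfold nq
  fun_prop

theorem nq_sc (G : Mat n) (c : ℝ) (v : Cn n) : nq G ((c : ℂ) • v) = c ^ 2 * nq G v := by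
  unfold nq
  rw [← Complex.re_ofReal_mul, Finset.mul_sum]
  congr 1
  refine Finset.sum_congr rfl fun a _ => ?_
  rw [Finset.mul_sum]
  refine Finset.sum_congr rfl fun b _ => ?_
  simp only [PiLp.smul_apply, smul_eq_mul, map_mul, Complex.conj_ofReal]
  push_cast
  ring

/-- the strict inequality: unit vectors suffice -/
theorem strict_iff {G H R : Mat n} (hG : G.PosDef) {e Λ : ℝ} (he : 0 < e) :
    (∃ Λ', Λ' < Λ ∧ ∀ v, -(Λ' * e * nq G v) ≤ nq H v - nq R v) ↔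
      ∀ v ∈ sphere (0 : Cn n) 1, 0 < nq H v - nq R v + Λ * (e * nq G v) := by
  constructor
  · rintro ⟨Λ', h1, h2⟩ v hv
    have h3 : 0 < e * nq G v := mul_pos he (Ev.nq_pos hG (ne_zero_of_mem_unit_sphere ⟨v, hv⟩))
    nlinarith [h2 v]
  · intro h
    obtain ⟨Λ', h1, h2⟩ := Tch.exists_lt_forall_pos (isCompact_sphere (0 : Cn n) 1)
      (F := fun v => nq H v - nq R v) (N := fun v => e * nq G v)
      ((cont_nq H).sub (cont_nq R)).continuousOn
      (continuous_const.mul (cont_nq G)).continuousOn h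
    refine ⟨Λ', h1, fun v => ?_⟩
    rcases eq_or_ne v 0 with rfl | hv
    · simp [nq]
    · have h0 : ‖v‖ ≠ 0 := norm_ne_zero_iff.2 hv
      have h3 := h2 (((‖v‖⁻¹ : ℝ) : ℂ) • v) (by
        rw [mem_sphere_zero_iff_norm, norm_smul, Complex.norm_real, norm_inv, norm_norm,
          inv_mul_cancel₀ h0])
      simp only [nq_sc] at h3
      have h4 : 0 < (‖v‖⁻¹) ^ 2 := by positivity
      have h5 : 0 < (‖v‖⁻¹) ^ 2 * (nq H v - nq R v + Λ' * e * nq G v) := by linarith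
      have h6 := (mul_pos_iff_of_pos_left h4).1 h5
      linarith

theorem nonneg_lim {F N Λ : ℝ} (h : ∀ Λ', Λ < Λ' → 0 ≤ F + Λ' * N) : 0 ≤ F + Λ * N := by
  have hc : Continuous fun L : ℝ => F + L * N := by fun_prop
  exact ge_of_tendsto ((hc.tendsto Λ).mono_left (nhdsWithin_le_nhds (s := Ioi Λ))) (by
    filter_upwards [self_mem_nhdsWithin] with L hL using h L hL)

variable {M : Type} [TopologicalSpace M] {A : Atl n M} [T2Space M] [ConnectedSpace M]
  {K0 : Kah A} {p : M} {P : Par} {I : Init K0 p} {a : ℝ}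

open Stp

/-- the strict form of (b) with the multiple `Λ` -/
def Sp (S : Stp P I a) (Λ : ℝ) (y : ℝ × M) : Prop :=
  ∃ Λ', Λ' < Λ ∧ HesGe (S.g y.1) (S.u y.1) (Λ' * (S.q * S.E y.1 y.2)) y.2

variable {S : Stp P I a} (h : P.Ok)
include h

theorem qE_pos (s : ℝ) (x : M) : 0 < S.q * S.E s x := mul_pos (S.q_pos h) (E_pos s x)

theorem sp_iff {s : ℝ} (hs : s ∈ Icc S.t S.b) {x : M} (hx : x ∈ S.U) {i : A.ι}
    (hi : x ∈ (A.e i).source) (Λ : ℝ) :
    Sp S Λ (s, x) ↔ ∀ v ∈ sphere (0 : Cn n) 1,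
      0 < nq (hess (inC A i (S.u s)) (A.e i x)) v - nq (ric (S.g s i) (A.e i x)) v +
        Λ * (S.q * EC S i s (A.e i x) * nq (S.g s i (A.e i x)) v) := by
  rw [EC_apply hi, ← strict_iff ((S.flow.kah s hs).kah i x hi hx).posDef (qE_pos h s x)]
  exact exists_congr fun Λ' => and_congr_right fun _ =>
    hesGe_iff (S.flow.kah s hs) S.op hx hi (smOn_of_SmST S.hu.sm hs) _

theorem of_sp {s : ℝ} (hs : s ∈ Icc S.t S.b) {x : M} (hx : x ∈ S.U) {Λ : ℝ}
    (hS : ∀ Λ', Λ < Λ' → Sp S Λ' (s, x)) : HesGe (S.g s) (S.u s) (Λ * (S.q * S.E s x)) x := by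
  intro i hi v
  have h1 := nonneg_lim (F := nq (hess (inC A i (S.u s)) (A.e i x)) v -
      nq (ric (S.g s i) (A.e i x)) v) (N := S.q * S.E s x * nq (S.g s i (A.e i x)) v) (Λ := Λ)
    fun Λ' hΛ => by
      obtain ⟨Λ'', h2, h3⟩ := hS Λ' hΛ
      have h4 := HesGe.mono (S.flow.kah s hs) hx h3
        (mul_le_mul_of_nonneg_right h2.le (qE_pos h s x).le) i hi v
      linarith
  linarith

theorem crude_ge {s : ℝ} (hs : s ∈ Icc S.t S.t') {x : M} (hx : x ∈ S.Kc) :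
    HesGe (S.g s) (S.u s) ((n + 1) * P.K * S.q) x := by
  have h1 := hesGe_of_abs (S.flow.kah s (mem_Icc h hs)) hx.1 (crudeK h hs hx).hes
    (crudeK h hs hx).bk
  rw [S.div_r h] at h1
  convert h1 using 1
  ring

theorem K0_nonneg : 0 ≤ ((n : ℝ) + 1) * P.K := by have := h.K_1; positivity

theorem out_ge {s : ℝ} (hs : s ∈ Icc S.t S.t') {x : M} (hx : x ∈ S.Kc) (hE : 1 ≤ S.E s x) :
    HesGe (S.g s) (S.u s) ((n + 1) * P.K * (S.q * S.E s x)) x := by
  refine HesGe.mono (S.flow.kah s (mem_Icc h hs)) hx.1 (crude_ge h hs hx) ?_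
  exact mul_le_mul_of_nonneg_left (le_mul_of_one_le_right (S.q_pos h).le hE) (K0_nonneg h)

theorem sp_open {s : ℝ} (hs : s ∈ Icc S.t S.b) {x : M} (hx : x ∈ S.U) {Λ : ℝ}
    (hS : Sp S Λ (s, x)) : ∀ᶠ y in 𝓝[Icc S.t S.b ×ˢ S.U] (s, x), Sp S Λ y := by
  have hi := ch_mem A x
  set i := ch A x
  have hab : S.t < S.b := (S.t_lt h).trans S.lt'
  have hD := isOpen_dom i S.op
  have hp : ∀ q ∈ Icc S.t S.b ×ˢ dom A i S.U, (S.g q.1 i q.2).PosDef := fun q hq =>
    (kahAt_dom (S.flow.kah q.1 hq.1) hq.2).posDef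
  have c1 := contOn_nq (fun k l => (cdOn_hess hab hD (f := fun s => inC A i (S.u s))
    (S.hu.sm i) k l).continuousOn) (sphere (0 : Cn n) 1)
  have c2 := contOn_nq (fun k l => (cdOn_ric hab hD (g := fun s => S.g s i)
    (S.flow.sm i) hp k l).continuousOn) (sphere (0 : Cn n) 1)
  have c3 := contOn_nq (fun k l => (S.flow.sm i k l).continuousOn) (sphere (0 : Cn n) 1)
  have c4 : ContinuousOn (fun q : ℝ × Cn n => EC S i q.1 q.2) (Icc S.t S.b ×ˢ dom A i S.U) :=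
    ((((continuous_sg.comp continuous_fst).continuousOn).sub
      (S.hρ.sm i).continuousOn).neg.div_const _).rexp
  have c5 : ContinuousOn (fun q : (ℝ × Cn n) × Cn n => EC S i q.1.1 q.1.2)
      ((Icc S.t S.b ×ˢ dom A i S.U) ×ˢ sphere (0 : Cn n) 1) :=
    c4.comp continuousOn_fst fun q hq => hq.1
  have key := Tch.eventually_forall_pos (isCompact_sphere (0 : Cn n) 1)
    (F := fun (q : ℝ × Cn n) v => nq (hess (inC A i (S.u q.1)) q.2) v - nq (ric (S.g q.1 i) q.2) v +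
      Λ * (S.q * EC S i q.1 q.2 * nq (S.g q.1 i q.2) v))
    (D := Icc S.t S.b ×ˢ dom A i S.U) (p := (s, A.e i x))
    (fun v hv => ((c1.sub c2).add (continuousOn_const.mul ((continuousOn_const.mul c5).mul c3)))
      _ ⟨⟨hs, mem_dom hi hx⟩, hv⟩) ((sp_iff h hs hx hi Λ).1 hS)
  have e1 : ∀ᶠ y : ℝ × M in 𝓝[Icc S.t S.b ×ˢ S.U] (s, x), y.2 ∈ (A.e i).source :=
    nhdsWithin_le_nhds (continuousAt_snd.preimage_mem_nhds ((A.e i).open_source.mem_nhds hi))
  have ht : Tendsto (fun y : ℝ × M => ((y.1, A.e i y.2) : ℝ × Cn n))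
      (𝓝[Icc S.t S.b ×ˢ S.U] (s, x)) (𝓝[Icc S.t S.b ×ˢ dom A i S.U] (s, A.e i x)) := by
    refine tendsto_nhdsWithin_iff.2 ⟨Tendsto.mono_left ?_ nhdsWithin_le_nhds, ?_⟩
    · exact continuousAt_fst.prodMk (((A.e i).continuousAt hi).comp continuousAt_snd)
    · filter_upwards [e1, self_mem_nhdsWithin] with y h1 h2 using ⟨h2.1, mem_dom h1 h2.2⟩
  filter_upwards [ht.eventually key, e1, self_mem_nhdsWithin] with y h1 h2 h3
  exact (sp_iff h h3.1 h3.2 h2 Λ).2 h1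

theorem contact (hV : (3 * n + 1) * P.K + 1 ≤ P.V) (hA : S.OA) {s : ℝ} (hs : s ∈ Icc S.t S.t')
    (hts : S.t < s) {x : M} (hx : x ∈ S.Kc) (hE : S.E s x ≤ 1) {Λ : ℝ} (hΛ : (n + 1) * P.K < Λ)
    (hn : ¬ Sp S Λ (s, x))
    (hp : ∀ᶠ y in 𝓝[{y : ℝ × M | y.1 ≤ s}] (s, x), ∀ Λ', Λ < Λ' → Sp S Λ' y) : False := by
  have hi := ch_mem A x
  set i := ch A x
  have hs' := mem_Ioo h hs hts
  have hq := S.q_pos h
  have hE0 := E_pos (S := S) s x
  have hK := h.K_1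
  have hΛ0 : 0 < Λ := (K0_nonneg h).trans_lt hΛ
  have hpos : ∀ᶠ q in past s (A.e i x), ∀ v,
      -(Λ * S.q * EC S i q.1 q.2 * nq (S.g q.1 i q.2) v) ≤
        nq (hess (inC A i (S.u q.1)) q.2) v - nq (ric (S.g q.1 i) q.2) v := by
    filter_upwards [past_chart hi hp, nhdsWithin_le_nhds (ev_loc hs' hi hx.1)] with q h1 h2 v
    have h3 := of_sp h (Ioo_subset_Icc_self h2.1) h2.2.2.1 h1 i h2.2.1 v
    rw [h2.2.2.2] at h3
    rw [EC_eq]
    linarith
  rw [sp_iff h (mem_Icc h hs) hx.1 hi] at hn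
  push Not at hn
  obtain ⟨v, hv, hv0⟩ := hn
  have h1 := hpos.self_of_nhdsWithin (show ((s, A.e i x) : ℝ × Cn n).1 ≤ s from le_rfl) v
  have hu : Ev.HeatAt (fun s => S.g s i) (fun s => inC A i (S.u s)) s (A.e i x) :=
    ⟨cd_u hs' hi hx.1, (ev_loc hs' hi hx.1).mono fun q h2 => by
      have h3 := box_u h2.1 h2.2.1 h2.2.2.1
      rwa [h2.2.2.2] at h3⟩
  have hc := crudeK h hs hx
  have h2 := CnL.lich_pt (krfAt hs' hi hx.1) hu (φ := fun s w => Λ * S.q * EC S i s w)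
    (contDiffAt_const.mul (cd_EC hs' hi hx.1))
    (by rw [EC_apply hi]; positivity) hpos ((hA s hs x hx).bkge hi) (hc.bk i hi).2
    (ne_zero_of_mem_unit_sphere ⟨v, hv⟩) (by simp only at h1 ⊢; linarith)
  rw [Bx.box_const_mul _ (rg_EC hs' hi hx.1)] at h2
  simp only [EC_apply hi] at h2
  have h3 := box_EC_ge hs' hi hx.1 h
  have hk := S.flow.kah s (mem_Icc h hs)
  have h4 := le_of_abs_le (hc.hes.lap hk hx.1 hi
    ((smOn_of_SmST S.hu.sm (mem_Icc h hs)).contDiffAt S.op hi hx.1))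
  have h5 := neg_le_of_abs_le (BkAbsC.scal (hc.bk i hi) (hk.kah i x hi hx.1))
  rw [S.div_r h] at h2 h4 h5
  have hn0 : (0 : ℝ) ≤ n := Nat.cast_nonneg n
  have h6 : lap (S.g s i) (inC A i (S.u s)) (A.e i x) - scal (S.g s i) (A.e i x) +
      n * (Λ * S.q * S.E s x) ≤ 2 * n * (Λ * S.q) := by
    have h7 : n * (Λ * S.q * S.E s x) ≤ n * (Λ * S.q) :=
      mul_le_mul_of_nonneg_left (mul_le_of_le_one_right (by positivity) hE) hn0
    have h8 : n * ((n + 1) * P.K * S.q) ≤ n * (Λ * S.q) :=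
      mul_le_mul_of_nonneg_left (mul_le_mul_of_nonneg_right hΛ.le hq.le) hn0
    linarith
  have h7 := mul_le_mul_of_nonneg_left h6 (show 0 ≤ P.K * S.q * S.E s x by positivity)
  have h8 := mul_le_mul_of_nonneg_left h3 (show 0 ≤ Λ * S.q by positivity)
  have h9 : 0 < Λ * S.q * (S.q * S.E s x) := by positivity
  have h10 := mul_le_mul_of_nonneg_left hV h9.le
  linarith

theorem ob (hV : (3 * n + 1) * P.K + 1 ≤ P.V) (hA : S.OA) : S.OB := by
  have hsub : Tch.MD S.t S.t' S.Kc (fun q => S.ρ q.1 q.2) S.sg ⊆ Icc S.t S.b ×ˢ S.U :=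
    fun q hq => cyl_sub h ⟨⟨hq.1, hq.2.1⟩, hq.2.2.1⟩
  have key := Tch.touch_MD_pred (t₁ := S.t) (t₂ := S.t') S.cptK (ρ := fun q => S.ρ q.1 q.2)
    (σ := S.sg) (cont_ρK h) continuous_sg.continuousOn
    (fun q hq => hint h ⟨hq.1, hq.2.1⟩ hq.2.2.1 hq.2.2.2) (Sp S) (K := (n + 1) * P.K)
    (fun q _ Λ Λ' ⟨L, h1, h2⟩ h3 => ⟨L, h1.trans_le h3, h2⟩)
    (fun q hq Λ hS => nhdsWithin_mono _ hsub (sp_open h (hsub hq).1 (hsub hq).2 hS))
    (fun q _ Λ ⟨L, h1, h2⟩ => ⟨(L + Λ) / 2, by linarith, L, by linarith, h2⟩)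
    (fun q hq => ⟨(n + 1) * P.K / S.E q.1 q.2 + 1, (n + 1) * P.K / S.E q.1 q.2, by linarith, by
      have h1 := crude_ge h ⟨hq.1, hq.2.1⟩ hq.2.2.1
      have h2 := E_pos (S := S) q.1 q.2
      convert h1 using 1
      field_simp⟩)
    (fun q hq e Λ hΛ => ⟨_, hΛ, by
      obtain ⟨s, x⟩ := q
      obtain rfl : s = S.t := e
      have hs : S.t ∈ Icc S.t S.t' := ⟨hq.1, hq.2.1⟩
      refine HesGe.mono (S.flow.kah _ (mem_Icc h hs)) hq.2.2.1.1 (S.init' hq.2.2.1).ib ?_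
      have h1 := e0_le h hs hq.2.2.1
      have h2 := E_pos (S := S) S.t x
      rw [mul_assoc]
      exact mul_le_mul_of_nonneg_left (mul_le_mul_of_nonneg_left (by simp only at h1 ⊢; linarith)
        (S.q_pos h).le) (K0_nonneg h)⟩)
    (fun q hq e Λ hΛ => ⟨_, hΛ, out_ge h ⟨hq.1, hq.2.1⟩ hq.2.2.1 ((one_le_E_iff h).2 e.ge)⟩)
    (fun q hq h1 h2 Λ hΛ hn hp => contact h hV hA ⟨hq.1, hq.2.1⟩ h1 hq.2.2.1
      ((E_le_one_iff h).2 h2.le) hΛ hn hp)
  intro s hs x hx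
  unfold IB
  rw [mul_assoc]
  rcases le_total (S.E s x) 1 with h1 | h1
  · exact of_sp h (mem_Icc h hs) hx.1 (key (s, x) ⟨hs.1, hs.2, hx, (E_le_one_iff h).1 h1⟩)
  · exact out_ge h hs hx h1

end

theorem lbStmt (n : ℕ) : LbStmt n := by
  unfold LbStmt Leaf
  refine Ev.of_thr (fun _ => 0) (fun _ K => (3 * n + 1) * K + 1) (fun _ _ _ => 0)
    (fun _ _ _ _ _ _ => 0) ?_
  intro P hP _ hV _ _ M _ _ _ A K0 p I a S hA
  exact ob hP hV hA

end Crest.Agent.T223.Os.Lb43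
end

-- ▼ part T223/OsLl_45
section

/-!
# Row 223, module OSG, leaf Ll (helper45): the lower bound for `u` at a touching point of (g)

Three circles give a point `y` close to `x` where `u0` is not too negative; the radius is chosen so
small that `u` and `ρ` move by at most `1` between `x` and `y`; (d), (e), (f) at `y` bound the
distance `d₀(p,x)` by `ρ`, hence `u` from below.
-/

set_option autoImplicit false
set_option linter.unusedVariables false
set_option linter.unusedSectionVars false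

open Set Filter Topology Metric
open scoped ContDiff ComplexConjugate Matrix ComplexOrder

namespace Crest.Agent.T223.Os

open Crest.Agent.R275.Geo Crest.Agent.R273.Kah_333 Crest.Agent.R273.Hess_333
open Crest.Agent.T223.Br Crest.Agent.T223.Tr
open Crest.Agent.T223.Db (dom SmST)

noncomputable section

namespace Ll45

/-! ## numerics -/

theorem num_of {C s ρ D Λ S c k : ℝ} (hC : 1 ≤ C) (hs : 0 ≤ s) (hρ : 0 ≤ ρ) (hD : 0 ≤ D)
    (hΛ : 0 ≤ Λ) (hc : 0 ≤ c) (hS : S ≤ (1 + s) * c + s * C * (ρ + D * Λ))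
    (h : ∀ α : ℝ, 1 ≤ α → D - 5 - ρ - α - C / α * S ≤ k * (1 + s)) :
    D ≤ 3 * ρ + 2 * ((6 + C * c + k) * (1 + s)) + 4 * (C ^ 2 * s * (Λ + 1)) := by
  have hCs : 0 ≤ C ^ 2 * s := by positivity
  have hCΛ : 0 ≤ C ^ 2 * s * Λ := by positivity
  set α := 1 + 2 * (C ^ 2 * s * (Λ + 1)) with hα
  have hα' : α = 1 + 2 * (C ^ 2 * s * Λ) + 2 * (C ^ 2 * s) := by rw [hα]; ring
  have hα1 : 1 ≤ α := by linarith
  have hα0 : 0 < α := by linarith
  have h1 := h α hα1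
  have hC0 : 0 ≤ C / α := by positivity
  have h3 : C / α * ((1 + s) * c) ≤ C * ((1 + s) * c) :=
    mul_le_mul_of_nonneg_right (div_le_self (by linarith) hα1) (by positivity)
  have h4 : C / α * (s * C * ρ) ≤ ρ / 2 := by
    rw [div_mul_eq_mul_div, div_le_iff₀ hα0, hα']
    nlinarith [mul_nonneg hCΛ hρ]
  have h4' : C / α * (s * C * (D * Λ)) ≤ D / 2 := by
    rw [div_mul_eq_mul_div, div_le_iff₀ hα0, hα']
    nlinarith [mul_nonneg hCs hD]
  have h5 := mul_le_mul_of_nonneg_left hS hC0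
  have h6 : C / α * ((1 + s) * c + s * C * (ρ + D * Λ)) =
      C / α * ((1 + s) * c) + C / α * (s * C * ρ) + C / α * (s * C * (D * Λ)) := by ring
  have h7 : (6 + C * c + k) * (1 + s) = 6 + 6 * s + C * ((1 + s) * c) + k * (1 + s) := by ring
  linarith

theorem num_D {C s X l μ D Λ : ℝ} (hC : 1 ≤ C) (hs : 0 ≤ s) (hX : (1 + s) ^ 2 ≤ X)
    (hl : s * l ≤ 4 * X) (hμ : 1 ≤ μ) (hD : 0 < D) (hΛ : Λ + 1 ≤ Real.log D + 2 * l + μ)
    (h : D ≤ 3 * X + 4 * (C ^ 2 * s * (Λ + 1))) : D ≤ 142 * (C ^ 4 * X * μ) := by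
  set γ := 8 * (C ^ 2 * (1 + s)) with hγ
  have hγ0 : 0 < γ := by positivity
  have hX0 : 0 ≤ X := le_trans (by positivity) hX
  have h1 : Real.log D ≤ D / γ + γ := by
    have h2 := Real.log_le_sub_one_of_pos (div_pos hD hγ0)
    rw [Real.log_div hD.ne' hγ0.ne'] at h2
    have h3 := Real.log_le_sub_one_of_pos hγ0
    linarith
  have hCs : 0 ≤ C ^ 2 * s := by positivity
  have h2 : C ^ 2 * s * (D / γ) ≤ D / 8 := by
    rw [← mul_div_assoc, div_le_iff₀ hγ0, hγ]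
    have : 0 ≤ C ^ 2 * D := by positivity
    nlinarith
  have hC2 : 1 ≤ C ^ 2 := one_le_pow₀ hC
  have hC4 : C ^ 2 ≤ C ^ 4 := pow_le_pow_right₀ hC (by norm_num)
  have hsX : s * (1 + s) ≤ X := by nlinarith
  have hsX' : s ≤ X := by nlinarith
  have h3 : C ^ 2 * s * γ ≤ 8 * (C ^ 4 * X) := by
    have : C ^ 2 * s * γ = 8 * (C ^ 4 * (s * (1 + s))) := by rw [hγ]; ring
    rw [this]
    gcongr
  have h4 : C ^ 2 * s * l ≤ 4 * (C ^ 4 * X) := by
    calc C ^ 2 * s * l = C ^ 2 * (s * l) := by ring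
      _ ≤ C ^ 2 * (4 * X) := by gcongr
      _ ≤ C ^ 4 * (4 * X) := by gcongr
      _ = _ := by ring
  have h5 : C ^ 2 * s * μ ≤ C ^ 4 * X * μ := by gcongr
  have h6 : C ^ 4 * X ≤ C ^ 4 * X * μ := le_mul_of_one_le_right (by positivity) hμ
  have h7 : X ≤ C ^ 4 * X := le_mul_of_one_le_left hX0 (hC2.trans hC4)
  have h8 := mul_le_mul_of_nonneg_left (hΛ.trans (show Real.log D + 2 * l + μ ≤
    D / γ + γ + 2 * l + μ by linarith)) hCs
  have h9 : C ^ 2 * s * (D / γ + γ + 2 * l + μ) =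
      C ^ 2 * s * (D / γ) + C ^ 2 * s * γ + 2 * (C ^ 2 * s * l) + C ^ 2 * s * μ := by ring
  linarith

theorem mu_pow {Λ : ℝ} (hΛ : 1 ≤ Λ) : (1 + Real.log Λ) ^ 4 ≤ 4096 * √Λ := by
  set w := √√√Λ with hw
  have h1 : 0 < √Λ := Real.sqrt_pos.2 (by linarith)
  have h2 : 0 < √√Λ := Real.sqrt_pos.2 h1
  have h3 : 0 < w := Real.sqrt_pos.2 h2
  have e1 : w ^ 2 = √√Λ := Real.sq_sqrt h2.le
  have e2 : w ^ 4 = √Λ := by
    rw [show w ^ 4 = (w ^ 2) ^ 2 by ring, e1]; exact Real.sq_sqrt h1.le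
  have e3 : w ^ 8 = Λ := by
    rw [show w ^ 8 = (w ^ 4) ^ 2 by ring, e2]; exact Real.sq_sqrt (by linarith)
  have h4 : Real.log Λ = 8 * Real.log w := by rw [← e3, Real.log_pow]; norm_num
  have h5 := Real.log_le_sub_one_of_pos h3
  have h6 := Real.log_nonneg hΛ
  calc (1 + Real.log Λ) ^ 4 ≤ (8 * w) ^ 4 := pow_le_pow_left₀ (by linarith) (by linarith) 4
    _ = _ := by rw [mul_pow, e2]; norm_num

theorem num_fin {N C Λ X l u : ℝ} (hN : 0 ≤ N) (hΛ : 1 ≤ Λ)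
    (hf : (64 * N * 711 ^ 2 * 4096 * C ^ 10) ^ 2 ≤ Λ)
    (hu : |u| ≤ 711 * (C ^ 5 * (1 + Real.log Λ) ^ 2 * (X * l))) :
    64 * N * u ^ 2 ≤ Λ * (X ^ 2 * l ^ 2) := by
  have h1 : u ^ 2 ≤ (711 * (C ^ 5 * (1 + Real.log Λ) ^ 2 * (X * l))) ^ 2 := by
    rw [← sq_abs u]; exact pow_le_pow_left₀ (abs_nonneg _) hu 2
  have hC : 0 ≤ C ^ 10 := by positivity
  have h2 : 64 * N * 711 ^ 2 * 4096 * C ^ 10 ≤ √Λ := Real.le_sqrt_of_sq_le hf
  have h3 := mu_pow hΛ
  have h4 : √Λ * √Λ = Λ := Real.mul_self_sqrt (by linarith)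
  have h5 : 0 ≤ X ^ 2 * l ^ 2 := by positivity
  calc 64 * N * u ^ 2 ≤ 64 * N * (711 * (C ^ 5 * (1 + Real.log Λ) ^ 2 * (X * l))) ^ 2 := by gcongr
    _ = (64 * N * 711 ^ 2 * C ^ 10) * (1 + Real.log Λ) ^ 4 * (X ^ 2 * l ^ 2) := by ring
    _ ≤ (64 * N * 711 ^ 2 * C ^ 10) * (4096 * √Λ) * (X ^ 2 * l ^ 2) := by gcongr
    _ = (64 * N * 711 ^ 2 * 4096 * C ^ 10) * √Λ * (X ^ 2 * l ^ 2) := by ring
    _ ≤ √Λ * √Λ * (X ^ 2 * l ^ 2) := by gcongr
    _ = _ := by rw [h4]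

section par

variable {P : Par} (h : P.Ok) {x s : ℝ} (hx : 0 ≤ x) (hs : 0 ≤ s)
include h hx hs

/-- `B Ψ / τ ≤ exp (4 ℓ)` -/
theorem BΨ_le : P.B * P.Ψ x s / P.τ s ≤ Real.exp (4 * P.ell x s) := by
  have hτ := h.τ_pos hs
  have hX : 1 ≤ x + P.ρs s := by linarith [h.one_le_ρs hs]
  have hl := h.ell_pos hx hs
  have h1 : Real.exp (P.ell x s) = (x + P.ρs s) * Real.exp P.B * (1 + 1 / P.τ s) := by
    unfold Par.ell
    rw [Real.exp_add, Real.exp_add, Real.exp_log (by linarith), Real.exp_log (by positivity)]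
  have h2 : P.ell x s ≤ Real.exp (P.ell x s) := by linarith [Real.add_one_le_exp (P.ell x s)]
  have h3 : P.B ≤ Real.exp P.B ^ 2 := by
    have h4 := Real.add_one_le_exp P.B
    nlinarith [h.B1]
  have h4 : 1 / P.τ s ≤ (1 + 1 / P.τ s) ^ 2 := by
    have : 0 < 1 / P.τ s := by positivity
    nlinarith
  have hB := h.B0
  calc P.B * P.Ψ x s / P.τ s = (x + P.ρs s) ^ 2 * P.B * (1 / P.τ s) * P.ell x s ^ 2 := by
        unfold Par.Ψ; ring
    _ ≤ (x + P.ρs s) ^ 2 * Real.exp P.B ^ 2 * (1 + 1 / P.τ s) ^ 2 *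
        Real.exp (P.ell x s) ^ 2 := by gcongr
    _ = Real.exp (P.ell x s) ^ 2 * Real.exp (P.ell x s) ^ 2 := by rw [h1]; ring
    _ = _ := by rw [← pow_add, ← Real.exp_nat_mul]; norm_num

theorem sq_le_X : (1 + s) ^ 2 ≤ x + P.ρs s := by
  have : (1 + s) ^ 2 ≤ P.ρs s := le_mul_of_one_le_left (sq_nonneg _) h.B1
  linarith

/-- `s ℓ ≤ 4 X` -/
theorem s_ell_le : s * P.ell x s ≤ 4 * (x + P.ρs s) := by
  set X := x + P.ρs s with hX
  have hτ := h.τ_pos hs
  have h0 := sq_le_X h hx hs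
  have hX1 : 1 ≤ X := by linarith [h.one_le_ρs hs]
  have hw0 : 0 < √X := Real.sqrt_pos.2 (by linarith)
  have hw2 : √X ^ 2 = X := Real.sq_sqrt (by linarith)
  have h1 : Real.log X ≤ 2 * √X := by
    have h1 : Real.log X = 2 * Real.log √X := by
      conv_lhs => rw [← hw2, Real.log_pow]
      norm_num
    have h2 := Real.log_le_sub_one_of_pos hw0
    linarith
  have h2 : s ≤ √X := Real.le_sqrt_of_sq_le (by nlinarith)
  have h3 : s * Real.log X ≤ 2 * X := by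
    calc s * Real.log X ≤ s * (2 * √X) := by gcongr
      _ ≤ √X * (2 * √X) := by gcongr
      _ = 2 * X := by nlinarith
  have h4 : s * P.B ≤ X := by
    have := h.lin_le_ρs hs
    nlinarith [h.B0]
  have h5 : s * Real.log (1 + 1 / P.τ s) ≤ 1 := by
    have h6 := Real.log_le_sub_one_of_pos (show 0 < 1 + 1 / P.τ s by positivity)
    calc s * Real.log (1 + 1 / P.τ s) ≤ s * (1 / P.τ s) := by gcongr; linarith
      _ ≤ 1 := by rw [mul_one_div, div_le_one hτ]; exact h.le_τ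
  have h6 : s * P.ell x s = s * Real.log X + s * P.B + s * Real.log (1 + 1 / P.τ s) := by
    unfold Par.ell; ring
  linarith

/-- comparison of `Ψ` at two arguments -/
theorem Ψ_le_of {x' s' : ℝ} (hx' : 0 ≤ x') (hs' : 0 ≤ s') (hB : 2 ≤ P.B)
    (h1 : x' + P.ρs s' ≤ 2 * (x + P.ρs s)) (h2 : P.τ s ≤ 2 * P.τ s') :
    P.Ψ x' s' ≤ 16 * P.Ψ x s := by
  have hτ := h.τ_pos hs
  have hτ' := h.τ_pos hs'
  have hX : 1 ≤ x + P.ρs s := by linarith [h.one_le_ρs hs]
  have hX' : 1 ≤ x' + P.ρs s' := by linarith [h.one_le_ρs hs']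
  have h3 := Real.log_le_log (by linarith) h1
  rw [Real.log_mul (by norm_num) (by linarith)] at h3
  have h4 : 1 + 1 / P.τ s' ≤ 2 * (1 + 1 / P.τ s) := by
    have : 1 / P.τ s' ≤ 2 * (1 / P.τ s) := by
      rw [mul_one_div, div_le_div_iff₀ hτ' hτ]; linarith
    linarith
  have h5 := Real.log_le_log (by positivity) h4
  rw [Real.log_mul (by norm_num) (by positivity)] at h5
  have h6 := Real.log_two_lt_d9
  have h7 := h.B_le_ell hx hs
  have h8 : P.ell x' s' ≤ 2 * P.ell x s := by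
    have : P.ell x' s' ≤ P.ell x s + 2 := by unfold Par.ell; linarith
    linarith
  calc P.Ψ x' s' ≤ (2 * (x + P.ρs s)) ^ 2 * (2 * P.ell x s) ^ 2 :=
        mul_le_mul (pow_le_pow_left₀ (by linarith) h1 2)
          (pow_le_pow_left₀ (h.ell_pos hx' hs').le h8 2) (by positivity) (by positivity)
    _ = _ := by unfold Par.Ψ; ring

theorem τ_le_Ψ : P.τ s ≤ P.Ψ x s := by
  have h1 := h.B4_le_Ψ hx hs
  have h2 : 1 + s ≤ (1 + s) ^ 4 := le_self_pow₀ (by linarith) (by norm_num)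
  have h3 : (1 + s) ^ 4 ≤ P.B ^ 4 * (1 + s) ^ 4 :=
    le_mul_of_one_le_left (by positivity) (one_le_pow₀ h.B1)
  linarith [h.τ_le (s := s)]

end par

/-! ## the step -/

variable {n : ℕ} {M : Type} [TopologicalSpace M] {A : Atl n M} [T2Space M] [ConnectedSpace M]
  {K0 : Kah A} {p : M} {P : Par} {I : Init K0 p} {a : ℝ} {S : Stp P I a}

/-- the bound of the barrier on the cylinder -/
def Em (K V : ℝ) : ℝ := Real.exp (2 * K + 1 + V)

/-- the crude `g₀`-Lipschitz constant -/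
def a0 (K V K1 : ℝ) : ℝ := 2 * K * Real.exp (K1 * Em K V)

theorem Em_pos (K V : ℝ) : 0 < Em K V := Real.exp_pos _

theorem one_le_a0 (h : P.Ok) : 1 ≤ a0 P.K P.V P.K1 := by
  have h1 : 1 ≤ Real.exp (P.K1 * Em P.K P.V) :=
    Real.one_le_exp (mul_pos h.K10 (Em_pos _ _)).le
  unfold a0
  nlinarith [h.K_1]

theorem a0_sq (h : P.Ok) : 4 * P.K * Real.exp (P.K1 * Em P.K P.V) ≤ a0 P.K P.V P.K1 ^ 2 := by
  have h1 : 1 ≤ Real.exp (P.K1 * Em P.K P.V) :=
    Real.one_le_exp (mul_pos h.K10 (Em_pos _ _)).le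
  have h2 := h.K_1
  have h3 : 1 ≤ P.K * Real.exp (P.K1 * Em P.K P.V) := one_le_mul_of_one_le_of_one_le h2 h1
  unfold a0
  nlinarith

/-- gradient bound for `g₀` -/
theorem grLe (h : P.Ok) (hE : S.OE) {s : ℝ} (hs : s ∈ Icc S.t S.t') {y : M} (hy : y ∈ S.Kc)
    {f : ℝ → M → ℝ} (hf : SmST A (Icc S.t S.b) S.U f) {β c b : ℝ}
    (hβ : Gr (S.g s) (f s) y ≤ β) (hc : Real.exp (P.K1 * S.E s y) ≤ c) (hb : 4 * β * c ≤ b ^ 2) :
    Lo.GrLe K0 (f s) y b := by
  have hi := ch_mem A y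
  have hsm : ContDiffAt ℝ ∞ (inC A (ch A y) (f s)) (A.e (ch A y) y) :=
    (smOn_of_SmST hf (Stp.mem_Icc h hs)).contDiffAt S.op hi hy.1
  have hpos : (S.g s (ch A y) (A.e (ch A y) y)).PosDef :=
    ((S.flow.kah s (Stp.mem_Icc h hs)).kah _ _ hi hy.1).pos.self_of_nhds
  refine Lo.grLe_of_gsq K0 hi (hsm.of_le (by simp)) (g := S.g s (ch A y)) hpos
    ((Real.exp_pos _).le.trans hc) hβ (fun v => ?_) hb
  have h7 : gc K0 (ch A y) (A.e (ch A y) y) = K0.g (ch A y) y := by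
    unfold gc; rw [(A.e _).left_inv hi]
  rw [h7]
  exact ((hE s hs y hy).1 (ch A y) hi v).trans (mul_le_mul_of_nonneg_right hc
    (Ev.nq_nonneg (K0.pos _ _ hi).posSemidef v))

theorem exp_E_le (h : P.Ok) {s : ℝ} (hs : s ∈ Icc S.t S.t') {y : M} (hy : y ∈ S.Kc) :
    Real.exp (P.K1 * S.E s y) ≤ Real.exp (P.K1 * Em P.K P.V) :=
  Real.exp_le_exp.2 (mul_le_mul_of_nonneg_left (Stp.E_le h hs hy) h.K10.le)

/-- what the radius has to achieve -/
def Rad (S : Stp P I a) (s Λ' : ℝ) (x : M) (r' : ℝ) : Prop :=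
  0 < r' ∧ r' ≤ 1 ∧ 1 / r' ^ 2 ≤ Λ' * Real.exp (4 * P.ell (S.ρ s x) s) ∧
    ∀ y, dK K0 x y < r' → y ∈ S.Kc ∧ S.ρ s y ≤ S.ρ s x + 1 ∧ |S.u s y - S.u s x| ≤ 1

/-- near the boundary the crude bounds suffice -/
theorem rad_out (h : P.Ok) (hB : 2 ≤ P.B) (hB' : 32 * a0 P.K P.V P.K1 ^ 2 * P.L ≤ P.B)
    (hE : S.OE) {s : ℝ} (hs : s ∈ Icc S.t S.t') {Λ' : ℝ} (hΛ : 1 ≤ Λ') {x : M} (hx : x ∈ S.Kc)
    (h1 : S.σ / 2 ≤ S.ρ s x) (h2 : S.ρ s x ≤ S.σ) : Rad S s Λ' x (S.r / a0 P.K P.V P.K1) := by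
  have ha := one_le_a0 h
  have ha2 := a0_sq h
  set b := a0 P.K P.V P.K1 with hb
  have hr := S.r_pos h
  have hr1 := S.r_le_one h
  have hb0 : 0 < b := by linarith
  have hbr : b * (S.r / b) = S.r := by field_simp
  have ht : S.t ∈ Icc S.t S.t' := ⟨le_rfl, (S.t_lt h).le⟩
  have hs0 := Stp.nonneg h hs
  have hσ := S.σ0 h
  have hρ0 : 0 ≤ S.ρ s x := by linarith
  refine ⟨by positivity, by rw [div_le_one hb0]; linarith, ?_, fun y hy => ?_⟩
  · have hτ := h.τ_pos hs0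
    have hτ' := h.τ_pos S.t0
    have h3 := Ψ_le_of h hρ0 hs0 hσ S.t0 hB
      (by linarith [h.ρs_mono S.t0 hs.1, h.one_le_ρs hs0]) (Stp.τ_le_two h hs)
    have h4 := BΨ_le h hρ0 hs0
    have h5 := S.τ_q h
    have h6 := Stp.τ_le_two h hs
    have hq := S.q_pos h
    have hL := h.L0
    have hΨ := h.Ψ_pos hρ0 hs0
    have h7 : P.τ s * S.q ≤ 32 * P.L * P.Ψ (S.ρ s x) s := by
      calc P.τ s * S.q ≤ 2 * P.τ S.t * S.q := by gcongr
        _ = 2 * (P.L * P.Ψ S.σ S.t) := by rw [← h5]; ring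
        _ ≤ 2 * (P.L * (16 * P.Ψ (S.ρ s x) s)) := by gcongr
        _ = _ := by ring
    have h8 : 1 / (S.r / b) ^ 2 = b ^ 2 * S.q := by unfold Stp.q; field_simp
    rw [h8]
    refine le_trans ?_ (le_mul_of_one_le_left (Real.exp_pos _).le hΛ)
    refine le_trans ?_ h4
    rw [le_div_iff₀ hτ]
    calc b ^ 2 * S.q * P.τ s = b ^ 2 * (P.τ s * S.q) := by ring
      _ ≤ b ^ 2 * (32 * P.L * P.Ψ (S.ρ s x) s) := by gcongr
      _ = 32 * b ^ 2 * P.L * P.Ψ (S.ρ s x) s := by ring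
      _ ≤ _ := by gcongr
  · have h3 := (abs_le.1 (Stp.crudeK h hs hx).oρ).1
    obtain ⟨h4, -, h5⟩ := Lo.lip_exit K0 S.cptK.isClosed (ρ := S.ρ S.t) (a := b)
      (σ := S.σ + (P.K + 1) * S.r) (r := S.r / b) hb0
      (fun z hz => grLe h hE ht hz S.hρ.sm (Stp.crudeK h ht hz).gρ (exp_E_le h ht hz) ha2)
      (fun z hz hz' => Stp.Kc_mem_nhds h hz.1 hz') hx (by rw [hbr]; linarith) (y := y) hy
    have h6 := h5 (S.ρ s) b hb0.le fun z hz _ _ =>
      grLe h hE hs hz S.hρ.sm (Stp.crudeK h hs hz).gρ (exp_E_le h hs hz) ha2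
    have h7 := h5 (S.u s) (b / S.r) (by positivity) fun z hz _ _ =>
      grLe h hE hs hz S.hu.sm (Stp.crudeK h hs hz).gu (exp_E_le h hs hz) (by
        rw [div_pow, ← mul_div_assoc, div_mul_eq_mul_div]
        exact div_le_div_of_nonneg_right ha2 (by positivity))
    have h8 : b / S.r * (S.r / b) = 1 := by field_simp
    rw [hbr] at h6
    rw [h8] at h7
    exact ⟨h4, by linarith [(abs_le.1 h6).2], h7⟩

/-- deep inside the error of (g) is at most `1` -/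
theorem err_small (h : P.Ok) (hB : 8 ≤ P.B) (hV : P.V ≤ P.B) (hK : 768 * P.K1 ≤ P.B) {s : ℝ}
    (hs : s ∈ Icc S.t S.t') {y : M} (hy : S.ρ s y ≤ S.σ / 2 + 1) :
    P.K1 * P.τ s * S.q * S.E s y ≤ 1 := by
  have hr := S.r_pos h
  have hσ := S.B_le_σ h
  have hK1 := h.K10
  have hs0 := Stp.nonneg h hs
  have hτ := h.τ_pos hs0
  have hq := S.q_pos h
  set z := S.σ / (4 * S.r) with hz
  have hz0 : 0 < z := by have : 0 < S.σ := by linarith
                         positivity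
  have h1 : S.E s y ≤ Real.exp (-z) := by
    rw [Stp.E_le_exp_iff h]
    have h2 := Stp.le_sg h hs
    have h3 := S.mul_r_le h hV
    have h4 : -z * S.r = -(S.σ / 4) := by rw [hz]; field_simp
    linarith
  have h2 : z ^ 3 / 6 ≤ Real.exp z := by
    have := Real.pow_div_factorial_le_exp z hz0.le 3
    simpa [Nat.factorial] using this
  have h3 : P.τ s * S.r ≤ 2 := by
    have h4 := h.B2_r_le (S.σ0 h) S.t0
    change P.B ^ 2 * (1 + S.t) * S.r ≤ 1 at h4
    have h5 := Stp.τ_le_two h hs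
    have h6 := h.τ_le (s := S.t)
    have h7 : (1 + S.t) * S.r ≤ P.B ^ 2 * ((1 + S.t) * S.r) :=
      le_mul_of_one_le_left (by have := S.t0; positivity) (one_le_pow₀ h.B1)
    calc P.τ s * S.r ≤ 2 * (1 + S.t) * S.r := by gcongr; linarith
      _ ≤ 2 := by linarith
  have h4 : P.K1 * P.τ s * S.q ≤ Real.exp z := by
    refine le_trans ?_ h2
    have h5 : z ^ 3 / 6 = S.σ ^ 3 / 384 * S.q / S.r := by
      rw [hz]; unfold Stp.q; field_simp; ring
    rw [h5, le_div_iff₀ hr]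
    have h6 : S.σ ≤ S.σ ^ 3 := le_self_pow₀ (by linarith) (by norm_num)
    calc P.K1 * P.τ s * S.q * S.r = P.K1 * (P.τ s * S.r) * S.q := by ring
      _ ≤ P.K1 * 2 * S.q := by gcongr
      _ ≤ _ := by gcongr; linarith
  calc P.K1 * P.τ s * S.q * S.E s y ≤ Real.exp z * Real.exp (-z) :=
        mul_le_mul h4 h1 (Stp.E_pos s y).le (Real.exp_pos _).le
    _ = 1 := by rw [← Real.exp_add]; simp

/-- deep inside the gradient bound contained in (g) is used -/
theorem rad_in (h : P.Ok) (hB : 204 ≤ P.B) (hV : P.V ≤ P.B) (hK : 768 * P.K1 ≤ P.B) (hC : S.OC)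
    (hE : S.OE) {s : ℝ} (hs : s ∈ Icc S.t S.t') {Λ' : ℝ} (hΛ : 1 ≤ Λ')
    (hG : ∀ y ∈ S.Kc, P.τ s * Gr (S.g s) (S.u s) y ≤
      Λ' * P.Ψ (S.ρ s y) s + P.K1 * P.τ s * S.q * S.E s y)
    {x : M} (hx : x ∈ S.Kc) (h1 : S.ρ s x ≤ S.σ / 2) :
    Rad S s Λ' x (1 / √(204 * (Λ' * P.Ψ (S.ρ s x) s / P.τ s))) := by
  have hs0 := Stp.nonneg h hs
  have hτ := h.τ_pos hs0
  have hρ0 := (hC s hs x hx).1
  have hΨ := h.one_le_Ψ hρ0 hs0
  set Z := Λ' * P.Ψ (S.ρ s x) s / P.τ s with hZ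
  have hZ1 : 1 ≤ Z := by
    rw [hZ, le_div_iff₀ hτ]
    have := τ_le_Ψ h hρ0 hs0
    nlinarith
  set b := √(204 * Z) with hb
  have hb2 : b ^ 2 = 204 * Z := Real.sq_sqrt (by positivity)
  have hb5 : 5 ≤ b := Real.le_sqrt_of_sq_le (by linarith)
  have hb0 : 0 < b := by linarith
  refine ⟨by positivity, by rw [div_le_one hb0]; linarith, ?_, fun y hy => ?_⟩
  · have h4 := BΨ_le h hρ0 hs0
    calc 1 / (1 / b) ^ 2 = b ^ 2 := by field_simp
      _ = Λ' * (204 * P.Ψ (S.ρ s x) s / P.τ s) := by rw [hb2, hZ]; ring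
      _ ≤ Λ' * (P.B * P.Ψ (S.ρ s x) s / P.τ s) := by gcongr
      _ ≤ _ := by gcongr
  · have hcU : ContinuousOn (S.ρ s) S.U :=
      (smOn_of_SmST S.hρ.sm (Stp.mem_Icc h hs)).continuousOn
    have hF : IsClosed (S.Kc ∩ S.ρ s ⁻¹' Iic (S.ρ s x + 1)) :=
      (hcU.mono Stp.Kc_sub).preimage_isClosed_of_isClosed S.cptK.isClosed isClosed_Iic
    have he : ∀ z, S.ρ s z ≤ S.ρ s x + 1 → P.K1 * P.τ s * S.q * S.E s z ≤ 1 := fun z hz =>
      err_small h (by linarith) hV hK hs (by linarith)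
    have he' : ∀ z, S.ρ s z ≤ S.ρ s x + 1 → P.K1 * S.E s z ≤ 1 := fun z hz => by
      refine le_trans ?_ (he z hz)
      have h2 := Stp.one_le_τq h hs
      have h3 := mul_pos h.K10 (Stp.E_pos (S := S) s z)
      nlinarith
    have h5b : 5 * (1 / b) ≤ 1 := by rw [mul_one_div, div_le_one hb0]; exact hb5
    obtain ⟨h4, -, h5⟩ := Lo.lip_exit K0 hF (ρ := S.ρ s) (a := 5) (σ := S.ρ s x + 1) (r := 1 / b)
      (by norm_num) (fun z hz => Lp84.grLe h hC hE hs hz.1 (he' z hz.2))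
      (fun z hz hz' => by
        have h2 : S.Kc ∈ 𝓝 z :=
          Stp.Kc_mem_nhds' h hs hz.1.1 (by linarith [S.B_le_σ h, S.r_pos h])
        have h3 : ContinuousAt (S.ρ s) z := hcU.continuousAt (S.op.mem_nhds hz.1.1)
        filter_upwards [h2, h3.eventually (gt_mem_nhds hz')] with w hw hw'
        exact ⟨hw, le_of_lt hw'⟩)
      (x := x) ⟨hx, by change S.ρ s x ≤ _; linarith⟩ (by linarith) (y := y) hy
    have h7 := h5 (S.u s) b hb0.le fun z hz _ _ => by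
      have hz2 : S.ρ s z ≤ S.ρ s x + 1 := hz.2
      refine grLe h hE hs hz.1 S.hu.sm (β := 17 * Z) (c := 3) ?_
        ((Real.exp_le_exp.2 (he' z hz2)).trans (by linarith [Real.exp_one_lt_d9]))
        (by rw [hb2]; linarith)
      have h8 := hG z hz.1
      have h9 := Ψ_le_of h hρ0 hs0 (hC s hs z hz.1).1 hs0 (by linarith)
        (by linarith [h.one_le_ρs hs0]) (by linarith)
      have h10 := mul_le_mul_of_nonneg_left h9 (show 0 ≤ Λ' by linarith)
      have h11 : 1 ≤ Λ' * P.Ψ (S.ρ s x) s := one_le_mul_of_one_le_of_one_le hΛ hΨ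
      rw [hZ, ← mul_div_assoc, le_div_iff₀ hτ]
      linarith [he z hz2]
    rw [mul_one_div_cancel hb0.ne'] at h7
    exact ⟨h4.1, h4.2, h7⟩

/-- the constant in the bound for `Sf` -/
def c1 (C K V K1 N : ℝ) : ℝ := K1 * Em K V + 3 * C + K1 * (1 + C) * Em K V + N

/-- the lower bound -/
theorem lower (h : P.Ok) (hB1 : 6 + P.Cb * c1 P.Cb P.K P.V P.K1 n + P.K1 * Em P.K P.V ≤ P.B)
    (hB2 : 142 * P.Cb ^ 4 ≤ P.B) (hB3 : 2 * (P.K1 * Em P.K P.V) + 1 ≤ P.B) (hC : S.OC)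
    (hD : S.OD) (hE : S.OE) (hF : S.OF) {s : ℝ} (hs : s ∈ Icc S.t S.t') {Λ' : ℝ} (hΛ : 1 ≤ Λ')
    {x : M} (hx : x ∈ S.Kc) {r' : ℝ} (hr : Rad S s Λ' x r') :
    -(711 * (P.Cb ^ 5 * (1 + Real.log Λ') ^ 2 *
      ((S.ρ s x + P.ρs s) * P.ell (S.ρ s x) s))) ≤ S.u s x := by
  obtain ⟨hr0, hr1, hr2, hr3⟩ := hr
  obtain ⟨y, hy, hu⟩ := I.u0_ge a x r' hr0 hr1
  rw [S.hC] at hu
  obtain ⟨hyK, hyρ, hyu⟩ := hr3 y hy
  have hs0 := Stp.nonneg h hs
  have hρ0 := (hC s hs x hx).1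
  have hCb := h.Cb1
  have hK1 := h.K10
  have hEm := Em_pos P.K P.V
  have hEy : S.E s y ≤ Em P.K P.V := Stp.E_le h hs hyK
  set D := 2 + dK K0 p x with hDd
  set Λg := Real.log (D / r') with hΛg
  set X := S.ρ s x + P.ρs s with hX
  set l := P.ell (S.ρ s x) s with hl
  set μ := 1 + Real.log Λ' with hμ
  set e := P.K1 * Em P.K P.V with he
  have hD2 : 2 ≤ D := by linarith [Lp84.dK_nonneg (K0 := K0) p x]
  have hμ1 : 1 ≤ μ := by linarith [Real.log_nonneg hΛ]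
  have hl1 : 1 ≤ l := h.B1.trans (h.B_le_ell hρ0 hs0)
  have hXB : P.B ≤ X := by linarith [h.B_le_ρs hs0]
  have hX1 : 1 ≤ X := h.B1.trans hXB
  have hΛ0 : 0 ≤ Λg := Real.log_nonneg (by rw [le_div_iff₀ hr0]; linarith)
  have hΛ1 : Λg + 1 ≤ Real.log D + 2 * l + μ := by
    have h1 := Real.log_le_log (by positivity) hr2
    rw [Real.log_mul (by linarith) (Real.exp_pos _).ne', Real.log_exp,
      Real.log_div one_ne_zero (by positivity), Real.log_one, Real.log_pow] at h1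
    rw [hΛg, Real.log_div (by linarith) hr0.ne']
    push_cast at h1
    linarith
  have he1 : P.K1 * S.E s y ≤ e := mul_le_mul_of_nonneg_left hEy hK1.le
  have he2 : P.K1 * (1 + s) * S.E s y ≤ e * (1 + s) := by
    calc _ = P.K1 * S.E s y * (1 + s) := by ring
      _ ≤ _ := by gcongr
  have he3 : P.K1 * (1 + P.Cb) * S.E s y ≤ P.K1 * (1 + P.Cb) * Em P.K P.V := by gcongr
  -- `lv`, `Sf` at `y`
  have h1 : lv K0 (S.g s) y ≤
      3 * P.Cb + P.K1 * (1 + P.Cb) * Em P.K P.V + P.Cb * (S.ρ s x + D * Λg) := by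
    have h2 := (hD s hs y hyK).2.2 _ _ (Lp84.potC_u0 h S)
    have h3 : P.Cb * (2 + S.ρ s y) ≤ P.Cb * (3 + S.ρ s x) :=
      mul_le_mul_of_nonneg_left (by linarith) h.Cb0.le
    linarith
  have hc0 : 0 ≤ 3 * P.Cb + P.K1 * (1 + P.Cb) * Em P.K P.V := by positivity
  have h2 : Sf K0 (S.g s) (S.v s) s y ≤
      (1 + s) * c1 P.Cb P.K P.V P.K1 n + s * P.Cb * (S.ρ s x + D * Λg) := by
    have h3 := (hE s hs y hyK).2.2
    have h4 := mul_le_mul_of_nonneg_left h1 hs0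
    have h5 : (0 : ℝ) ≤ n := Nat.cast_nonneg n
    unfold Sf c1
    rw [← he]
    linarith
  have h3 := num_of (k := e) hCb hs0 hρ0 (by linarith) hΛ0
    (show 0 ≤ c1 P.Cb P.K P.V P.K1 n by unfold c1; positivity) h2 fun α hα => by
      have h4 := (hF s hs y hyK α hα).1 y
      rw [Lp84.zt_self y (by linarith)] at h4
      have h6 := Lp84.dK_tri (K0 := K0) p x y
      linarith
  have h4 : D ≤ 3 * X + 4 * (P.Cb ^ 2 * s * (Λg + 1)) := by
    have h5 : (6 + P.Cb * c1 P.Cb P.K P.V P.K1 n + e) * (1 + s) ≤ P.B * (1 + s) := by gcongr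
    linarith [h.lin_le_ρs hs0, h.one_le_ρs hs0]
  have h5 := num_D hCb hs0 (sq_le_X h hρ0 hs0) (s_ell_le h hρ0 hs0) hμ1 (by linarith) hΛ1 h4
  have h6 : Real.log D ≤ l + μ := by
    have h7 := Real.log_le_log (by linarith) (show D ≤ 142 * P.Cb ^ 4 * X * μ by linarith)
    rw [Real.log_mul (by positivity) (by linarith), Real.log_mul (by positivity) (by linarith)]
      at h7
    have h8 := Real.log_le_sub_one_of_pos (show 0 < 142 * P.Cb ^ 4 by positivity)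
    have h9 := Real.log_le_sub_one_of_pos (show 0 < μ by linarith)
    have h10 := h.log_τ_nonneg hs0
    have h11 : l = Real.log X + P.B + Real.log (1 + 1 / P.τ s) := rfl
    linarith
  have h7 : Λg ≤ 5 * (l * μ) := by
    have h8 : l ≤ l * μ := le_mul_of_one_le_right (by linarith) hμ1
    have h9 : μ ≤ l * μ := le_mul_of_one_le_left (by linarith) hl1
    linarith
  have h8 : P.Cb * D * Λg ≤ 710 * (P.Cb ^ 5 * μ ^ 2 * (X * l)) := by
    calc P.Cb * D * Λg ≤ P.Cb * (142 * (P.Cb ^ 4 * X * μ)) * (5 * (l * μ)) := by gcongr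
      _ = _ := by ring
  have h9 : X ≤ P.Cb ^ 5 * μ ^ 2 * (X * l) := by
    calc X ≤ X * l := le_mul_of_one_le_right (by linarith) hl1
      _ ≤ _ := le_mul_of_one_le_left (by positivity)
        (one_le_mul_of_one_le_of_one_le (one_le_pow₀ hCb) (one_le_pow₀ hμ1))
  have h10 := (hD s hs y hyK).1
  have h11 := (hE s hs y hyK).2.1
  have h12 := (abs_le.1 hyu).2
  linarith

/-- the upper bound -/
theorem upper (h : P.Ok) (hB : 2 * P.Cb + P.K1 * (1 + P.Cb) ≤ P.B) (hC : S.OC) (hD : S.OD) {s : ℝ}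
    (hs : s ∈ Icc S.t S.t') {x : M} (hx : x ∈ S.Kc) (hE : S.E s x ≤ 1) :
    S.u s x ≤ (S.ρ s x + P.ρs s) * P.ell (S.ρ s x) s := by
  have hs0 := Stp.nonneg h hs
  have hρ0 := (hC s hs x hx).1
  have hCb := h.Cb1
  have hK1 := h.K10
  have h1 := (hD s hs x hx).2.1
  have h0 : 0 ≤ P.K1 * (1 + P.Cb) := by positivity
  have h2 := mul_le_mul_of_nonneg_left hE h0
  have h3 := h.one_le_ρs hs0
  have h4 : (S.ρ s x + P.ρs s) * P.B ≤ (S.ρ s x + P.ρs s) * P.ell (S.ρ s x) s :=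
    mul_le_mul_of_nonneg_left (h.B_le_ell hρ0 hs0) (by linarith)
  have h5 : S.ρ s x * P.Cb ≤ S.ρ s x * P.B := mul_le_mul_of_nonneg_left (by linarith) hρ0
  have h6 : P.B ≤ P.ρs s * P.B := le_mul_of_one_le_left h.B0.le h3
  linarith

end Ll45

open Ll45 in
/-- **leaf Ll** -/
theorem llStmt (n : ℕ) : LlStmt n := by
  unfold LlStmt Leaf
  refine Ev.of_thr (fun Cb => (64 * n * 711 ^ 2 * 4096 * Cb ^ 10) ^ 2) (fun _ _ => 0)
    (fun _ _ _ => 0)
    (fun Cb K V K1 _ L => 204 + V + 768 * K1 + 32 * a0 K V K1 ^ 2 * L +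
      (6 + Cb * c1 Cb K V K1 n + K1 * Em K V) + 142 * Cb ^ 4 + (2 * (K1 * Em K V) + 1) +
      (2 * Cb + K1 * (1 + Cb))) ?_
  intro P h hΛ _ _ hB M _ _ _ A K0 p I a S hC hD hE hF s hs Λ' hΛ' hG x hx hE3
  have hCb := h.Cb1
  have e1 := h.V0
  have e2 := h.K10
  have e0 := h.L0
  have hEm := Em_pos P.K P.V
  have e3 : 0 ≤ 32 * a0 P.K P.V P.K1 ^ 2 * P.L := by positivity
  have e4 : 0 ≤ P.Cb * c1 P.Cb P.K P.V P.K1 n := by unfold c1; positivity
  have e5 : 0 ≤ P.K1 * Em P.K P.V := by positivity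
  have e6 : 0 ≤ P.Cb ^ 4 := by positivity
  have e7 : 0 ≤ P.K1 * (1 + P.Cb) := by positivity
  have hΛ1 : 1 ≤ Λ' := h.Λ1.trans hΛ'
  have hs0 := Stp.nonneg h hs
  have hρ0 := (hC s hs x hx).1
  have hE1 : S.E s x ≤ 1 := by linarith
  obtain ⟨r', hr⟩ : ∃ r', Rad S s Λ' x r' := by
    rcases le_total (S.σ / 2) (S.ρ s x) with h1 | h1
    · exact ⟨_, rad_out h (by linarith) (by linarith) hE hs hΛ1 hx h1
        (((Stp.E_le_one_iff h).1 hE1).trans (Stp.sg_le h hs))⟩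
    · exact ⟨_, rad_in h (by linarith) (by linarith) (by linarith) hC hE hs hΛ1 hG hx h1⟩
  have h1 := lower h (by linarith) (by linarith) (by linarith) hC hD hE hF hs hΛ1 hx hr
  have h2 := upper h (by linarith) hC hD hs hx hE1
  refine num_fin (C := P.Cb) (Nat.cast_nonneg n) hΛ1 (hΛ.trans hΛ') (abs_le.2 ⟨h1, h2.trans ?_⟩)
  have h3 : 0 ≤ (S.ρ s x + P.ρs s) * P.ell (S.ρ s x) s :=
    mul_nonneg (by linarith [h.one_le_ρs hs0]) (h.ell_pos hρ0 hs0).le
  have h4 : 1 ≤ 1 + Real.log Λ' := by linarith [Real.log_nonneg hΛ1]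
  have h5 := le_mul_of_one_le_left h3
    (one_le_mul_of_one_le_of_one_le (one_le_pow₀ (n := 5) hCb) (one_le_pow₀ (n := 2) h4))
  linarith

end

end Crest.Agent.T223.Os
end

-- ▼ part T223/StNem_16
section

/-!
# Row 223, STEP (helper16): the pointwise estimates `NemStmt` of the Monge-Ampere nonlinearity
-/

set_option autoImplicit false
set_option linter.unusedVariables false

open Set Filter Topology Metric
open scoped ContDiff ComplexConjugate Matrix ComplexOrder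

namespace Crest.Agent.T223.St

open Crest.Agent.R275.Geo Crest.Agent.R273.Hess_333 Crest.Agent.T223.Tr Crest.Agent.T223.Os
open Crest.Agent.T223.Db (eR zm rm)
open Crest.Agent.N207.P (En)
open Crest.Agent.T223.Lx

namespace Nem16

/-- Taylor type estimates near a point where the partial derivative in `z` vanishes -/
theorem abs_nem {E Z : Type*} [NormedAddCommGroup E] [NormedSpace ℝ E] [NormedAddCommGroup Z]
    [NormedSpace ℝ Z] {F : E × Z → ℝ} {p0 : E} (hF : ContDiffAt ℝ ∞ F (p0, 0))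
    (h0 : ∀ z, fderiv ℝ F (p0, 0) (0, z) = 0) :
    ∃ K : ℝ, 0 ≤ K ∧ ∀ ε : ℝ, 0 < ε → ∃ η : ℝ, 0 < η ∧ ∀ p p' : E, ‖p - p0‖ ≤ η → ‖p' - p0‖ ≤ η →
      |F (p, 0)| ≤ K ∧
      (∀ z z' : Z, ‖z‖ ≤ η → ‖z'‖ ≤ η → |F (p, z) - F (p', z')| ≤ K * (‖p - p'‖ + ‖z - z'‖)) ∧
      ∀ z z' e e' : Z, ‖z‖ ≤ η → ‖z'‖ ≤ η → ‖e‖ ≤ η → ‖e'‖ ≤ η →
        |(F (p, z) - F (p, z')) - (F (p', e) - F (p', e'))| ≤ ε * ‖(z - z') - (e - e')‖ +
          K * (‖p - p'‖ + ‖z - e‖ + ‖z' - e'‖) * ‖e - e'‖ := by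
  obtain ⟨K1, t1, ht1, hL1⟩ := (hF.of_le (by simp : (1 : WithTop ℕ∞) ≤ ∞)).exists_lipschitzOnWith
  obtain ⟨K2, t2, ht2, hL2⟩ :=
    (hF.fderiv_right (m := 1) (by norm_cast)).exists_lipschitzOnWith
  have ht3 : ∀ᶠ q in 𝓝 (p0, (0 : Z)), DifferentiableAt ℝ F q :=
    ((hF.of_le (by simp : (1 : WithTop ℕ∞) ≤ ∞)).eventually (by simp)).mono fun q hq =>
      hq.differentiableAt (by simp)
  obtain ⟨r, hr, hrs⟩ := Metric.nhds_basis_closedBall.mem_iff.1 (inter_mem ht1 (inter_mem ht2 ht3))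
  refine ⟨|F (p0, 0)| + K1 + K2, by positivity, fun ε hε => ?_⟩
  have hK2 : (0 : ℝ) < K2 + 1 := by positivity
  refine ⟨min (min r 1) (ε / (K2 + 1)), by positivity, fun p p' hp hp' => ?_⟩
  set η := min (min r 1) (ε / (K2 + 1)) with hη
  have hηr : η ≤ r := (min_le_left _ _).trans (min_le_left _ _)
  have hη1 : η ≤ 1 := (min_le_left _ _).trans (min_le_right _ _)
  have hηε : K2 * η ≤ ε := by
    have h := min_le_right (min r 1) (ε / (K2 + 1))
    rw [← hη, le_div_iff₀ hK2] at h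
    have : 0 ≤ η := (norm_nonneg _).trans hp
    nlinarith
  have hd : ∀ (p : E) (z : Z), ‖p - p0‖ ≤ η → ‖z‖ ≤ η → dist (p, z) (p0, (0 : Z)) ≤ η :=
    fun p z h1 h2 => by
      rw [Prod.dist_eq, dist_eq_norm, dist_zero_right]; exact max_le h1 h2
  have hm : ∀ (p : E) (z : Z), ‖p - p0‖ ≤ η → ‖z‖ ≤ η →
      (p, z) ∈ t1 ∩ (t2 ∩ {q | DifferentiableAt ℝ F q}) :=
    fun p z h1 h2 => hrs (mem_closedBall.2 ((hd p z h1 h2).trans hηr))
  have hη0 : 0 ≤ η := (norm_nonneg _).trans hp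
  have hc : (p0, (0 : Z)) ∈ t1 ∩ (t2 ∩ {q | DifferentiableAt ℝ F q}) :=
    hm _ _ (by simpa using hη0) (by simpa using hη0)
  have hds : ∀ (p p' : E) (z z' : Z), dist (p, z) (p', z') ≤ ‖p - p'‖ + ‖z - z'‖ :=
    fun p p' z z' => by
      rw [Prod.dist_eq, dist_eq_norm, dist_eq_norm]
      exact max_le (le_add_of_nonneg_right (norm_nonneg _)) (le_add_of_nonneg_left (norm_nonneg _))
  have hA := abs_nonneg (F (p0, 0))
  refine ⟨?_, fun z z' hz hz' => ?_, fun z z' e e' hz hz' he he' => ?_⟩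
  · have h := hL1.dist_le_mul _ (hm p 0 hp (by simpa using hη0)).1 _ hc.1
    rw [Real.dist_eq] at h
    have h2 := (hd p 0 hp (by simpa using hη0)).trans hη1
    have h3 := abs_sub_abs_le_abs_sub (F (p, 0)) (F (p0, 0))
    nlinarith [K1.2, K2.2, NNReal.coe_nonneg K1, NNReal.coe_nonneg K2]
  · have h := hL1.dist_le_mul _ (hm p z hp hz).1 _ (hm p' z' hp' hz').1
    rw [Real.dist_eq] at h
    refine h.trans (mul_le_mul (by linarith [NNReal.coe_nonneg K2]) (hds _ _ _ _) dist_nonneg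
      (by positivity))
  · have hseg : ∀ (a b : Z), ‖a‖ ≤ η → ‖b‖ ≤ η → ∀ s ∈ Icc (0 : ℝ) 1, ‖b + s • (a - b)‖ ≤ η :=
      fun a b ha hb s hs => by
        have h : b + s • (a - b) = (1 - s) • b + s • a := by module
        rw [h]
        refine (norm_add_le _ _).trans ?_
        rw [norm_smul, norm_smul, Real.norm_of_nonneg hs.1, Real.norm_of_nonneg (by linarith [hs.2])]
        nlinarith [hs.1, hs.2]
    have hder : ∀ (p : E) (a b : Z), ‖p - p0‖ ≤ η → ‖a‖ ≤ η → ‖b‖ ≤ η → ∀ s ∈ Icc (0 : ℝ) 1,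
        HasDerivAt (fun s : ℝ => F (p, b + s • (a - b)))
          (fderiv ℝ F (p, b + s • (a - b)) (0, a - b)) s := fun p a b hp ha hb s hs => by
      have h1 : HasDerivAt (fun s : ℝ => ((p, b + s • (a - b)) : E × Z)) (0, a - b) s :=
        (hasDerivAt_const s p).prodMk
          (by simpa using ((hasDerivAt_id s).smul_const (a - b)).const_add b)
      exact (hm p _ hp (hseg a b ha hb s hs)).2.2.hasFDerivAt.comp_hasDerivAt s h1
    have key := norm_image_sub_le_of_norm_deriv_le_segment_01'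
      (f := fun s : ℝ => F (p, z' + s • (z - z')) - F (p', e' + s • (e - e')))
      (f' := fun s : ℝ => fderiv ℝ F (p, z' + s • (z - z')) (0, z - z') -
        fderiv ℝ F (p', e' + s • (e - e')) (0, e - e'))
      (C := ε * ‖(z - z') - (e - e')‖ +
          (|F (p0, 0)| + K1 + K2) * (‖p - p'‖ + ‖z - e‖ + ‖z' - e'‖) * ‖e - e'‖)
      (fun s hs => ((hder p z z' hp hz hz' s hs).sub (hder p' e e' hp' he he' s hs)).hasDerivWithinAt)
      (fun s hs => ?_)
    · simp only [one_smul, zero_smul, add_zero, add_sub_cancel, Real.norm_eq_abs] at key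
      rwa [show F (p, z) - F (p, z') - (F (p', e) - F (p', e')) =
        F (p, z) - F (p', e) - (F (p, z') - F (p', e')) by ring]
    have hs' : s ∈ Icc (0 : ℝ) 1 := Ico_subset_Icc_self hs
    set a := z' + s • (z - z') with ha
    set b := e' + s • (e - e') with hb
    have ha' : ‖a‖ ≤ η := hseg z z' hz hz' s hs'
    have hb' : ‖b‖ ≤ η := hseg e e' he he' s hs'
    have e1 : fderiv ℝ F (p, a) (0, z - z') - fderiv ℝ F (p', b) (0, e - e') =
        (fderiv ℝ F (p, a) - fderiv ℝ F (p0, 0)) (0, (z - z') - (e - e')) +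
          (fderiv ℝ F (p, a) - fderiv ℝ F (p', b)) (0, e - e') := by
      have h : ((0 : E), z - z') = (0, (z - z') - (e - e')) + (0, e - e') := by simp
      rw [h, map_add, sub_apply, sub_apply, h0]
      ring
    have n1 : ∀ v : Z, ‖((0 : E), v)‖ = ‖v‖ := fun v => by simp [Prod.norm_def]
    have b1 := hL2.dist_le_mul _ (hm p a hp ha').2.1 _ hc.2.1
    have b2 := hL2.dist_le_mul _ (hm p a hp ha').2.1 _ (hm p' b hp' hb').2.1
    rw [dist_eq_norm] at b1 b2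
    have b3 : ‖a - b‖ ≤ ‖z - e‖ + ‖z' - e'‖ := by
      have h : a - b = s • (z - e) + (1 - s) • (z' - e') := by rw [ha, hb]; module
      rw [h]
      refine (norm_add_le _ _).trans ?_
      rw [norm_smul, norm_smul, Real.norm_of_nonneg hs'.1,
        Real.norm_of_nonneg (by linarith [hs'.2])]
      nlinarith [hs'.1, hs'.2, norm_nonneg (z - e), norm_nonneg (z' - e')]
    rw [e1]
    refine (norm_add_le _ _).trans (add_le_add ?_ ?_)
    · refine (ContinuousLinearMap.le_opNorm _ _).trans ?_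
      rw [n1]
      exact mul_le_mul_of_nonneg_right (b1.trans ((mul_le_mul_of_nonneg_left (hd p a hp ha')
        (NNReal.coe_nonneg K2)).trans hηε)) (norm_nonneg _)
    · refine (ContinuousLinearMap.le_opNorm _ _).trans ?_
      rw [n1]
      refine mul_le_mul_of_nonneg_right (b2.trans (mul_le_mul
        (by linarith [NNReal.coe_nonneg K1]) ((hds _ _ _ _).trans (by linarith)) dist_nonneg
        (by positivity))) (norm_nonneg _)

/-- `log (det (1 + s z)).re - s re tr z` has derivative `0` at `0` -/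
theorem der_logdet {n : ℕ} (z : Matrix (Fin n) (Fin n) ℂ) :
    HasDerivAt (fun s : ℝ => Real.log (1 + (s : ℂ) • z).det.re) z.trace.re 0 := by
  obtain ⟨P, hP⟩ : ∃ P : Polynomial ℂ, ∀ r : ℂ, (1 + r • z).det = 1 + z.trace * r + P.eval r * r ^ 2 :=
    ⟨_, fun r => Matrix.det_one_add_smul r z⟩
  have h1 : HasDerivAt (fun r : ℂ => 1 + z.trace * r + P.eval r * r ^ 2) z.trace ((0 : ℝ) : ℂ) :=
    ((((hasDerivAt_id ((0 : ℝ) : ℂ)).const_mul z.trace).const_add 1).add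
      ((P.hasDerivAt _).mul ((hasDerivAt_id ((0 : ℝ) : ℂ)).pow 2))).congr_deriv (by simp)
  have h2 := h1.real_of_complex.log (by simp)
  simp only [hP]
  simpa using h2


/-- the nonlinearity as a function of `(G, t Ric, H)` -/
noncomputable def FF (n : ℕ) (q : (ZZ n × ZZ n) × ZZ n) : ℝ :=
  Real.log ((Matrix.of q.1.1 - Matrix.of q.1.2 + Matrix.of q.2).det.re /
    (Matrix.of q.1.1).det.re) - trg (Matrix.of q.1.1) (Matrix.of q.2)

/-- the base point -/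
noncomputable def p0 (n : ℕ) : ZZ n × ZZ n := (fun a b => (1 : Mat n) a b, 0)

variable {n : ℕ}

theorem of_p1 : Matrix.of (p0 n).1 = (1 : Mat n) := rfl

theorem of_p2 : Matrix.of (p0 n).2 = (0 : Mat n) := rfl

theorem cd_FF : ContDiffAt ℝ ∞ (FF n) (p0 n, 0) := by
  have h1 : ∀ a b, ContDiffAt ℝ ∞ (fun q : (ZZ n × ZZ n) × ZZ n => (Matrix.of q.1.1 : Mat n) a b)
      (p0 n, 0) := fun a b => by simp only [Matrix.of_apply]; fun_prop
  have h2 : ∀ a b, ContDiffAt ℝ ∞ (fun q : (ZZ n × ZZ n) × ZZ n => (Matrix.of q.1.2 : Mat n) a b)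
      (p0 n, 0) := fun a b => by simp only [Matrix.of_apply]; fun_prop
  have h3 : ∀ a b, ContDiffAt ℝ ∞ (fun q : (ZZ n × ZZ n) × ZZ n => (Matrix.of q.2 : Mat n) a b)
      (p0 n, 0) := fun a b => by simp only [Matrix.of_apply]; fun_prop
  have h0 : (Matrix.of (0 : ZZ n) : Mat n) = 0 := rfl
  have d1 := Complex.reCLM.contDiff.contDiffAt.comp (n := ∞) _ (cdM_det h1)
  have d2 := Complex.reCLM.contDiff.contDiffAt.comp (n := ∞) _ (cdM_det
    (g := fun q : (ZZ n × ZZ n) × ZZ n => Matrix.of q.1.1 - Matrix.of q.1.2 + Matrix.of q.2)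
    fun a b => ((h1 a b).sub (h2 a b)).add (h3 a b))
  refine ContDiffAt.sub (ContDiffAt.log (ContDiffAt.div d2 d1 ?_) ?_) (cdM_trg h1 ?_ h3)
  · simp [of_p1]
  · simp [of_p1, of_p2, h0]
  · simp [of_p1]

theorem d_FF (z : ZZ n) : fderiv ℝ (FF n) (p0 n, 0) (0, z) = 0 := by
  have h1 : HasDerivAt (fun s : ℝ => ((p0 n, s • z) : (ZZ n × ZZ n) × ZZ n)) (0, z) 0 :=
    (hasDerivAt_const _ _).prodMk (by simpa using (hasDerivAt_id (0 : ℝ)).smul_const z)
  have h2 : HasFDerivAt (FF n) (fderiv ℝ (FF n) (p0 n, 0)) (p0 n, (0 : ℝ) • z) := by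
    rw [zero_smul]; exact (cd_FF.differentiableAt (by simp)).hasFDerivAt
  have h3 := h2.comp_hasDerivAt (0 : ℝ) h1
  have h4 := (der_logdet (Matrix.of z)).sub
    ((hasDerivAt_id (0 : ℝ)).mul_const (Matrix.of z).trace.re)
  rw [one_mul, sub_self] at h4
  refine h3.unique (h4.congr_of_eventuallyEq (Eventually.of_forall fun s => ?_))
  have h5 : (Matrix.of (s • z) : Mat n) = (s : ℂ) • Matrix.of z := by
    ext a b; simp
  simp only [Function.comp_apply, FF, of_p1, of_p2, trg, Pi.sub_apply, id]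
  rw [h5]
  generalize (Matrix.of z : Mat n) = Z
  simp

theorem ub_rm {ι : Type*} {k m : ℕ} {r c : ℝ} {G : ι → En k → Mat n} (h : UE r m G) (hc : 0 < c)
    (h0 : ∀ i, ∀ y ∈ ball (0 : En k) r, c ≤ (G i y).det.re) (a b : Fin (2 * n)) :
    UB r m fun i y => rm (G i y) a b := by
  simp only [rm, Matrix.of_apply, Matrix.mul_apply]
  exact ub_re (UB.sum _ fun d _ => ub_cmul (UB.sum _ fun e _ =>
    ub_cmul (ub_const' _) (h.inv hc h0 e d)) (ub_const' _))

theorem near_rm {δ : ℝ} (hδ : 0 < δ) :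
    ∀ᶠ G in 𝓝 (1 : Mat n), ∀ k l, |rm G k l - rm (1 : Mat n) k l| ≤ δ := by
  refine eventually_all.2 fun k => eventually_all.2 fun l => ?_
  have h : ContDiffWithinAt ℝ ∞ (fun q : ZZ n => rm (Matrix.of q) k l) univ (p0 n).1 :=
    Db.cd_rm (G := fun q : ZZ n => Matrix.of q)
      (fun a b => by
        simp only [Matrix.of_apply]
        exact ContDiff.contDiffWithinAt (by fun_prop)) (by simp [of_p1]) k l
  have h2 : ContinuousAt (fun q : Mat n => rm q k l) 1 :=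
    (contDiffWithinAt_univ.1 h).continuousAt
  filter_upwards [Metric.tendsto_nhds.1 h2 δ hδ] with G hG
  exact (Real.dist_eq _ _ ▸ hG).le

end Nem16

open Nem16 in
theorem nemStmt (n : ℕ) : NemStmt n := by
  intro δ hδ
  obtain ⟨η0, hη0, h0⟩ := exists_η0 n
  obtain ⟨η1, hη1, h1⟩ := exists_near (near_rm (n := n) hδ)
  obtain ⟨K0, hK0, hF⟩ := abs_nem (cd_FF (n := n)) d_FF
  have hR := one_le_RR n
  have hR0 : 0 < RR n := by linarith
  set ε0 := min η0 η1 / RR n with hε0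
  have hε0p : 0 < ε0 := by positivity
  have hε0R : ε0 * RR n = min η0 η1 := div_mul_cancel₀ _ hR0.ne'
  have hG : UM 2 7 fun i : {G : Cn n → Mat n // FlG ε0 G} => i.1 := um_flG fun i => i.2
  have hdet : ∀ i : {G : Cn n → Mat n // FlG ε0 G}, ∀ y ∈ ball (0 : En (2 * n)) 2,
      1 / 2 ≤ (rr i.1 y).det.re := fun i y hy =>
    (h0 _ fun a b => (i.2.near (symm_mem hy) a b).trans (hε0R.trans_le (min_le_left _ _))).1
  have hG0 : UM 2 0 fun i : {G : Cn n → Mat n // FlG ε0 G} => i.1 := UE.of_le (by norm_num) hG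
  have hRic : UM 2 0 fun i : {G : Cn n → Mat n // FlG ε0 G} => ric i.1 :=
    UM.ric (UE.of_le (by norm_num) hG) (by norm_num) hdet
  obtain ⟨K1, hK1, b1⟩ := (UB.of_pi (f := fun (i : {G : Cn n → Mat n // FlG ε0 G}) y a b =>
    rr i.1 y a b) fun a => UB.of_pi (hG0 a)).hol
  obtain ⟨K2, hK2, b2⟩ := (UB.of_pi (f := fun (i : {G : Cn n → Mat n // FlG ε0 G}) y a b =>
    rr (ric i.1) y a b) fun a => UB.of_pi (hRic a)).hol
  obtain ⟨K3, hK3, b3⟩ := UE.bdd hRic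
  obtain ⟨K4, hK4, b4⟩ := (UB.of_pi (f := fun (i : {G : Cn n → Mat n // FlG ε0 G}) y k l =>
    rm (rr i.1 y) k l) fun k => UB.of_pi (ub_rm hG0 (by norm_num) hdet k)).hol
  refine ⟨K0 * (1 + K1 + K2) + K3 + K4 + 1, by nlinarith [mul_nonneg hK0 hK1, mul_nonneg hK0 hK2],
    fun ε hε => ?_⟩
  set K := K0 * (1 + K1 + K2) + K3 + K4 + 1 with hK
  have hA : K0 * (1 + K1 + K2) ≤ K := by linarith
  have hA0 : K0 ≤ K0 * (1 + K1 + K2) := le_mul_of_one_le_right hK0 (by linarith)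
  obtain ⟨η2, hη2, hF⟩ := hF ε hε
  set η := min (min ε0 1) (η2 / (RR n + K3)) with hη
  have hηa : η ≤ ε0 := (min_le_left _ _).trans (min_le_left _ _)
  have hηb : η ≤ 1 := (min_le_left _ _).trans (min_le_right _ _)
  have hηp : 0 < η := by positivity
  have hηc : η * (RR n + K3) ≤ η2 := (le_div_iff₀ (by positivity)).1 (min_le_right _ _)
  have hηd : η ≤ η2 := by nlinarith
  refine ⟨η, hηp, fun G hG => ?_⟩
  have s2 : ∀ {y : En (2 * n)}, y ∈ ball (0 : En (2 * n)) 1 → y ∈ ball (0 : En (2 * n)) 2 :=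
    fun hy => ball_subset_ball (by norm_num) hy
  let i : {G : Cn n → Mat n // FlG ε0 G} := ⟨G, hG.mono hηa⟩
  refine ⟨fun y hy => h1 _ fun a b => (i.2.near (symm_mem (s2 hy)) a b).trans
      (hε0R.trans_le (min_le_right _ _)), fun y hy y' hy' k l => ?_,
    fun y hy a b => (b3 i y (s2 hy) a b).trans (by linarith), fun t ht => ?_⟩
  · refine le_trans ?_ ((b4 i y (s2 hy) y' (s2 hy')).trans
      (mul_le_mul_of_nonneg_right (by linarith) (Real.sqrt_nonneg _)))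
    exact (norm_le_pi_norm _ l).trans (norm_le_pi_norm
      ((fun k l => rm (rr i.1 y) k l) - fun k l => rm (rr i.1 y') k l) k)
  let p : En (2 * n) → ZZ n × ZZ n := fun y =>
    (fun a b => rr G y a b, t • fun a b => rr (ric G) y a b)
  have hP : ∀ y z, Ph G t y z = FF n (p y, z) := fun y z => by
    have h : (Matrix.of (p y).2 : Mat n) = (t : ℂ) • rr (ric G) y := by ext a b; simp [p]
    rw [FF, h]; rfl
  have hp : ∀ y ∈ ball (0 : En (2 * n)) 1, ‖p y - p0 n‖ ≤ η2 := fun y hy => by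
    refine max_le ((pi_norm_le_iff_of_nonneg hη2.le).2 fun a =>
      (pi_norm_le_iff_of_nonneg hη2.le).2 fun b => (hG.near (symm_mem (s2 hy)) a b).trans
        (by nlinarith)) ((pi_norm_le_iff_of_nonneg hη2.le).2 fun a =>
      (pi_norm_le_iff_of_nonneg hη2.le).2 fun b => ?_)
    have h : (p y - p0 n).2 a b = t • rr (ric G) y a b := by simp [p, p0]
    rw [h, norm_smul, Real.norm_of_nonneg ht.1]
    exact (mul_le_mul ht.2 (b3 i y (s2 hy) a b) (norm_nonneg _) hηp.le).trans (by nlinarith)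
  have hpp : ∀ y ∈ ball (0 : En (2 * n)) 1, ∀ y' ∈ ball (0 : En (2 * n)) 1,
      ‖p y - p y'‖ ≤ (K1 + K2) * √(dist y y') := fun y hy y' hy' => by
    have hs := Real.sqrt_nonneg (dist y y')
    refine max_le ((b1 i y (s2 hy) y' (s2 hy')).trans (by nlinarith)) ?_
    have h : (p y - p y').2 = t • ((fun a b => rr (ric G) y a b) - fun a b => rr (ric G) y' a b) :=
      (smul_sub _ _ _).symm
    rw [h, norm_smul, Real.norm_of_nonneg ht.1]
    exact (mul_le_mul (ht.2.trans hηb) (b2 i y (s2 hy) y' (s2 hy')) (norm_nonneg _)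
      zero_le_one).trans (by nlinarith)
  intro y hy
  simp only [hP]
  refine ⟨(hF _ _ (hp y hy) (hp y hy)).1.trans (by linarith), fun y' hy' => ?_,
    fun z z' hz hz' => ?_, fun y' hy' z z' e e' hz hz' he he' => ?_⟩
  · refine ((hF _ _ (hp y hy) (hp y' hy')).2.1 0 0 (by simpa using hη2.le)
      (by simpa using hη2.le)).trans ?_
    rw [sub_self, norm_zero, add_zero]
    have hs := Real.sqrt_nonneg (dist y y')
    refine (mul_le_mul_of_nonneg_left (hpp y hy y' hy') hK0).trans ?_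
    rw [← mul_assoc]
    exact mul_le_mul_of_nonneg_right (by nlinarith) hs
  · refine ((hF _ _ (hp y hy) (hp y hy)).2.1 z z' (hz.trans hηd) (hz'.trans hηd)).trans ?_
    rw [sub_self, norm_zero, zero_add]
    exact mul_le_mul_of_nonneg_right (by linarith) (norm_nonneg _)
  · refine ((hF _ _ (hp y hy) (hp y' hy')).2.2 z z' e e' (hz.trans hηd) (hz'.trans hηd)
      (he.trans hηd) (he'.trans hηd)).trans (add_le_add le_rfl
        (mul_le_mul_of_nonneg_right ?_ (norm_nonneg _)))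
    have hs := Real.sqrt_nonneg (dist y y')
    have n1 := norm_nonneg (z - e)
    have n2 := norm_nonneg (z' - e')
    calc K0 * (‖p y - p y'‖ + ‖z - e‖ + ‖z' - e'‖)
        ≤ K0 * ((1 + K1 + K2) * (√(dist y y') + ‖z - e‖ + ‖z' - e'‖)) :=
          mul_le_mul_of_nonneg_left (by nlinarith [hpp y hy y' hy']) hK0
      _ ≤ K * (√(dist y y') + ‖z - e‖ + ‖z' - e'‖) := by
          rw [← mul_assoc]; exact mul_le_mul_of_nonneg_right hA (by positivity)

end Crest.Agent.T223.St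
end

-- ▼ part T223/Jb_38
section

/-!
# Row 223, JETBD (helper38): bounds of the jets in a chart give bounds of the tensors

* `WB m f z`, `WM m g z` : families of germs with uniformly bounded Wirtinger jets of order `m`
* `chart_bd`  : `1/2 ≤ g`, `|D^j g| ≤ C` (`j ≤ 4`) bound `bis`, `ric`, `lyhS`
* scaling laws `ric_smul`, `scal_smul`, `bis_smul`, `nabRic_smul`, `gsq_smul`, `lyhS_smul`
* `crude_of_jets` : `LyhAbs`, `BkAbs` from the jets of `pull G ψ`
* `hesAbs_of_jets`, `gr_le_of_jet`, `fderiv_le_of_gr`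
-/

set_option autoImplicit false
set_option linter.unusedVariables false

open Set Filter Topology Metric
open scoped ContDiff ComplexConjugate Matrix ComplexOrder

namespace Crest.Agent.T223.Jb

open Crest.Agent.R275.Geo Crest.Agent.R275.EDR890 Crest.Agent.R273.Kah_333
open Crest.Agent.R273.Hess_333 Crest.Agent.R273.HessB_333
open Crest.Agent.T223.Br Crest.Agent.T223.Tr Crest.Agent.T223.Os

noncomputable section

variable {n : ℕ} {ι : Type}

/-- smooth germs with bounded values -/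
def W0 (f : ι → Cn n → ℂ) (z : ι → Cn n) : Prop :=
  (∀ i, ∀ᶠ w in 𝓝 (z i), ContDiffAt ℝ ∞ (f i) w) ∧ ∃ C : ℝ, ∀ i, ‖f i (z i)‖ ≤ C

/-- smooth germs with bounded jets -/
def WB : ℕ → (ι → Cn n → ℂ) → (ι → Cn n) → Prop
  | 0, f, z => W0 f z
  | m + 1, f, z => W0 f z ∧ ∀ s, WB m (fun i => wd s (f i)) z

variable {z : ι → Cn n} {f g : ι → Cn n → ℂ} {m : ℕ}

theorem WB.w0 (h : WB m f z) : W0 f z := by
  cases m with
  | zero => exact h
  | succ m => exact h.1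

theorem WB.sm (h : WB m f z) (i : ι) : ∀ᶠ w in 𝓝 (z i), ContDiffAt ℝ ∞ (f i) w := h.w0.1 i

theorem WB.wd (h : WB (m + 1) f z) (s : WI n) : WB m (fun i => wd s (f i)) z := h.2 s

theorem WB.pred (h : WB (m + 1) f z) : WB m f z := by
  induction m generalizing f with
  | zero => exact h.1
  | succ m ih => exact ⟨h.1, fun s => ih (h.2 s)⟩

theorem WB.of_le {k : ℕ} (h : WB k f z) (hk : m ≤ k) : WB m f z := by
  induction hk with
  | refl => exact h
  | step _ ih => exact ih h.pred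

theorem W0.congr (h : W0 f z) (e : ∀ i, g i =ᶠ[𝓝 (z i)] f i) : W0 g z := by
  refine ⟨fun i => ?_, h.2.imp fun C hC i => by rw [(e i).self_of_nhds]; exact hC i⟩
  filter_upwards [h.1 i, (e i).eventually_nhds] with w hw he
  exact hw.congr_of_eventuallyEq he

theorem WB.congr (h : WB m f z) (e : ∀ i, g i =ᶠ[𝓝 (z i)] f i) : WB m g z := by
  induction m generalizing f g with
  | zero => exact W0.congr h e
  | succ m ih =>
    exact ⟨h.1.congr e, fun s => ih (h.2 s) fun i =>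
      (e i).eventually_nhds.mono fun w hw => wd_congr hw s⟩

theorem wb_const {c : ι → ℂ} (hc : ∃ C : ℝ, ∀ i, ‖c i‖ ≤ C) : WB m (fun i _ => c i) z := by
  induction m generalizing c with
  | zero => exact ⟨fun i => Eventually.of_forall fun _ => contDiffAt_const, hc⟩
  | succ m ih =>
    refine ⟨⟨fun i => Eventually.of_forall fun _ => contDiffAt_const, hc⟩, fun s => ?_⟩
    exact (ih (c := fun _ => 0) ⟨0, by simp⟩).congr fun i =>
      Eventually.of_forall fun w => wd_const _ _ _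

theorem W0.add (hf : W0 f z) (hg : W0 g z) : W0 (fun i w => f i w + g i w) z := by
  obtain ⟨C, hC⟩ := hf.2
  obtain ⟨D, hD⟩ := hg.2
  refine ⟨fun i => ?_, C + D, fun i => (norm_add_le _ _).trans (add_le_add (hC i) (hD i))⟩
  filter_upwards [hf.1 i, hg.1 i] with w h1 h2
  exact h1.add h2

theorem WB.add (hf : WB m f z) (hg : WB m g z) : WB m (fun i w => f i w + g i w) z := by
  induction m generalizing f g with
  | zero => exact W0.add hf hg
  | succ m ih =>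
    refine ⟨hf.1.add hg.1, fun s => (ih (hf.2 s) (hg.2 s)).congr fun i => ?_⟩
    filter_upwards [hf.sm i, hg.sm i] with w h1 h2
    exact wd_add (h1.differentiableAt (by simp)) (h2.differentiableAt (by simp)) s

theorem W0.mul (hf : W0 f z) (hg : W0 g z) : W0 (fun i w => f i w * g i w) z := by
  obtain ⟨C, hC⟩ := hf.2
  obtain ⟨D, hD⟩ := hg.2
  refine ⟨fun i => ?_, C * D, fun i => ?_⟩
  · filter_upwards [hf.1 i, hg.1 i] with w h1 h2
    exact h1.mul h2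
  · rw [norm_mul]
    exact mul_le_mul (hC i) (hD i) (norm_nonneg _) ((norm_nonneg _).trans (hC i))

theorem WB.mul (hf : WB m f z) (hg : WB m g z) : WB m (fun i w => f i w * g i w) z := by
  induction m generalizing f g with
  | zero => exact W0.mul hf hg
  | succ m ih =>
    refine ⟨hf.1.mul hg.1, fun s =>
      ((ih (hf.2 s) hg.pred).add (ih hf.pred (hg.2 s))).congr fun i => ?_⟩
    filter_upwards [hf.sm i, hg.sm i] with w h1 h2
    exact wd_mul (h1.differentiableAt (by simp)) (h2.differentiableAt (by simp)) s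

theorem WB.const_mul (c : ℂ) (hf : WB m f z) : WB m (fun i w => c * f i w) z :=
  (wb_const (c := fun _ => c) ⟨‖c‖, fun _ => le_rfl⟩).mul hf

theorem WB.neg (hf : WB m f z) : WB m (fun i w => -f i w) z :=
  (hf.const_mul (-1)).congr fun i => Eventually.of_forall fun w => by simp

theorem WB.sum {κ : Type*} (S : Finset κ) {F : κ → ι → Cn n → ℂ} (h : ∀ k ∈ S, WB m (F k) z) :
    WB m (fun i w => ∑ k ∈ S, F k i w) z := by
  classical
  induction S using Finset.induction_on with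
  | empty =>
    exact (wb_const (c := fun _ => 0) ⟨0, by simp⟩).congr fun i =>
      Eventually.of_forall fun w => by simp
  | insert a S ha ih =>
    exact ((h a (Finset.mem_insert_self a S)).add
      (ih fun k hk => h k (Finset.mem_insert_of_mem hk))).congr fun i =>
      Eventually.of_forall fun w => by simp only [Finset.sum_insert ha]

theorem W0.conj (hf : W0 f z) : W0 (fun i w => conj (f i w)) z := by
  refine ⟨fun i => ?_, hf.2.imp fun C hC i => by simpa using hC i⟩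
  filter_upwards [hf.1 i] with w h1
  exact (Complex.conjCLE : ℂ →L[ℝ] ℂ).contDiff.contDiffAt.comp w h1

theorem WB.conj (hf : WB m f z) : WB m (fun i w => conj (f i w)) z := by
  induction m generalizing f with
  | zero => exact W0.conj hf
  | succ m ih =>
    refine ⟨hf.1.conj, fun s => (ih (hf.2 (!s.1, s.2))).congr fun i => ?_⟩
    filter_upwards [hf.sm i] with w h1
    rw [conj_wd _ (h1.differentiableAt (by simp))]
    simp

theorem WB.re (hf : WB m f z) : WB m (fun i => cu fun w => (f i w).re) z :=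
  ((hf.add hf.conj).const_mul (1 / 2)).congr fun i => Eventually.of_forall fun w => by
    simp only [cu, Complex.add_conj]
    push_cast
    ring


/-- matrix valued version -/
def WM (m : ℕ) (G : ι → Cn n → Mat n) (z : ι → Cn n) : Prop :=
  ∀ a b, WB m (fun i w => G i w a b) z

variable {G H : ι → Cn n → Mat n}

theorem WM.sm (h : WM m G z) (i : ι) : ∀ᶠ w in 𝓝 (z i), SmM (G i) w :=
  eventually_all.2 fun a => eventually_all.2 fun b => (h a b).sm i

theorem WM.bdd (h : WM m G z) : ∃ C : ℝ, 0 ≤ C ∧ ∀ i a b, ‖G i (z i) a b‖ ≤ C := by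
  choose C hC using fun a b => (h a b).w0.2
  refine ⟨∑ a, ∑ b, |C a b|, by positivity, fun i a b => (hC a b i).trans
    ((le_abs_self _).trans ?_)⟩
  calc |C a b| ≤ ∑ b, |C a b| :=
        Finset.single_le_sum (f := fun b => |C a b|) (fun _ _ => abs_nonneg _) (Finset.mem_univ b)
    _ ≤ _ := Finset.single_le_sum (f := fun a => ∑ b, |C a b|) (fun _ _ => by positivity)
        (Finset.mem_univ a)

theorem WM.pred (h : WM (m + 1) G z) : WM m G z := fun a b => (h a b).pred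

theorem WM.of_le {k : ℕ} (h : WM k G z) (hk : m ≤ k) : WM m G z := fun a b => (h a b).of_le hk

theorem WM.congr (h : WM m G z) (e : ∀ i, H i =ᶠ[𝓝 (z i)] G i) : WM m H z := fun a b =>
  (h a b).congr fun i => (e i).mono fun w hw => by simp only [hw]

theorem WM.wdM (h : WM (m + 1) G z) (s : WI n) : WM m (fun i => wdM s (G i)) z := fun a b =>
  (h a b).wd s

theorem WM.add (hG : WM m G z) (hH : WM m H z) : WM m (fun i w => G i w + H i w) z := fun a b =>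
  (hG a b).add (hH a b)

theorem WM.neg (hG : WM m G z) : WM m (fun i w => -G i w) z := fun a b => (hG a b).neg

theorem WM.sub (hG : WM m G z) (hH : WM m H z) : WM m (fun i w => G i w - H i w) z :=
  (hG.add hH.neg).congr fun i => Eventually.of_forall fun w => sub_eq_add_neg _ _

theorem WM.mul (hG : WM m G z) (hH : WM m H z) : WM m (fun i w => G i w * H i w) z := fun a b =>
  (WB.sum Finset.univ fun c _ => (hG a c).mul (hH c b)).congr fun i =>
    Eventually.of_forall fun w => Matrix.mul_apply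

theorem WM.trace (hG : WM m G z) : WB m (fun i w => (G i w).trace) z :=
  WB.sum Finset.univ fun a _ => hG a a

theorem WM.inv (hG : WM m G z) (h0 : ∀ i, (G i (z i)).det ≠ 0)
    (hb : ∃ C : ℝ, ∀ i a b, ‖(G i (z i))⁻¹ a b‖ ≤ C) : WM m (fun i w => (G i w)⁻¹) z := by
  have hd : ∀ i, ∀ᶠ w in 𝓝 (z i), (G i w).det ≠ 0 := fun i =>
    (hG.sm i).self_of_nhds.det.continuousAt.eventually_ne (h0 i)
  have hw : ∀ a b, W0 (fun i w => (G i w)⁻¹ a b) z := by
    intro a b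
    refine ⟨fun i => ?_, hb.imp fun C hC i => hC i a b⟩
    filter_upwards [hG.sm i, hd i] with w h1 h2
    exact h1.inv h2 a b
  induction m with
  | zero => exact hw
  | succ m ih =>
    intro a b
    refine ⟨hw a b, fun s => ?_⟩
    have h1 := ih hG.pred
    refine (((h1.mul (hG.wdM s)).mul h1).neg a b).congr fun i => ?_
    filter_upwards [hG.sm i, hd i] with w h2 h3
    exact congrFun (congrFun (Tr.wdM_inv h2 h3 s) a) b


/-- Kaehler families bounded below -/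
structure KF (G : ι → Cn n → Mat n) (z : ι → Cn n) : Prop where
  kah : ∀ i, KahAt (G i) (z i)
  inv : ∃ C : ℝ, ∀ i a b, ‖(G i (z i))⁻¹ a b‖ ≤ C






/-! ### from entries to forms -/


theorem norm_form_le {F : Fin n → Fin n → ℂ} {C : ℝ} (hC : 0 ≤ C) (h : ∀ a b, ‖F a b‖ ≤ C)
    (v : Cn n) : ‖∑ a, ∑ b, F a b * v a * conj (v b)‖ ≤ n ^ 2 * C * ‖v‖ ^ 2 := by
  calc ‖∑ a, ∑ b, F a b * v a * conj (v b)‖ ≤ ∑ _a : Fin n, ∑ _b : Fin n, C * ‖v‖ * ‖v‖ := by
        refine (norm_sum_le _ _).trans (Finset.sum_le_sum fun a _ =>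
          (norm_sum_le _ _).trans (Finset.sum_le_sum fun b _ => ?_))
        rw [norm_mul, norm_mul, RCLike.norm_conj]
        exact mul_le_mul (mul_le_mul (h a b) (PiLp.norm_apply_le v a) (norm_nonneg _) hC)
          (PiLp.norm_apply_le v b) (norm_nonneg _) (by positivity)
    _ = n ^ 2 * C * ‖v‖ ^ 2 := by simp; ring

theorem norm_hC_le {H : Mat n} {C : ℝ} (hC : 0 ≤ C) (h : ∀ a b, ‖H a b‖ ≤ C) (v : Cn n) :
    ‖T223.hC H v‖ ≤ n ^ 2 * C * ‖v‖ ^ 2 := norm_form_le hC h v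

theorem abs_nq_le {H : Mat n} {C : ℝ} (hC : 0 ≤ C) (h : ∀ a b, ‖H a b‖ ≤ C) (v : Cn n) :
    |nq H v| ≤ n ^ 2 * C * ‖v‖ ^ 2 := (Complex.abs_re_le_norm _).trans (norm_hC_le hC h v)




/-! ### scaling -/

section scale

variable {g : Cn n → Mat n} {z : Cn n} {t : ℝ}













end scale



/-! ### functions -/

theorem norm_single_le (a : Fin n) {c : ℂ} (hc : ‖c‖ = 1) :
    ‖(EuclideanSpace.single a c : Cn n)‖ = 1 := by
  rw [PiLp.norm_single, hc]

theorem norm_wdL_le {W : Type*} [NormedAddCommGroup W] [NormedSpace ℂ W] (s : WI n)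
    (L : Cn n →L[ℝ] W) : ‖wdL s L‖ ≤ ‖L‖ := by
  have h1 : ‖L (EuclideanSpace.single s.2 1)‖ ≤ ‖L‖ := by
    simpa only [norm_single_le s.2 norm_one, mul_one] using L.le_opNorm (EuclideanSpace.single s.2 1)
  have h2 : ‖L (EuclideanSpace.single s.2 Complex.I)‖ ≤ ‖L‖ := by
    simpa only [norm_single_le s.2 Complex.norm_I, mul_one] using
      L.le_opNorm (EuclideanSpace.single s.2 Complex.I)
  have h3 : ‖cI s.1‖ = 1 := by cases s.1 <;> simp
  unfold wdL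
  rw [norm_smul]
  have h4 := norm_add_le (L (EuclideanSpace.single s.2 1))
    (cI s.1 • L (EuclideanSpace.single s.2 Complex.I))
  rw [norm_smul, h3, one_mul] at h4
  have h5 : ‖(1 / 2 : ℂ)‖ = 1 / 2 := by simp
  rw [h5]
  linarith

theorem norm_wdLc_le (s : WI n) : ‖(wdLc s : (Cn n →L[ℝ] ℂ) →L[ℝ] ℂ)‖ ≤ 1 :=
  ContinuousLinearMap.opNorm_le_bound _ zero_le_one fun L => by
    rw [one_mul]; exact norm_wdL_le s L

theorem jet_wd {f : Cn n → ℂ} {z : Cn n} (hf : ContDiffAt ℝ ∞ f z) (s : WI n) (j : ℕ) :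
    ‖iteratedFDeriv ℝ j (wd s f) z‖ ≤ ‖iteratedFDeriv ℝ (j + 1) f z‖ := by
  have h1 : ContDiffAt ℝ ∞ (fderiv ℝ f) z := hf.fderiv_right (by simp)
  have h2 := (wdLc s : (Cn n →L[ℝ] ℂ) →L[ℝ] ℂ).norm_iteratedFDeriv_comp_left h1 (n := j)
    (by exact_mod_cast le_top)
  rw [norm_iteratedFDeriv_fderiv] at h2
  exact h2.trans (mul_le_of_le_one_left (norm_nonneg _) (norm_wdLc_le s))

theorem jet_cu {u : Cn n → ℝ} {z : Cn n} (hu : ContDiffAt ℝ ∞ u z) (j : ℕ) :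
    ‖iteratedFDeriv ℝ j (cu u) z‖ ≤ ‖iteratedFDeriv ℝ j u z‖ := by
  have h := Complex.ofRealCLM.norm_iteratedFDeriv_comp_left hu (n := j) (by exact_mod_cast le_top)
  rw [Complex.ofRealCLM_norm, one_mul] at h
  exact h

theorem jet_hess {u : Cn n → ℝ} {z : Cn n} (hu : ContDiffAt ℝ ∞ u z) (a b : Fin n) (j : ℕ) :
    ‖iteratedFDeriv ℝ j (fun w => hess u w a b) z‖ ≤ ‖iteratedFDeriv ℝ (j + 2) u z‖ :=
  (jet_wd (contDiffAt_wd (contDiffAt_cu hu) _) _ j).trans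
    ((jet_wd (contDiffAt_cu hu) _ (j + 1)).trans (jet_cu hu (j + 2)))

theorem norm_hess_le {u : Cn n → ℝ} {z : Cn n} (hu : ContDiffAt ℝ ∞ u z) (a b : Fin n) :
    ‖hess u z a b‖ ≤ ‖iteratedFDeriv ℝ 2 u z‖ := by
  simpa only [norm_iteratedFDeriv_zero] using jet_hess hu a b 0


theorem hesAbsC_of_jet {g : Cn n → Mat n} {u : Cn n → ℝ} {z : Cn n} {r c : ℝ} (hr : 0 < r)
    (hlo : ∀ v, r ^ 2 * ‖v‖ ^ 2 ≤ 2 * nq (g z) v) (hu : ContDiffAt ℝ ∞ u z)
    (hc : ‖iteratedFDeriv ℝ 2 u z‖ ≤ c) : HesAbsC g u (2 * n ^ 2 * c / r ^ 2) z := by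
  intro v
  have hc0 : 0 ≤ c := (norm_nonneg _).trans hc
  refine (abs_nq_le hc0 (fun a b => (norm_hess_le hu a b).trans hc) v).trans ?_
  rw [div_mul_eq_mul_div, le_div_iff₀ (by positivity)]
  have := mul_le_mul_of_nonneg_left (hlo v) (by positivity : (0 : ℝ) ≤ n ^ 2 * c)
  linarith





/-! ### on the manifold -/

variable {M : Type} [TopologicalSpace M] {A : Atl n M}


variable {G' : MF A} {U : Set M} {ψ : Cn n → M} {D : Set (Cn n)} {w : Cn n} {u : M → ℝ} {r c : ℝ}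






end

end Crest.Agent.T223.Jb
namespace Crest.Agent.T223.Jb.KF
end Crest.Agent.T223.Jb.KF
end

-- ▼ part T223/StAsm_93

/-!
# Row 223, STEP: the assembly `St.asmStmt` (helper93)
-/

set_option autoImplicit false
set_option linter.unusedVariables false

open Set Filter Topology Metric
open scoped ContDiff ComplexConjugate Matrix ComplexOrder

namespace Crest.Agent.T223.St

open Crest.Agent.R275.Geo Crest.Agent.R273.Hess_333 Crest.Agent.T223.Tr Crest.Agent.T223.Os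
open Crest.Agent.R273.HessB_333
open Crest.Agent.T223.Db (eR dom SmST)
open Crest.Agent.N207.P (En d1)
open Crest.Agent.T223.Lx (d2 WH WS CB)

namespace As93

variable {n : ℕ}

/-- the Ricci form of a flat metric is bounded at the centre -/
theorem exists_ricB {ε : ℝ}
    (h : ∀ G : Mat n, (∀ a b, ‖G a b - (1 : Mat n) a b‖ ≤ ε * RR n) → 1 / 2 ≤ G.det.re) :
    ∃ B : ℝ, 0 ≤ B ∧ ∀ G : Cn n → Mat n, FlG ε G → ∀ a b, ‖ric G 0 a b‖ ≤ B := by
  have h1 : UM 2 (5 + 2) (fun G : {G : Cn n → Mat n // FlG ε G} => G.1) := um_flG fun G => G.2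
  obtain ⟨B, hB0, hB⟩ := UE.bdd (h1.ric (c := 1 / 2) (by norm_num) fun G y hy =>
    h _ fun a b => G.2.near (symm_mem hy) a b)
  refine ⟨B, hB0, fun G hG a b => ?_⟩
  have h2 := hB ⟨G, hG⟩ 0 (mem_ball_self (by norm_num)) a b
  rwa [rr_zero] at h2

theorem zero_mem : (0 : Cn n) ∈ ball (0 : Cn n) (RR n) :=
  mem_ball_self (one_pos.trans_le (one_le_RR n))

theorem cb_mono {E V : Type*} [NormedAddCommGroup E] [NormedSpace ℝ E] [NormedAddCommGroup V]
    [NormedSpace ℝ V] {r K K' : ℝ} {m : ℕ} {f : E → V} (h : CB r m K f) (hK : K ≤ K') :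
    CB r m K' f := fun j hj y hy => (h j hj y hy).trans hK

theorem cb_congr {V : Type*} [NormedAddCommGroup V] [NormedSpace ℝ V] {K : ℝ} {m : ℕ}
    {F F' : Cn n → V} (h : CB (1 / 4) m K (rr F)) (e : ∀ w ∈ ball (0 : Cn n) (RR n), F' w = F w) :
    CB (1 / 4) m K (rr F') := fun j hj y hy => by
  have h1 : rr F' =ᶠ[𝓝 y] rr F := by
    filter_upwards [isOpen_ball.mem_nhds (ball_subset_ball (by norm_num : (1 / 4 : ℝ) ≤ 2) hy)]
      with z hz using e _ (symm_mem hz)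
  rw [(h1.iteratedFDeriv ℝ j).eq_of_nhds]
  exact h j hj y hy

variable {M : Type} [TopologicalSpace M] {A : Atl n M} {G : MF A} {u0 ρ0 : M → ℝ} {W : Set M}
  {ε Kρ : ℝ} {x : M} {ψ : Cn n → M}

theorem flG (h : Fl G u0 ρ0 W ε Kρ x ψ) (hW : IsOpen W) (hG : KahOn G W) : FlG ε (pull G ψ) :=
  ⟨fun w hw => kahAt_pull hG h.imm isOpen_ball hw (hW.mem_nhds (h.maps hw)), h.ctr, h.dG⟩

theorem rho_le (h : Fl G u0 ρ0 W ε Kρ x ψ) (hW : IsOpen W) (hρ : SmOn A W ρ0) {w : Cn n}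
    (hw : w ∈ ball (0 : Cn n) (RR n)) : ρ0 (ψ w) ≤ ρ0 x + 4 * RR n := by
  have h1 := norm_sub_zero_le (F := fun y => ρ0 (ψ y)) (fun w hw =>
    (hρ.cda_pull hW h.imm.1 isOpen_ball hw (h.maps hw)).differentiableAt (by simp)) h.dρ1 hw
  rw [h.zero, Real.norm_eq_abs] at h1
  linarith [le_abs_self (ρ0 (ψ w) - ρ0 x)]

theorem isOpen_sub (hW : IsOpen W) (hρ : SmOn A W ρ0) (c : ℝ) :
    IsOpen {x | x ∈ W ∧ ρ0 x < c} :=
  hρ.continuousOn.isOpen_inter_preimage hW isOpen_Iio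

theorem isCompact_sub [T2Space M] (hρ : SmOn A W ρ0) {c c' : ℝ}
    (hK : IsCompact {x | x ∈ W ∧ ρ0 x ≤ c}) (hc : c' ≤ c) : IsCompact {x | x ∈ W ∧ ρ0 x ≤ c'} := by
  have h1 := (hρ.continuousOn.mono fun x (hx : x ∈ {x | x ∈ W ∧ ρ0 x ≤ c}) =>
    hx.1).preimage_isClosed_of_isClosed hK.isClosed (isClosed_Iic (a := c'))
  have h2 : {x | x ∈ W ∧ ρ0 x ≤ c'} = {x | x ∈ W ∧ ρ0 x ≤ c} ∩ ρ0 ⁻¹' Iic c' :=
    Set.ext fun x => ⟨fun h => ⟨⟨h.1, h.2.trans hc⟩, h.2⟩, fun h => ⟨h.1.1, h.2⟩⟩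
  rw [h2]
  exact hK.of_isClosed_subset h1 inter_subset_left

theorem pull_sub (G H : MF A) (ψ : Cn n → M) (w : Cn n) :
    pull (fun i z => G i z - H i z) ψ w = pull G ψ w - pull H ψ w := by
  simp only [pull, pbF, Matrix.mul_sub, Matrix.sub_mul]

theorem trOn_sub {G H : MF A} {U : Set M} (hG : TrOn G U) (hH : TrOn H U) :
    TrOn (fun i z => G i z - H i z) U := fun i j x hx hU => by
  simp only [hG i j x hx hU, hH i j x hx hU, Matrix.mul_sub, Matrix.sub_mul]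

theorem trOn_hess {f : M → ℝ} {U : Set M} (hU : IsOpen U) (hf : SmOn A U f) :
    TrOn (fun i => hess (inC A i f)) U := fun i j x hx hxU =>
  hess_inC_tm hx.1 hx.2 (hf.contDiffAt hU hx.2 hxU)

theorem pull_hess {f : M → ℝ} {U : Set M} (hU : IsOpen U) (hf : SmOn A U f) {D : Set (Cn n)}
    (hψ : Hol A ψ D) (hD : IsOpen D) {w : Cn n} (hw : w ∈ D) (hx : ψ w ∈ U) :
    pull (fun i => hess (inC A i f)) ψ w = hess (fun y => f (ψ y)) w := by
  have hi := ch_mem A (ψ w)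
  rw [pull_eq (trOn_hess hU hf) hψ hw hx hi, hess_congr (comp_rd (hψ w hw).1 hi f),
    hess_pbk (T := rd A (ch A (ψ w)) ψ) (hf.contDiffAt hU hi hx) (holAt_rd hψ hD hw hi)]
  rfl

/-- the Laplacian of the initial function at the centre of a chart -/
theorem abs_lap_le {g : MF A} {V : Set M} (hV : IsOpen V) (hg : KahOn g V) {f : M → ℝ}
    (hf : SmOn A V f) {D : Set (Cn n)} (hψ : Imm A ψ D) (hD : IsOpen D) (h0 : (0 : Cn n) ∈ D)
    (e : ψ 0 = x) (hx : x ∈ V) (hlo : ∀ v, ‖v‖ ^ 2 / 2 ≤ nq (pull g ψ 0) v) {K : ℝ}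
    (hK : ‖iteratedFDeriv ℝ 2 (fun y => f (ψ y)) 0‖ ≤ K) :
    |lap (g (ch A x)) (inC A (ch A x) f) (A.e (ch A x) x)| ≤ n * (2 * n ^ 2 * K) := by
  subst e
  have hc := hf.cda_pull hV hψ.1 hD h0 hx
  rw [lap_pull hg hV hψ hD h0 hx (ch_mem A _) hf]
  have h1 := Jb.hesAbsC_of_jet (g := pull g ψ) (r := 1) one_pos
    (fun v => by linarith [hlo v]) hc hK
  rw [one_pow, div_one] at h1
  exact abs_trg_le (kahAt_pull hg hψ hD h0 (hV.mem_nhds hx)).posDef (hess_herm hc) h1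

end As93

open As93

theorem asmStmt (n : ℕ) : AsmStmt n := by
  intro hT hF hH hM hK hC hR
  obtain ⟨ηK, hηK, hK⟩ := hK
  obtain ⟨ηH, hηH, hC⟩ := hC
  obtain ⟨η0, hη0, h0⟩ := exists_η0 n
  have hR1 := one_le_RR n
  have hR0 : 0 < RR n := one_pos.trans_le hR1
  obtain ⟨B, hB0, hB⟩ := exists_ricB (n := n) (ε := η0 / RR n) fun G hG =>
    (h0 G (by rwa [div_mul_cancel₀ _ hR0.ne'] at hG)).1
  obtain ⟨m, hm, hmK, hmH, hm0, hm1⟩ :
      ∃ m : ℝ, 0 < m ∧ m ≤ ηK ∧ m ≤ ηH ∧ m ≤ η0 ∧ m ≤ 1 :=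
    ⟨min (min ηK ηH) (min η0 1), by positivity, (min_le_left _ _).trans (min_le_left _ _),
      (min_le_left _ _).trans (min_le_right _ _), (min_le_right _ _).trans (min_le_left _ _),
      (min_le_right _ _).trans (min_le_right _ _)⟩
  obtain ⟨η, hη, hηm⟩ : ∃ η : ℝ, 0 < η ∧ η * ((2 * n ^ 2 + 1) * (B + 1) + RR n) = m :=
    ⟨m / ((2 * n ^ 2 + 1) * (B + 1) + RR n), by positivity, div_mul_cancel₀ _ (by positivity)⟩
  have p1 : 0 ≤ η * B := by positivity
  have p2 : 0 ≤ (n : ℝ) ^ 2 * η := by positivity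
  have p3 : 0 ≤ (n : ℝ) ^ 2 * (η * B) := by positivity
  have p4 : η ≤ η * RR n := le_mul_of_one_le_right hη.le hR1
  have e1 : η * RR n ≤ m := by linarith
  have e2 : η ≤ m := p4.trans e1
  have e3 : η * B + η ≤ m := by linarith
  have e4 : 2 * n ^ 2 * η ≤ m := by linarith
  have e5 : 2 * n ^ 2 * (η * B + η) + η * RR n ≤ m := by linarith
  obtain ⟨ε, β, N, C1, hε, hεη, hβ, hβη, hC1, hM⟩ := hM η hη
  have hεR : ε * RR n ≤ η * RR n := mul_le_mul_of_nonneg_right hεη hR0.le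
  have hβ1 : β ≤ 1 := by linarith
  obtain ⟨CK, hK⟩ := hK N
  refine ⟨ε, β, C1 + 2 + 4 * RR n, hε, hβ, hβ1, by linarith, fun Kρ => ?_⟩
  obtain ⟨Kp, hKp1, hKp⟩ : ∃ Kp : ℝ, 1 ≤ Kp ∧ Kρ ≤ Kp := ⟨max 1 Kρ, le_max_left _ _, le_max_right _ _⟩
  obtain ⟨Ch, hCh⟩ : ∃ Ch : ℝ, Ch = n * (2 * n ^ 2 * Kp) := ⟨_, rfl⟩
  have hCh0 : 0 ≤ Ch := by rw [hCh]; positivity
  have hβC : β * Ch ≤ Ch := mul_le_of_le_one_left hCh0 hβ1
  obtain ⟨C', hC⟩ := hC (max (max CK Kp) Ch)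
  obtain ⟨K0, hK01, hR⟩ := hR (max CK C')
  refine ⟨max K0 Ch, le_max_of_le_left hK01,
    fun M _ _ _ A G u0 ρ0 W c hW hG hu0 hρ0 hc hFl => ?_⟩
  obtain ⟨Ψ, hΨ⟩ : ∃ Ψ : M → Cn n → M, ∀ x ∈ W, ρ0 x ≤ c → Fl G u0 ρ0 W ε Kρ x (Ψ x) := by
    classical
    refine ⟨fun x => if h : x ∈ W ∧ ρ0 x ≤ c then (hFl x h.1 h.2).choose else fun _ => x,
      fun x h1 h2 => ?_⟩
    simp only [dif_pos (And.intro h1 h2)]
    exact (hFl x h1 h2).choose_spec
  obtain ⟨φ, hφ, hφb⟩ := hM M A G u0 ρ0 W c Kρ Ψ hW hG hρ0 hc hΨ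
  obtain ⟨V, hVe⟩ : ∃ V : Set M, V = {x | x ∈ W ∧ ρ0 x < c - C1} := ⟨_, rfl⟩
  have hVm : ∀ x, x ∈ V ↔ x ∈ W ∧ ρ0 x < c - C1 := fun x => by rw [hVe]; rfl
  have hV : IsOpen V := hVe ▸ isOpen_sub hW hρ0 _
  rw [← hVe] at hφ
  have hVW : V ⊆ W := fun x hx => ((hVm x).1 hx).1
  have hGV : KahOn G V := hG.mono hVW
  have hρV : SmOn A V ρ0 := hρ0.mono hVW
  obtain ⟨hfl, hph, heq, hch⟩ := hF M A G V β φ hβ hV hGV hφ
  have hFV : ∀ x ∈ V, Fl G u0 ρ0 W ε Kρ x (Ψ x) := fun x hx =>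
    hΨ x (hVW hx) (by linarith [((hVm x).1 hx).2])
  have hφs : ∀ s ∈ Icc 0 β, SmOn A V (φ s) := fun s hs => smOn_of_SmST hφ.sm hs
  -- the part of the chart at `x` that lies in `V`
  have hD : ∀ x ∈ V, IsOpen (ball (0 : Cn n) (RR n) ∩ Ψ x ⁻¹' V) := fun x hx =>
    (hFV x hx).imm.1.continuousOn.isOpen_inter_preimage isOpen_ball hV
  have hD0 : ∀ x ∈ V, (0 : Cn n) ∈ ball (0 : Cn n) (RR n) ∩ Ψ x ⁻¹' V := fun x hx =>
    ⟨zero_mem, by rw [mem_preimage, (hFV x hx).zero]; exact hx⟩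
  -- the metric at the centre of a chart
  have ctr : ∀ x ∈ V, ∀ s ∈ Icc 0 β, ∀ a b,
      ‖pull (fun i z => gM G φ s i z - G i z) (Ψ x) 0 a b‖ ≤ η * B + η := by
    intro x hx s hs a b
    have h1 := ((hch (Ψ x) _ (hD x hx) ((hFV x hx).imm.mono inter_subset_left)
      fun w hw => hw.2).2 s hs 0 (hD0 x hx)).1
    have h2 := hB _ ((flG (hFV x hx) hW hG).mono (ε' := η0 / RR n)
      (by rw [le_div_iff₀ hR0]; linarith)) a b
    have h3 := (hφb x (hVW hx) ((hVm x).1 hx).2 s hs).1 a b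
    have h4 : pull (fun i z => gM G φ s i z - G i z) (Ψ x) 0 a b =
        -((s : ℂ) * ric (pull G (Ψ x)) 0 a b) + hess (fun w => φ s (Ψ x w)) 0 a b := by
      rw [pull_sub, h1]
      simp only [gs, Matrix.sub_apply, Matrix.add_apply, Matrix.smul_apply, smul_eq_mul]
      ring
    rw [h4]
    refine (norm_add_le _ _).trans (add_le_add ?_ h3)
    rw [norm_neg, norm_mul, Complex.norm_real, Real.norm_of_nonneg hs.1]
    exact mul_le_mul (hs.2.trans hβη) h2 (norm_nonneg _) hη.le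
  -- the region of the heat equation, and the final region
  obtain ⟨V2, hV2e⟩ : ∃ V2 : Set M, V2 = {x | x ∈ V ∧ ρ0 x < c - C1 - 1 - 1} := ⟨_, rfl⟩
  have hV2m : ∀ x, x ∈ V2 ↔ x ∈ V ∧ ρ0 x < c - C1 - 1 - 1 := fun x => by rw [hV2e]; rfl
  have hV2 : IsOpen V2 := hV2e ▸ isOpen_sub hV hρV _
  have hV2V : V2 ⊆ V := fun x hx => ((hV2m x).1 hx).1
  obtain ⟨V3, hV3e⟩ : ∃ V3 : Set M, V3 = {x | x ∈ W ∧ ρ0 x < c - (C1 + 2 + 4 * RR n)} := ⟨_, rfl⟩
  have hV3m : ∀ x, x ∈ V3 ↔ x ∈ W ∧ ρ0 x < c - (C1 + 2 + 4 * RR n) := fun x => by rw [hV3e]; rfl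
  have hV32 : V3 ⊆ V2 := fun x hx => (hV2m x).2 ⟨(hVm x).2 ⟨((hV3m x).1 hx).1,
    by linarith [((hV3m x).1 hx).2]⟩, by linarith [((hV3m x).1 hx).2]⟩
  have hV3V : V3 ⊆ V := hV32.trans hV2V
  have maps2 : ∀ x ∈ V3, MapsTo (Ψ x) (ball 0 (RR n)) V2 := fun x hx w hw => by
    have h1 := rho_le (hFV x (hV3V hx)) hW hρ0 hw
    have h2 := ((hV3m x).1 hx).2
    exact (hV2m _).2 ⟨(hVm _).2 ⟨(hFV x (hV3V hx)).maps hw, by linarith⟩, by linarith⟩
  have maps1 : ∀ x ∈ V3, MapsTo (Ψ x) (ball 0 (RR n)) V := fun x hx w hw => hV2V (maps2 x hx hw)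
  -- comparison of the charts
  have cmp : ∀ x ∈ V3, ∀ w ∈ ball (0 : Cn n) (RR n), ∀ (H : MF A) (b : ℝ), TrOn H V →
      (∀ k l, ‖pull H (Ψ (Ψ x w)) 0 k l‖ ≤ b) → ∀ k l, ‖pull H (Ψ x) w k l‖ ≤ 2 * n ^ 2 * b := by
    intro x hx w hw H b hH hb
    have h1 := hFV x (hV3V hx)
    have h2 := hFV _ (maps1 x hx hw)
    refine cmp_pull hGV.tr hH h1.imm.1 h2.imm.1 hw zero_mem h2.zero (maps1 x hx hw) h2.ctr
      (fun a => ?_) hb
    have h3 := (flG h1 hW hG).near hw a a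
    have h4 := norm_add_le (pull G (Ψ x) w a a - (1 : Mat n) a a) ((1 : Mat n) a a)
    rw [sub_add_cancel, Matrix.one_apply_eq, norm_one] at h4
    rw [Matrix.one_apply_eq] at h3
    linarith
  have near : ∀ x ∈ V3, ∀ s ∈ Icc 0 β, ∀ w ∈ ball (0 : Cn n) (RR n), ∀ a b,
      ‖pull (gM G φ s) (Ψ x) w a b - (1 : Mat n) a b‖ ≤ m := by
    intro x hx s hs w hw a b
    have h1 := cmp x hx w hw _ _ (trOn_sub (hfl.kah s hs).tr hGV.tr)
      (ctr _ (maps1 x hx hw) s hs) a b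
    have h2 := (flG (hFV x (hV3V hx)) hW hG).near hw a b
    rw [pull_sub, Matrix.sub_apply] at h1
    have h3 := norm_add_le (pull (gM G φ s) (Ψ x) w a b - pull G (Ψ x) w a b)
      (pull G (Ψ x) w a b - (1 : Mat n) a b)
    rw [sub_add_sub_cancel] at h3
    linarith
  have chx := fun x (hx : x ∈ V3) => hch (Ψ x) _ isOpen_ball (hFV x (hV3V hx)).imm (maps1 x hx)
  have cb : ∀ x ∈ V3, ∀ s ∈ Icc 0 β, ∀ a b,
      CB (1 / 4) 5 CK (rr fun w => pull (gM G φ s) (Ψ x) w a b) := by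
    intro x hx s hs a b
    have h1 := hFV x (hV3V hx)
    refine cb_congr (hK β (pull G (Ψ x)) (fun s w => φ s (Ψ x w)) hβ (by linarith)
      ((flG h1 hW hG).mono (by linarith))
      ((hT M A _ φ).1 V _ _ hV isOpen_ball h1.imm (maps1 x hx) hφ.sm)
      (fun w hw => hφ.zero _ (maps1 x hx hw)) (fun s hs w hw => ((chx x hx).2 s hs w hw).2)
      (fun s hs w hw a b => ?_)
      (fun s hs => (hφb x (hVW (hV3V hx)) ((hVm x).1 (hV3V hx)).2 s hs).2) s hs a b)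
      fun w hw => by rw [((chx x hx).2 s hs w hw).1]
    have hx' := maps1 x hx hw
    have h2 := hFV _ hx'
    have h3 := cmp x hx w hw _ η (trOn_hess hV (hφs s hs)) (fun k l => by
      rw [pull_hess hV (hφs s hs) h2.imm.1 isOpen_ball zero_mem (by rw [h2.zero]; exact hx')]
      exact (hφb _ (hVW hx') ((hVm _).1 hx').2 s hs).1 k l) a b
    rw [pull_hess hV (hφs s hs) h1.imm.1 isOpen_ball hw hx'] at h3
    linarith
  have cru := fun x (hx : x ∈ V3) s (hs : s ∈ Icc 0 β) => hR (pull (gM G φ s) (Ψ x))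
    (fun w hw => kahAt_pull (hfl.kah s hs) (hFV x (hV3V hx)).imm isOpen_ball hw
      (hV.mem_nhds (maps1 x hx hw)))
    (fun w hw v => ((h0 _ fun a b => (near x hx s hs w hw a b).trans hm0).2.1 v).1)
    fun a b => cb_mono (cb x hx s hs a b) (le_max_left _ _)
  -- the heat equation
  have heat : ∀ f0 : M → ℝ, SmOn A W f0 → (∀ x ∈ V, ∀ j, 1 ≤ j → j ≤ 4 →
      ∀ w ∈ ball (0 : Cn n) (RR n), ‖iteratedFDeriv ℝ j (fun y => f0 (Ψ x y)) w‖ ≤ Kp) →
      ∃ f : ℝ → M → ℝ, HeatOn 0 β V3 (gM G φ) f ∧ ∀ x ∈ V3, f 0 x = f0 x ∧ ∀ s ∈ Icc 0 β,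
        HesAbs (gM G φ s) (f s) K0 x ∧ Gr (gM G φ s) (f s) x ≤ K0 ∧ |f s x - f 0 x| ≤ Ch := by
    intro f0 hf0 hd
    have hK' : IsCompact {x | x ∈ V ∧ ρ0 x ≤ c - C1 - 1} := by
      have h1 : {x | x ∈ V ∧ ρ0 x ≤ c - C1 - 1} = {x | x ∈ W ∧ ρ0 x ≤ c - C1 - 1} :=
        Set.ext fun x => ⟨fun h => ⟨hVW h.1, h.2⟩,
          fun h => ⟨(hVm x).2 ⟨h.1, by linarith [h.2]⟩, h.2⟩⟩
      rw [h1]
      exact isCompact_sub hρ0 hc (by linarith)
    obtain ⟨f, hf, hfb⟩ := hH M A (gM G φ) V f0 ρ0 β (c - C1 - 1) Ch hβ hCh0 hV hfl (hf0.mono hVW)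
      hρV hK' fun s hs x hx _ => by
        rw [hCh]
        refine abs_lap_le hV (hfl.kah s hs) (hf0.mono hVW) (hFV x hx).imm isOpen_ball zero_mem
          (hFV x hx).zero hx (fun v => ((h0 _ fun a b => ?_).2.1 v).1)
          (hd x hx 2 (by norm_num) (by norm_num) 0 zero_mem)
        have h1 := ctr x hx s hs a b
        rw [pull_sub, (hFV x hx).ctr, Matrix.sub_apply] at h1
        linarith
    rw [← hV2e] at hf
    replace hfb := fun x (hx : x ∈ V2) => hfb x ((hV2m x).1 hx).1 ((hV2m x).1 hx).2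
    refine ⟨f, hf.mono le_rfl le_rfl hV32, fun x hx => ⟨(hfb x (hV32 hx)).1, fun s hs => ?_⟩⟩
    have h1 := hFV x (hV3V hx)
    have h2 := hC β (fun s => pull (gM G φ s) (Ψ x)) (fun s w => f s (Ψ x w)) hβ hβ1
      (fun a b => ((chx x hx).1 a b).congr fun q hq => by rw [((chx x hx).2 q.1 hq.1 q.2 hq.2).1])
      (fun s hs w hw a b => (near x hx s hs w hw a b).trans hmH)
      (fun s hs a b => cb_mono (cb x hx s hs a b) ((le_max_left _ _).trans (le_max_left _ _)))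
      ((hT M A _ f).1 V2 _ _ hV2 isOpen_ball h1.imm (maps2 x hx) hf.sm)
      (fun s hs w hw => by
        have h3 := (((hfb _ (maps2 x hx hw)).2) s hs).2
        rwa [lap_pull ((hfl.kah s hs).mono hV2V) hV2 h1.imm isOpen_ball hw (maps2 x hx hw)
          (ch_mem A _) (hf.smOn hs)] at h3)
      (fun j hj hj' w hw => by
        have h3 : (fun y => f 0 (Ψ x y)) =ᶠ[𝓝 w] fun y => f0 (Ψ x y) := by
          filter_upwards [isOpen_ball.mem_nhds hw] with y hy using (hfb _ (maps2 x hx hy)).1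
        rw [(h3.iteratedFDeriv ℝ j).eq_of_nhds]
        exact (hd x (hV3V hx) j hj hj' w hw).trans ((le_max_right _ _).trans (le_max_left _ _)))
      (fun s hs w hw => by
        rw [(hfb _ (maps2 x hx hw)).1]
        exact ((((hfb _ (maps2 x hx hw)).2) s hs).1.trans hβC).trans (le_max_right _ _)) s hs
    obtain ⟨-, -, -, h3, h4⟩ := cru x hx s hs
    have hx0 : Ψ x 0 ∈ V2 := maps2 x hx zero_mem
    have h5 := (hesAbs_pull ((hfl.kah s hs).mono hV2V) hV2 h1.imm isOpen_ball zero_mem hx0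
      (hf.smOn hs) K0).2 (h3 _ fun a b => (h2.1 a b).trans (le_max_right _ _))
    have h6 := Gr_pull ((hfl.kah s hs).mono hV2V) hV2 h1.imm isOpen_ball zero_mem hx0 (hf.smOn hs)
    rw [h1.zero] at h5 h6
    refine ⟨h5, h6 ▸ h4 _ (h2.2.trans (le_max_right _ _)), ?_⟩
    rw [(hfb x (hV32 hx)).1]
    exact (((hfb x (hV32 hx)).2 s hs).1).trans hβC
  obtain ⟨u, hu, hub⟩ := heat u0 hu0 fun x hx j h1 h2 w hw =>
    ((hFV x hx).du j h1 h2 w hw).trans hKp1
  obtain ⟨ρ, hρ, hρb⟩ := heat ρ0 hρ0 fun x hx j h1 h2 w hw =>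
    ((hFV x hx).dρ j h1 h2 w hw).trans hKp
  rw [← hV3e]
  refine ⟨gM G φ, u, ρ, φ, hfl.mono le_rfl le_rfl hV3V, hu, hρ, hph.mono le_rfl hV3V,
    heq.mono hV3V, fun x hxW hxρ => ?_⟩
  have hx : x ∈ V3 := (hV3m x).2 ⟨hxW, hxρ⟩
  refine ⟨(hub x hx).1, (hρb x hx).1, fun s hs => ?_⟩
  have h1 := hFV x (hV3V hx)
  have hk := hfl.kah s hs
  have hx0 : Ψ x 0 ∈ V := maps1 x hx zero_mem
  obtain ⟨c1, c2, c3, -, -⟩ := cru x hx s hs
  obtain ⟨u1, u2, u3⟩ := (hub x hx).2 s hs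
  obtain ⟨r1, r2, r3⟩ := (hρb x hx).2 s hs
  have hKK : K0 ≤ max K0 Ch / 1 ^ 2 := by rw [one_pow, div_one]; exact le_max_left _ _
  refine ⟨fun τ hτ => ?_, ?_, u1.mono hk (hV3V hx) hKK, u2.trans hKK, r2.trans (le_max_left _ _),
    by rw [mul_one]; exact r3.trans (le_max_right _ _), u3.trans (le_max_right _ _)⟩
  · have h2 := (lyhAbs_pull hk hV h1.imm isOpen_ball zero_mem hx0 τ 1 K0).2
      (c1 τ (by rwa [one_pow] at hτ))
    rw [h1.zero] at h2
    exact h2.mono hk (hV3V hx) (zero_le_one.trans hK01) zero_le_one hKK (by norm_num)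
  · have h2 := (bkAbs_pull hk hV h1.imm isOpen_ball zero_mem hx0 K0).2 ⟨c2, c3⟩
    rw [h1.zero] at h2
    exact h2.mono hk (hV3V hx) hKK

end Crest.Agent.T223.St
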