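import Crest.Agent.R273.Vm_333
import Crest.Agent.R273.BKNa_37

/-!
# Row 223, module HOER (helper77): Hoermander's `L²` theorem on a complete Kaehler manifold.
Definitions and the exact statements of the leaves.

`N : LB A` a holomorphic line bundle, `h : HM ((KB A)⁻¹ * N)` (so `h.w i * ‖s i‖²` is a density
for a section `s` of `N`), `K : Kah A`, `vol : HM (KB A)⁻¹` a volume form with measure `vm vol`.
An `N`-valued `(0,1)`-form is represented by the `N`-valued vector field `v` (`IsF`), the form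
itself is `lw K v`.
-/

set_option autoImplicit false
set_option linter.unusedSectionVars false

open Set Filter Topology Complex Matrix MeasureTheory
open scoped ContDiff Matrix ComplexConjugate ComplexOrder ENNReal

namespace Crest.Agent.T223.Hm

open Crest.Agent.R275 Crest.Agent.R275.Geo Crest.Agent.R275.Core144
open Crest.Agent.R275.OmT75 (dl)
open Crest.Agent.R273.Defs_333 Crest.Agent.R273.Kah_333 Crest.Agent.R273.Vm_333

noncomputable section

variable {n : ℕ} {M : Type} [TopologicalSpace M] {A : Atl n M} {N L : LB A}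

/-- square matrices -/
abbrev Mx (n : ℕ) : Type := Matrix (Fin n) (Fin n) ℂ

/-- smooth sections of the line bundle `N` -/
structure IsS (N : LB A) (s : A.ι → M → ℂ) : Prop where
  sm : ∀ i, A.SmAt i (s i)
  tr : ∀ i j, ∀ x ∈ (A.e i).source ∩ (A.e j).source, s i x = N.g i j x * s j x

/-- smooth `(1,0)` vector fields with values in `N` -/
structure IsF (N : LB A) (v : A.ι → M → Fin n → ℂ) : Prop where
  sm : ∀ i a, A.SmAt i (fun x => v i x a)
  tr : ∀ i j, ∀ x ∈ (A.e i).source ∩ (A.e j).source,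
    v i x = N.g i j x • (Jm A j i x *ᵥ v j x)

/-- compact support -/
def Cs {W : Type*} [Zero W] (s : A.ι → M → W) : Prop :=
  ∃ C : Set M, IsCompact C ∧ ∀ i, ∀ x ∉ C, s i x = 0

/-- weighted divergence `w⁻¹ ∑ ∂_a (w v^a)` -/
def dv (h : HM L) (v : A.ι → M → Fin n → ℂ) (i : A.ι) (x : M) : ℂ :=
  ((h.w i x : ℂ))⁻¹ * ∑ a, dl A i a (fun y => (h.w i y : ℂ) * v i y a) x

/-- the `(0,1)`-form `g_{a b̄} v^a` -/
def lw (K : Kah A) (v : A.ι → M → Fin n → ℂ) (i : A.ι) (x : M) : Fin n → ℂ :=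
  (K.g i x)ᵀ *ᵥ v i x

/-- `∂̄` of the form `lw K v` -/
def al (K : Kah A) (v : A.ι → M → Fin n → ℂ) (i : A.ι) (x : M) : Mx n :=
  Matrix.of fun k l => A.db i k (fun y => lw K v i y l) x - A.db i l (fun y => lw K v i y k) x

/-- `∂̄ s` -/
def dbs (s : A.ι → M → ℂ) (i : A.ι) (x : M) : Fin n → ℂ := fun a => A.db i a (s i) x

/-- the vector field of `∂̄ s` -/
def sh (K : Kah A) (s : A.ι → M → ℂ) (i : A.ι) (x : M) : Fin n → ℂ :=
  ((K.g i x)ᵀ)⁻¹ *ᵥ dbs s i x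

/-- the Hermitian form `∑ P_{a b̄} v^a conj v^b` -/
def hq (P : Mx n) (v : Fin n → ℂ) : ℝ := (star v ⬝ᵥ (Pᵀ *ᵥ v)).re

/-- squared norm of a `(0,2)`-tensor -/
def hU (g U : Mx n) : ℝ := (Matrix.trace (Uᴴ * (g⁻¹)ᵀ * U * g⁻¹)).re

/-- a measurable choice of a chart -/
def ix (A : Atl n M) [Countable A.ι] (x : M) : A.ι := (exists_Dj (A := A) x).choose

theorem ix_Dj [Countable A.ι] (x : M) : x ∈ Dj A (ix A x) := (exists_Dj (A := A) x).choose_spec

theorem ix_mem [Countable A.ι] (x : M) : x ∈ (A.e (ix A x)).source := (ix_Dj x).1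

/-- the function `D / vol` attached to a density `D` -/
def gl [Countable A.ι] {W : Type*} [SMul ℝ W] (vol : HM (KB A)⁻¹) (D : A.ι → M → W) (x : M) : W :=
  (vol.w (ix A x) x)⁻¹ • D (ix A x) x

/-- cut-off functions with small gradient (completeness of `K`) -/
def Cut (K : Kah A) : Prop :=
  ∀ C : Set M, IsCompact C → ∀ ε : ℝ, 0 < ε → ∃ χ : M → ℝ, A.Sm χ ∧ HasCompactSupport χ ∧
    (∀ x ∈ C, χ x = 1) ∧ (∀ x, 0 ≤ χ x ∧ χ x ≤ 1) ∧
    ∀ i, ∀ x ∈ (A.e i).source, ∀ v : Fin n → ℂ,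
      ‖∑ a, dl A i a (fun y => (χ y : ℂ)) x * v a‖ ^ 2 ≤ ε * hq (K.g i x) v

/-- **the theorem of the module**: `G` smooth with compact support, `|∂̄ G|²_Θ ≤ κ`; then there is a
holomorphic section `F` with `∫ |F - G|² ≤ ∫ κ`. -/
def HoerStmt : Prop :=
  ∀ (n : ℕ) (M : Type) [TopologicalSpace M] [T2Space M] [MeasurableSpace M] [BorelSpace M]
    (A : Atl n M) [Countable A.ι] (_ : Part A) (K : Kah A), Cut K →
    ∀ (N : LB A) (h : HM ((KB A)⁻¹ * N)), h.Semipos → ∀ (vol : HM (KB A)⁻¹)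
      (G : A.ι → M → ℂ), IsS N G → Cs G → ∀ κ : M → ℝ, Measurable κ → (∀ x, 0 ≤ κ x) →
      (∀ i, ∀ x ∈ (A.e i).source, ∀ v : Fin n → ℂ,
        h.w i x * ‖star v ⬝ᵥ dbs G i x‖ ^ 2 ≤ κ x * vol.w i x * hq (cur h i x) v) →
      ∃ F : A.ι → M → ℂ, IsS N F ∧ (∀ i, HolAt A i univ (F i)) ∧
        ∫⁻ x, ENNReal.ofReal (gl vol (fun i y => h.w i y * ‖F i y - G i y‖ ^ 2) x) ∂(vm vol) ≤
          ∫⁻ x, ENNReal.ofReal (κ x) ∂(vm vol)


/-- leaf BKN: adjointness and the Bochner-Kodaira-Nakano inequality for test fields -/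
def BknStmt : Prop :=
  ∀ (n : ℕ) (M : Type) [TopologicalSpace M] [T2Space M] [MeasurableSpace M] [BorelSpace M]
    (A : Atl n M) [Countable A.ι] (_ : Part A) (K : Kah A) (N : LB A) (h : HM ((KB A)⁻¹ * N))
    (vol : HM (KB A)⁻¹) (v : A.ι → M → Fin n → ℂ), IsF N v → Cs v →
    (∀ s, IsS N s →
      ∫ x, gl vol (fun i y => (h.w i y : ℂ) * (star (v i y) ⬝ᵥ dbs s i y)) x ∂(vm vol) =
        - ∫ x, gl vol (fun i y => (h.w i y : ℂ) * (conj (dv h v i y) * s i y)) x ∂(vm vol)) ∧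
    ∫ x, gl vol (fun i y => h.w i y * hq (cur h i y) (v i y)) x ∂(vm vol) ≤
      ∫ x, gl vol (fun i y => h.w i y * ‖dv h v i y‖ ^ 2) x ∂(vm vol) +
        ∫ x, gl vol (fun i y => h.w i y * hU (K.g i y) (al K v i y)) x ∂(vm vol)

/-- leaf FRIED: Friedrichs' lemma (first order operator `L ∘ D ∘ a`, `a` a smooth coefficient) -/
def FriedStmt : Prop :=
  ∀ (E V V' W : Type) [NormedAddCommGroup E] [NormedSpace ℝ E] [FiniteDimensional ℝ E]
    [MeasurableSpace E] [BorelSpace E] [NormedAddCommGroup V] [NormedSpace ℝ V]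
    [FiniteDimensional ℝ V] [NormedAddCommGroup V'] [NormedSpace ℝ V'] [FiniteDimensional ℝ V']
    [NormedAddCommGroup W] [NormedSpace ℝ W] [FiniteDimensional ℝ W]
    (μ : Measure E) [μ.IsAddHaarMeasure] (Lo : (E →L[ℝ] V') →L[ℝ] W) (a : E → V →L[ℝ] V')
    (C U : Set E), IsCompact C → IsOpen U → C ⊆ U → ContDiffOn ℝ ∞ a U →
    ∀ (v : E → V) (w : E → W), MemLp v 2 μ → MemLp w 2 μ → (∀ x ∉ C, v x = 0) →
      (∀ x ∉ C, w x = 0) →
      (∀ θ : E → ℝ, ContDiff ℝ ∞ θ → HasCompactSupport θ → tsupport θ ⊆ U →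
        ∫ x, Lo ((fderiv ℝ θ x).smulRight (a x (v x))) ∂μ = - ∫ x, θ x • w x ∂μ) →
      ∃ C' : Set E, IsCompact C' ∧ C ⊆ C' ∧ C' ⊆ U ∧ ∀ ε : ℝ≥0∞, 0 < ε →
        ∃ f : E → V, ContDiff ℝ ∞ f ∧ tsupport f ⊆ C' ∧ eLpNorm (f - v) 2 μ ≤ ε ∧
          eLpNorm (fun x => Lo (fderiv ℝ (fun y => a y (f y)) x) - w x) 2 μ ≤ ε

end

end Crest.Agent.T223.Hm
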