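import Crest.Agent.R273.Levi_145
import Crest.Agent.R273.C0a_390
import Crest.Agent.T223.Hm0_77
import Crest.Agent.R281.Ins4_615
import Crest.Agent.R281.Sm4_593
import Crest.Agent.T223.U0Def_15
import Crest.Agent.T223.HmBa_61

-- ▼ part T223/Nf1_79
section

/-!
# Row 223, module NFORM (helper79), part 1: Levi forms in one chart

* `hq_hess`      : `Hm.hq (hess u z) v = lev u z v`
* `lev_nsq`      : `|s|² / w` is plurisubharmonic if `s` is holomorphic and `-log w` is psh
* `lev_near`     : uniform strict positivity near a point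
* `bd_cpt`       : bounds for first and second derivatives on a compact set
* `pole`, `lev_pole` : `log (pole + δ)` has Levi form bounded below uniformly in `δ`
-/

set_option autoImplicit false
set_option linter.unusedSectionVars false
set_option maxSynthPendingDepth 3

open Set Filter Topology Complex Matrix Metric
open scoped ContDiff Matrix ComplexConjugate ComplexOrder

namespace Crest.Agent.T223.Nf

open Crest.Agent.R275.Geo
open Crest.Agent.R273.Hess_333 (hess)
open Crest.Agent.R273.Levi_145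

noncomputable section

variable {n : ℕ}

theorem two_le : (2 : WithTop ℕ∞) ≤ ∞ := WithTop.coe_le_coe.2 (le_top : (2 : ℕ∞) ≤ ⊤)

theorem lev4 (u : Cn n → ℝ) (z v : Cn n) :
    Crest.Agent.R273.Defs_333.lev u z v = 4 * lev u z v := by
  simp only [Crest.Agent.R273.Defs_333.lev, lev, iteratedFDeriv_two_apply]
  simp only [Matrix.cons_val_zero, Matrix.cons_val_one]
  ring

theorem hq_hess {u : Cn n → ℝ} {z : Cn n} (hu : ContDiffAt ℝ ∞ u z) (v : Fin n → ℂ) :
    Hm.hq (hess u z) v = lev u z (WithLp.toLp 2 v) := by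
  have h1 := Crest.Agent.R273.Hess_333.lev_eq hu (WithLp.toLp 2 v)
  rw [lev4] at h1
  have h2 : ((lev u z (WithLp.toLp 2 v) : ℝ) : ℂ) =
      Crest.Agent.R273.Hess_333.hq u z (WithLp.toLp 2 v) := by
    push_cast at h1
    linear_combination (1 / 4 : ℂ) * h1
  have h3 : star v ⬝ᵥ ((hess u z)ᵀ *ᵥ v) =
      Crest.Agent.R273.Hess_333.hq u z (WithLp.toLp 2 v) := by
    unfold Crest.Agent.R273.Hess_333.hq
    simp only [dotProduct, Matrix.mulVec, Matrix.transpose_apply, Pi.star_apply, Finset.mul_sum]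
    rw [Finset.sum_comm]
    refine Finset.sum_congr rfl fun a _ => Finset.sum_congr rfl fun b _ => ?_
    simp only [RCLike.star_def]
    ring
  unfold Hm.hq
  rw [h3, ← h2, Complex.ofReal_re]

theorem lev_of_psd {u : Cn n → ℝ} {z : Cn n} (hu : ContDiffAt ℝ ∞ u z)
    (h : (hess u z).PosSemidef) (v : Cn n) : 0 ≤ lev u z v := by
  have h1 := Crest.Agent.R273.HessB_333.lev_nonneg_of_posSemidef hu h v
  rw [lev4] at h1
  linarith

theorem lev_of_pd {u : Cn n → ℝ} {z : Cn n} (hu : ContDiffAt ℝ ∞ u z)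
    (h : (hess u z).PosDef) {v : Cn n} (hv : v ≠ 0) : 0 < lev u z v := by
  have h1 := Crest.Agent.R273.HessB_333.lev_pos_of_posDef hu h hv
  rw [lev4] at h1
  linarith

theorem psd_of_lev {u : Cn n → ℝ} {z : Cn n} (hu : ContDiffAt ℝ ∞ u z)
    (h : ∀ v, 0 ≤ lev u z v) : (hess u z).PosSemidef :=
  Crest.Agent.R273.HessB_333.posSemidef_hess hu fun v => by
    rw [lev4]
    have := h v
    linarith

theorem lev_localMin {u : Cn n → ℝ} {z : Cn n} (hu : ContDiffAt ℝ 2 u z) (hm : IsLocalMin u z)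
    (v : Cn n) : 0 ≤ lev u z v := by
  unfold lev
  have h1 := Crest.Agent.R273.C0a_390.fderiv2_nonneg hu hm v
  have h2 := Crest.Agent.R273.C0a_390.fderiv2_nonneg hu hm (I • v)
  linarith

/-- the squared norm of a holomorphic section of a seminegative bundle is plurisubharmonic -/
theorem lev_nsq {s : Cn n → ℂ} {w : Cn n → ℝ} {z : Cn n} (hs : AnalyticAt ℂ s z)
    (hw : ContDiffAt ℝ 2 w z) (h0 : 0 < w z) (hp : ∀ v, 0 ≤ lev (fun y => -Real.log (w y)) z v)
    (v : Cn n) : 0 ≤ lev (fun y => ‖s y‖ ^ 2 / w y) z v := by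
  have hwp : ∀ᶠ y in 𝓝 z, 0 < w y := hw.continuousAt.eventually (lt_mem_nhds h0)
  by_cases hz : s z = 0
  · refine lev_localMin ((c2_normSq hs 2).div hw h0.ne') ?_ v
    filter_upwards [hwp] with y hy
    change ‖s z‖ ^ 2 / w z ≤ ‖s y‖ ^ 2 / w y
    rw [hz]
    simp only [norm_zero, ne_eq, OfNat.ofNat_ne_zero, not_false_eq_true, zero_pow, zero_div]
    positivity
  · have hsp : ∀ᶠ y in 𝓝 z, s y ≠ 0 := hs.continuousAt.eventually_ne hz
    have h1 : ContDiffAt ℝ 2 (fun y => Real.log (‖s y‖ ^ 2)) z :=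
      (c2_normSq hs 2).log (by positivity)
    have h2 : ContDiffAt ℝ 2 (fun y => -Real.log (w y)) z := (hw.log h0.ne').neg
    have h3 : (fun y => ‖s y‖ ^ 2 / w y) =ᶠ[𝓝 z]
        fun y => Real.exp (Real.log (‖s y‖ ^ 2) + -Real.log (w y)) := by
      filter_upwards [hwp, hsp] with y hy hy2
      rw [Real.exp_add, Real.exp_neg, Real.exp_log hy, Real.exp_log (by positivity),
        div_eq_mul_inv]
    rw [lev_congr h3, lev_exp (u := fun y => Real.log (‖s y‖ ^ 2) + -Real.log (w y)) (h1.add h2),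
      lev_add h1 h2, lev_log_normSq hs hz]
    have := hp v
    positivity

theorem abs_lev_le (u : Cn n → ℝ) (z v : Cn n) :
    |lev u z v| ≤ ‖fderiv ℝ (fderiv ℝ u) z‖ * ‖v‖ ^ 2 := by
  set B := fderiv ℝ (fderiv ℝ u) z
  have h1 : ∀ w : Cn n, |B w w| ≤ ‖B‖ * ‖w‖ ^ 2 := fun w => by
    have := B.le_opNorm₂ w w
    rw [Real.norm_eq_abs] at this
    nlinarith
  have h2 := h1 v
  have h3 := h1 (I • v)
  rw [norm_smul, Complex.norm_I, one_mul] at h3
  have h4 : 0 ≤ ‖B‖ * ‖v‖ ^ 2 := by positivity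
  have h5 : lev u z v = (B v v + B (I • v) (I • v)) / 4 := rfl
  rw [h5, abs_le]
  rw [abs_le] at h2 h3
  constructor <;> linarith [h2.1, h2.2, h3.1, h3.2]

theorem norm_gr_le {u : Cn n → ℝ} {z : Cn n} (hu : DifferentiableAt ℝ u z) (v : Cn n) :
    ‖gr u z v‖ ^ 2 ≤ ‖fderiv ℝ u z‖ ^ 2 * ‖v‖ ^ 2 := by
  rw [norm_gr_sq hu]
  set B := fderiv ℝ u z
  have h1 : ∀ w : Cn n, (B w) ^ 2 ≤ ‖B‖ ^ 2 * ‖w‖ ^ 2 := fun w => by
    have := B.le_opNorm w
    rw [Real.norm_eq_abs] at this
    rw [← mul_pow, ← sq_abs (B w)]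
    exact pow_le_pow_left₀ (abs_nonneg _) this 2
  have h2 := h1 v
  have h3 := h1 (I • v)
  rw [norm_smul, Complex.norm_I, one_mul] at h3
  have h4 : 0 ≤ ‖B‖ ^ 2 * ‖v‖ ^ 2 := by positivity
  linarith

/-- uniform positivity near a point -/
theorem lev_near {u : Cn n → ℝ} {z0 : Cn n} (hu : ContDiffAt ℝ ∞ u z0)
    (h : (hess u z0).PosDef) :
    ∃ c : ℝ, 0 < c ∧ ∀ᶠ z in 𝓝 z0, ∀ v, c * ‖v‖ ^ 2 ≤ lev u z v := by
  set B := fun z => fderiv ℝ (fderiv ℝ u) z with hB
  have hc : Continuous fun v : Cn n => lev u z0 v := by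
    have h1 : Continuous fun v : Cn n => B z0 v v := (B z0).continuous.clm_apply continuous_id
    have h2 : Continuous fun v : Cn n => I • v := continuous_id.const_smul I
    exact (h1.add (h1.comp h2)).div_const 4
  obtain ⟨c, hc0, hc1⟩ := (isCompact_sphere (0 : Cn n) 1).exists_forall_le' hc.continuousOn
    (a := 0) (fun v hv => lev_of_pd hu h (by
      rw [mem_sphere_zero_iff_norm] at hv
      intro h0
      rw [h0, norm_zero] at hv
      exact zero_ne_one hv))
  have h0 : ∀ v, c * ‖v‖ ^ 2 ≤ lev u z0 v := by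
    intro v
    rcases eq_or_ne v 0 with rfl | hv
    · simp [lev_zero]
    · have hn : ‖v‖ ≠ 0 := norm_ne_zero_iff.2 hv
      have hn' : ((‖v‖ : ℝ) : ℂ) ≠ 0 := by exact_mod_cast hn
      have e : v = ((‖v‖ : ℝ) : ℂ) • ((((‖v‖ : ℝ) : ℂ))⁻¹ • v) := by
        rw [smul_smul, mul_inv_cancel₀ hn', one_smul]
      have h1 : (((‖v‖ : ℝ) : ℂ))⁻¹ • v ∈ sphere (0 : Cn n) 1 := by
        rw [mem_sphere_zero_iff_norm, norm_smul, norm_inv, Complex.norm_real, norm_norm,
          inv_mul_cancel₀ hn]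
      have h2 := hc1 _ h1
      have h3 := lev_smul (hu.of_le two_le) ((‖v‖ : ℝ) : ℂ) ((((‖v‖ : ℝ) : ℂ))⁻¹ • v)
      rw [← e, Complex.norm_real, norm_norm] at h3
      rw [h3, mul_comm]
      exact mul_le_mul_of_nonneg_left h2 (by positivity)
  have hBc : ContinuousAt B z0 := by
    have h1 : ContDiffAt ℝ 1 (fderiv ℝ u) z0 := (hu.of_le two_le).fderiv_right (by norm_num)
    have h2 : ContDiffAt ℝ 0 (fderiv ℝ (fderiv ℝ u)) z0 := h1.fderiv_right (by norm_num)
    exact h2.continuousAt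
  refine ⟨c / 2, by positivity, ?_⟩
  have h3 : ∀ᶠ z in 𝓝 z0, ‖B z - B z0‖ < c := by
    have := hBc.eventually (ball_mem_nhds (B z0) hc0)
    filter_upwards [this] with z hz
    rwa [← dist_eq_norm]
  filter_upwards [h3] with z hz v
  have h1 : ∀ w : Cn n, |(B z - B z0) w w| ≤ c * ‖w‖ ^ 2 := fun w => by
    have h4 := (B z - B z0).le_opNorm₂ w w
    rw [Real.norm_eq_abs] at h4
    have h5 : ‖B z - B z0‖ * (‖w‖ * ‖w‖) ≤ c * (‖w‖ * ‖w‖) :=
      mul_le_mul_of_nonneg_right hz.le (by positivity)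
    nlinarith
  have h4 := h1 v
  have h5 := h1 (I • v)
  rw [norm_smul, Complex.norm_I, one_mul] at h5
  have h6 := h0 v
  have e1 : lev u z v = (B z v v + B z (I • v) (I • v)) / 4 := rfl
  have e2 : lev u z0 v = (B z0 v v + B z0 (I • v) (I • v)) / 4 := rfl
  simp only [_root_.sub_apply] at h4 h5
  rw [abs_le] at h4 h5
  rw [e1]
  rw [e2] at h6
  linarith [h4.1, h5.1]

/-- bounds on a compact set -/
theorem bd_cpt {u : Cn n → ℝ} (hu : ContDiff ℝ ∞ u) {S : Set (Cn n)} (hS : IsCompact S) :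
    ∃ C : ℝ, 0 ≤ C ∧ ∀ z ∈ S, ∀ v, |lev u z v| ≤ C * ‖v‖ ^ 2 ∧ ‖gr u z v‖ ^ 2 ≤ C * ‖v‖ ^ 2 := by
  have h1 : ContDiff ℝ 1 (fderiv ℝ u) := (hu.of_le two_le).fderiv_right (by norm_num)
  have h2 : Continuous (fderiv ℝ (fderiv ℝ u)) := h1.continuous_fderiv (by norm_num)
  obtain ⟨C1, hC1⟩ := hS.exists_bound_of_continuousOn h1.continuous.continuousOn
  obtain ⟨C2, hC2⟩ := hS.exists_bound_of_continuousOn h2.continuousOn
  refine ⟨C1 ^ 2 + |C2|, by positivity, fun z hz v => ⟨?_, ?_⟩⟩
  · refine (abs_lev_le u z v).trans (mul_le_mul_of_nonneg_right ?_ (by positivity))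
    have := hC2 z hz
    have := le_abs_self C2
    nlinarith [sq_nonneg C1]
  · refine (norm_gr_le (hu.differentiable (by simp) z) v).trans
      (mul_le_mul_of_nonneg_right ?_ (by positivity))
    have h3 := pow_le_pow_left₀ (norm_nonneg _) (hC1 z hz) 2
    have := abs_nonneg C2
    linarith

/-- `|z - z0|²` near `z0`, `1` far away -/
def pole {z0 : Cn n} (b : ContDiffBump z0) (z : Cn n) : ℝ := b z * ‖z - z0‖ ^ 2 + (1 - b z)

theorem pole_smooth {z0 : Cn n} (b : ContDiffBump z0) : ContDiff ℝ ∞ (pole b) := by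
  unfold pole
  have h1 : ContDiff ℝ ∞ (fun z : Cn n => ‖z - z0‖ ^ 2) := (contDiff_id.sub contDiff_const).norm_sq ℝ
  exact (b.contDiff.mul h1).add (contDiff_const.sub b.contDiff)

theorem pole_nonneg {z0 : Cn n} (b : ContDiffBump z0) (z : Cn n) : 0 ≤ pole b z := by
  unfold pole
  have h1 : 0 ≤ b z := b.nonneg
  have h2 : b z ≤ 1 := b.le_one
  have h3 : 0 ≤ b z * ‖z - z0‖ ^ 2 := by positivity
  linarith

theorem pole_le {z0 : Cn n} (b : ContDiffBump z0) (z : Cn n) : pole b z ≤ b.rOut ^ 2 + 1 := by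
  unfold pole
  have h1 : 0 ≤ b z := b.nonneg
  have h2 : b z ≤ 1 := b.le_one
  by_cases hz : b.rOut ≤ dist z z0
  · rw [b.zero_of_le_dist hz]
    nlinarith [sq_nonneg b.rOut]
  · rw [not_le, dist_eq_norm] at hz
    have h3 : ‖z - z0‖ ^ 2 ≤ b.rOut ^ 2 := pow_le_pow_left₀ (norm_nonneg _) hz.le 2
    nlinarith [sq_nonneg ‖z - z0‖]

theorem pole_ge {z0 : Cn n} (b : ContDiffBump z0) {z : Cn n} (hz : z ∉ ball z0 b.rIn) :
    min (b.rIn ^ 2) 1 ≤ pole b z := by
  unfold pole
  have h1 : 0 ≤ b z := b.nonneg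
  have h2 : b z ≤ 1 := b.le_one
  rw [mem_ball, not_lt, dist_eq_norm] at hz
  have h3 : b.rIn ^ 2 ≤ ‖z - z0‖ ^ 2 := pow_le_pow_left₀ b.rIn_pos.le hz 2
  have h4 := min_le_left (b.rIn ^ 2) 1
  have h5 := min_le_right (b.rIn ^ 2) 1
  nlinarith [mul_le_mul_of_nonneg_left (h4.trans h3) h1,
    mul_le_mul_of_nonneg_left h5 (sub_nonneg.2 h2)]

theorem pole_zero {z0 : Cn n} (b : ContDiffBump z0) : pole b z0 = 0 := by
  unfold pole
  rw [b.one_of_mem_closedBall (mem_closedBall_self b.rIn_pos.le)]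
  simp

theorem lev_pole {z0 : Cn n} (b : ContDiffBump z0) : ∃ Λ : ℝ, 0 ≤ Λ ∧ ∀ δ : ℝ, 0 < δ →
    ∀ z ∈ closedBall z0 b.rOut, ∀ v,
      -(Λ * ‖v‖ ^ 2) ≤ lev (fun w => Real.log (pole b w + δ)) z v := by
  obtain ⟨C, hC0, hC⟩ := bd_cpt (pole_smooth b) (isCompact_closedBall z0 b.rOut)
  set c : ℝ := min (b.rIn ^ 2) 1 with hc
  have hc0 : 0 < c := lt_min (pow_pos b.rIn_pos 2) one_pos
  refine ⟨C / c + C / c ^ 2, by positivity, fun δ hδ z hz v => ?_⟩
  by_cases hin : z ∈ ball z0 b.rIn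
  · set F : Option (Fin n) → Cn n → ℂ := fun j w =>
      match j with
      | none => ((Real.sqrt δ : ℝ) : ℂ)
      | some a => w a - z0 a with hF
    have hFa : ∀ j, AnalyticAt ℂ (F j) z := by
      intro j
      cases j with
      | none => exact analyticAt_const
      | some a =>
        exact ((EuclideanSpace.proj a : Cn n →L[ℂ] ℂ).analyticAt z).sub analyticAt_const
    have h0 : ∃ j, F j z ≠ 0 := ⟨none, by
      have : Real.sqrt δ ≠ 0 := (Real.sqrt_pos.2 hδ).ne'
      simpa [hF] using this⟩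
    have h1 : (fun w => Real.log (pole b w + δ)) =ᶠ[𝓝 z] fun w => Real.log (sumSq F w) := by
      filter_upwards [isOpen_ball.mem_nhds hin] with w hw
      congr 1
      unfold pole sumSq
      rw [b.one_of_mem_closedBall (ball_subset_closedBall hw), Fintype.sum_option,
        EuclideanSpace.norm_sq_eq]
      simp only [hF, Complex.norm_real, Real.norm_eq_abs, sq_abs, Real.sq_sqrt hδ.le,
        PiLp.sub_apply]
      ring
    rw [lev_congr h1]
    have h2 := lev_log_sumSq_nonneg hFa h0 v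
    have h3 : 0 ≤ (C / c + C / c ^ 2) * ‖v‖ ^ 2 := by positivity
    linarith
  · have h1 : c ≤ pole b z + δ := by
      have := pole_ge b hin
      linarith
    have h2 : ContDiffAt ℝ 2 (pole b) z := ((pole_smooth b).of_le two_le).contDiffAt
    have h3 : ContDiffAt ℝ 2 (fun w => pole b w + δ) z := h2.add contDiffAt_const
    have h4 : lev (fun w => pole b w + δ) z v = lev (pole b) z v := by
      rw [lev_add (u := pole b) (v := fun _ => δ) h2 contDiffAt_const, lev_const, add_zero]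
    have h5 : ‖gr (fun w => pole b w + δ) z v‖ ^ 2 = ‖gr (pole b) z v‖ ^ 2 := by
      rw [norm_gr_sq (h3.differentiableAt (by norm_num)),
        norm_gr_sq (h2.differentiableAt (by norm_num)), fderiv_add_const]
    rw [lev_log (u := fun w => pole b w + δ) h3 (by linarith), h4, h5]
    obtain ⟨h6, h7⟩ := hC z hz v
    set P := pole b z + δ
    have hP : 0 < P := by linarith
    have h8 : -(C / c * ‖v‖ ^ 2) ≤ lev (pole b) z v / P := by
      have h9 : C * ‖v‖ ^ 2 / P ≤ C * ‖v‖ ^ 2 / c :=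
        div_le_div_of_nonneg_left (by positivity) hc0 h1
      have h10 : -(C * ‖v‖ ^ 2) / P ≤ lev (pole b) z v / P :=
        div_le_div_of_nonneg_right (abs_le.1 h6).1 hP.le
      have e1 : -(C * ‖v‖ ^ 2) / P = -(C * ‖v‖ ^ 2 / P) := by ring
      have e2 : C / c * ‖v‖ ^ 2 = C * ‖v‖ ^ 2 / c := by ring
      linarith
    have h11 : ‖gr (pole b) z v‖ ^ 2 / P ^ 2 ≤ C / c ^ 2 * ‖v‖ ^ 2 := by
      have h9 : C * ‖v‖ ^ 2 / P ^ 2 ≤ C * ‖v‖ ^ 2 / c ^ 2 :=
        div_le_div_of_nonneg_left (by positivity) (by positivity) (pow_le_pow_left₀ hc0.le h1 2)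
      have h10 : ‖gr (pole b) z v‖ ^ 2 / P ^ 2 ≤ C * ‖v‖ ^ 2 / P ^ 2 :=
        div_le_div_of_nonneg_right h7 (by positivity)
      have e2 : C / c ^ 2 * ‖v‖ ^ 2 = C * ‖v‖ ^ 2 / c ^ 2 := by ring
      linarith
    nlinarith

end

end Crest.Agent.T223.Nf
end

-- ▼ part T223/Nf2_79
section

/-!
# Row 223, module NFORM (helper79), part 2: peak `n`-forms from Hoermander's theorem

* `ns vol s x` : chart free squared norm `|s i x|² / vol.w i x` of an `n`-form
* `peak`       : the family of solutions for the weights `N ψ + m log (f + δ)`, uniform in `δ`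
-/

set_option autoImplicit false
set_option linter.unusedSectionVars false

open Set Filter Topology Complex Matrix Metric MeasureTheory
open scoped ContDiff Matrix ComplexConjugate ComplexOrder ENNReal

namespace Crest.Agent.T223.Nf

open Crest.Agent.R275.Geo Crest.Agent.R275.Core144
open Crest.Agent.R275.OmT75 (tr tr_val dj)
open Crest.Agent.R273.Hess_333 (hess)
open Crest.Agent.R273.Levi_145
open Crest.Agent.R273.Defs_333 (HM)
open Crest.Agent.R273.Kah_333 Crest.Agent.R273.Vm_333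
open Crest.Agent.T223.Hm

noncomputable section

variable {n : ℕ} {M : Type} [TopologicalSpace M] {A : Atl n M}

/-! ### change of charts -/

theorem anal_tr {i j : A.ι} {x : M} (hx : x ∈ (A.e i).source ∩ (A.e j).source) :
    AnalyticAt ℂ (tr A i j) (A.e i x) :=
  Crest.Agent.R266.SCV.analyticOnNhd_of_differentiableOn (isOpen_ov i j) (A.holo i j) _
    (mem_ov hx)

theorem read_eq {W : Type*} {i j : A.ι} {x : M} (f : M → W)
    (hx : x ∈ (A.e i).source ∩ (A.e j).source) :
    (fun z => f ((A.e i).symm z)) =ᶠ[𝓝 (A.e i x)]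
      fun z => (fun w => f ((A.e j).symm w)) (tr A i j z) := by
  filter_upwards [(isOpen_ov i j).mem_nhds (mem_ov hx)] with z hz
  simp only [tr]
  rw [(A.e j).left_inv hz.2]

theorem sm_at {W : Type*} [NormedAddCommGroup W] [NormedSpace ℝ W] {u : M → W} {i : A.ι}
    (hu : A.SmAt i u) {x : M} (hx : x ∈ (A.e i).source) :
    ContDiffAt ℝ ∞ (fun z => u ((A.e i).symm z)) (A.e i x) :=
  ContDiffOn.contDiffAt hu ((A.e i).open_target.mem_nhds ((A.e i).map_source hx))

theorem lev_chg {u : M → ℝ} {i j : A.ι} (hu : A.SmAt i u) {x : M}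
    (hx : x ∈ (A.e j).source ∩ (A.e i).source) (v : Cn n) :
    lev (fun z => u ((A.e j).symm z)) (A.e j x) v =
      lev (fun z => u ((A.e i).symm z)) (A.e i x) (fderiv ℂ (tr A j i) (A.e j x) v) := by
  have h1 : ContDiffAt ℝ 2 (fun z => u ((A.e i).symm z)) (tr A j i (A.e j x)) := by
    rw [tr_val hx]; exact (sm_at hu hx.2).of_le two_le
  rw [lev_congr (read_eq u hx), lev_comp (anal_tr hx) h1, tr_val hx]

theorem gr_congr {u w : Cn n → ℝ} {z : Cn n} (h : u =ᶠ[𝓝 z] w) (v : Cn n) :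
    gr u z v = gr w z v := by
  unfold gr
  refine Finset.sum_congr rfl fun a _ => ?_
  rw [Crest.Agent.R275.OmT75.dj_congr (cx_congr h)]

theorem gr_const (c : ℝ) (z v : Cn n) : gr (fun _ => c) z v = 0 := by
  rw [gr_eq (differentiableAt_const c)]
  simp

theorem gr_chg {u : M → ℝ} {i j : A.ι} (hu : A.SmAt i u) {x : M}
    (hx : x ∈ (A.e j).source ∩ (A.e i).source) (v : Cn n) :
    gr (fun z => u ((A.e j).symm z)) (A.e j x) v =
      gr (fun z => u ((A.e i).symm z)) (A.e i x) (fderiv ℂ (tr A j i) (A.e j x) v) := by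
  have h1 : DifferentiableAt ℝ (fun z => u ((A.e i).symm z)) (tr A j i (A.e j x)) := by
    rw [tr_val hx]; exact (sm_at hu hx.2).differentiableAt (by simp)
  have hT : DifferentiableAt ℂ (tr A j i) (A.e j x) := (anal_tr hx).differentiableAt
  have h2 : HasFDerivAt (fun z => (fun w => u ((A.e i).symm w)) (tr A j i z))
      ((fderiv ℝ (fun z => u ((A.e i).symm z)) (tr A j i (A.e j x))).comp
        ((fderiv ℂ (tr A j i) (A.e j x)).restrictScalars ℝ)) (A.e j x) :=
    h1.hasFDerivAt.comp (A.e j x) (hT.hasFDerivAt.restrictScalars ℝ)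
  rw [gr_congr (read_eq u hx), gr_eq h2.differentiableAt, h2.fderiv]
  rw [tr_val hx] at h1
  rw [gr_eq h1, tr_val hx]
  simp only [ContinuousLinearMap.comp_apply, ContinuousLinearMap.coe_restrictScalars', map_smul]

theorem tendsto_symm {i : A.ι} {x : M} (hx : x ∈ (A.e i).source) :
    Tendsto (A.e i).symm (𝓝 (A.e i x)) (𝓝 x) := by
  have := (A.e i).continuousAt_symm ((A.e i).map_source hx)
  rwa [ContinuousAt, (A.e i).left_inv hx] at this

/-! ### extension by zero -/

open Classical in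
/-- a function of the coordinates, extended by zero -/
def ex0 (A : Atl n M) (i : A.ι) (φ : Cn n → ℝ) (x : M) : ℝ :=
  if x ∈ (A.e i).source then φ (A.e i x) else 0

theorem ex0_mem {i : A.ι} {φ : Cn n → ℝ} {x : M} (hx : x ∈ (A.e i).source) :
    ex0 A i φ x = φ (A.e i x) := if_pos hx

theorem ex0_zero {i : A.ι} {φ : Cn n → ℝ} {T : Set (Cn n)} (hT : ∀ z ∉ T, φ z = 0) {x : M}
    (hx : x ∉ (A.e i).symm '' T) : ex0 A i φ x = 0 := by
  by_cases hs : x ∈ (A.e i).source
  · rw [ex0_mem hs]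
    exact hT _ fun h => hx ⟨A.e i x, h, (A.e i).left_inv hs⟩
  · exact if_neg hs

theorem cpt_symm {i : A.ι} {T : Set (Cn n)} (hc : IsCompact T) (hs : T ⊆ (A.e i).target) :
    IsCompact ((A.e i).symm '' T) :=
  hc.image_of_continuousOn ((A.e i).continuousOn_symm.mono hs)

theorem symm_sub {i : A.ι} {T : Set (Cn n)} (hs : T ⊆ (A.e i).target) :
    (A.e i).symm '' T ⊆ (A.e i).source := by
  rintro _ ⟨z, hz, rfl⟩
  exact (A.e i).map_target (hs hz)

theorem mem_of_symm {i : A.ι} {T : Set (Cn n)} (hs : T ⊆ (A.e i).target) {y : M}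
    (hy : y ∈ (A.e i).symm '' T) : A.e i y ∈ T := by
  obtain ⟨z, hz, rfl⟩ := hy
  rwa [(A.e i).right_inv (hs hz)]

theorem ex0_sm [T2Space M] {i : A.ι} {φ : Cn n → ℝ} (hφ : ContDiff ℝ ∞ φ) {T : Set (Cn n)}
    (hc : IsCompact T) (hs : T ⊆ (A.e i).target) (hT : ∀ z ∉ T, φ z = 0) :
    A.Sm (ex0 A i φ) := by
  intro j z hz
  refine ContDiffAt.contDiffWithinAt ?_
  have hx := (A.e j).map_target hz
  by_cases hi : (A.e j).symm z ∈ (A.e i).source
  · have h1 : AnalyticAt ℂ (tr A j i) (A.e j ((A.e j).symm z)) := anal_tr ⟨hx, hi⟩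
    rw [(A.e j).right_inv hz] at h1
    have h2 : ContDiffAt ℝ ∞ (fun w => φ (tr A j i w)) z :=
      hφ.contDiffAt.comp z (h1.contDiffAt.restrict_scalars ℝ)
    refine h2.congr_of_eventuallyEq ?_
    have h3 : ∀ᶠ w in 𝓝 z, (A.e j).symm w ∈ (A.e i).source :=
      ((A.e j).continuousAt_symm hz).eventually ((A.e i).open_source.mem_nhds hi)
    filter_upwards [h3] with w hw
    rw [ex0_mem hw]
    rfl
  · have h0 : (A.e j).symm z ∉ (A.e i).symm '' T := fun h => hi (symm_sub hs h)
    have h3 : ∀ᶠ w in 𝓝 z, (A.e j).symm w ∉ (A.e i).symm '' T :=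
      ((A.e j).continuousAt_symm hz).eventually
        ((cpt_symm hc hs).isClosed.isOpen_compl.mem_nhds h0)
    refine (contDiffAt_const (c := (0 : ℝ))).congr_of_eventuallyEq ?_
    filter_upwards [h3] with w hw
    exact ex0_zero hT hw

/-! ### the norm of an `n`-form, the weights -/

/-- `|s|² / vol` -/
def ns [Countable A.ι] (vol : HM (KB A)⁻¹) (s : A.ι → M → ℂ) (x : M) : ℝ :=
  gl vol (fun i y => ‖s i y‖ ^ 2) x

theorem vol_tr (vol : HM (KB A)⁻¹) {i j : A.ι} {x : M}
    (hx : x ∈ (A.e i).source ∩ (A.e j).source) :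
    vol.w j x = ‖(KB A).g j i x‖ ^ 2 * vol.w i x := by
  rw [vol.tr i j x hx, LB.inv_g, LB.inv_eq]

theorem ns_eq [Countable A.ι] (vol : HM (KB A)⁻¹) {s : A.ι → M → ℂ} {x : M}
    (hs : ∀ i j, x ∈ (A.e i).source ∩ (A.e j).source → s i x = (KB A).g i j x * s j x)
    {i : A.ι} (hx : x ∈ (A.e i).source) : ns vol s x = ‖s i x‖ ^ 2 / vol.w i x := by
  have hk := ix_mem (A := A) x
  unfold ns gl
  have h1 : ‖(KB A).g (ix A x) i x‖ ≠ 0 := norm_ne_zero_iff.2 (LB.ne_zero _ _ _ _)
  have h2 := (vol.pos i x hx).ne'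
  simp only [smul_eq_mul]
  rw [hs _ _ ⟨hk, hx⟩, vol_tr vol ⟨hx, hk⟩, norm_mul]
  field_simp

theorem ns_nonneg [Countable A.ι] (vol : HM (KB A)⁻¹) (s : A.ι → M → ℂ) (x : M) :
    0 ≤ ns vol s x := by
  unfold ns gl
  have := vol.pos _ x (ix_mem (A := A) x)
  rw [smul_eq_mul]
  positivity

/-- the weight `e^{-φ}` -/
def hw (φ : M → ℝ) (hφ : A.Sm φ) : HM ((KB A)⁻¹ * KB A) where
  w _ x := Real.exp (-φ x)
  pos _ _ _ := Real.exp_pos _
  sm i := Real.contDiff_exp.comp_contDiffOn (hφ i).neg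
  tr i j x _ := by
    rw [LB.mul_g, LB.inv_g, inv_mul_cancel₀ (LB.ne_zero _ _ _ _)]
    simp

theorem cur_hw (φ : M → ℝ) (hφ : A.Sm φ) (i : A.ι) (x : M) :
    cur (hw φ hφ) i x = hess (fun z => φ ((A.e i).symm z)) (A.e i x) := by
  unfold cur
  congr 1
  funext z
  simp [HM.wt, hw]

/-- `∂̄ (χ g)`, `g` holomorphic -/
theorem dot_db {χ : Cn n → ℝ} {g : Cn n → ℂ} {z : Cn n} (hχ : DifferentiableAt ℝ χ z)
    (hg : DifferentiableAt ℂ g z) (v : Fin n → ℂ) :
    ‖star v ⬝ᵥ (fun a => dbj a (fun w => (χ w : ℂ) * g w) z)‖ ^ 2 =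
      ‖g z‖ ^ 2 * ‖gr χ z (WithLp.toLp 2 v)‖ ^ 2 := by
  have h1 : ∀ a, dbj a (fun w => (χ w : ℂ) * g w) z = conj (dj a (cx χ) z) * g z := by
    intro a
    have h2 := dbj_mul' (a := a) (f := cx χ) (g := g) (cx_diff hχ) (hg.restrictScalars ℝ)
    have h3 : dbj a (cx χ) z = conj (dj a (cx χ) z) := by
      rw [← dbj_conj (cx_diff hχ)]
      congr 1
      funext y
      simp [cx]
    rw [dbj_holo hg, mul_zero, add_zero, h3] at h2
    exact h2
  have h4 : star v ⬝ᵥ (fun a => dbj a (fun w => (χ w : ℂ) * g w) z) =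
      g z * conj (gr χ z (WithLp.toLp 2 v)) := by
    unfold gr
    simp only [dotProduct, Pi.star_apply, h1, map_sum, map_mul, Finset.mul_sum, RCLike.star_def]
    exact Finset.sum_congr rfl fun a _ => by ring
  rw [h4, norm_mul, Complex.norm_conj, mul_pow]

/-- **peak forms** -/
theorem peak (H : HoerStmt) [T2Space M] [MeasurableSpace M] [BorelSpace M] [Countable A.ι]
    (P : Part A) (K : Kah A) (hC : Cut K) (vol : HM (KB A)⁻¹) {ψ : M → ℝ} (hs : A.Sm ψ)
    (h0 : ∀ i, ∀ y ∈ (A.e i).source, (hsf A ψ i y).PosSemidef) {i : A.ι} {x : M}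
    (hx : x ∈ (A.e i).source) (h1 : (hsf A ψ i x).PosDef) (m : ℕ) :
    ∃ (N B κ0 : ℝ) (f : M → ℝ) (G : A.ι → M → ℂ) (U : Set M), 0 ≤ N ∧ 0 ≤ κ0 ∧ A.Sm f ∧
      (∀ y, 0 ≤ f y ∧ f y ≤ B) ∧ f x = 0 ∧ IsS (KB A) G ∧ Cs G ∧ IsOpen U ∧ x ∈ U ∧
      U ⊆ (A.e i).source ∧ (∀ y ∈ U, G i y = 1) ∧
      ∀ δ : ℝ, 0 < δ → ∃ F : A.ι → M → ℂ, IsS (KB A) F ∧ (∀ j, HolAt A j univ (F j)) ∧
        ∫⁻ y, ENNReal.ofReal (Real.exp (-(N * ψ y + m * Real.log (f y + δ))) *
          ns vol (F - G) y) ∂(vm vol) ≤ ENNReal.ofReal κ0 := by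
  classical
  set z0 := A.e i x with hz0
  obtain ⟨c, hc, hcz⟩ := lev_near (sm_at (hs i) hx) h1
  obtain ⟨ε, hε, hεs⟩ := Metric.nhds_basis_closedBall.mem_iff.1
    (inter_mem hcz ((A.e i).open_target.mem_nhds ((A.e i).map_source hx)))
  let b : ContDiffBump z0 := ⟨ε / 2, ε, by positivity, by linarith⟩
  set T : Set (Cn n) := closedBall z0 ε with hT
  set T' : Set (Cn n) := closedBall z0 ε \ ball z0 (ε / 2) with hT'
  have hTc : IsCompact T := isCompact_closedBall _ _
  have hT'c : IsCompact T' := hTc.diff isOpen_ball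
  have hTt : T ⊆ (A.e i).target := fun z hz => (hεs hz).2
  have hT't : T' ⊆ (A.e i).target := fun z hz => hTt hz.1
  have hb0 : ∀ z ∉ T, b z = 0 := fun z hz => b.zero_of_le_dist (by
    rw [hT, mem_closedBall, not_le] at hz
    exact hz.le)
  have hp0 : ∀ z ∉ T, pole b z - 1 = 0 := fun z hz => by
    unfold pole
    rw [hb0 z hz]
    ring
  set S : Set M := (A.e i).symm '' T with hS
  set S' : Set M := (A.e i).symm '' T' with hS'
  have hSc : IsCompact S := cpt_symm hTc hTt
  have hS'c : IsCompact S' := cpt_symm hT'c hT't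
  set χ : M → ℝ := ex0 A i b with hχ
  set f : M → ℝ := fun y => ex0 A i (fun z => pole b z - 1) y + 1 with hf
  have hχs : A.Sm χ := ex0_sm b.contDiff hTc hTt hb0
  have hfs : A.Sm f := fun j =>
    (ex0_sm ((pole_smooth b).sub contDiff_const) hTc hTt hp0 j).add contDiffOn_const
  have hfi : ∀ y ∈ (A.e i).source, f y = pole b (A.e i y) := fun y hy => by
    simp only [hf, ex0_mem hy]
    ring
  have hfo : ∀ y ∉ S, f y = 1 := fun y hy => by
    simp only [hf, ex0_zero hp0 hy]
    ring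
  have hχo : ∀ y ∉ S, χ y = 0 := fun y hy => ex0_zero hb0 hy
  have hfb : ∀ y, 0 ≤ f y ∧ f y ≤ ε ^ 2 + 1 := fun y => by
    by_cases hy : y ∈ S
    · rw [hfi y (symm_sub hTt hy)]
      exact ⟨pole_nonneg b _, pole_le b _⟩
    · rw [hfo y hy]
      exact ⟨zero_le_one, by nlinarith [sq_nonneg ε]⟩
  set G : A.ι → M → ℂ := fun j y => (χ y : ℂ) * (KB A).g j i y with hG
  have hGo : ∀ j, ∀ y ∉ S, G j y = 0 := fun j y hy => by
    simp only [hG, hχo y hy]
    simp
  have hSo : ∀ y ∉ S, ∀ᶠ w in 𝓝 y, w ∉ S := fun y hy => hSc.isClosed.isOpen_compl.mem_nhds hy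
  have hGS : IsS (KB A) G := by
    refine ⟨fun j z hz => ContDiffAt.contDiffWithinAt ?_, fun j k y hy => ?_⟩
    · have hy := (A.e j).map_target hz
      by_cases hi : (A.e j).symm z ∈ (A.e i).source
      · have h2 : ContDiffAt ℝ ∞ (fun w => (KB A).g j i ((A.e j).symm w)) z :=
          (((KB A).hol j i).contDiffOn (A.e i).open_source).contDiffAt
            ((isOpen_ti (A.e i).open_source).mem_nhds ⟨hz, hi⟩)
        have h3 : ContDiffAt ℝ ∞ (fun w => χ ((A.e j).symm w)) z :=
          (hχs j).contDiffAt ((A.e j).open_target.mem_nhds hz)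
        exact (Complex.ofRealCLM.contDiff.contDiffAt.comp z h3).mul h2
      · have h2 : (A.e j).symm z ∉ S := fun h => hi (symm_sub hTt h)
        refine (contDiffAt_const (c := (0 : ℂ))).congr_of_eventuallyEq ?_
        filter_upwards [((A.e j).continuousAt_symm hz).eventually (hSo _ h2)] with w hw
        exact hGo j _ hw
    · by_cases hi : y ∈ (A.e i).source
      · simp only [hG]
        rw [← (KB A).mul j k i y ⟨hy, hi⟩]
        ring
      · have h2 : y ∉ S := fun h => hi (symm_sub hTt h)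
        rw [hGo j y h2, hGo k y h2, mul_zero]
  obtain ⟨Λ, hΛ, hΛp⟩ := lev_pole b
  obtain ⟨C, hC0, hCb⟩ := bd_cpt (u := b) b.contDiff hTc
  set N : ℝ := (m * Λ + 1) / c with hN
  have hN0 : 0 ≤ N := by positivity
  set c' : ℝ := min ((ε / 2) ^ 2) 1 with hc'
  have hc'0 : 0 < c' := lt_min (by positivity) one_pos
  -- the bound for the weight on `S'`
  obtain ⟨κ1, hκ1⟩ := hT'c.exists_bound_of_continuousOn
    (f := fun z => Real.exp (-(N * ψ ((A.e i).symm z) + m * Real.log c')) /
      vol.w i ((A.e i).symm z)) (by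
      refine ContinuousOn.div ?_ ((vol.sm i).continuousOn.mono hT't) fun z hz =>
        (vol.pos i _ ((A.e i).map_target (hT't hz))).ne'
      refine Real.continuous_exp.comp_continuousOn (ContinuousOn.neg (ContinuousOn.add ?_
        continuousOn_const))
      exact continuousOn_const.mul ((hs i).continuousOn.mono hT't))
  have hfin : vm vol S' ≠ ⊤ := by
    have := isLocallyFinite_vm vol
    exact hS'c.measure_lt_top.ne
  set U : Set M := (A.e i).source ∩ A.e i ⁻¹' ball z0 (ε / 2) with hU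
  have hUo : IsOpen U := (A.e i).isOpen_inter_preimage isOpen_ball
  have hχU : ∀ y ∈ U, χ y = 1 := fun y hy => by
    rw [hχ, ex0_mem hy.1]
    exact b.one_of_mem_closedBall (ball_subset_closedBall hy.2)
  refine ⟨N, ε ^ 2 + 1, (C * |κ1|) * (vm vol S').toReal, f, G, U, hN0, by positivity, hfs, hfb, ?_,
    hGS, ⟨S, hSc, hGo⟩, hUo, ⟨hx, mem_ball_self (by positivity)⟩, inter_subset_left, ?_, ?_⟩
  · rw [hfi x hx]; exact pole_zero b
  · intro y hy
    simp only [hG, hχU y hy, (KB A).self]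
    simp
  intro δ hδ
  set φ : M → ℝ := fun y => N * ψ y + m * Real.log (f y + δ) with hφ
  have hls : A.Sm (fun y => Real.log (f y + δ)) := fun j =>
    ((hfs j).add contDiffOn_const).log fun z _ => by
      have := (hfb ((A.e j).symm z)).1
      positivity
  have hφs : A.Sm φ := fun j =>
    (contDiffOn_const.mul (hs j)).add (contDiffOn_const.mul (hls j))
  have hlev : ∀ j, ∀ y ∈ (A.e j).source, ∀ v, lev (fun z => φ ((A.e j).symm z)) (A.e j y) v =
      N * lev (fun z => ψ ((A.e j).symm z)) (A.e j y) v +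
        m * lev (fun z => Real.log (f ((A.e j).symm z) + δ)) (A.e j y) v := by
    intro j y hy v
    have h2 := (sm_at (hs j) hy).of_le two_le
    have h3 := (sm_at (u := fun y => Real.log (f y + δ)) (hls j) hy).of_le two_le
    rw [← lev_const_mul N h2, ← lev_const_mul (m : ℝ) h3,
      ← lev_add (contDiffAt_const.mul h2) (contDiffAt_const.mul h3)]
  -- in the chart `i`, on `S`
  have hin : ∀ y ∈ S, ∀ v, ‖v‖ ^ 2 ≤ lev (fun z => φ ((A.e i).symm z)) (A.e i y) v := by
    intro y hy v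
    have hyi := symm_sub hTt hy
    have hyT : A.e i y ∈ T := mem_of_symm hTt hy
    have h2 : (fun z => Real.log (f ((A.e i).symm z) + δ)) =ᶠ[𝓝 (A.e i y)]
        fun w => Real.log (pole b w + δ) := by
      filter_upwards [(A.e i).open_target.mem_nhds (hTt hyT)] with w hw
      rw [hfi _ ((A.e i).map_target hw), (A.e i).right_inv hw]
    rw [hlev i y hyi, lev_congr h2]
    have h3 := hΛp δ hδ _ hyT v
    have h4 := (hεs hyT).1 v
    have h5 : N * (c * ‖v‖ ^ 2) = (m * Λ + 1) * ‖v‖ ^ 2 := by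
      rw [hN]; field_simp
    have h6 := mul_le_mul_of_nonneg_left h4 hN0
    have h7 := mul_le_mul_of_nonneg_left h3 (Nat.cast_nonneg m : (0 : ℝ) ≤ m)
    nlinarith
  have hpos : ∀ j, ∀ y ∈ (A.e j).source, ∀ v,
      0 ≤ lev (fun z => φ ((A.e j).symm z)) (A.e j y) v := by
    intro j y hy v
    by_cases hyS : y ∈ S
    · rw [lev_chg (hφs i) ⟨hy, symm_sub hTt hyS⟩]
      exact (sq_nonneg _).trans (hin y hyS _)
    · have h2 : (fun z => Real.log (f ((A.e j).symm z) + δ)) =ᶠ[𝓝 (A.e j y)]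
          fun _ => Real.log (1 + δ) := by
        filter_upwards [(tendsto_symm hy).eventually (hSo y hyS)] with w hw
        rw [hfo _ hw]
      rw [hlev j y hy, lev_congr h2, lev_const, mul_zero, add_zero]
      exact mul_nonneg hN0 (lev_of_psd (sm_at (hs j) hy) (h0 j y hy) v)
  have hsemi : (hw φ hφs).Semipos := semipos_of_cur fun j y hy => by
    rw [cur_hw]
    exact psd_of_lev (sm_at (hφs j) hy) (hpos j y hy)
  have hmeas : MeasurableSet S' := hS'c.isClosed.measurableSet
  obtain ⟨F, hF1, hF2, hF3⟩ := H n M A P K hC (KB A) (hw φ hφs) hsemi vol G hGS ⟨S, hSc, hGo⟩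
    (S'.indicator fun _ => C * |κ1|) (measurable_const.indicator hmeas)
    (fun y => indicator_nonneg (fun _ _ => by positivity) y) (by
      intro j y hy v
      rw [cur_hw, hq_hess (sm_at (hφs j) hy)]
      by_cases hyS : y ∈ S
      · have hyi := symm_sub hTt hyS
        have hyT : A.e i y ∈ T := mem_of_symm hTt hyS
        have h2 : ‖star v ⬝ᵥ dbs G j y‖ ^ 2 = ‖(KB A).g j i y‖ ^ 2 *
            ‖gr (fun z => χ ((A.e j).symm z)) (A.e j y) (WithLp.toLp 2 v)‖ ^ 2 := by
          have h3 := dot_db (χ := fun z => χ ((A.e j).symm z))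
            (g := fun z => (KB A).g j i ((A.e j).symm z)) (z := A.e j y)
            ((sm_at (hχs j) hy).differentiableAt (by simp))
            (((KB A).hol j i).diffAt (A.e i).open_source hy hyi) v
          simp only [(A.e j).left_inv hy] at h3
          exact h3
        have h3 : (fun z => χ ((A.e i).symm z)) =ᶠ[𝓝 (A.e i y)] b := by
          filter_upwards [(A.e i).open_target.mem_nhds (hTt hyT)] with w hw
          rw [hχ, ex0_mem ((A.e i).map_target hw), (A.e i).right_inv hw]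
        rw [h2, gr_chg (hχs i) ⟨hy, hyi⟩, lev_chg (hφs i) ⟨hy, hyi⟩, gr_congr h3]
        set v' := fderiv ℂ (tr A j i) (A.e j y) (WithLp.toLp 2 v)
        by_cases hyS' : y ∈ S'
        · have hyT' : A.e i y ∈ T' := mem_of_symm hT't hyS'
          rw [indicator_of_mem hyS', vol_tr vol ⟨hyi, hy⟩]
          have h4 := (hCb _ hyT v').2
          have h5 := hin y hyS v'
          have h6 := hκ1 _ hyT'
          simp only [(A.e i).left_inv hyi] at h6
          have hwp := vol.pos i y hyi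
          have h7 : Real.exp (-(N * ψ y + m * Real.log c')) ≤ |κ1| * vol.w i y := by
            rw [← div_le_iff₀ hwp]
            exact (le_abs_self _).trans (h6.trans (le_abs_self _))
          have h8 : (hw φ hφs).w j y ≤ Real.exp (-(N * ψ y + m * Real.log c')) := by
            change Real.exp (-φ y) ≤ _
            refine Real.exp_le_exp.2 (neg_le_neg ?_)
            have h9 : c' ≤ f y + δ := by
              rw [hfi y hyi]
              have := pole_ge b (z := A.e i y) hyT'.2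
              linarith
            have h10 := Real.log_le_log hc'0 h9
            have h11 := mul_le_mul_of_nonneg_left h10 (Nat.cast_nonneg m : (0 : ℝ) ≤ m)
            simp only [hφ]
            linarith
          have h9 : ‖gr b (A.e i y) v'‖ ^ 2 ≤
              C * lev (fun z => φ ((A.e i).symm z)) (A.e i y) v' :=
            h4.trans (mul_le_mul_of_nonneg_left h5 hC0)
          calc (hw φ hφs).w j y * (‖(KB A).g j i y‖ ^ 2 * ‖gr b (A.e i y) v'‖ ^ 2)
              ≤ (|κ1| * vol.w i y) * (‖(KB A).g j i y‖ ^ 2 *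
                (C * lev (fun z => φ ((A.e i).symm z)) (A.e i y) v')) :=
                mul_le_mul (h8.trans h7) (mul_le_mul_of_nonneg_left h9 (by positivity))
                  (by positivity) (by positivity)
            _ = _ := by ring
        · have h4 : A.e i y ∈ ball z0 (ε / 2) := by
            by_contra h5
            exact hyS' ⟨A.e i y, ⟨hyT, h5⟩, (A.e i).left_inv hyi⟩
          have h5 : (b : Cn n → ℝ) =ᶠ[𝓝 (A.e i y)] fun _ => 1 := by
            filter_upwards [isOpen_ball.mem_nhds h4] with w hw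
            exact b.one_of_mem_closedBall (ball_subset_closedBall hw)
          rw [indicator_of_notMem hyS', gr_congr h5, gr_const]
          simp
      · have hyS' : y ∉ S' := fun h => hyS (image_mono sdiff_subset h)
        have h2 : dbs G j y = 0 := by
          funext a
          have h3 : (fun z => G j ((A.e j).symm z)) =ᶠ[𝓝 (A.e j y)] fun _ => 0 := by
            filter_upwards [(tendsto_symm hy).eventually (hSo y hyS)] with w hw
            exact hGo j _ hw
          unfold dbs Atl.db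
          rw [Crest.Agent.R275.OmT75.dbj_congr h3]
          simp [dbj]
        rw [h2, indicator_of_notMem hyS']
        simp)
  refine ⟨F, hF1, hF2, ?_⟩
  have e1 : ∀ y, Real.exp (-(N * ψ y + m * Real.log (f y + δ))) * ns vol (F - G) y =
      gl vol (fun i y => (hw φ hφs).w i y * ‖F i y - G i y‖ ^ 2) y := by
    intro y
    unfold ns gl
    simp only [hw, hφ, smul_eq_mul, Pi.sub_apply]
    ring
  simp only [e1]
  refine hF3.trans (le_of_eq ?_)
  have e2 : (fun y => ENNReal.ofReal (S'.indicator (fun _ => C * |κ1|) y)) =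
      S'.indicator fun _ => ENNReal.ofReal (C * |κ1|) := by
    funext y
    by_cases hy : y ∈ S'
    · rw [indicator_of_mem hy, indicator_of_mem hy]
    · rw [indicator_of_notMem hy, indicator_of_notMem hy, ENNReal.ofReal_zero]
  rw [e2, lintegral_indicator_const hmeas,
    ENNReal.ofReal_mul (p := C * |κ1|) (by positivity), ENNReal.ofReal_toReal hfin]

end

end Crest.Agent.T223.Nf
end

-- ▼ part T223/Nf3_79
section

/-!
# Row 223, module NFORM (helper79), part 3: mean value inequality and growth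

* `mv`     : sub-mean value inequality on a complete Kaehler manifold with `Ric ≥ 0`
* `vol_ge` : volumes of balls (Bishop-Gromov)
* `nform`  : a holomorphic `n`-form with `s x ≠ 0` and `|s|² ≤ exp (C (1 + d))`
-/

set_option autoImplicit false
set_option linter.unusedSectionVars false

open Set Filter Topology Complex Matrix Metric MeasureTheory Manifold
open scoped ContDiff Matrix ComplexConjugate ComplexOrder Manifold

namespace Crest.Agent.T223.Nf

open Crest.Agent.R275.Geo Crest.Agent.R275.Core144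
open Crest.Agent.R273.Hess_333 (hess)
open Crest.Agent.R273.Levi_145
open Crest.Agent.R273.Defs_333 (HM)
open Crest.Agent.R273.Kah_333 Crest.Agent.R273.Vm_333 Crest.Agent.R273.Vol_333
open Crest.Agent.R273.RMan_798 Crest.Agent.R273.RMan4_798
open Crest.Agent.R281.Ins_615
open Crest.Agent.R281.Sm4_593 (CDG CDG_pos dg1)
open Crest.Agent.R247.Mcp688 (Rad)
open Crest.Agent.T223.Hm

noncomputable section

variable {n : ℕ} {M : Type} [TopologicalSpace M] {A : Atl n M} [T2Space M] [ConnectedSpace M]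

/-- the Riemannian volume -/
abbrev mu (K : Kah A) : Measure (ofKah K).M := Measure.euclideanHausdorffMeasure (2 * n)

theorem rad' (K : Kah A) (hP : ProperSpace (ofKah K).M) (hR : (volK K).Semipos) :
    Nonempty (Rad (2 * n) 0 (ofKah K).M (mu K)) := by
  refine Crest.Agent.R247.Bgr546.rad_all (2 * n) 0 le_rfl (ofKah K).M ?_
  rw [neg_zero]
  exact hasRicci K hR

theorem mu_ball_pos (K : Kah A) (hP : ProperSpace (ofKah K).M) (y : (ofKah K).M) {r : ℝ}
    (hr : 0 < r) : 0 < (mu K).real (ball y r) ∧ mu K (ball y r) ≠ ⊤ := by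
  have h1 : IsLocallyFiniteMeasure (mu K) :=
    Crest.Agent.R247.Ms322.isLocallyFiniteMeasure (2 * n) (ofKah K).M
  have h2 : (mu K).IsOpenPosMeasure :=
    Crest.Agent.R247.Ms322.isOpenPosMeasure (2 * n) (ofKah K).M
  have h3 : mu K (ball y r) ≠ ⊤ := measure_ball_lt_top.ne
  exact ⟨ENNReal.toReal_pos (measure_ball_pos _ y hr).ne' h3, h3⟩

/-- Bishop-Gromov -/
theorem vol_ge (K : Kah A) (hP : ProperSpace (ofKah K).M) (hR : (volK K).Semipos)
    (p y : (ofKah K).M) {r R S : ℝ} (hr : 0 < r) (hS : R + dist p y ≤ S) (hrS : r ≤ S) :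
    (mu K).real (ball p R) ≤ (S / r) ^ (2 * n) * (mu K).real (ball y r) := by
  obtain ⟨C⟩ := rad' K hP hR
  have h1 := C.mu_ball_le' le_rfl p y hr hS hrS
  have h2 := (mu_ball_pos K hP y hr).2
  have h3 : 0 ≤ (S / r) ^ (2 * n) := pow_nonneg (div_nonneg (hr.le.trans hrS) hr.le) _
  simp only [zero_mul, zero_div, Real.exp_zero, one_mul] at h1
  have h4 := ENNReal.toReal_mono (ENNReal.mul_ne_top ENNReal.ofReal_ne_top h2) h1
  rw [ENNReal.toReal_mul, ENNReal.toReal_ofReal h3] at h4
  exact h4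

/-- **sub-mean value inequality** -/
theorem mv (hn : 1 ≤ n) (K : Kah A) (hP : ProperSpace (ofKah K).M) (hR : (volK K).Semipos)
    {f : M → ℝ} (hf0 : ∀ y, 0 ≤ f y) {U : Set M} (hU : IsOpen U)
    (hf : ∀ y ∈ U, ∃ i, y ∈ (A.e i).source ∧
      ContDiffAt ℝ ∞ (fun z => f ((A.e i).symm z)) (A.e i y) ∧
      ∀ v, 0 ≤ lev (fun z => f ((A.e i).symm z)) (A.e i y) v)
    (y : (ofKah K).M) {r B : ℝ} (hr : 0 < r) (hB : 0 ≤ B) (hsub : ∀ w ∈ closedBall y r, w ∈ U)
    (hint : ∫⁻ w in ball y r, ENNReal.ofReal (f w) ∂(mu K) ≤ ENNReal.ofReal B) :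
    f y ≤ CDG (2 * n) * (((mu K).real (ball y r))⁻¹ * B) := by
  obtain ⟨C⟩ := rad' K hP hR
  have hsm : ∀ z : (ofKah K).M, z ∈ U →
      ContMDiffAt (𝓡 (2 * n)) 𝓘(ℝ, ℝ) 2 (fun p : (ofKah K).M => f p) z := by
    intro z hz
    obtain ⟨i, hi, h1, -⟩ := hf z hz
    exact (contMDiffAt_iffK K two_le hi).2 (h1.of_le two_le)
  have hU' : IsOpen (X := (ofKah K).M) U := hU
  have h1 := dg1 (n := 2 * n) C (by omega) (x0 := y) hr hU' hsub
    (f := fun p : (ofKah K).M => f p) hsm (A := 0) (B := 0) le_rfl le_rfl (by simp)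
    (fun z hz => by
      obtain ⟨i, hi, h1, h2⟩ := hf z hz
      have h3 := mLap_loc K hi h1
      have h4 := Crest.Agent.R273.FIa0_597.tr_re_nonneg (K.pos i z hi) (psd_of_lev h1 h2)
      have h5 : 0 ≤ (Crest.Agent.R273.FIb0_597.trC K (hsf A f) i z).re := h4
      rw [h3]
      linarith) (x := y) (mem_closedBall_self (by positivity))
  refine h1.trans (mul_le_mul_of_nonneg_left ?_ (CDG_pos _).le)
  rw [zero_mul, add_zero]
  refine mul_le_mul_of_nonneg_left ?_ (inv_nonneg.2 measureReal_nonneg)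
  have h2 : ContinuousOn (fun p : (ofKah K).M => f p) (ball y r) := fun z hz =>
    (hsm z (hsub z (ball_subset_closedBall hz))).continuousAt.continuousWithinAt
  have h3 : (fun p : (ofKah K).M => max (f p) 0) = fun p : (ofKah K).M => f p :=
    funext fun p => max_eq_left (hf0 p)
  have h4 := integral_eq_lintegral_of_nonneg_ae (μ := (mu K).restrict (ball y r))
    (f := fun p : (ofKah K).M => f p) (Eventually.of_forall fun p => hf0 p)
    (h2.aestronglyMeasurable isOpen_ball.measurableSet)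
  rw [h3]
  exact h4.le.trans (ENNReal.toReal_le_of_le_ofReal hB hint)

variable [Countable A.ι]

/-- the norm of a form which is holomorphic near `y` -/
theorem ns_psh (K : Kah A) (hR : (volK K).Semipos) {s : A.ι → M → ℂ} (hs : IsS (KB A) s)
    {i : A.ι} {y : M} (hy : y ∈ (A.e i).source)
    (ha : AnalyticAt ℂ (fun z => s i ((A.e i).symm z)) (A.e i y)) :
    ContDiffAt ℝ ∞ (fun z => ns (volK K) s ((A.e i).symm z)) (A.e i y) ∧
      ∀ v, 0 ≤ lev (fun z => ns (volK K) s ((A.e i).symm z)) (A.e i y) v := by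
  have h1 : (fun z => ns (volK K) s ((A.e i).symm z)) =ᶠ[𝓝 (A.e i y)]
      fun z => ‖s i ((A.e i).symm z)‖ ^ 2 / (volK K).w i ((A.e i).symm z) := by
    filter_upwards [(A.e i).open_target.mem_nhds ((A.e i).map_source hy)] with z hz
    exact ns_eq _ (fun j k h => hs.tr j k _ h) ((A.e i).map_target hz)
  have h2 := sm_at ((volK K).sm i) hy
  have h3 : 0 < (volK K).w i ((A.e i).symm (A.e i y)) :=
    (volK K).pos i _ ((A.e i).map_target ((A.e i).map_source hy))
  refine ⟨((c2_normSq ha ∞).div h2 h3.ne').congr_of_eventuallyEq h1, fun v => ?_⟩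
  rw [lev_congr h1]
  refine lev_nsq ha (h2.of_le two_le) h3 (fun w => ?_) v
  have h4 := hR i _ ((A.e i).map_source hy) w
  rw [lev4] at h4
  have h5 : 0 ≤ lev ((volK K).wt i) (A.e i y) w := by linarith
  exact h5

theorem ns_sm (vol : HM (KB A)⁻¹) {s : A.ι → M → ℂ} (hs : IsS (KB A) s) : A.Sm (ns vol s) := by
  intro i
  have h1 : ContDiffOn ℝ ∞ (fun z => ‖s i ((A.e i).symm z)‖ ^ 2 / vol.w i ((A.e i).symm z))
      (A.e i).target :=
    (ContDiffOn.norm_sq ℝ (hs.sm i)).div (vol.sm i) fun z hz =>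
      (vol.pos i _ ((A.e i).map_target hz)).ne'
  exact h1.congr fun z hz => ns_eq _ (fun j k h => hs.tr j k _ h) ((A.e i).map_target hz)

theorem ns_le (vol : HM (KB A)⁻¹) (F G : A.ι → M → ℂ) (y : M) :
    ns vol F y ≤ 2 * ns vol (F - G) y + 2 * ns vol G y := by
  unfold ns gl
  have h0 := vol.pos _ y (ix_mem (A := A) y)
  simp only [smul_eq_mul, Pi.sub_apply]
  set a := F (ix A y) y
  set b := G (ix A y) y
  have h1 : ‖a‖ ≤ ‖a - b‖ + ‖b‖ := by simpa using norm_add_le (a - b) b
  have h2 : ‖a‖ ^ 2 ≤ 2 * ‖a - b‖ ^ 2 + 2 * ‖b‖ ^ 2 := by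
    have h3 := pow_le_pow_left₀ (norm_nonneg _) h1 2
    nlinarith [sq_nonneg (‖a - b‖ - ‖b‖)]
  have h3 := mul_le_mul_of_nonneg_left h2 (inv_nonneg.2 h0.le)
  linarith

theorem isS_sub {N : LB A} {F G : A.ι → M → ℂ} (hF : IsS N F) (hG : IsS N G) : IsS N (F - G) :=
  ⟨fun i => ContDiffOn.sub (hF.sm i) (hG.sm i), fun i j x hx => by
    simp only [Pi.sub_apply]
    rw [hF.tr i j x hx, hG.tr i j x hx]
    ring⟩

/-- weighted integral to plain integral on a ball -/
theorem lint_ball [MeasurableSpace M] [BorelSpace M] (K : Kah A) {u φ : M → ℝ}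
    (hu : ∀ y, 0 ≤ u y) {κ0 E : ℝ} (y : (ofKah K).M) {r : ℝ}
    (hE : ∀ w ∈ ball y r, φ w ≤ E)
    (h : ∫⁻ w, ENNReal.ofReal (Real.exp (-φ w) * u w) ∂(vm (volK K)) ≤ ENNReal.ofReal κ0) :
    ∫⁻ w in ball y r, ENNReal.ofReal (u w) ∂(mu K) ≤ ENNReal.ofReal (Real.exp E * κ0) := by
  rw [← lintegral_muHE K] at h
  calc ∫⁻ w in ball y r, ENNReal.ofReal (u w) ∂(mu K)
      ≤ ∫⁻ w in ball y r, ENNReal.ofReal (Real.exp E) *
          ENNReal.ofReal (Real.exp (-φ w) * u w) ∂(mu K) := by
        refine setLIntegral_mono' isOpen_ball.measurableSet fun w hw => ?_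
        rw [← ENNReal.ofReal_mul (Real.exp_pos _).le]
        refine ENNReal.ofReal_le_ofReal ?_
        rw [← mul_assoc, ← Real.exp_add]
        refine le_mul_of_one_le_left (hu w) (Real.one_le_exp ?_)
        have := hE w hw
        linarith
    _ ≤ ∫⁻ w, ENNReal.ofReal (Real.exp E) *
          ENNReal.ofReal (Real.exp (-φ w) * u w) ∂(mu K) := setLIntegral_le_lintegral _ _
    _ = ENNReal.ofReal (Real.exp E) *
          ∫⁻ w, ENNReal.ofReal (Real.exp (-φ w) * u w) ∂(mu K) :=
        lintegral_const_mul' _ _ ENNReal.ofReal_ne_top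
    _ ≤ ENNReal.ofReal (Real.exp E) * ENNReal.ofReal κ0 := mul_le_mul_right h _
    _ = _ := (ENNReal.ofReal_mul (Real.exp_pos _).le).symm

theorem exp_bound {a b c d : ℝ} (ha : 0 ≤ a) (hb : 0 ≤ b) (hc : 0 ≤ c) (hd : 0 ≤ d) :
    a * Real.exp (c * (1 + d)) + b ≤ Real.exp ((c + a + b) * (1 + d)) := by
  have h1 : 1 ≤ Real.exp (c * (1 + d)) := Real.one_le_exp (by positivity)
  have h2 : a + b ≤ Real.exp ((a + b) * (1 + d)) := by
    have h3 := Real.add_one_le_exp ((a + b) * (1 + d))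
    nlinarith [mul_nonneg (add_nonneg ha hb) hd]
  have h3 : Real.exp ((c + a + b) * (1 + d)) =
      Real.exp ((a + b) * (1 + d)) * Real.exp (c * (1 + d)) := by
    rw [← Real.exp_add]; congr 1; ring
  rw [h3]
  nlinarith [mul_le_mul_of_nonneg_right h2 (Real.exp_pos (c * (1 + d))).le]

/-- **the `n`-form** -/
theorem nform (H : HoerStmt) (hn : 1 ≤ n) (P : Part A) (K : Kah A)
    (hP : ProperSpace (ofKah K).M) (hC : Cut K) (hR : (volK K).Semipos) (p : (ofKah K).M)
    {ψ : M → ℝ} (hs : A.Sm ψ) (h0 : ∀ i, ∀ y ∈ (A.e i).source, (hsf A ψ i y).PosSemidef)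
    {i : A.ι} {x : M} (hx : x ∈ (A.e i).source) (h1 : (hsf A ψ i x).PosDef) {Cψ : ℝ}
    (hCψ : 0 ≤ Cψ) (h2 : ∀ y : (ofKah K).M, ψ y ≤ Cψ * (1 + dist p y)) :
    ∃ (s : A.ι → M → ℂ) (C : ℝ), IsHS (KB A) univ s ∧ s i x ≠ 0 ∧
      ∀ j, ∀ y ∈ (A.e j).source, ‖s j y‖ ^ 2 / (K.g j y).det.re ≤
        Real.exp (C * (1 + dist (α := (ofKah K).M) p y)) := by
  classical
  let _ : MeasurableSpace M := borel M
  have : BorelSpace M := ⟨rfl⟩
  obtain ⟨N, B, κ0, f, G, U, hN, hκ0, hfs, hfb, hfx, hG, ⟨S, hSc, hSG⟩, hUo, hxU, hUi, hGU, hsol⟩ :=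
    peak H P K hC (volK K) hs h0 hx h1 (2 * n + 1)
  let x' : (ofKah K).M := x
  -- the Lipschitz bound for `f` near `x`
  obtain ⟨L, t, ht, hL⟩ := Crest.Agent.R247.Ms322.LLo.of_contMDiffAt (n := 2 * n)
    (M := (ofKah K).M) (U := univ) (f := fun q : (ofKah K).M => f q)
    (fun z _ => (contMDiff_of_sm K hfs z).of_le (by simp)) x' (mem_univ _)
  have hU' : IsOpen (X := (ofKah K).M) U := hUo
  obtain ⟨r0, hr0, hr0s⟩ := Metric.nhds_basis_closedBall.mem_iff.1
    (inter_mem ht (hU'.mem_nhds (x := x') hxU))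
  set E0 : ℝ := N * (Cψ * (2 + dist p x')) with hE0
  set V1 : ℝ := (mu K).real (ball x' 1) with hV1
  have hV1p : 0 < V1 := (mu_ball_pos K hP x' one_pos).1
  have hw0 : 0 < (volK K).w i x := (volK K).pos i x hx
  set D : ℝ := CDG (2 * n) * (V1⁻¹ * (Real.exp E0 * ((L : ℝ) + 1) ^ (2 * n + 1) * κ0)) with hD
  have hD0 : 0 ≤ D := by
    have := (CDG_pos (2 * n)).le
    positivity
  set r : ℝ := min (min r0 1) (((volK K).w i x)⁻¹ / (D + 1)) with hr
  have hrp : 0 < r := lt_min (lt_min hr0 one_pos) (by positivity)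
  have hrr0 : r ≤ r0 := (min_le_left _ _).trans (min_le_left _ _)
  have hr1 : r ≤ 1 := (min_le_left _ _).trans (min_le_right _ _)
  have hrD : D * r < ((volK K).w i x)⁻¹ := by
    have h3 : r ≤ ((volK K).w i x)⁻¹ / (D + 1) := min_le_right _ _
    rw [le_div_iff₀ (by positivity)] at h3
    nlinarith
  obtain ⟨F, hF, hFh, hFi⟩ := hsol r hrp
  have hFa : ∀ j, ∀ y ∈ (A.e j).source,
      AnalyticAt ℂ (fun z => F j ((A.e j).symm z)) (A.e j y) := fun j y hy =>
    Crest.Agent.R266.SCV.analyticOnNhd_of_differentiableOn (A.e j).open_target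
      (DifferentiableOn.mono (hFh j) fun w hw => ⟨hw, mem_univ _⟩) _ ((A.e j).map_source hy)
  -- the value at `x`
  have hFx : F i x ≠ 0 := by
    intro hF0
    have hv := isS_sub hF hG
    have h3 : ∀ w ∈ ball x' r, N * ψ w + ((2 * n + 1 : ℕ) : ℝ) * Real.log (f w + r) ≤
        E0 + ((2 * n + 1 : ℕ) : ℝ) * Real.log (((L : ℝ) + 1) * r) := by
      intro w hw
      have hwt := hr0s (closedBall_subset_closedBall hrr0 (ball_subset_closedBall hw))
      have h4 := hL.dist_le_mul w hwt.1 x' (hr0s (mem_closedBall_self hr0.le)).1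
      have h5 : f x' = 0 := hfx
      simp only [h5, Real.dist_eq, sub_zero] at h4
      have h6 : dist w x' < r := hw
      have h7 : f w + r ≤ ((L : ℝ) + 1) * r := by
        have := le_abs_self (f w)
        have h8 : (L : ℝ) * dist w x' ≤ L * r := mul_le_mul_of_nonneg_left h6.le L.2
        linarith
      have h8 := Real.log_le_log (by have := (hfb w).1; positivity) h7
      have h9 : ψ w ≤ Cψ * (2 + dist p x') := by
        refine (h2 w).trans (mul_le_mul_of_nonneg_left ?_ hCψ)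
        have := dist_triangle p x' w
        rw [dist_comm x' w] at this
        linarith
      have h10 := mul_le_mul_of_nonneg_left h9 hN
      have h11 := mul_le_mul_of_nonneg_left h8 (Nat.cast_nonneg (2 * n + 1) : (0 : ℝ) ≤ _)
      linarith
    have h4 := lint_ball K (ns_nonneg (volK K) (F - G)) x' h3 hFi
    have h5 := mv hn K hP hR (ns_nonneg (volK K) (F - G)) hUo (fun y hy => ⟨i, hUi hy, by
      refine ns_psh K hR hv (hUi hy) ?_
      have h6 : (fun z => (F - G) i ((A.e i).symm z)) =ᶠ[𝓝 (A.e i y)]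
          fun z => F i ((A.e i).symm z) - 1 := by
        filter_upwards [(tendsto_symm (hUi hy)).eventually (hUo.mem_nhds hy)] with w hw
        simp only [Pi.sub_apply, hGU _ hw]
      exact ((hFa i y (hUi hy)).sub analyticAt_const).congr h6.symm⟩) x' hrp (by positivity)
      (fun w hw => (hr0s (closedBall_subset_closedBall hrr0 hw)).2) h4
    have h6 : ns (volK K) (F - G) x' = ((volK K).w i x)⁻¹ := by
      change ns (volK K) (F - G) x = _
      rw [ns_eq _ (fun j k h => hv.tr j k _ h) hx]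
      simp only [Pi.sub_apply]
      rw [hF0, hGU x hxU]
      simp
    have h7 := vol_ge K hP hR x' x' (R := 1) (S := 1) hrp (by simp) hr1
    have hVr := (mu_ball_pos K hP x' hrp).1
    have h8 : ((mu K).real (ball x' r))⁻¹ ≤ V1⁻¹ * (1 / r) ^ (2 * n) := by
      rw [inv_le_iff_one_le_mul₀ hVr, mul_assoc, ← div_le_iff₀' (inv_pos.2 hV1p)]
      simpa using h7
    have h9 : Real.exp (E0 + ((2 * n + 1 : ℕ) : ℝ) * Real.log (((L : ℝ) + 1) * r)) =
        Real.exp E0 * (((L : ℝ) + 1) ^ (2 * n + 1) * r ^ (2 * n + 1)) := by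
      rw [Real.exp_add, ← Real.log_pow, Real.exp_log (by positivity), mul_pow]
    rw [h6, h9] at h5
    have h10 : ((mu K).real (ball x' r))⁻¹ *
        (Real.exp E0 * (((L : ℝ) + 1) ^ (2 * n + 1) * r ^ (2 * n + 1)) * κ0) ≤
        V1⁻¹ * (Real.exp E0 * ((L : ℝ) + 1) ^ (2 * n + 1) * κ0) * r := by
      refine (mul_le_mul_of_nonneg_right h8 (by positivity)).trans (le_of_eq ?_)
      rw [one_div, inv_pow, pow_succ r]
      field_simp
    have h11 := mul_le_mul_of_nonneg_left h10 (CDG_pos (2 * n)).le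
    have h12 : CDG (2 * n) * (V1⁻¹ * (Real.exp E0 * ((L : ℝ) + 1) ^ (2 * n + 1) * κ0) * r) =
        D * r := by rw [hD]; ring
    linarith
  -- the bound for `G`
  obtain ⟨CG, hCG⟩ := hSc.exists_bound_of_continuousOn
    (sm_continuous (ns_sm (volK K) hG)).continuousOn
  have hGb : ∀ y, ns (volK K) G y ≤ |CG| := by
    intro y
    by_cases hy : y ∈ S
    · exact (le_abs_self _).trans ((hCG y hy).trans (le_abs_self _))
    · have : ns (volK K) G y = 0 := by
        unfold ns gl
        simp [hSG _ y hy]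
      rw [this]
      exact abs_nonneg _
  set W1 : ℝ := (mu K).real (ball p 1) with hW1
  have hW1p : 0 < W1 := (mu_ball_pos K hP p one_pos).1
  set E1 : ℝ := ((2 * n + 1 : ℕ) : ℝ) * Real.log (B + r) with hE1
  set a : ℝ := CDG (2 * n) * (W1⁻¹ * (2 * Real.exp E1 * κ0)) with ha
  set b : ℝ := CDG (2 * n) * (2 * |CG|) with hb
  set c : ℝ := 2 * (N * Cψ) + 2 * n with hc
  have hCD := (CDG_pos (2 * n)).le
  have hgrow : ∀ y : (ofKah K).M, ns (volK K) F y ≤ Real.exp ((c + a + b) * (1 + dist p y)) := by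
    intro y
    refine le_trans ?_ (exp_bound (by positivity) (by positivity) (by positivity) dist_nonneg)
    set d := dist p y with hd
    have hd0 : 0 ≤ d := dist_nonneg
    have h3 : ∀ w ∈ ball y 1, N * ψ w + ((2 * n + 1 : ℕ) : ℝ) * Real.log (f w + r) ≤
        2 * (N * Cψ) * (1 + d) + E1 := by
      intro w hw
      have h6 : dist w y < 1 := hw
      have h8 := Real.log_le_log (by have := (hfb w).1; positivity)
        (add_le_add_left (hfb w).2 r)
      have h9 : ψ w ≤ Cψ * (2 * (1 + d)) := by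
        refine (h2 w).trans (mul_le_mul_of_nonneg_left ?_ hCψ)
        have := dist_triangle p y w
        rw [dist_comm y w] at this
        linarith
      have h10 := mul_le_mul_of_nonneg_left h9 hN
      have h11 := mul_le_mul_of_nonneg_left h8 (Nat.cast_nonneg (2 * n + 1) : (0 : ℝ) ≤ _)
      linarith
    have h4 := lint_ball K (ns_nonneg (volK K) (F - G)) y h3 hFi
    obtain ⟨hVy, hVy'⟩ := mu_ball_pos K hP y one_pos
    set Vy := (mu K).real (ball y 1) with hVyd
    set X : ℝ := Real.exp (2 * (N * Cψ) * (1 + d) + E1) * κ0 with hX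
    have hX0 : 0 ≤ X := by positivity
    have h5 : ∫⁻ w in ball y 1, ENNReal.ofReal (ns (volK K) F w) ∂(mu K) ≤
        ENNReal.ofReal (2 * X + 2 * |CG| * Vy) := by
      calc ∫⁻ w in ball y 1, ENNReal.ofReal (ns (volK K) F w) ∂(mu K)
          ≤ ∫⁻ w in ball y 1, (ENNReal.ofReal 2 * ENNReal.ofReal (ns (volK K) (F - G) w) +
              ENNReal.ofReal (2 * |CG|)) ∂(mu K) := by
            refine lintegral_mono fun w => ?_
            have h6 := ns_nonneg (volK K) (F - G) w
            rw [← ENNReal.ofReal_mul (by norm_num),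
              ← ENNReal.ofReal_add (by positivity) (by positivity)]
            refine ENNReal.ofReal_le_ofReal ?_
            have h7 := ns_le (volK K) F G w
            have h8 := hGb w
            linarith
        _ = ENNReal.ofReal 2 * ∫⁻ w in ball y 1, ENNReal.ofReal (ns (volK K) (F - G) w) ∂(mu K) +
              ENNReal.ofReal (2 * |CG|) * mu K (ball y 1) := by
            rw [lintegral_add_right _ measurable_const,
              lintegral_const_mul' _ _ ENNReal.ofReal_ne_top, setLIntegral_const]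
        _ ≤ ENNReal.ofReal 2 * ENNReal.ofReal X +
              ENNReal.ofReal (2 * |CG|) * ENNReal.ofReal Vy := by
            refine add_le_add (mul_le_mul_right h4 _) (le_of_eq ?_)
            rw [hVyd, Measure.real, ENNReal.ofReal_toReal hVy']
        _ = _ := by
            rw [← ENNReal.ofReal_mul (by norm_num), ← ENNReal.ofReal_mul (by positivity),
              ← ENNReal.ofReal_add (by positivity) (by positivity)]
    have h6 := mv hn K hP hR (ns_nonneg (volK K) F) isOpen_univ (fun w _ => by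
      obtain ⟨j, hj⟩ := A.cover w
      exact ⟨j, hj, ns_psh K hR hF hj (hFa j w hj)⟩) y one_pos (by positivity)
      (fun w _ => mem_univ _) h5
    have h7 := vol_ge K hP hR p y (r := 1) (R := 1) (S := 1 + d) one_pos le_rfl (by linarith)
    have h8 : (1 + d) ^ (2 * n) ≤ Real.exp (2 * n * (1 + d)) := by
      have h9 : 1 + d ≤ Real.exp (1 + d) := by linarith [Real.add_one_le_exp (1 + d)]
      have h10 := pow_le_pow_left₀ (by positivity) h9 (2 * n)
      rw [← Real.exp_nat_mul] at h10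
      simpa using h10
    have h9 : Vy⁻¹ ≤ W1⁻¹ * Real.exp (2 * n * (1 + d)) := by
      rw [inv_le_iff_one_le_mul₀ hVy, mul_assoc, ← div_le_iff₀' (inv_pos.2 hW1p)]
      rw [div_one] at h7
      have h10 := mul_le_mul_of_nonneg_right h8 hVy.le
      simp only [one_div, inv_inv]
      linarith
    have h10 : Vy⁻¹ * (2 * X + 2 * |CG| * Vy) = Vy⁻¹ * (2 * X) + 2 * |CG| := by
      field_simp
    have h11 : Vy⁻¹ * (2 * X) ≤ W1⁻¹ * (2 * Real.exp E1 * κ0) * Real.exp (c * (1 + d)) := by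
      refine (mul_le_mul_of_nonneg_right h9 (by positivity)).trans (le_of_eq ?_)
      have h12 : Real.exp (c * (1 + d)) =
          Real.exp (2 * (N * Cψ) * (1 + d)) * Real.exp (2 * n * (1 + d)) := by
        rw [← Real.exp_add, hc]; congr 1; ring
      rw [hX, Real.exp_add, h12]
      ring
    refine h6.trans ?_
    rw [h10, mul_add]
    have h12 := mul_le_mul_of_nonneg_left h11 hCD
    rw [ha, hb]
    linarith
  refine ⟨fun j y => if y ∈ (A.e j).source then F j y else 0, c + a + b,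
    ⟨fun j => (hFh j).congr fun y hy _ => by rw [if_pos hy], fun j y hy => if_neg hy,
      fun j k y hy _ => by rw [if_pos hy.1, if_pos hy.2]; exact hF.tr j k y hy⟩, ?_, ?_⟩
  · simp only [if_pos hx]
    exact hFx
  · intro j y hy
    simp only [if_pos hy]
    exact (ns_eq (volK K) (fun j k h => hF.tr j k _ h) hy).symm.le.trans (hgrow y)

end

end Crest.Agent.T223.Nf
end

-- ▼ part T223/Ref_61
section

/-!
# Row 223 (helper61): countable sub-atlases with a partition of unity

`sub A f hf` : the atlas of the charts `A.e (f k)`; `exists_sub` : a countable one with a `Part`;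
`subK`, `subL` : restriction of Kaehler metrics and line bundles; `extS` : extension of sections.
-/

set_option autoImplicit false
set_option linter.unusedSectionVars false
set_option linter.style.haveILetI false

open Set Filter Topology Complex
open scoped ContDiff Matrix ComplexConjugate ComplexOrder Manifold

namespace Crest.Agent.T223.Ref

open Crest.Agent.R275.Geo Crest.Agent.R275.Core144
open Crest.Agent.R273.Defs_333 Crest.Agent.R273.Kah_333 Crest.Agent.R273.Vol_333
open Crest.Agent.R273.RMan_798 Crest.Agent.R273.RMan4_798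
open Crest.Agent.T223.Br Crest.Agent.T223.U0

noncomputable section

variable {n : ℕ} {M : Type} [TopologicalSpace M] {A : Atl n M}

/-! ### the real manifold of an atlas -/

/-- the charted space of an atlas -/
@[reducible] def chs (A : Atl n M) : ChartedSpace (Cn n) M where
  atlas := range A.e
  chartAt x := A.e (A.cover x).choose
  mem_chart_source x := (A.cover x).choose_spec
  chart_mem_atlas _ := ⟨_, rfl⟩

theorem contDiffOn_tr (A : Atl n M) (i j : A.ι) :
    ContDiffOn ℝ ∞ (fun w => A.e j ((A.e i).symm w)) (A.ov i j) :=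
  ((Crest.Agent.R266.SCV.contDiffOn_omega_of_differentiableOn (isOpen_ov i j)
    (A.holo i j)).restrict_scalars ℝ).of_le le_top

theorem mfd (A : Atl n M) : letI := chs A; IsManifold 𝓘(ℝ, Cn n) ∞ M := by
  letI := chs A
  refine isManifold_of_contDiffOn 𝓘(ℝ, Cn n) ∞ M ?_
  rintro e e' ⟨i, rfl⟩ ⟨j, rfl⟩
  refine ((contDiffOn_tr A i j).congr fun y hy => rfl).mono ?_
  rintro y ⟨hy, -⟩
  have h1 : y ∈ (A.e i).target ∧ (A.e i).symm y ∈ (A.e j).source := by
    simpa [OpenPartialHomeomorph.trans_source] using hy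
  exact h1

theorem sm_of_contMDiff {W : Type*} [NormedAddCommGroup W] [NormedSpace ℝ W] {f : M → W}
    (hf : letI := chs A; ContMDiff 𝓘(ℝ, Cn n) 𝓘(ℝ, W) ∞ f) : A.Sm f := by
  letI := chs A
  haveI := mfd A
  intro i
  have h1 : ContMDiffOn 𝓘(ℝ, Cn n) 𝓘(ℝ, Cn n) ∞ (A.e i).symm (A.e i).target :=
    contMDiffOn_symm_of_mem_maximalAtlas (IsManifold.subset_maximalAtlas ⟨i, rfl⟩)
  exact contMDiffOn_iff_contDiffOn.1 (hf.comp_contMDiffOn h1)

theorem locCpt (A : Atl n M) : LocallyCompactSpace M :=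
  letI := chs A
  ChartedSpace.locallyCompactSpace (Cn n) M


/-! ### sub-atlases -/

section sub

variable {κ : Type} {f : κ → A.ι} {hf : ∀ x, ∃ k, x ∈ (A.e (f k)).source}

/-- the atlas of the charts `A.e (f k)` -/
@[reducible] def sub (A : Atl n M) {κ : Type} (f : κ → A.ι)
    (hf : ∀ x, ∃ k, x ∈ (A.e (f k)).source) : Atl n M where
  ι := κ
  e k := A.e (f k)
  cover := hf
  cube k := A.cube (f k)
  holo k l := A.holo (f k) (f l)

/-- restriction of a Kaehler metric -/
def subK (K : Kah A) (f : κ → A.ι) (hf : ∀ x, ∃ k, x ∈ (A.e (f k)).source) :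
    Kah (sub A f hf) where
  g k := K.g (f k)
  sm k := K.sm (f k)
  pos k := K.pos (f k)
  tr k l := K.tr (f k) (f l)
  closed k := K.closed (f k)
  closed' k := K.closed' (f k)

/-- restriction of a line bundle -/
def subL (L : LB A) (f : κ → A.ι) (hf : ∀ x, ∃ k, x ∈ (A.e (f k)).source) :
    LB (sub A f hf) where
  g k l := L.g (f k) (f l)
  hol k l := L.hol (f k) (f l)
  off k l := L.off (f k) (f l)
  self k := L.self (f k)
  mul k l m := L.mul (f k) (f l) (f m)


theorem sm_sub {W : Type*} [NormedAddCommGroup W] [NormedSpace ℝ W] {φ : M → W} (h : A.Sm φ) :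
    (sub A f hf).Sm φ := fun k => h (f k)


theorem exh_sub {K : Kah A} {ρ : M → ℝ} (h : Exh K ρ) : Exh (subK K f hf) ρ :=
  ⟨sm_sub h.sm, h.cpt, fun k => h.grad (f k)⟩

theorem bkpos_sub {K : Kah A} (h : BKpos K) : BKpos (subK K f hf) := fun k => h (f k)


theorem chIso_to (K : Kah A) : RAtl.ChIso (ofKah (subK K f hf)) (ofKah K) fun x => x := by
  intro x
  obtain ⟨k, hk⟩ := hf x
  have h1 : x ∈ (cR A (f k)).source := by rwa [cR_source]
  refine ⟨k, f k, h1, ?_, rfl⟩
  filter_upwards [(cR A (f k)).open_source.mem_nhds h1] with y hy using ⟨hy, rfl⟩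

theorem chIso_from (K : Kah A) : RAtl.ChIso (ofKah K) (ofKah (subK K f hf)) fun x => x := by
  intro x
  obtain ⟨k, hk⟩ := hf x
  have h1 : x ∈ (cR A (f k)).source := by rwa [cR_source]
  refine ⟨f k, k, h1, ?_, rfl⟩
  filter_upwards [(cR A (f k)).open_source.mem_nhds h1] with y hy using ⟨hy, rfl⟩

/-- extension of a section from a sub-atlas -/
def extS (L : LB A) (hf : ∀ x, ∃ k, x ∈ (A.e (f k)).source) (s : κ → M → ℂ) (i : A.ι) (x : M) :
    ℂ :=
  open Classical in
  if x ∈ (A.e i).source then L.g i (f (hf x).choose) x * s (hf x).choose x else 0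

theorem extS_eq {L : LB A} {s : κ → M → ℂ} {U : Set M} (hs : IsHS (subL L f hf) U s) {i : A.ι}
    {k : κ} {x : M} (hi : x ∈ (A.e i).source) (hk : x ∈ (A.e (f k)).source) (hU : x ∈ U) :
    extS L hf s i x = L.g i (f k) x * s k x := by
  have h1 := (hf x).choose_spec
  have h2 : s (hf x).choose x = L.g (f (hf x).choose) (f k) x * s k x :=
    hs.tr _ k x ⟨h1, hk⟩ hU
  rw [extS, if_pos hi, h2, ← mul_assoc, L.mul i _ (f k) x ⟨⟨hi, h1⟩, hk⟩]

theorem extS_self {L : LB A} {s : κ → M → ℂ} {U : Set M} (hs : IsHS (subL L f hf) U s)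
    {k : κ} {x : M} (hk : x ∈ (A.e (f k)).source) (hU : x ∈ U) :
    extS L hf s (f k) x = s k x := by
  rw [extS_eq hs hk hk hU, L.self, one_mul]

theorem extS_isHS {L : LB A} {s : κ → M → ℂ} {U : Set M} (hU : IsOpen U)
    (hs : IsHS (subL L f hf) U s) : IsHS L U (extS L hf s) where
  hol i := by
    intro z hz
    obtain ⟨k, hk⟩ := hf ((A.e i).symm z)
    have ho : IsOpen (U ∩ (A.e (f k)).source) := hU.inter (A.e (f k)).open_source
    have h0 : HolAt A (f k) U (s k) := hs.hol k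
    have h1 : HolAt A i (U ∩ (A.e (f k)).source) fun x => L.g i (f k) x * s k x :=
      ((L.hol i (f k)).mono inter_subset_right).mul (h0.chg hU i)
    have h2 : HolAt A i (U ∩ (A.e (f k)).source) (extS L hf s i) :=
      h1.congr fun x hx hx' => (extS_eq hs hx hx'.2 hx'.1).symm
    exact (DifferentiableOn.differentiableAt h2
      ((isOpen_ti ho).mem_nhds ⟨hz.1, hz.2, hk⟩)).differentiableWithinAt
  off i x hx := if_neg hx
  tr i j x hx hxU := by
    obtain ⟨k, hk⟩ := hf x
    rw [extS_eq hs hx.1 hk hxU, extS_eq hs hx.2 hk hxU, ← mul_assoc, L.mul i j (f k) x ⟨hx, hk⟩]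

theorem nsq_extS (K : Kah A) {s : κ → M → ℂ} (hs : IsHS (KB (sub A f hf)) univ s) (x : M) :
    nsq K (extS (KB A) hf s) x = nsq (subK K f hf) s x := by
  obtain ⟨k, hk⟩ := hf x
  rw [nsq_eq K (extS_isHS isOpen_univ hs) hk, nsq_eq (subK K f hf) hs (i := k) hk,
    extS_self (L := KB A) hs hk (mem_univ x)]
  rfl

theorem nf_of_sub {K : Kah A} {d : M → ℝ} (h : NF (subK K f hf) d) : NF K d := by
  intro x
  obtain ⟨s, C, h1, h2, h3⟩ := h x
  exact ⟨extS (KB A) hf s, C, extS_isHS isOpen_univ h1, by rwa [nsq_extS K h1],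
    fun y => by rw [nsq_extS K h1]; exact h3 y⟩

variable [T2Space M] [ConnectedSpace M]

theorem dK_sub (K : Kah A) (x y : M) : dK (subK K f hf) x y = dK K x y :=
  le_antisymm ((chIso_from (hf := hf) K).dist_le continuous_id x y)
    ((chIso_to (hf := hf) K).dist_le continuous_id x y)

theorem proper_sub {K : Kah A} (h : ProperSpace (ofKah K).M) :
    ProperSpace (ofKah (subK K f hf)).M := by
  refine ⟨fun x r => ?_⟩
  have h1 : IsCompact (Metric.closedBall (α := (ofKah K).M) x r) := isCompact_closedBall _ _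
  have h2 : Metric.closedBall x r = Metric.closedBall (α := (ofKah K).M) x r := by
    ext y
    exact Iff.of_eq (congrArg (· ≤ r) (dK_sub K y x))
  rw [h2]
  exact h1

theorem hyp_sub {K : Kah A} (h : Hyp K) : Hyp (subK K f hf) :=
  ⟨proper_sub h.proper, h.exh.imp fun _ => exh_sub, bkpos_sub h.bk⟩

end sub

/-- **a countable sub-atlas with a partition of unity** -/
theorem exists_sub [T2Space M] [SecondCountableTopology M] (A : Atl n M) :
    ∃ (κ : Type) (f : κ → A.ι) (hf : ∀ x, ∃ k, x ∈ (A.e (f k)).source), Countable κ ∧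
      ∃ P : Part (sub A f hf), (∀ k x, P.ψ k x ∈ Icc (0 : ℝ) 1) ∧ ∀ k x, P.χ k x ∈ Icc (0 : ℝ) 1 := by
  letI := chs A
  haveI := mfd A
  haveI := locCpt A
  obtain ⟨κ, b, -⟩ := SmoothBumpCovering.exists_isSubordinate 𝓘(ℝ, Cn n) (s := (univ : Set M))
    (U := fun _ => univ) isClosed_univ fun _ _ => univ_mem
  obtain ⟨ψ, hψ⟩ := SmoothPartitionOfUnity.exists_isSubordinate 𝓘(ℝ, Cn n) (s := (univ : Set M))
    isClosed_univ (fun k => {x | ∀ᶠ y in 𝓝 x, b k y = 1}) (fun _ => isOpen_setOfPred_eventually_nhds)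
    fun x _ => mem_iUnion.2 (b.eventuallyEq_one' x (mem_univ x))
  have hsub : ∀ k, tsupport (b k) ⊆ (A.e (A.cover (b.c k)).choose).source := fun k =>
    (b k).tsupport_subset_chartAt_source
  refine ⟨κ, fun k => (A.cover (b.c k)).choose, fun x => ?_,
    countable_univ_iff.1 (b.locallyFinite.countable_univ fun k => ⟨b.c k, (b k).c_mem_support⟩),
    ⟨fun k x => ψ k x, fun k x => b k x, fun k => sm_sub (sm_of_contMDiff (ψ k).contMDiff),
      fun k => sm_sub (sm_of_contMDiff (b k).contMDiff), fun k => (b k).hasCompactSupport, hsub,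
      fun k x hx => hψ k hx, fun K hK => b.locallyFinite.closure.finite_nonempty_inter_compact hK,
      fun x => ψ.sum_eq_one (mem_univ x)⟩,
    fun k x => ⟨ψ.nonneg k x, ψ.le_one k x⟩, fun k x => (b k).mem_Icc⟩
  obtain ⟨k, hk⟩ := b.eventuallyEq_one' x (mem_univ x)
  refine ⟨k, hsub k (subset_tsupport _ ?_)⟩
  rw [Function.mem_support, hk.self_of_nhds]
  exact one_ne_zero

/-- `NFStmt` for countable atlases with a partition of unity -/
def NFcStmt (n : ℕ) : Prop :=
  ∀ (M : Type) [TopologicalSpace M] [T2Space M] [ConnectedSpace M] [SecondCountableTopology M]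
    [NoncompactSpace M] (A : Atl n M) [Countable A.ι] (_ : Part A) (K0 : Kah A) (p : M),
    Hyp K0 → NF K0 (dK K0 p)

theorem nfStmt_of (h : NFcStmt n) : NFStmt n := by
  intro M _ _ _ _ _ A K p H
  obtain ⟨κ, f, hf, hc, P, -⟩ := exists_sub A
  have h1 := @h M _ _ _ _ _ (sub A f hf) hc P (subK K f hf) p (hyp_sub H)
  rw [show dK (subK K f hf) p = dK K p from funext (dK_sub K p)] at h1
  exact nf_of_sub h1

end

end Crest.Agent.T223.Ref
end

-- ▼ part T223/Cut_61

/-!
# Row 223 (helper61): cut-off functions from a smooth exhaustion with bounded gradient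
-/

set_option autoImplicit false
set_option linter.unusedSectionVars false

open Set Filter Topology Complex
open scoped ContDiff Matrix ComplexConjugate ComplexOrder

namespace Crest.Agent.T223.Ref

open Crest.Agent.R275.Geo Crest.Agent.R275.Core144 Crest.Agent.R275.EDR890
open Crest.Agent.R275.OmT75 (dl)
open Crest.Agent.R273.Kah_333 Crest.Agent.R273.RMan4_798 Crest.Agent.R273.Ric_798
open Crest.Agent.R273.Calc_243
open Crest.Agent.T223.Br Crest.Agent.T223.U0 Crest.Agent.T223.Hm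

noncomputable section

variable {n : ℕ} {M : Type} [TopologicalSpace M] {A : Atl n M}

theorem exists_bound_deriv_st : ∃ B : ℝ, 0 < B ∧ ∀ t, |deriv Real.smoothTransition t| ≤ B := by
  have hc : Continuous (deriv Real.smoothTransition) :=
    (Real.smoothTransition.contDiff (n := 1)).continuous_deriv le_rfl
  obtain ⟨B, hB⟩ := (isCompact_Icc (a := (0 : ℝ)) (b := 1)).exists_bound_of_continuousOn
    hc.continuousOn
  refine ⟨|B| + 1, by positivity, fun t => ?_⟩
  by_cases ht : t ∈ Icc (0 : ℝ) 1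
  · exact (hB t ht).trans (by linarith [le_abs_self B])
  have h0 : deriv Real.smoothTransition t = 0 := by
    rcases lt_or_ge t 0 with h | h
    · have : Real.smoothTransition =ᶠ[𝓝 t] fun _ => 0 := by
        filter_upwards [Iio_mem_nhds h] with s hs using Real.smoothTransition.zero_of_nonpos hs.le
      rw [this.deriv_eq, deriv_const]
    · have h1 : 1 < t := lt_of_not_ge fun h1 => ht ⟨h, h1⟩
      have : Real.smoothTransition =ᶠ[𝓝 t] fun _ => 1 := by
        filter_upwards [Ioi_mem_nhds h1] with s hs using Real.smoothTransition.one_of_one_le hs.le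
      rw [this.deriv_eq, deriv_const]
  rw [h0, abs_zero]
  positivity

/-- `∑ ∂_a u v^a = (du(v) - i du(iv)) / 2` -/
theorem sum_dS {u : Cn n → ℝ} {z : Cn n} (hu : DifferentiableAt ℝ u z) (v : Cn n) :
    ∑ a, dS (-I) a (fun w => (u w : ℂ)) z * v a =
      (1 / 2 : ℂ) * ((fderiv ℝ u z v : ℝ) - I * (fderiv ℝ u z (I • v) : ℝ)) := by
  have h1 : fderiv ℝ (fun w => (u w : ℂ)) z = Complex.ofRealCLM.comp (fderiv ℝ u z) :=
    (Complex.ofRealCLM.hasFDerivAt.comp z hu.hasFDerivAt).fderiv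
  have h2 := wdL_vec false (fderiv ℝ (fun w => (u w : ℂ)) z) v
  simp only [cI_false, smul_eq_mul, cj_false] at h2
  calc _ = ∑ a, v a * wdL (false, a) (fderiv ℝ (fun w => (u w : ℂ)) z) :=
        Finset.sum_congr rfl fun a _ => by
          simp only [dS, wdL, cI_false, smul_eq_mul]
          ring
    _ = _ := by
        rw [← h2, h1]
        simp only [ContinuousLinearMap.comp_apply, Complex.ofRealCLM_apply]
        ring

theorem G_eq_hq (K : Kah A) {i : A.ι} {x : M} (hx : x ∈ (A.e i).source) (v : Cn n) :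
    G (KK K i) (A.e i x) v v = hq (K.g i x) v.ofLp := by
  rw [G, KK, (A.e i).left_inv hx, hq]

theorem hq_I (P : Mx n) (v : Fin n → ℂ) : hq P (I • v) = hq P v := by
  rw [hq, hq, Matrix.mulVec_smul, dotProduct_smul, star_smul, smul_dotProduct, smul_smul]
  simp

/-- a function with `|du| ≤ c` has `|∂u|² ≤ c² / 2` (crude constant) -/
theorem norm_dl_le (K : Kah A) {u : M → ℝ} {i : A.ι} {x : M} (hx : x ∈ (A.e i).source)
    (hu : DifferentiableAt ℝ (fun z => u ((A.e i).symm z)) (A.e i x)) {c : ℝ}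
    (h : ∀ v : Cn n, (fderiv ℝ (fun z => u ((A.e i).symm z)) (A.e i x) v) ^ 2 ≤
      c * G (KK K i) (A.e i x) v v) (v : Fin n → ℂ) :
    ‖∑ a, dl A i a (fun y => (u y : ℂ)) x * v a‖ ^ 2 ≤ c / 2 * hq (K.g i x) v := by
  have h1 := sum_dS hu (WithLp.toLp 2 v)
  have h2 := h (WithLp.toLp 2 v)
  have h3 := h (I • WithLp.toLp 2 v)
  rw [G_eq_hq K hx] at h2 h3
  rw [WithLp.ofLp_smul, hq_I] at h3
  simp only [dl_eq, dd]
  rw [h1, norm_mul, mul_pow, Complex.sq_norm (_ - _), Complex.normSq_apply]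
  simp only [one_div, norm_inv, Complex.norm_ofNat, sub_re, ofReal_re, mul_re, I_re, zero_mul,
    I_im, ofReal_im, mul_zero, sub_zero, sub_im, mul_im, one_mul, zero_add, zero_sub]
  nlinarith

/-- **cut-off functions** -/
theorem cut_of_exh {K : Kah A} {ρ : M → ℝ} (h : Exh K ρ) : Cut K := by
  intro C hC ε hε
  obtain ⟨B, hB0, hB⟩ := exists_bound_deriv_st
  have hρ : Continuous ρ := sm_continuous h.sm
  obtain ⟨c, hc⟩ := hC.bddAbove_image hρ.continuousOn
  set δ : ℝ := Real.sqrt ε / B with hδ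
  have hδ0 : 0 < δ := div_pos (Real.sqrt_pos.2 hε) hB0
  refine ⟨fun x => Real.smoothTransition (1 - δ * (ρ x - c)), fun i => ?_, ?_, fun x hx => ?_,
    fun x => ⟨Real.smoothTransition.nonneg _, Real.smoothTransition.le_one _⟩,
    fun i x hx v => ?_⟩
  · exact Real.smoothTransition.contDiff.comp_contDiffOn
      (contDiffOn_const.sub (contDiffOn_const.mul ((h.sm i).sub contDiffOn_const)))
  · refine HasCompactSupport.intro' (h.cpt (c + 1 / δ)) (isClosed_le hρ continuous_const)
      fun x hx => Real.smoothTransition.zero_of_nonpos ?_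
    have h1 : 1 / δ < ρ x - c := by
      have : c + 1 / δ < ρ x := lt_of_not_ge hx
      linarith
    rw [div_lt_iff₀ hδ0] at h1
    linarith
  · have h1 : ρ x ≤ c := hc ⟨x, hx, rfl⟩
    exact Real.smoothTransition.one_of_one_le (by nlinarith)
  have hz := (A.e i).map_source hx
  have h1 : HasFDerivAt (fun z => ρ ((A.e i).symm z)) _ (A.e i x) :=
    (((h.sm i).contDiffAt ((A.e i).open_target.mem_nhds hz)).differentiableAt
      (by simp)).hasFDerivAt
  have h2 := (((Real.smoothTransition.contDiff (n := 1)).differentiable (by simp)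
    (1 - δ * (ρ ((A.e i).symm (A.e i x)) - c))).hasDerivAt.comp_hasFDerivAt (A.e i x)
    (((h1.sub_const c).const_mul δ).const_sub 1))
  have hq0 : 0 ≤ hq (K.g i x) v := by
    have := ((K.pos i x hx).transpose.posSemidef.dotProduct_mulVec_nonneg v)
    exact (Complex.nonneg_iff.1 this).1
  refine (norm_dl_le K (c := ε) hx h2.differentiableAt (fun w => ?_) v).trans (by nlinarith)
  erw [h2.fderiv]
  have h3 := h.grad i _ hz w
  have h4 := hB (1 - δ * (ρ ((A.e i).symm (A.e i x)) - c))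
  have h5 : (deriv Real.smoothTransition (1 - δ * (ρ ((A.e i).symm (A.e i x)) - c)) * δ) ^ 2 ≤ ε := by
    have h6 : B * δ = Real.sqrt ε := by rw [hδ]; field_simp
    rw [← Real.sq_sqrt hε.le, ← h6, mul_pow, mul_pow, ← sq_abs]
    gcongr
  simp only [_root_.smul_apply, _root_.neg_apply, smul_eq_mul]
  rw [mul_neg, neg_sq, ← mul_assoc, mul_pow]
  exact mul_le_mul h5 h3 (sq_nonneg _) hε.le

theorem cut_of_hyp [T2Space M] [ConnectedSpace M] {K : Kah A} (h : Hyp K) : Cut K :=
  h.exh.elim fun _ => cut_of_exh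



end

end Crest.Agent.T223.Ref
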