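import Crest.Agent.T223.DynDef_20

/-!
# Row 223, module DYN (helper20): basic lemmas

`invlim` (inverse limit of compact sets), `schwarz_ord`, `norm_fderiv_le_of_ball`, `lipO`,
`Aut.refl / mono / trans`, `Lya.comp / mono`, elementary facts on `hev`.
-/

set_option autoImplicit false
set_option linter.unusedSectionVars false

open Set Filter Topology Metric Asymptotics

namespace Crest.Agent.T223.Dyn

/-- a backward recursion through compact sets has a solution for all times -/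
theorem invlim {X : Type*} [TopologicalSpace X] [T2Space X] (K : ℕ → Set X)
    (R : ℕ → X → X → Prop) (hK : ∀ i, IsCompact (K i)) (hne : ∀ i, (K i).Nonempty)
    (hR : ∀ i, IsClosed {p : X × X | R i p.1 p.2})
    (hstep : ∀ i, ∀ y ∈ K (i + 1), ∃ x ∈ K i, R i x y) :
    ∃ x : ℕ → X, ∀ i, x i ∈ K i ∧ R i (x i) (x (i + 1)) := by
  classical
  let S : ℕ → Set (ℕ → X) := fun N =>
    {x | (∀ i, x i ∈ K i) ∧ ∀ i < N, R i (x i) (x (i + 1))}
  have h0 : ∀ N, ∀ y ∈ K N, ∃ x ∈ S N, x N = y := by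
    intro N
    induction N with
    | zero =>
      intro y hy
      refine ⟨Function.update (fun i => (hne i).choose) 0 y, ⟨fun i => ?_, by simp⟩, by simp⟩
      rcases eq_or_ne i 0 with rfl | h
      · simpa using hy
      · simpa [Function.update_of_ne h] using (hne i).choose_spec
    | succ N ih =>
      intro y hy
      obtain ⟨z, hz, hzy⟩ := hstep N y hy
      obtain ⟨x, ⟨hx1, hx2⟩, hxN⟩ := ih z hz
      refine ⟨Function.update x (N + 1) y, ⟨fun i => ?_, fun i hi => ?_⟩, by simp⟩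
      · rcases eq_or_ne i (N + 1) with rfl | h
        · simpa using hy
        · simpa [Function.update_of_ne h] using hx1 i
      · rw [Function.update_of_ne (by omega : i ≠ N + 1)]
        rcases eq_or_ne i N with rfl | h
        · simpa [hxN] using hzy
        · rw [Function.update_of_ne (by omega : i + 1 ≠ N + 1)]
          exact hx2 i (by omega)
  have hcl : ∀ N, IsClosed (S N) := by
    intro N
    have : S N = (⋂ i, (fun x : ℕ → X => x i) ⁻¹' K i) ∩
        ⋂ i, ⋂ (_ : i < N), (fun x : ℕ → X => (x i, x (i + 1))) ⁻¹' {p : X × X | R i p.1 p.2} := by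
      ext x; simp [S]
    rw [this]
    refine (isClosed_iInter fun i => (hK i).isClosed.preimage (continuous_apply i)).inter ?_
    exact isClosed_iInter fun i => isClosed_iInter fun _ =>
      (hR i).preimage ((continuous_apply i).prodMk (continuous_apply (i + 1)))
  have hc0 : IsCompact (S 0) := by
    refine (isCompact_univ_pi hK).of_isClosed_subset (hcl 0) ?_
    intro x hx i _
    exact hx.1 i
  obtain ⟨x, hx⟩ := IsCompact.nonempty_iInter_of_sequence_nonempty_isCompact_isClosed S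
    (fun N x hx => ⟨hx.1, fun i hi => hx.2 i (by omega)⟩)
    (fun N => by
      obtain ⟨y, hy⟩ := hne N
      obtain ⟨x, hx, -⟩ := h0 N y hy
      exact ⟨x, hx⟩) hc0 hcl
  refine ⟨x, fun i => ?_⟩
  have := mem_iInter.1 hx (i + 1)
  exact ⟨this.1 i, this.2 i (by omega)⟩

section Cauchy

variable {E F : Type*} [NormedAddCommGroup E] [NormedSpace ℂ E] [NormedAddCommGroup F]
  [NormedSpace ℂ F]

theorem eq_zero_of_isBigO_pow {g : E → F} {d : ℕ}
    (ho : g =O[𝓝 0] fun x : E => ‖x‖ ^ (d + 1)) : g 0 = 0 := by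
  obtain ⟨C, hC⟩ := ho.bound
  have := hC.self_of_nhds
  simpa using this

theorem isLittleO_norm_pow_succ (d : ℕ) :
    (fun x : E => ‖x‖ ^ (d + 1)) =o[𝓝 0] fun x : E => ‖x‖ ^ d := by
  have h1 : (fun x : E => ‖x‖) =o[𝓝 0] fun _ => (1 : ℝ) := by
    rw [isLittleO_one_iff]
    simpa using (continuous_norm (E := E)).tendsto 0
  simpa [pow_succ] using (isBigO_refl (fun x : E => ‖x‖ ^ d) (𝓝 0)).mul_isLittleO h1

theorem isBigO_norm_pow_mono {a b : ℕ} (h : a ≤ b) :
    (fun x : E => ‖x‖ ^ b) =O[𝓝 0] fun x : E => ‖x‖ ^ a := by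
  induction h with
  | refl => exact isBigO_refl _ _
  | step _ ih => exact (isLittleO_norm_pow_succ _).isBigO.trans ih

/-- Schwarz lemma of order `d` -/
theorem schwarz_ord {g : E → F} {r β : ℝ} {d : ℕ} (hg : DifferentiableOn ℂ g (ball 0 r))
    (hb : ∀ x ∈ ball (0 : E) r, ‖g x‖ ≤ β) (ho : g =O[𝓝 0] fun x : E => ‖x‖ ^ d) :
    ∀ x ∈ ball (0 : E) r, ‖g x‖ ≤ β * (‖x‖ / r) ^ d := by
  intro x hx
  cases d with
  | zero => simpa using hb x hx
  | succ d =>
    have h0 : g 0 = 0 := eq_zero_of_isBigO_pow ho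
    have := Complex.dist_le_mul_div_pow_of_mapsTo_ball_of_isLittleO (n := d) (R₂ := β) hg
      (fun y hy => by simpa [h0] using hb y hy)
      (by simpa [h0] using ho.trans_isLittleO (isLittleO_norm_pow_succ d)) hx
    simpa [h0] using this

/-- Cauchy estimate -/
theorem norm_fderiv_le_of_ball {g : E → F} {x : E} {r β : ℝ} (hr : 0 < r)
    (hg : DifferentiableOn ℂ g (ball x r)) (hb : ∀ y ∈ ball x r, ‖g y‖ ≤ β) :
    ‖fderiv ℂ g x‖ ≤ 2 * β / r := by
  refine Complex.norm_fderiv_le_div_of_mapsTo_ball hg (fun y hy => ?_) hr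
  rw [mem_closedBall, dist_eq_norm]
  have h1 := hb y hy
  have h2 := hb x (mem_ball_self hr)
  linarith [norm_sub_le (g y) (g x)]

/-- the derivative of a holomorphic `O(‖x‖^(a+1))` is `O(‖x‖^a)` -/
theorem fderiv_isBigO {g : E → F} {a : ℕ} (hg : ∀ᶠ x in 𝓝 (0 : E), DifferentiableAt ℂ g x)
    (ho : g =O[𝓝 0] fun x : E => ‖x‖ ^ (a + 1)) :
    (fun x => fderiv ℂ g x) =O[𝓝 0] fun x : E => ‖x‖ ^ a := by
  obtain ⟨C, hC0, hC⟩ := ho.exists_pos
  obtain ⟨r, hr, hball⟩ := Metric.eventually_nhds_iff_ball.1 (hg.and hC.bound)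
  have key : ∀ x ∈ ball (0 : E) (r / 3), ∀ s : ℝ, ‖x‖ ≤ s → 0 < s → s < r / 2 →
      ‖fderiv ℂ g x‖ ≤ 2 * C * 2 ^ (a + 1) * s ^ a := by
    intro x _ s hxs hs hsr
    have hsub : ∀ y ∈ ball x s, ‖y‖ ≤ 2 * s := by
      intro y hy
      have := mem_ball_iff_norm.1 hy
      linarith [norm_le_insert' y x]
    have hin : ∀ y ∈ ball x s, y ∈ ball (0 : E) r := fun y hy =>
      mem_ball_zero_iff.2 (by linarith [hsub y hy])
    have := norm_fderiv_le_of_ball (β := C * (2 * s) ^ (a + 1)) hs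
      (fun y hy => (hball y (hin y hy)).1.differentiableWithinAt) (fun y hy => by
        have h := (hball y (hin y hy)).2
        rw [Real.norm_of_nonneg (by positivity)] at h
        exact h.trans (by gcongr; exact hsub y hy))
    refine this.trans_eq ?_
    field_simp
    ring
  refine IsBigO.of_bound (2 * C * 2 ^ (a + 1)) ?_
  filter_upwards [ball_mem_nhds (0 : E) (by positivity : 0 < r / 3)] with x hx
  have hx' := mem_ball_zero_iff.1 hx
  rw [Real.norm_of_nonneg (by positivity)]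
  have hlim : Tendsto (fun s : ℝ => 2 * C * 2 ^ (a + 1) * s ^ a) (𝓝[>] ‖x‖)
      (𝓝 (2 * C * 2 ^ (a + 1) * ‖x‖ ^ a)) :=
    (Continuous.tendsto (by fun_prop) _).mono_left nhdsWithin_le_nhds
  refine ge_of_tendsto hlim ?_
  filter_upwards [Ioo_mem_nhdsGT (by linarith : ‖x‖ < r / 2)] with s hs
  exact key x hx s hs.1.le ((norm_nonneg x).trans_lt hs.1) hs.2

/-- `g = O(‖x‖^(a+1))` holomorphic, `u, v = O(‖x‖)`, `u - v = O(‖x‖^b)` : then
`g ∘ u - g ∘ v = O(‖x‖^(a+b))` -/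
theorem lipO {G : Type*} [NormedAddCommGroup G] {g : E → F} {a b : ℕ} {u v : G → E}
    (hg : ∀ᶠ x in 𝓝 (0 : E), DifferentiableAt ℂ g x)
    (ho : g =O[𝓝 0] fun x : E => ‖x‖ ^ (a + 1))
    (hu : u =O[𝓝 0] fun x : G => ‖x‖) (hv : v =O[𝓝 0] fun x : G => ‖x‖)
    (huv : (fun x => u x - v x) =O[𝓝 0] fun x : G => ‖x‖ ^ b) :
    (fun x => g (u x) - g (v x)) =O[𝓝 0] fun x : G => ‖x‖ ^ (a + b) := by
  obtain ⟨C, hC0, hC⟩ := (fderiv_isBigO hg ho).exists_pos
  obtain ⟨r, hr, hball⟩ := Metric.eventually_nhds_iff_ball.1 (hg.and hC.bound)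
  obtain ⟨C1, hC1, h1⟩ := hu.exists_pos
  obtain ⟨C2, hC2, h2⟩ := hv.exists_pos
  obtain ⟨C3, hC3, h3⟩ := huv.exists_pos
  refine IsBigO.of_bound (C * (C1 + C2) ^ a * C3) ?_
  filter_upwards [h1.bound, h2.bound, h3.bound,
    ball_mem_nhds (0 : G) (by positivity : 0 < r / (C1 + C2))] with x hx1 hx2 hx3 hx
  rw [Real.norm_of_nonneg (by positivity)] at hx1 hx2 hx3 ⊢
  have hx' : (C1 + C2) * ‖x‖ < r := by
    have := mem_ball_zero_iff.1 hx
    rwa [lt_div_iff₀ (by positivity), mul_comm] at this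
  have hs : ∀ y ∈ closedBall (0 : E) ((C1 + C2) * ‖x‖), y ∈ ball (0 : E) r := fun y hy =>
    mem_ball_zero_iff.2 ((mem_closedBall_zero_iff.1 hy).trans_lt hx')
  have hn := norm_nonneg x
  have := (convex_closedBall (0 : E) ((C1 + C2) * ‖x‖)).norm_image_sub_le_of_norm_fderiv_le
    (𝕜 := ℂ) (f := g) (C := C * ((C1 + C2) * ‖x‖) ^ a) (x := v x) (y := u x)
    (fun y hy => (hball y (hs y hy)).1) (fun y hy => by
      have h := (hball y (hs y hy)).2
      rw [Real.norm_of_nonneg (by positivity)] at h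
      exact h.trans (by gcongr; exact mem_closedBall_zero_iff.1 hy))
    (mem_closedBall_zero_iff.2 (by nlinarith)) (mem_closedBall_zero_iff.2 (by nlinarith))
  refine this.trans ?_
  calc C * ((C1 + C2) * ‖x‖) ^ a * ‖u x - v x‖ ≤ C * ((C1 + C2) * ‖x‖) ^ a * (C3 * ‖x‖ ^ b) := by
        gcongr
    _ = _ := by rw [mul_pow, pow_add]; ring

/-- composition with a map that is `O(‖x‖)` keeps the order -/
theorem isBigO_comp_pow {G : Type*} [NormedAddCommGroup G] {g : E → F} {a : ℕ} {u : G → E}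
    (ho : g =O[𝓝 0] fun x : E => ‖x‖ ^ a) (hu : u =O[𝓝 0] fun x : G => ‖x‖) :
    (fun x => g (u x)) =O[𝓝 0] fun x : G => ‖x‖ ^ a := by
  have ht : Tendsto u (𝓝 0) (𝓝 0) :=
    hu.trans_tendsto (by simpa using (continuous_norm (E := G)).tendsto 0)
  exact (ho.comp_tendsto ht).trans (by simpa [Function.comp_def] using hu.norm_left.pow a)

/-- a holomorphic germ agrees with its first order Taylor polynomial up to `O(‖x‖²)` -/
theorem isBigO_sub_fderiv {g : E → F} {L : E →L[ℂ] F}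
    (hg : ∀ᶠ x in 𝓝 (0 : E), DifferentiableAt ℂ g x) (hL : HasFDerivAt g L 0) :
    (fun x => g x - g 0 - L x) =O[𝓝 0] fun x : E => ‖x‖ ^ 2 := by
  have hc : ∀ᶠ x in 𝓝 (0 : E), ‖g x - g 0 - L x‖ ≤ 1 := by
    have : ContinuousAt (fun x => ‖g x - g 0 - L x‖) 0 :=
      ((hL.continuousAt.sub continuousAt_const).sub L.continuous.continuousAt).norm
    refine this.eventually (p := fun t => t ≤ 1) ?_
    simp only [sub_self, map_zero, norm_zero]
    exact Iic_mem_nhds (zero_lt_one' ℝ)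
  obtain ⟨r, hr, hball⟩ := Metric.eventually_nhds_iff_ball.1 (hg.and hc)
  refine IsBigO.of_bound (1 / r ^ 2) ?_
  filter_upwards [ball_mem_nhds (0 : E) hr] with x hx
  have := Complex.dist_le_mul_div_pow_of_mapsTo_ball_of_isLittleO (n := 1) (R₂ := 1)
    (f := fun x => g x - g 0 - L x) (c := 0) (R₁ := r)
    (fun y hy => (((hball y hy).1.sub_const _).sub L.differentiableAt).differentiableWithinAt)
    (fun y hy => by simpa using (hball y hy).2)
    (by simpa using hL.isLittleO.norm_right) hx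
  rw [Real.norm_of_nonneg (by positivity)]
  simp only [sub_self, map_zero, dist_zero_right, one_mul] at this
  refine this.trans_eq ?_
  rw [div_pow]
  ring

end Cauchy

variable {n : ℕ}

theorem differentiable_mono {d : ℕ} (w : Fin d → Fin n) : Differentiable ℂ (mono w) := by
  unfold mono
  fun_prop

theorem differentiable_hev {d : ℕ} (c : Arr n d) : Differentiable ℂ (hev c) := by
  have := differentiable_mono (n := n) (d := d)
  unfold hev
  fun_prop

theorem norm_mono_le {d : ℕ} (w : Fin d → Fin n) (x : EE n) : ‖mono w x‖ ≤ ‖x‖ ^ d := by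
  unfold mono
  rw [norm_prod]
  calc ∏ k, ‖x (w k)‖ ≤ ∏ _k : Fin d, ‖x‖ :=
        Finset.prod_le_prod (fun _ _ => norm_nonneg _) fun k _ => PiLp.norm_apply_le x (w k)
    _ = _ := by simp

theorem norm_hev_le {d : ℕ} (c : Arr n d) (x : EE n) :
    ‖hev c x‖ ≤ (n : ℝ) ^ d * ‖c‖ * ‖x‖ ^ d := by
  unfold hev
  refine (norm_sum_le _ _).trans ?_
  calc ∑ w, ‖mono w x • c w‖ ≤ ∑ _w : Fin d → Fin n, ‖x‖ ^ d * ‖c‖ := by
        refine Finset.sum_le_sum fun w _ => ?_
        rw [norm_smul]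
        exact mul_le_mul (norm_mono_le w x) (norm_le_pi_norm c w) (norm_nonneg _) (by positivity)
    _ = _ := by simp; ring

theorem hev_isBigO {d : ℕ} (c : Arr n d) : hev c =O[𝓝 0] fun x : EE n => ‖x‖ ^ d :=
  IsBigO.of_bound ((n : ℝ) ^ d * ‖c‖) (Eventually.of_forall fun x => by
    rw [Real.norm_of_nonneg (by positivity)]; exact norm_hev_le c x)

@[simp] theorem hev_zero {d : ℕ} (x : EE n) : hev (0 : Arr n d) x = 0 := by simp [hev]



namespace Aut

variable {D D' b b' : ℝ} {σ τ : EE n ≃ EE n}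

theorem det_comp' (A B : EE n →L[ℂ] EE n) : (A.comp B).det = A.det * B.det :=
  LinearMap.det_comp (A : EE n →ₗ[ℂ] EE n) (B : EE n →ₗ[ℂ] EE n)

theorem refl (hD : 1 ≤ D) (hb : 0 ≤ b) : Aut D b (Equiv.refl (EE n)) where
  hol := differentiable_id
  hol' := differentiable_id
  det x := by
    have : fderiv ℂ (⇑(Equiv.refl (EE n))) x = ContinuousLinearMap.id ℂ _ := fderiv_id
    rw [this]
    exact LinearMap.det_id
  near x _ := by simp; positivity
  near' x _ := by simp; positivity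
  grow Z x hZ hx := hx.trans (Real.exp_le_exp.2 (by nlinarith))

theorem mono (h : Aut D b σ) (hD0 : 0 ≤ D) (hb0 : 0 ≤ b) (hD : D ≤ D') (hb : b ≤ b') :
    Aut D' b' σ where
  hol := h.hol
  hol' := h.hol'
  det := h.det
  near x hx := (h.near x (hx.trans (Real.exp_le_exp.2 (by linarith)))).trans (by gcongr)
  near' x hx := (h.near' x (hx.trans (Real.exp_le_exp.2 (by linarith)))).trans (by gcongr)
  grow Z x hZ hx := (h.grow Z x hZ hx).trans (Real.exp_le_exp.2
    (mul_le_mul hD (by linarith) (by linarith) (by linarith)))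

theorem zero (h : Aut D b σ) : σ 0 = 0 := by
  simpa using h.near 0 (by simp; positivity)

theorem sub_isBigO (h : Aut D b σ) :
    (fun x => σ x - x) =O[𝓝 0] fun x : EE n => ‖x‖ ^ 2 := by
  refine IsBigO.of_bound (Real.exp b) ?_
  filter_upwards [closedBall_mem_nhds (0 : EE n) (Real.exp_pos (-b))] with x hx
  rw [Real.norm_of_nonneg (by positivity)]
  exact h.near x (mem_closedBall_zero_iff.1 hx)

end Aut

/-- a map with `‖g x - x‖ ≤ e^b ‖x‖²` at most doubles the norm on the ball of radius `e^{-b}` -/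
theorem norm_le_two_mul {b : ℝ} {x y : EE n} (hx : ‖x‖ ≤ Real.exp (-b))
    (h : ‖y - x‖ ≤ Real.exp b * ‖x‖ ^ 2) : ‖y‖ ≤ 2 * ‖x‖ := by
  have h1 : Real.exp b * ‖x‖ ≤ 1 := by
    calc Real.exp b * ‖x‖ ≤ Real.exp b * Real.exp (-b) := by gcongr
      _ = 1 := by rw [← Real.exp_add]; simp
  have h2 : Real.exp b * ‖x‖ ^ 2 ≤ ‖x‖ := by nlinarith [norm_nonneg x]
  linarith [norm_le_insert' y x]

theorem near_comp {b : ℝ} {g h : EE n → EE n}
    (hg : ∀ x, ‖x‖ ≤ Real.exp (-b) → ‖g x - x‖ ≤ Real.exp b * ‖x‖ ^ 2)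
    (hh : ∀ x, ‖x‖ ≤ Real.exp (-b) → ‖h x - x‖ ≤ Real.exp b * ‖x‖ ^ 2) (x : EE n)
    (hx : ‖x‖ ≤ Real.exp (-(b + 2))) : ‖g (h x) - x‖ ≤ Real.exp (b + 2) * ‖x‖ ^ 2 := by
  have e2 : (5 : ℝ) ≤ Real.exp 2 := by
    have := Real.add_one_le_exp 1
    have h2 : Real.exp 2 = Real.exp 1 * Real.exp 1 := by rw [← Real.exp_add]; norm_num
    have := Real.exp_one_gt_d9
    nlinarith
  have hb := Real.exp_pos b
  have h0 : Real.exp (-(b + 2)) * Real.exp 2 = Real.exp (-b) := by
    rw [← Real.exp_add]; ring_nf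
  have hp := Real.exp_pos (-(b + 2))
  have hx1 : ‖x‖ ≤ Real.exp (-b) := by nlinarith
  have h1 := hh x hx1
  have h2 := norm_le_two_mul hx1 h1
  have h3 := hg (h x) (by nlinarith)
  have h4 : ‖h x‖ ^ 2 ≤ 4 * ‖x‖ ^ 2 := by nlinarith [norm_nonneg (h x), norm_nonneg x]
  have h5 : ‖g (h x) - x‖ ≤ ‖g (h x) - h x‖ + ‖h x - x‖ := norm_sub_le_norm_sub_add_norm_sub _ _ _
  rw [Real.exp_add]
  have h6 : Real.exp b * ‖h x‖ ^ 2 ≤ Real.exp b * (4 * ‖x‖ ^ 2) := by gcongr
  have h7 : 0 ≤ Real.exp b * ‖x‖ ^ 2 := by positivity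
  nlinarith

/-- composition `σ ∘ τ = τ.trans σ` -/
theorem Aut.trans {D D' b : ℝ} {σ τ : EE n ≃ EE n} (hτ : Aut D' b τ) (hσ : Aut D b σ)
    (hD : 0 ≤ D) (hD' : 1 ≤ D') (hb : 0 ≤ b) : Aut (D * D') (2 * b + 2) (τ.trans σ) where
  hol := hσ.hol.comp hτ.hol
  hol' := hτ.hol'.comp hσ.hol'
  det x := by
    have : fderiv ℂ (⇑(τ.trans σ)) x = (fderiv ℂ σ (τ x)).comp (fderiv ℂ τ x) :=
      fderiv_comp x (hσ.hol _) (hτ.hol _)
    rw [this, Aut.det_comp', hσ.det, hτ.det, mul_one]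
  near x hx := (near_comp hσ.near hτ.near x
    (hx.trans (Real.exp_le_exp.2 (by linarith)))).trans (by gcongr; linarith)
  near' x hx := (near_comp hτ.near' hσ.near' x
    (hx.trans (Real.exp_le_exp.2 (by linarith)))).trans (by gcongr; linarith)
  grow Z x hZ hx := by
    have h1 := hτ.grow Z x hZ hx
    have h2 := hσ.grow _ _ (by positivity) h1
    refine h2.trans (Real.exp_le_exp.2 ?_)
    rw [mul_assoc]
    gcongr
    nlinarith

theorem Lya.mono {wt : Fin n → ℝ} {M M' b b' : ℝ} {σ : EE n → EE n} (h : Lya wt M b σ)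
    (hM : M ≤ M') (hb : b ≤ b') : Lya wt M' b' σ := fun Y C hY hC _ hx l =>
  (h Y C hY (hb.trans hC) hx l).trans (Real.exp_le_exp.2 (by linarith))

theorem Lya.id (wt : Fin n → ℝ) {M : ℝ} (hM : 0 ≤ M) (b : ℝ) : Lya wt M b id :=
  fun _ _ _ _ _ hx l => (hx l).trans (Real.exp_le_exp.2 (by linarith))

theorem Lya.comp {wt : Fin n → ℝ} {M M' b : ℝ} {σ τ : EE n → EE n} (hσ : Lya wt M b σ)
    (hτ : Lya wt M' b τ) (hM' : 0 ≤ M') : Lya wt (M + M') (b + M') (σ ∘ τ) := by
  intro Y C hY hC x hx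
  have h1 := hτ Y C hY (by linarith) hx
  have h2 := hσ Y (C - M') hY (by linarith) h1
  have : C - (M + M') = C - M' - M := by ring
  rw [this]
  exact h2

end Crest.Agent.T223.Dyn
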