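import Crest.Agent.T223.Hm0_77

-- ▼ part T223/Hm1_77
section

/-!
# Row 223, module HOER (helper77), part 1: measurable unitary frames
-/

set_option autoImplicit false
set_option linter.unusedSectionVars false

open Set Filter Topology Complex Matrix MeasureTheory
open scoped ContDiff Matrix ComplexConjugate ComplexOrder ENNReal

namespace Crest.Agent.T223.Hm

open Crest.Agent.R275 Crest.Agent.R275.Geo Crest.Agent.R275.Core144
open Crest.Agent.R275.OmT75 (dl dl_chain db_chain)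
open Crest.Agent.R273.Defs_333 Crest.Agent.R273.Kah_333 Crest.Agent.R273.Vm_333

noncomputable section

variable {n : ℕ} {M : Type} [TopologicalSpace M] {A : Atl n M} {N L : LB A}

/-! ### square roots -/

section Sqrt
open scoped MatrixOrder Matrix.Norms.L2Operator

/-- the square root of a matrix -/
def msq (P : Mx n) : Mx n := CFC.sqrt P

theorem msq_herm (P : Mx n) : (msq P)ᴴ = msq P := (CFC.sqrt_nonneg P).isSelfAdjoint

theorem msq_mul {P : Mx n} (h : P.PosSemidef) : msq P * msq P = P :=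
  CFC.sqrt_mul_sqrt_self _ h.nonneg

theorem continuousOn_msq : ContinuousOn (msq : Mx n → Mx n) {P | P.PosSemidef} := by
  have h := CFC.continuousOn_sqrt (A := Mx n)
  exact h.mono fun Q hQ => hQ.nonneg

end Sqrt

/-! ### continuity in charts -/

theorem contOn_of_read {W : Type*} [TopologicalSpace W] {i : A.ι} {f : M → W} {U : Set M}
    (hf : ContinuousOn (fun z => f ((A.e i).symm z)) ((A.e i).target ∩ (A.e i).symm ⁻¹' U)) :
    ContinuousOn f ((A.e i).source ∩ U) := by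
  have h2 : ContinuousOn (fun y => f ((A.e i).symm (A.e i y))) ((A.e i).source ∩ U) :=
    hf.comp ((A.e i).continuousOn.mono inter_subset_left) fun y hy =>
      ⟨(A.e i).map_source hy.1, by
        change (A.e i).symm (A.e i y) ∈ U
        rw [(A.e i).left_inv hy.1]; exact hy.2⟩
  exact h2.congr fun y hy => by
    change f y = f ((A.e i).symm (A.e i y))
    rw [(A.e i).left_inv hy.1]

theorem contOn_smAt {W : Type*} [NormedAddCommGroup W] [NormedSpace ℝ W] {i : A.ι} {f : M → W}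
    (hf : A.SmAt i f) : ContinuousOn f (A.e i).source := by
  have h := contOn_of_read (A := A) (i := i) (f := f) (U := univ)
    (by simpa using (ContDiffOn.continuousOn hf))
  simpa using h

theorem contOn_holAt {i : A.ι} {U : Set M} {f : M → ℂ} (hf : HolAt A i U f) :
    ContinuousOn f ((A.e i).source ∩ U) := contOn_of_read hf.continuousOn

theorem contOn_Ng (N : LB A) (i j : A.ι) :
    ContinuousOn (N.g i j) ((A.e i).source ∩ (A.e j).source) := contOn_holAt (N.hol i j)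

theorem contOn_Jm (i j : A.ι) :
    ContinuousOn (Jm A i j) ((A.e i).source ∩ (A.e j).source) :=
  continuousOn_pi.2 fun b => continuousOn_pi.2 fun a => contOn_holAt (holAt_J i j b a)

theorem contOn_g (K : Kah A) (i : A.ι) : ContinuousOn (K.g i) (A.e i).source :=
  continuousOn_pi.2 fun a => continuousOn_pi.2 fun b => contOn_smAt (K.sm i a b)

theorem posDef_gT (K : Kah A) {i : A.ι} {x : M} (hx : x ∈ (A.e i).source) :
    ((K.g i x)ᵀ).PosDef := (K.pos i x hx).transpose

theorem gT_inv_mul (K : Kah A) {i : A.ι} {x : M} (hx : x ∈ (A.e i).source) :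
    ((K.g i x)ᵀ)⁻¹ * (K.g i x)ᵀ = 1 :=
  Matrix.nonsing_inv_mul _ ((Matrix.isUnit_iff_isUnit_det _).1 (posDef_gT K hx).isUnit)

theorem gT_mul_inv (K : Kah A) {i : A.ι} {x : M} (hx : x ∈ (A.e i).source) :
    (K.g i x)ᵀ * ((K.g i x)ᵀ)⁻¹ = 1 :=
  Matrix.mul_nonsing_inv _ ((Matrix.isUnit_iff_isUnit_det _).1 (posDef_gT K hx).isUnit)

theorem contOn_gT (K : Kah A) (i : A.ι) : ContinuousOn (fun x => (K.g i x)ᵀ) (A.e i).source :=
  (continuous_id.matrix_transpose).comp_continuousOn (contOn_g K i)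

theorem contOn_gTi (K : Kah A) (i : A.ι) :
    ContinuousOn (fun x => ((K.g i x)ᵀ)⁻¹) (A.e i).source := by
  intro x hx
  have h1 : ContinuousAt (fun P : Mx n => P⁻¹) ((K.g i x)ᵀ) := by
    refine continuousAt_matrix_inv _ ?_
    obtain ⟨u, hu⟩ := ((Matrix.isUnit_iff_isUnit_det _).1 (posDef_gT K hx).isUnit)
    rw [← hu]
    exact NormedRing.inverse_continuousAt u
  exact h1.comp_continuousWithinAt (f := fun x => (K.g i x)ᵀ) (contOn_gT K i x hx)


variable [Countable A.ι]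

theorem ix_eq {j : A.ι} {x : M} (hx : x ∈ Dj A j) : ix A x = j := by
  by_contra h
  exact Set.disjoint_left.1 (Dj_disjoint (A := A) h) (ix_Dj x) hx

section Meas
variable [MeasurableSpace M] [BorelSpace M]

theorem aesm_ix {U : Set M} (hU : IsOpen U) {f : A.ι → M → ℂ}
    (hf : ∀ j, ContinuousOn (f j) ((A.e j).source ∩ U)) (μ : Measure M) :
    AEStronglyMeasurable (fun x => f (ix A x) x) (μ.restrict U) := by
  have h1 : U = ⋃ j, (Dj A j ∩ U) := by rw [← iUnion_inter, iUnion_Dj, univ_inter]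
  rw [h1, aestronglyMeasurable_iUnion_iff]
  intro j
  have hm : MeasurableSet (Dj A j ∩ U) := (meas_Dj j).inter hU.measurableSet
  have h2 : ContinuousOn (f j) (Dj A j ∩ U) := (hf j).mono fun x hx => ⟨hx.1.1, hx.2⟩
  refine (h2.aestronglyMeasurable hm).congr ?_
  filter_upwards [ae_restrict_mem hm] with x hx
  rw [ix_eq hx.1]

theorem aesm_ix' {f : A.ι → M → ℂ} (hf : ∀ j, ContinuousOn (f j) (A.e j).source) (μ : Measure M) :
    AEStronglyMeasurable (fun x => f (ix A x) x) μ := by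
  have h := aesm_ix (A := A) isOpen_univ (f := f) (fun j => by simpa using hf j) μ
  simpa using h

end Meas

theorem aesm_pi {X ι : Type*} [MeasurableSpace X] [Fintype ι] {μ : Measure X} {f : X → ι → ℂ}
    (h : ∀ a, AEStronglyMeasurable (fun x => f x a) μ) : AEStronglyMeasurable f μ :=
  (aemeasurable_pi_iff.2 fun a => (h a).aemeasurable).aestronglyMeasurable

theorem aesm_toLp {X ι : Type*} [MeasurableSpace X] [Fintype ι] {μ : Measure X} {f : X → ι → ℂ}
    (h : ∀ a, AEStronglyMeasurable (fun x => f x a) μ) :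
    AEStronglyMeasurable (fun x => (WithLp.toLp 2 (f x) : EuclideanSpace ℂ ι)) μ :=
  (PiLp.continuous_toLp 2 _).comp_aestronglyMeasurable (aesm_pi h)

/-! ### frames -/

/-- length of the frame of `N` in the chosen chart -/
def cw (h : HM L) (vol : HM (KB A)⁻¹) (x : M) : ℝ :=
  Real.sqrt (h.w (ix A x) x / vol.w (ix A x) x)

/-- the unitary frame in the chosen chart -/
def Rt (K : Kah A) (x : M) : Mx n := msq ((K.g (ix A x) x)ᵀ)

/-- unitary coordinate of the frame of `N` in the chart `i` -/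
def o1 (h : HM ((KB A)⁻¹ * N)) (vol : HM (KB A)⁻¹) (i : A.ι) (x : M) : ℂ :=
  (cw h vol x : ℂ) * N.g (ix A x) i x

/-- unitary coordinates of the frame of the tangent bundle in the chart `i` -/
def O2 (K : Kah A) (i : A.ι) (x : M) : Mx n := Rt K x * Jm A i (ix A x) x

/-- the contragredient frame -/
def S2 (K : Kah A) (i : A.ι) (x : M) : Mx n := O2 K i x * ((K.g i x)ᵀ)⁻¹

variable (h : HM ((KB A)⁻¹ * N)) (vol : HM (KB A)⁻¹) (K : Kah A)

theorem cw_pos (x : M) : 0 < cw h vol x :=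
  Real.sqrt_pos.2 (div_pos (h.pos _ _ (ix_mem x)) (vol.pos _ _ (ix_mem x)))

theorem o1_ne (i : A.ι) (x : M) : o1 h vol i x ≠ 0 :=
  mul_ne_zero (Complex.ofReal_ne_zero.2 (cw_pos h vol x).ne') (N.ne_zero _ _ _)

theorem ratio_law {i j : A.ι} {x : M} (hx : x ∈ (A.e i).source ∩ (A.e j).source) :
    h.w j x / vol.w j x = ‖N.g i j x‖ ^ 2 * (h.w i x / vol.w i x) := by
  rw [h.tr i j x hx, vol.tr i j x hx, LB.mul_g, norm_mul]
  have h1 : ‖((KB A)⁻¹).g i j x‖ ≠ 0 := norm_ne_zero_iff.2 (((KB A)⁻¹).ne_zero i j x)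
  have h2 := (vol.pos i x hx.1).ne'
  field_simp

theorem o1_sq {i : A.ι} {x : M} (hx : x ∈ (A.e i).source) :
    ‖o1 h vol i x‖ ^ 2 = h.w i x / vol.w i x := by
  rw [ratio_law h vol ⟨ix_mem x, hx⟩, o1, norm_mul, mul_pow, Complex.norm_real, Real.norm_eq_abs,
    sq_abs, cw, Real.sq_sqrt (div_pos (h.pos _ _ (ix_mem x)) (vol.pos _ _ (ix_mem x))).le]
  ring

theorem o1_conj {i : A.ι} {x : M} (hx : x ∈ (A.e i).source) :
    conj (o1 h vol i x) * o1 h vol i x = ((h.w i x / vol.w i x : ℝ) : ℂ) := by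
  rw [mul_comm, Complex.mul_conj, Complex.normSq_eq_norm_sq, o1_sq h vol hx]

theorem o1_ix (x : M) : o1 h vol (ix A x) x = cw h vol x := by rw [o1, N.self, mul_one]

theorem o1_law {i j : A.ι} {x : M} (hx : x ∈ (A.e i).source ∩ (A.e j).source) :
    o1 h vol j x = o1 h vol i x * N.g i j x := by
  rw [o1, o1, mul_assoc, N.mul _ i j x ⟨⟨ix_mem x, hx.1⟩, hx.2⟩]

theorem O2_ix (x : M) : O2 K (ix A x) x = Rt K x := by rw [O2, J_self _ (ix_mem x), mul_one]

theorem O2_law {i j : A.ι} {x : M} (hx : x ∈ (A.e i).source ∩ (A.e j).source) :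
    O2 K j x = O2 K i x * Jm A j i x := by
  rw [O2, O2, mul_assoc, J_mul j i _ ⟨⟨hx.2, hx.1⟩, ix_mem x⟩]

theorem gT_law {i j : A.ι} {x : M} (hx : x ∈ (A.e i).source ∩ (A.e j).source) :
    (K.g i x)ᵀ = (Jm A i j x)ᴴ * (K.g j x)ᵀ * Jm A i j x := by
  rw [K.tr i j x hx, Matrix.transpose_mul, Matrix.transpose_mul, Matrix.transpose_transpose,
    ← mul_assoc]
  rfl

theorem O2_sq {i : A.ι} {x : M} (hx : x ∈ (A.e i).source) :
    (O2 K i x)ᴴ * O2 K i x = (K.g i x)ᵀ := by
  rw [gT_law K ⟨hx, ix_mem x⟩, O2, Matrix.conjTranspose_mul, Rt, msq_herm, mul_assoc,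
    ← mul_assoc (msq _), msq_mul (posDef_gT K (ix_mem x)).posSemidef, mul_assoc]

theorem O2H_S2 {i : A.ι} {x : M} (hx : x ∈ (A.e i).source) : (O2 K i x)ᴴ * S2 K i x = 1 := by
  rw [S2, ← mul_assoc, O2_sq K hx, gT_mul_inv K hx]

theorem S2_O2H {i : A.ι} {x : M} (hx : x ∈ (A.e i).source) : S2 K i x * (O2 K i x)ᴴ = 1 :=
  mul_eq_one_comm.1 (O2H_S2 K hx)

theorem S2H_O2 {i : A.ι} {x : M} (hx : x ∈ (A.e i).source) : (S2 K i x)ᴴ * O2 K i x = 1 := by
  have h1 := congrArg Matrix.conjTranspose (O2H_S2 K hx)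
  rwa [Matrix.conjTranspose_mul, Matrix.conjTranspose_conjTranspose, Matrix.conjTranspose_one] at h1

theorem O2_S2H {i : A.ι} {x : M} (hx : x ∈ (A.e i).source) : O2 K i x * (S2 K i x)ᴴ = 1 :=
  mul_eq_one_comm.1 (S2H_O2 K hx)

theorem S2_sq {i : A.ι} {x : M} (hx : x ∈ (A.e i).source) :
    (S2 K i x)ᴴ * S2 K i x = ((K.g i x)ᵀ)⁻¹ := by
  conv_lhs => rw [S2]
  rw [← mul_assoc]
  change (S2 K i x)ᴴ * O2 K i x * _ = _
  rw [S2H_O2 K hx, one_mul]

theorem S2_gT {i : A.ι} {x : M} (hx : x ∈ (A.e i).source) : S2 K i x * (K.g i x)ᵀ = O2 K i x := by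
  rw [S2, mul_assoc, gT_inv_mul K hx, mul_one]

theorem gT_S2H {i : A.ι} {x : M} (hx : x ∈ (A.e i).source) :
    (K.g i x)ᵀ * (S2 K i x)ᴴ = (O2 K i x)ᴴ := by
  rw [← O2_sq K hx, mul_assoc, O2_S2H K hx, mul_one]

theorem S2_law {i j : A.ι} {x : M} (hx : x ∈ (A.e i).source ∩ (A.e j).source) :
    S2 K j x = S2 K i x * (Jm A i j x)ᴴ := by
  have h1 : (O2 K j x)ᴴ * (S2 K i x * (Jm A i j x)ᴴ) = 1 := by
    rw [O2_law K hx, Matrix.conjTranspose_mul, mul_assoc, ← mul_assoc (O2 K i x)ᴴ, O2H_S2 K hx.1,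
      one_mul, ← Matrix.conjTranspose_mul, J_mul j i j ⟨⟨hx.2, hx.1⟩, hx.2⟩, J_self _ hx.2,
      Matrix.conjTranspose_one]
  calc S2 K j x = S2 K j x * ((O2 K j x)ᴴ * (S2 K i x * (Jm A i j x)ᴴ)) := by rw [h1, mul_one]
    _ = _ := by rw [← mul_assoc, S2_O2H K hx.2, one_mul]

section Meas
variable [MeasurableSpace M] [BorelSpace M]

theorem contOn_cw (j : A.ι) :
    ContinuousOn (fun x => ((Real.sqrt (h.w j x / vol.w j x) : ℝ) : ℂ)) (A.e j).source :=
  Complex.continuous_ofReal.comp_continuousOn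
    (((contOn_smAt (h.sm j)).div (contOn_smAt (vol.sm j))
      fun x hx => (vol.pos j x hx).ne').sqrt)

theorem contOn_msq (j : A.ι) : ContinuousOn (fun x => msq ((K.g j x)ᵀ)) (A.e j).source :=
  continuousOn_msq.comp (contOn_gT K j) fun _ hx => (posDef_gT K hx).posSemidef

theorem aesm_o1 (i : A.ι) (μ : Measure M) :
    AEStronglyMeasurable (o1 h vol i) (μ.restrict (A.e i).source) :=
  aesm_ix (A.e i).open_source
    (f := fun j x => ((Real.sqrt (h.w j x / vol.w j x) : ℝ) : ℂ) * N.g j i x)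
    (fun j => ((contOn_cw h vol j).mono inter_subset_left).mul (contOn_Ng N j i)) μ

theorem aesm_O2 (i : A.ι) (μ : Measure M) (a b : Fin n) :
    AEStronglyMeasurable (fun x => O2 K i x a b) (μ.restrict (A.e i).source) := by
  refine aesm_ix (A.e i).open_source (f := fun j x => (msq ((K.g j x)ᵀ) * Jm A i j x) a b)
    (fun j => ?_) μ
  have h1 : ContinuousOn (fun x => msq ((K.g j x)ᵀ) * Jm A i j x)
      ((A.e j).source ∩ (A.e i).source) :=
    ((contOn_msq K j).mono inter_subset_left).mul (by rw [inter_comm]; exact contOn_Jm i j)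
  exact continuousOn_pi.1 (continuousOn_pi.1 h1 a) b

theorem aesm_S2 (i : A.ι) (μ : Measure M) (a b : Fin n) :
    AEStronglyMeasurable (fun x => S2 K i x a b) (μ.restrict (A.e i).source) := by
  simp only [S2, Matrix.mul_apply]
  refine Finset.aestronglyMeasurable_fun_sum _ fun c _ => (aesm_O2 K i μ a c).mul ?_
  exact (continuousOn_pi.1 (continuousOn_pi.1 (contOn_gTi K i) c) b).aestronglyMeasurable
    (A.e i).open_source.measurableSet

end Meas

end

end Crest.Agent.T223.Hm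
end

-- ▼ part T223/Hm2_77

/-!
# Row 223, module HOER (helper77), part 2: flat charts `Fin n → ℂ`, transfer of integrals
-/

set_option autoImplicit false
set_option linter.unusedSectionVars false

open Set Filter Topology Complex Matrix MeasureTheory
open scoped ContDiff Matrix ComplexConjugate ComplexOrder ENNReal

namespace Crest.Agent.T223.Hm

open Crest.Agent.R275 Crest.Agent.R275.Geo Crest.Agent.R275.Core144
open Crest.Agent.R275.OmT75 (dl dl_chain db_chain)
open Crest.Agent.R273.Defs_333 Crest.Agent.R273.Kah_333 Crest.Agent.R273.Vm_333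
open Crest.Agent.R275.C1d194 (Ui rc_eq rcL)

noncomputable section

variable {n : ℕ} {M : Type} [TopologicalSpace M] {A : Atl n M} {N L : LB A}

/-- real coordinates to complex coordinates -/
def kap {n : ℕ} (y : RI n → ℝ) : Fin n → ℂ := fun a => (y (a, 0) : ℂ) + (y (a, 1) : ℂ) * I

theorem mp_curry (n : ℕ) : MeasurePreserving (MeasurableEquiv.curry (Fin n) (Fin 2) ℝ)
    (volume : Measure (RI n → ℝ)) (volume : Measure (Fin n → Fin 2 → ℝ)) := by
  have h : MeasurePreserving (MeasurableEquiv.curry (Fin n) (Fin 2) ℝ).symm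
      (volume : Measure (Fin n → Fin 2 → ℝ)) (volume : Measure (RI n → ℝ)) := by
    refine ⟨(MeasurableEquiv.curry (Fin n) (Fin 2) ℝ).symm.measurable, ?_⟩
    symm
    refine Measure.pi_eq fun s hs => ?_
    rw [(MeasurableEquiv.curry (Fin n) (Fin 2) ℝ).symm.map_apply]
    have h1 : (MeasurableEquiv.curry (Fin n) (Fin 2) ℝ).symm ⁻¹' (Set.pi univ s) =
        Set.pi univ fun a => Set.pi univ fun b => s (a, b) := by
      ext f
      simp [MeasurableEquiv.coe_curry_symm, Function.uncurry]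
    rw [h1, volume_pi_pi]
    simp only [volume_pi_pi]
    exact (Fintype.prod_prod_type fun p => volume (s p)).symm
  exact h.symm _

theorem mp_kap (n : ℕ) : MeasurePreserving (kap : (RI n → ℝ) → (Fin n → ℂ)) volume volume := by
  have h1 : MeasurePreserving (fun (f : Fin n → Fin 2 → ℝ) (a : Fin n) =>
      Complex.measurableEquivPi.symm (f a)) volume volume :=
    volume_preserving_pi fun _ => Complex.volume_preserving_equiv_pi.symm _
  have h2 := h1.comp (mp_curry n)
  have h3 : (fun (f : Fin n → Fin 2 → ℝ) (a : Fin n) =>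
      Complex.measurableEquivPi.symm (f a)) ∘ (MeasurableEquiv.curry (Fin n) (Fin 2) ℝ) = kap := by
    funext y a
    simp [kap, MeasurableEquiv.coe_curry, Function.curry, Complex.measurableEquivPi_symm_apply]
  rwa [h3] at h2

theorem me_kap (n : ℕ) : MeasurableEmbedding (kap : (RI n → ℝ) → (Fin n → ℂ)) := by
  have hm : Measurable (fun ζ : Fin n → ℂ => rc (WithLp.toLp 2 ζ : Cn n)) := by
    rw [rc_eq]
    exact ((rcL n).continuous.comp (PiLp.continuous_toLp 2 _)).measurable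
  have h1 : ∀ y : RI n → ℝ, rc (WithLp.toLp 2 (kap y) : Cn n) = y := fun y => rc_cc y
  have h2 : ∀ ζ : Fin n → ℂ, kap (rc (WithLp.toLp 2 ζ : Cn n)) = ζ := fun ζ => by
    change WithLp.ofLp (cc (rc (WithLp.toLp 2 ζ : Cn n))) = ζ
    rw [cc_rc]
  exact (MeasurableEquiv.mk ⟨kap, fun ζ => rc (WithLp.toLp 2 ζ : Cn n), h1, h2⟩
    (mp_kap n).measurable hm).measurableEmbedding

/-- flat coordinates of a point -/
def cz (A : Atl n M) (i : A.ι) (x : M) : Fin n → ℂ := WithLp.ofLp (A.e i x)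

/-- the point with given flat coordinates -/
def sz (A : Atl n M) (i : A.ι) (z : Fin n → ℂ) : M := (A.e i).symm (WithLp.toLp 2 z)

/-- the flat domain of a chart -/
def Tz (A : Atl n M) (i : A.ι) : Set (Fin n → ℂ) := {z | (WithLp.toLp 2 z : Cn n) ∈ (A.e i).target}

variable {i : A.ι}

theorem isOpen_Tz (i : A.ι) : IsOpen (Tz A i) :=
  (A.e i).open_target.preimage (PiLp.continuous_toLp 2 _)

theorem sz_mem {z : Fin n → ℂ} (hz : z ∈ Tz A i) : sz A i z ∈ (A.e i).source :=
  (A.e i).map_target hz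

theorem cz_mem {x : M} (hx : x ∈ (A.e i).source) : cz A i x ∈ Tz A i := (A.e i).map_source hx

theorem sz_cz {x : M} (hx : x ∈ (A.e i).source) : sz A i (cz A i x) = x := (A.e i).left_inv hx

theorem cz_sz {z : Fin n → ℂ} (hz : z ∈ Tz A i) : cz A i (sz A i z) = z := by
  unfold cz sz
  rw [(A.e i).right_inv hz]

theorem contOn_sz (i : A.ι) : ContinuousOn (sz A i) (Tz A i) :=
  (A.e i).continuousOn_symm.comp (PiLp.continuous_toLp 2 _).continuousOn fun _ hz => hz

theorem contOn_cz (i : A.ι) : ContinuousOn (cz A i) (A.e i).source :=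
  (PiLp.continuous_ofLp 2 _).comp_continuousOn (A.e i).continuousOn

theorem contDiff_toLp : ContDiff ℝ ∞ (fun z : Fin n → ℂ => (WithLp.toLp 2 z : Cn n)) :=
  (PiLp.continuousLinearEquiv 2 ℝ (fun _ : Fin n => ℂ)).symm.contDiff

theorem contDiff_ofLp : ContDiff ℝ ∞ (fun z : Cn n => (WithLp.ofLp z : Fin n → ℂ)) :=
  (PiLp.continuousLinearEquiv 2 ℝ (fun _ : Fin n => ℂ)).contDiff

theorem smAt_flat {W : Type*} [NormedAddCommGroup W] [NormedSpace ℝ W] {f : M → W}
    (hf : A.SmAt i f) : ContDiffOn ℝ ∞ (fun z => f (sz A i z)) (Tz A i) :=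
  ContDiffOn.comp (g := fun z => f ((A.e i).symm z)) hf contDiff_toLp.contDiffOn fun _ hz => hz

variable [Countable A.ι] [MeasurableSpace M] [BorelSpace M] (vol : HM (KB A)⁻¹)

/-- the density in flat coordinates -/
def rz (i : A.ι) (z : Fin n → ℂ) : ℝ≥0∞ := ENNReal.ofReal (vol.w i (sz A i z))

/-- the flat measure -/
def nz (i : A.ι) : Measure (Fin n → ℂ) := (volume.restrict (Tz A i)).withDensity (rz vol i)

theorem contOn_vz (i : A.ι) : ContinuousOn (fun z => vol.w i (sz A i z)) (Tz A i) :=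
  (smAt_flat (vol.sm i)).continuousOn

theorem aem_rz (i : A.ι) : AEMeasurable (rz vol i) (volume.restrict (Tz A i)) :=
  ((contOn_vz vol i).aemeasurable (isOpen_Tz i).measurableSet).ennreal_ofReal

theorem nz_ac (i : A.ι) : nz vol i ≪ volume.restrict (Tz A i) :=
  withDensity_absolutelyContinuous _ _

theorem ac_nz (i : A.ι) : volume.restrict (Tz A i) ≪ nz vol i := by
  refine withDensity_absolutelyContinuous' (aem_rz vol i) ?_
  filter_upwards [ae_restrict_mem (isOpen_Tz i).measurableSet] with z hz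
  exact (ENNReal.ofReal_pos.2 (vol.pos i _ (sz_mem hz))).ne'

theorem aem_sz (i : A.ι) : AEMeasurable (sz A i) (volume.restrict (Tz A i)) :=
  (contOn_sz i).aemeasurable (isOpen_Tz i).measurableSet

theorem aem_sz' (i : A.ι) : AEMeasurable (sz A i) (nz vol i) := (aem_sz i).mono_ac (nz_ac vol i)

theorem lintegral_nz (i : A.ι) {F : (Fin n → ℂ) → ℝ≥0∞}
    (hF : AEMeasurable F (volume.restrict (Tz A i))) :
    ∫⁻ z, F z ∂(nz vol i) = ∫⁻ z in Tz A i, rz vol i z * F z :=
  lintegral_withDensity_eq_lintegral_mul₀ (aem_rz vol i) hF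

theorem map_sz (i : A.ι) : (nz vol i).map (sz A i) = (vm vol).restrict (A.e i).source := by
  refine Measure.ext_of_lintegral _ fun f hf => ?_
  rw [lintegral_map' hf.aemeasurable (aem_sz' vol i), setLIntegral_vm vol i hf,
    lintegral_nz vol i (F := fun z => f (sz A i z)) (hf.comp_aemeasurable (aem_sz i))]
  have h := (mp_kap n).setLIntegral_comp_preimage_emb (me_kap n)
    (fun z => rz vol i z * f (sz A i z)) (Tz A i)
  exact h.symm

theorem aem_cz (i : A.ι) (μ : Measure M) : AEMeasurable (cz A i) (μ.restrict (A.e i).source) :=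
  (contOn_cz i).aemeasurable (A.e i).open_source.measurableSet

theorem map_cz (i : A.ι) : ((vm vol).restrict (A.e i).source).map (cz A i) = nz vol i := by
  have h1 := aem_cz i (vm vol)
  rw [← map_sz] at h1 ⊢
  rw [AEMeasurable.map_map_of_aemeasurable h1 (aem_sz' vol i)]
  have h2 : (cz A i ∘ sz A i) =ᵐ[nz vol i] id := by
    refine (nz_ac vol i).ae_le ?_
    filter_upwards [ae_restrict_mem (isOpen_Tz i).measurableSet] with z hz
    exact cz_sz hz
  rw [Measure.map_congr h2, Measure.map_id]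

theorem ae_of_flat {p : M → Prop} (h : ∀ᵐ z ∂(volume.restrict (Tz A i)), p (sz A i z)) :
    ∀ᵐ x ∂((vm vol).restrict (A.e i).source), p x := by
  have h1 : ∀ᵐ z ∂(nz vol i), p (sz A i z) := (nz_ac vol i).ae_le h
  rw [← map_cz] at h1
  filter_upwards [ae_of_ae_map (aem_cz i (vm vol)) h1,
    ae_restrict_mem (A.e i).open_source.measurableSet] with x hx hx'
  rwa [sz_cz hx'] at hx


theorem aesm_flat {W : Type*} [TopologicalSpace W] {f : M → W}
    (hf : AEStronglyMeasurable f ((vm vol).restrict (A.e i).source)) :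
    AEStronglyMeasurable (fun z => f (sz A i z)) (volume.restrict (Tz A i)) := by
  rw [← map_sz] at hf
  exact (hf.comp_aemeasurable (aem_sz' vol i)).mono_ac (ac_nz vol i)

theorem lintegral_chart {f : M → ℝ≥0∞} (hf : AEMeasurable f ((vm vol).restrict (A.e i).source)) :
    ∫⁻ x in (A.e i).source, f x ∂(vm vol) = ∫⁻ z in Tz A i, rz vol i z * f (sz A i z) := by
  rw [← map_sz] at hf ⊢
  rw [lintegral_map' hf (aem_sz' vol i),
    lintegral_nz vol i (F := fun z => f (sz A i z))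
      ((hf.comp_aemeasurable (aem_sz' vol i)).mono_ac (ac_nz vol i))]

theorem integral_chart {W : Type*} [NormedAddCommGroup W] [NormedSpace ℝ W] {f : M → W}
    (hf : AEStronglyMeasurable f ((vm vol).restrict (A.e i).source)) :
    ∫ x in (A.e i).source, f x ∂(vm vol) = ∫ z in Tz A i, vol.w i (sz A i z) • f (sz A i z) := by
  rw [← map_sz] at hf ⊢
  rw [integral_map (aem_sz' vol i) hf]
  have h1 : nz vol i = (volume.restrict (Tz A i)).withDensity
      (fun z => ((vol.w i (sz A i z)).toNNReal : ℝ≥0∞)) := rfl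
  rw [h1, integral_withDensity_eq_integral_smul₀]
  · refine setIntegral_congr_fun (isOpen_Tz i).measurableSet fun y hy => ?_
    have h2 : (vol.w i (sz A i y)).toNNReal • f (sz A i y) =
        ((vol.w i (sz A i y)).toNNReal : ℝ) • f (sz A i y) := rfl
    simp only [h2, Real.coe_toNNReal _ (vol.pos i _ (sz_mem hy)).le]
  · exact ((contOn_vz vol i).aemeasurable (isOpen_Tz i).measurableSet).real_toNNReal

theorem e2 {X Y : Type*} [MeasurableSpace X] [NormedAddCommGroup Y] (φ : X → Y)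
    (μ : Measure X) : eLpNorm φ 2 μ = (∫⁻ x, ‖φ x‖ₑ ^ 2 ∂μ) ^ (1 / 2 : ℝ) := by
  rw [eLpNorm_eq_lintegral_rpow_enorm_toReal (by norm_num) (by norm_num)]
  simp

/-- comparison of `L²` norms, manifold to flat -/
theorem flat_le {W W' : Type*} [NormedAddCommGroup W] [NormedAddCommGroup W'] {f : M → W}
    (hf : AEStronglyMeasurable f (vm vol)) {F : (Fin n → ℂ) → W'} {c : ℝ} (hc : 0 ≤ c)
    (h0 : ∀ z ∉ Tz A i, F z = 0)
    (h1 : ∀ z ∈ Tz A i, ‖F z‖ ^ 2 ≤ c ^ 2 * (vol.w i (sz A i z) * ‖f (sz A i z)‖ ^ 2)) :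
    eLpNorm F 2 volume ≤ ENNReal.ofReal c * eLpNorm f 2 (vm vol) := by
  have h2 : ∫⁻ z, ‖F z‖ₑ ^ 2 ≤ ENNReal.ofReal c ^ 2 * ∫⁻ x, ‖f x‖ₑ ^ 2 ∂(vm vol) := by
    calc ∫⁻ z, ‖F z‖ₑ ^ 2 = ∫⁻ z in Tz A i, ‖F z‖ₑ ^ 2 := by
          symm
          refine setLIntegral_eq_of_support_subset fun z hz => ?_
          by_contra h
          exact hz (by simp [h0 z h])
      _ ≤ ∫⁻ z in Tz A i, ENNReal.ofReal c ^ 2 * (rz vol i z * ‖f (sz A i z)‖ₑ ^ 2) := by
          refine setLIntegral_mono' (isOpen_Tz i).measurableSet fun z hz => ?_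
          rw [← ofReal_norm, ← ofReal_norm, rz, ← ENNReal.ofReal_pow hc,
            ← ENNReal.ofReal_pow (norm_nonneg _), ← ENNReal.ofReal_pow (norm_nonneg _),
            ← ENNReal.ofReal_mul (vol.pos i _ (sz_mem hz)).le,
            ← ENNReal.ofReal_mul (by positivity)]
          exact ENNReal.ofReal_le_ofReal (h1 z hz)
      _ = ENNReal.ofReal c ^ 2 * ∫⁻ x in (A.e i).source, ‖f x‖ₑ ^ 2 ∂(vm vol) := by
          rw [lintegral_const_mul' _ _ (by simp), lintegral_chart vol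
            (hf.restrict.enorm.pow_const 2)]
      _ ≤ _ := by gcongr; exact Measure.restrict_le_self
  rw [e2, e2]
  calc _ ≤ (ENNReal.ofReal c ^ 2 * ∫⁻ x, ‖f x‖ₑ ^ 2 ∂(vm vol)) ^ (1 / 2 : ℝ) := by gcongr
    _ = _ := by
      rw [ENNReal.mul_rpow_of_nonneg _ _ (by norm_num), ← ENNReal.rpow_natCast, ← ENNReal.rpow_mul]
      norm_num

/-- comparison of `L²` norms, flat to manifold -/
theorem le_flat {W W' : Type*} [NormedAddCommGroup W] [NormedAddCommGroup W'] {f : M → W}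
    (hf : AEStronglyMeasurable f (vm vol)) {F : (Fin n → ℂ) → W'} {c : ℝ} (hc : 0 ≤ c)
    (h0 : ∀ x ∉ (A.e i).source, f x = 0)
    (h1 : ∀ z ∈ Tz A i, vol.w i (sz A i z) * ‖f (sz A i z)‖ ^ 2 ≤ c ^ 2 * ‖F z‖ ^ 2) :
    eLpNorm f 2 (vm vol) ≤ ENNReal.ofReal c * eLpNorm F 2 volume := by
  have h2 : ∫⁻ x, ‖f x‖ₑ ^ 2 ∂(vm vol) ≤ ENNReal.ofReal c ^ 2 * ∫⁻ z, ‖F z‖ₑ ^ 2 := by
    calc ∫⁻ x, ‖f x‖ₑ ^ 2 ∂(vm vol) = ∫⁻ x in (A.e i).source, ‖f x‖ₑ ^ 2 ∂(vm vol) := by
          symm
          refine setLIntegral_eq_of_support_subset fun z hz => ?_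
          by_contra h
          exact hz (by simp [h0 z h])
      _ = ∫⁻ z in Tz A i, rz vol i z * ‖f (sz A i z)‖ₑ ^ 2 :=
          lintegral_chart vol (hf.restrict.enorm.pow_const 2)
      _ ≤ ∫⁻ z in Tz A i, ENNReal.ofReal c ^ 2 * ‖F z‖ₑ ^ 2 := by
          refine setLIntegral_mono' (isOpen_Tz i).measurableSet fun z hz => ?_
          rw [← ofReal_norm, ← ofReal_norm, rz, ← ENNReal.ofReal_pow hc,
            ← ENNReal.ofReal_pow (norm_nonneg _), ← ENNReal.ofReal_pow (norm_nonneg _),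
            ← ENNReal.ofReal_mul (vol.pos i _ (sz_mem hz)).le,
            ← ENNReal.ofReal_mul (by positivity)]
          exact ENNReal.ofReal_le_ofReal (h1 z hz)
      _ ≤ _ := by
          rw [lintegral_const_mul' _ _ (by simp)]
          gcongr; exact Measure.restrict_le_self
  rw [e2, e2]
  calc _ ≤ (ENNReal.ofReal c ^ 2 * ∫⁻ z, ‖F z‖ₑ ^ 2) ^ (1 / 2 : ℝ) := by gcongr
    _ = _ := by
      rw [ENNReal.mul_rpow_of_nonneg _ _ (by norm_num), ← ENNReal.rpow_natCast, ← ENNReal.rpow_mul]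
      norm_num

end

end Crest.Agent.T223.Hm
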