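import Crest.Agent.T223.OsKitA_61
import Crest.Agent.T223.FrB_38
import Crest.Agent.T223.EvC_41
import Crest.Agent.T223.Bx_45
import Crest.Agent.T223.TrTr_90

-- ▼ part T223/OsAsmA_21
section

/-!
# Row 223, module OSG (helper21), assembly, part A: `LipOn` from `gsq`, congruence and jump of the
invariant, restrictions
-/

set_option autoImplicit false
set_option linter.unusedVariables false
set_option linter.unusedSectionVars false

open Set Filter Topology Metric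
open scoped ContDiff ComplexConjugate Matrix ComplexOrder

namespace Crest.Agent.T223.Os

open Crest.Agent.R275.Geo Crest.Agent.R273.Kah_333 Crest.Agent.R273.Hess_333
open Crest.Agent.R273.HessB_333 (hess_congr)
open Crest.Agent.T223.Br Crest.Agent.T223.Tr
open Crest.Agent.T223.Db (dom SmST)

noncomputable section

variable {n : ℕ}

/-! ### `gsq` bounds the differential -/

theorem fderiv_sq_le_gsq {G : Mat n} (hG : G.PosDef) {φ : Cn n → ℝ} {z : Cn n}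
    (hd : DifferentiableAt ℝ φ z) (v : Cn n) :
    fderiv ℝ φ z v ^ 2 ≤ 4 * nqi G (dz φ z) * nq G v := by
  set ξ := dz φ z with hξ
  set η : Cn n := WithLp.toLp 2 fun b => conj (∑ c, G c b * v c) with hη
  have hu : IsUnit G.det := (Matrix.isUnit_iff_isUnit_det G).1 hG.isUnit
  have h1 : ∀ a, ∑ b, G⁻¹ b a * conj (η b) = v a := by
    intro a
    have h3 : ∑ b, G⁻¹ b a * conj (η b) = ∑ c, (G * G⁻¹) c a * v c := by
      simp only [hη, Complex.conj_conj, Finset.mul_sum, Matrix.mul_apply, Finset.sum_mul]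
      rw [Finset.sum_comm]
      exact Finset.sum_congr rfl fun d _ => Finset.sum_congr rfl fun a _ => by ring
    rw [h3, Matrix.mul_nonsing_inv _ hu]
    simp [Matrix.one_apply]
  have h2 : ∀ ζ : Cn n, Bx.ipi G ζ η = (∑ a, v a * ζ a).re := by
    intro ζ
    rw [Bx.ipi_eq]
    congr 1
    refine Finset.sum_congr rfl fun a _ => ?_
    rw [← h1 a, Finset.sum_mul]
    exact Finset.sum_congr rfl fun b _ => by ring
  have h3 : nqi G η = nq G v := by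
    rw [← Bx.ipi_self, h2, ← Complex.conj_re]
    unfold nq
    congr 1
    rw [map_sum, Finset.sum_comm]
    refine Finset.sum_congr rfl fun a _ => ?_
    simp only [hη, map_mul, Complex.conj_conj, Finset.mul_sum]
    exact Finset.sum_congr rfl fun b _ => by ring
  have h4 := Bx.ipi_sq_le hG ξ η
  rw [h2, h3] at h4
  rw [fderiv_eq_wd hd]
  have h5 : (∑ k, v k * Crest.Agent.R275.EDR890.wd (false, k) (cu φ) z).re = (∑ a, v a * ξ a).re :=
    rfl
  rw [h5]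
  nlinarith

theorem abs_fderiv_le_of_gsq {g : Cn n → Mat n} {φ : Cn n → ℝ} {z : Cn n} (hG : (g z).PosDef)
    (hd : DifferentiableAt ℝ φ z) {c : ℝ} (hc : 0 ≤ c) (h : 4 * gsq g φ z ≤ c ^ 2) (v : Cn n) :
    |fderiv ℝ φ z v| ≤ c * Real.sqrt (nq (g z) v) := by
  have h1 := fderiv_sq_le_gsq hG hd v
  have h2 : 0 ≤ nq (g z) v := Ev.nq_nonneg hG.posSemidef v
  refine abs_le_of_sq_le_sq' ?_ (by positivity) |> abs_le.2
  rw [mul_pow, Real.sq_sqrt h2]
  exact h1.trans (mul_le_mul_of_nonneg_right h h2)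

theorem exists_nq_lower {G : Mat n} (hG : G.PosDef) :
    ∃ m : ℝ, 0 < m ∧ ∀ v : Cn n, m * ‖v‖ ≤ Real.sqrt (nq G v) := by
  have hc : Continuous fun v : Cn n => nq G v := by
    unfold nq
    fun_prop
  have hs : ∀ (c : ℝ) (v : Cn n), nq G ((c : ℂ) • v) = c ^ 2 * nq G v := by
    intro c v
    unfold nq
    rw [← Complex.re_ofReal_mul]
    congr 1
    simp only [PiLp.smul_apply, smul_eq_mul, map_mul, Complex.conj_ofReal, Finset.mul_sum]
    refine Finset.sum_congr rfl fun a _ => Finset.sum_congr rfl fun b _ => ?_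
    push_cast; ring
  rcases (sphere (0 : Cn n) 1).eq_empty_or_nonempty with he | hne
  · refine ⟨1, one_pos, fun v => ?_⟩
    by_cases hv : v = 0
    · simp [hv]
    · exfalso
      have : ((‖v‖⁻¹ : ℝ) : ℂ) • v ∈ sphere (0 : Cn n) 1 := by
        rw [mem_sphere_zero_iff_norm, norm_smul, Complex.norm_real, norm_inv, norm_norm,
          inv_mul_cancel₀ (norm_ne_zero_iff.2 hv)]
      rw [he] at this
      exact this
  obtain ⟨w, hw, hmin⟩ := (isCompact_sphere (0 : Cn n) 1).exists_isMinOn hne hc.continuousOn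
  have hw0 : w ≠ 0 := by
    rintro rfl
    simp at hw
  have hp : 0 < nq G w := Ev.nq_pos hG hw0
  refine ⟨Real.sqrt (nq G w), Real.sqrt_pos.2 hp, fun v => ?_⟩
  by_cases hv : v = 0
  · simp [hv]
  have hn : 0 < ‖v‖ := norm_pos_iff.2 hv
  have h1 : ((‖v‖⁻¹ : ℝ) : ℂ) • v ∈ sphere (0 : Cn n) 1 := by
    rw [mem_sphere_zero_iff_norm, norm_smul, Complex.norm_real, norm_inv, norm_norm,
      inv_mul_cancel₀ hn.ne']
  have h2 : nq G w ≤ (‖v‖⁻¹) ^ 2 * nq G v := by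
    rw [← hs]; exact hmin h1
  refine Real.le_sqrt_of_sq_le ?_
  rw [mul_pow, Real.sq_sqrt hp.le]
  have h3 := mul_le_mul_of_nonneg_right h2 (sq_nonneg ‖v‖)
  have h4 : ‖v‖⁻¹ ^ 2 * nq G v * ‖v‖ ^ 2 = nq G v := by field_simp
  linarith

variable {M : Type} [TopologicalSpace M] {A : Atl n M}

/-- `LipOn` from a bound for `gsq` in every chart -/
theorem lipOn_of_gsq {G : MF A} {U : Set M} {ρ : M → ℝ} {c : ℝ} (hc : 0 ≤ c)
    (h : ∀ i, ∀ x ∈ (A.e i).source, x ∈ U → (G i (A.e i x)).PosDef ∧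
      DifferentiableAt ℝ (inC A i ρ) (A.e i x) ∧ 4 * gsq (G i) (inC A i ρ) (A.e i x) ≤ c ^ 2) :
    LipOn G U c ρ := by
  intro i x hi hx ε hε
  obtain ⟨hp, hd, hg⟩ := h i x hi hx
  obtain ⟨m, hm, hm'⟩ := exists_nq_lower hp
  have h1 := hd.hasFDerivAt.isLittleO.def (mul_pos hε hm)
  filter_upwards [h1] with w hw
  have h2 := abs_fderiv_le_of_gsq hp hd hc hg (w - A.e i x)
  have h3 := mul_le_mul_of_nonneg_left (hm' (w - A.e i x)) hε.le
  rw [Real.norm_eq_abs, inC_apply ρ hi] at hw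
  have h4 := abs_add_le (inC A i ρ w - ρ x - fderiv ℝ (inC A i ρ) (A.e i x) (w - A.e i x))
    (fderiv ℝ (inC A i ρ) (A.e i x) (w - A.e i x))
  rw [sub_add_cancel] at h4
  nlinarith

theorem Gr_chart {G : MF A} {U : Set M} (hG : KahOn G U) (hU : IsOpen U) {f : M → ℝ}
    (hf : SmOn A U f) {i : A.ι} {x : M} (hi : x ∈ (A.e i).source) (hx : x ∈ U) :
    gsq (G i) (inC A i f) (A.e i x) = Gr G f x :=
  hG.tr.gsq_indep hi (ch_mem A x) hx
    ((hf.contDiffAt hU (ch_mem A x) hx).differentiableAt (by simp))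

theorem Sc_chart {G : MF A} {U : Set M} (hG : KahOn G U) (hU : IsOpen U) {i : A.ι} {x : M}
    (hi : x ∈ (A.e i).source) (hx : x ∈ U) : scal (G i) (A.e i x) = Sc G x :=
  hG.scal_indep hi (ch_mem A x) (hU.mem_nhds hx)

theorem lipOn_of_Gr {G : MF A} {U O : Set M} (hG : KahOn G U) (hU : IsOpen U) {ρ : M → ℝ}
    (hρ : SmOn A U ρ) (hO : O ⊆ U) {c : ℝ} (hc : 0 ≤ c) (h : ∀ x ∈ O, 4 * Gr G ρ x ≤ c ^ 2) :
    LipOn G O c ρ :=
  lipOn_of_gsq hc fun i x hi hx => ⟨(hG.kah i x hi (hO hx)).posDef,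
    (hρ.contDiffAt hU hi (hO hx)).differentiableAt (by simp), by
      rw [Gr_chart hG hU hρ hi (hO hx)]; exact h x hx⟩

/-! ### congruence -/

theorem scal_congr' {g h : Cn n → Mat n} {z : Cn n} (e : g =ᶠ[𝓝 z] h) : scal g =ᶠ[𝓝 z] scal h :=
  e.eventually_nhds.mono fun w hw => by
    have hw' : g =ᶠ[𝓝 w] h := hw
    simp only [scal, ric_congr hw', hw'.self_of_nhds]

theorem lyhS_congr21 {g h : Cn n → Mat n} {z : Cn n} (e : g =ᶠ[𝓝 z] h) (τ : ℝ) (c : ℂ)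
    (a v : Cn n) : lyhS g τ z c a v = lyhS h τ z c a v := by
  have h1 : ∀ k, nabRic g z k = nabRic h z k := fun k => by
    unfold nabRic
    rw [T223.wdM_congr (ric_congr' e), T223.wdM_congr e, e.self_of_nhds, ric_congr e]
  have h2 : bis g z v a = bis h z v a := by
    unfold bis
    simp only [Rm_congr e]
  unfold lyhS
  rw [hess_congr (scal_congr' e), ric_congr e, e.self_of_nhds, h2]
  simp only [h1]

theorem EqF.ev21 {G G' : MF A} {U : Set M} (h : EqF G G' U) (hU : IsOpen U) {i : A.ι} {x : M}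
    (hi : x ∈ (A.e i).source) (hx : x ∈ U) : G i =ᶠ[𝓝 (A.e i x)] G' i := by
  filter_upwards [ev_chart hi (hU.mem_nhds hx)] with w hw
  obtain ⟨y, hy, rfl, -, hyU⟩ := hw
  exact h i y hy hyU

theorem inC_ev21 {f f' : M → ℝ} {U : Set M} (h : ∀ x ∈ U, f x = f' x) (hU : IsOpen U) {i : A.ι}
    {x : M} (hi : x ∈ (A.e i).source) (hx : x ∈ U) : inC A i f =ᶠ[𝓝 (A.e i x)] inC A i f' := by
  filter_upwards [ev_chart hi (hU.mem_nhds hx)] with w hw
  obtain ⟨y, hy, rfl, -, hyU⟩ := hw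
  rw [inC_apply f hy, inC_apply f' hy, h y hyU]


section congr

variable {G G' : MF A} {U : Set M} (h : EqF G G' U) (hU : IsOpen U) {x : M} (hx : x ∈ U)
include h hU hx

theorem Sc_congr : Sc G x = Sc G' x := (scal_congr' (h.ev21 hU (ch_mem A x) hx)).self_of_nhds

theorem lv_congr (K0 : Kah A) : lv K0 G x = lv K0 G' x := by
  unfold lv lvol ldet
  rw [h _ x (ch_mem A x) hx]

theorem Gr_congr {f f' : M → ℝ} (hf : ∀ x ∈ U, f x = f' x) : Gr G f x = Gr G' f' x := by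
  unfold Gr gsq
  rw [h _ x (ch_mem A x) hx, Bx.dz_congr (inC_ev21 hf hU (ch_mem A x) hx)]

theorem LyhGe.congr {τ κ θ : ℝ} (H : LyhGe G τ κ θ x) : LyhGe G' τ κ θ x := fun i hi c a v => by
  rw [← h i x hi hx, ← lyhS_congr21 (h.ev21 hU hi hx)]
  exact H i hi c a v

theorem HesGe.congr {f f' : M → ℝ} (hf : ∀ x ∈ U, f x = f' x) {c : ℝ} (H : HesGe G f c x) :
    HesGe G' f' c x := fun i hi v => by
  rw [← h i x hi hx, ← ric_congr (h.ev21 hU hi hx), ← hess_congr (inC_ev21 hf hU hi hx)]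
  exact H i hi v

theorem MetLe.congr {c : ℝ} {K0 : Kah A} (H : MetLe G c K0 x) : MetLe G' c K0 x := fun i hi v => by
  rw [← h i x hi hx]
  exact H i hi v

end congr

/-! ### monotonicity -/

theorem LyhGe.mono21 {G : MF A} {τ κ θ κ' θ' : ℝ} {x : M}
    (hp : ∀ i, x ∈ (A.e i).source → (G i (A.e i x)).PosDef) (H : LyhGe G τ κ θ x) (h1 : θ ≤ θ')
    (h2 : θ * κ ≤ θ' * κ') : LyhGe G τ κ' θ' x := fun i hi c a v => by
  refine le_trans (neg_le_neg ?_) (H i hi c a v)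
  have ha : 0 ≤ nq (G i (A.e i x)) a := Ev.nq_nonneg (hp i hi).posSemidef a
  have hv : 0 ≤ nq (G i (A.e i x)) v := Ev.nq_nonneg (hp i hi).posSemidef v
  refine mul_le_mul_of_nonneg_right ?_ hv
  have h3 := mul_le_mul_of_nonneg_right h1 ha
  have h4 := mul_le_mul_of_nonneg_right h2 (sq_nonneg ‖c‖)
  nlinarith

theorem HesGe.mono21 {G : MF A} {f : M → ℝ} {c c' : ℝ} {x : M}
    (hp : ∀ i, x ∈ (A.e i).source → (G i (A.e i x)).PosDef) (H : HesGe G f c x) (h1 : c ≤ c') :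
    HesGe G f c' x := fun i hi v =>
  le_trans (neg_le_neg (mul_le_mul_of_nonneg_right h1
    (Ev.nq_nonneg (hp i hi).posSemidef v))) (H i hi v)

theorem MetLe.mono21 {G : MF A} {c c' : ℝ} {K0 : Kah A} {x : M} (H : MetLe G c K0 x) (h1 : c ≤ c') :
    MetLe G c' K0 x := fun i hi v =>
  (H i hi v).trans (mul_le_mul_of_nonneg_right h1 (Ev.nq_nonneg (K0.pos i x hi).posSemidef v))

theorem LyhGe.bkge' {G : MF A} {τ κ θ : ℝ} {x : M} (H : LyhGe G τ κ θ x) {i : A.ι}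
    (hi : x ∈ (A.e i).source) : BKge (G i) (A.e i x) θ := fun v w => by
  have := H i hi 0 w v
  simp only [lyhS, norm_zero, map_zero, zero_mul, Complex.zero_re, ne_eq, OfNat.ofNat_ne_zero,
    not_false_eq_true, zero_pow, mul_zero, add_zero, zero_add] at this
  linarith [mul_right_comm θ (nq (G i (A.e i x)) v) (nq (G i (A.e i x)) w)]

theorem Good.mono' {G : MF A} {u ρ : M → ℝ} {W W' : Set M} {r Kρ Kρ' : ℝ} {x : M} {ψ : Cn n → M}
    (h : Good G u ρ W r Kρ x ψ) (hW : W ⊆ W') (hK : Kρ ≤ Kρ') (hr : 0 ≤ r) :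
    Good G u ρ W' r Kρ' x ψ :=
  ⟨⟨h.qc.imm, fun w hw => hW (h.qc.maps hw), h.qc.zero, h.qc.ctr, h.qc.lo, h.qc.hi⟩, h.dG, h.du,
    h.dρ1, fun j h1 h2 w hw => (h.dρ j h1 h2 w hw).trans (mul_le_mul_of_nonneg_right hK hr)⟩

theorem FlowOn.mono' {a b a' b' : ℝ} {U U' : Set M} {g : ℝ → MF A} (h : FlowOn a b U g)
    (ha : a ≤ a') (hb : b' ≤ b) (hU : U' ⊆ U) : FlowOn a' b' U' g :=
  ⟨fun i k l => (h.sm i k l).mono (prod_mono (Icc_subset_Icc ha hb) (dom_mono i hU)),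
    fun s hs => (h.kah s (Icc_subset_Icc ha hb hs)).mono hU,
    fun s hs i x hi hx => h.krf s (Ioo_subset_Ioo ha hb hs) i x hi (hU hx)⟩

variable [T2Space M] [ConnectedSpace M] {K0 : Kah A} {p : M} {P : Par} {I : Init K0 p} {a : ℝ}

theorem Inv.congr {G G' : MF A} {u ρ v u' ρ' v' : M → ℝ} {U : Set M} (h : EqF G G' U)
    (hU : IsOpen U) (hu : ∀ x ∈ U, u x = u' x) (hρ : ∀ x ∈ U, ρ x = ρ' x)
    (hv : ∀ x ∈ U, v x = v' x) {s q e : ℝ} {x : M} (hx : x ∈ U)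
    (H : Inv P I a G u ρ v s q x e) : Inv P I a G' u' ρ' v' s q x e := by
  have e1 := lv_congr h hU hx K0
  have e2 := Sc_congr h hU hx
  have e3 := Gr_congr h hU hx hu
  have e4 := Gr_congr h hU hx hρ
  have e5 := hu x hx
  have e6 := hρ x hx
  have e7 := hv x hx
  refine ⟨LyhGe.congr h hU hx H.ia, HesGe.congr h hU hx hu H.ib, ?_, ?_, ?_, ?_, ?_⟩
  · have := H.ic
    unfold IC at *
    rwa [← e4, ← e6]
  · have := H.id
    unfold ID at *
    rwa [← e1, ← e5, ← e6]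
  · have := H.ie
    unfold IE at *
    rw [← e1, ← e7]
    exact ⟨MetLe.congr h hU hx this.1, this.2⟩
  · have := H.if'
    unfold IF Sf at *
    rwa [← e1, ← e6, ← e7]
  · have := H.ig
    unfold IG Phi at *
    rwa [← e2, ← e3, ← e5, ← e6]

/-- the invariant survives a change of scale if the error is multiplied by `16` -/
theorem Inv.jump (hP : P.Ok) {G : MF A} {u ρ v : M → ℝ} {s q q' e e' : ℝ} {x : M}
    (hp : ∀ i, x ∈ (A.e i).source → (G i (A.e i x)).PosDef) (hs : 0 ≤ s) (he : 0 ≤ e)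
    (hq : 0 ≤ q) (hq' : 0 ≤ q') (hqq : q ≤ 4 * q') (hee : 16 * e ≤ e')
    (H : Inv P I a G u ρ v s q x e) : Inv P I a G u ρ v s q' x e' := by
  have h0 : e ≤ e' := by linarith
  have h1 : q * e ≤ q' * e' := by nlinarith [mul_nonneg hq' he]
  have h2 : q * e * q ≤ q' * e' * q' := by
    have h3 : q * q ≤ 4 * q' * (4 * q') := mul_le_mul hqq hqq hq (by positivity)
    have h4 := mul_le_mul_of_nonneg_right h3 he
    have h5 := mul_le_mul_of_nonneg_left hee (mul_nonneg hq' hq')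
    nlinarith
  have hK := hP.K0
  have hK1 := hP.K10
  have hτ := hP.τ_pos hs
  have hCb := hP.Cb0
  have h6 : ∀ c : ℝ, 0 ≤ c → c * e ≤ c * e' := fun c hc => mul_le_mul_of_nonneg_left h0 hc
  refine ⟨?_, ?_, ⟨H.ic.1, ?_⟩, ⟨?_, ?_, fun C' θ hθ => ?_⟩, ⟨?_, ?_, ?_⟩, fun α hα => ⟨fun y => ?_, ?_⟩,
    ?_⟩
  · refine LyhGe.mono21 hp H.ia ?_ ?_
    · nlinarith [mul_le_mul_of_nonneg_left h1 hK.le]
    · nlinarith [mul_le_mul_of_nonneg_left h2 hK.le]
  · refine HesGe.mono21 hp H.ib ?_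
    have : (0 : ℝ) ≤ (n + 1) * P.K := by positivity
    nlinarith [mul_le_mul_of_nonneg_left h1 this]
  · linarith [H.ic.2, h6 _ hK.le]
  · linarith [H.id.1, h6 _ hK1.le]
  · linarith [H.id.2.1, h6 (P.K1 * (1 + P.Cb)) (by positivity)]
  · have := hθ.1
    linarith [H.id.2.2 C' θ hθ, h6 (P.K1 * (1 + C')) (by positivity)]
  · exact H.ie.1.mono21 (Real.exp_le_exp.2 (h6 _ hK1.le))
  · linarith [H.ie.2.1, h6 _ hK1.le]
  · linarith [H.ie.2.2, h6 (P.K1 * (1 + s)) (by positivity)]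
  · linarith [(H.if' α hα).1 y, h6 (P.K1 * (1 + s)) (by positivity)]
  · linarith [(H.if' α hα).2, h6 (P.K1 * (1 + s)) (by positivity)]
  · have h7 := mul_le_mul_of_nonneg_left h1 (mul_pos hK1 hτ).le
    have h8 := H.ig
    unfold IG at *
    nlinarith

end

end Crest.Agent.T223.Os
end

-- ▼ part T223/OsAsmB_21
section

/-!
# Row 223, module OSG (helper21), assembly, part B: the state at a restart, state → step → state
-/

set_option autoImplicit false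
set_option linter.unusedVariables false
set_option linter.unusedSectionVars false

open Set Filter Topology Metric
open scoped ContDiff ComplexConjugate Matrix ComplexOrder

namespace Crest.Agent.T223.Os

open Crest.Agent.R275.Geo Crest.Agent.R273.Kah_333 Crest.Agent.R273.Hess_333
open Crest.Agent.T223.Br Crest.Agent.T223.Tr
open Crest.Agent.T223.Db (dom SmST)

noncomputable section

variable {n : ℕ} {M : Type} [TopologicalSpace M] {A : Atl n M}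
variable [T2Space M] [ConnectedSpace M] {K0 : Kah A} {p : M} {P : Par} {I : Init K0 p} {a : ℝ}

/-- the state at a restart -/
structure St (P : Par) (I : Init K0 p) (a c1 Kρ σ t : ℝ) where
  W : Set M
  G : MF A
  u : M → ℝ
  ρ : M → ℝ
  v : M → ℝ
  op : IsOpen W
  sub : ∀ x ∈ W, I.ρ0 x < a
  kah : KahOn G W
  su : SmOn A W u
  sρ : SmOn A W ρ
  sv : SmOn A W v
  pot : EqF G (gφ K0 (fun _ => v) t) W
  cpt : IsCompact {x | x ∈ W ∧ ρ x ≤ σ + c1 * P.r σ t}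
  good : ∀ x ∈ W, ρ x ≤ σ + c1 * P.r σ t → ∃ ψ, Good G u ρ W (P.r σ t) Kρ x ψ
  inv : ∀ x ∈ W, ρ x ≤ σ + c1 * P.r σ t →
    Inv P I a G u ρ v t (1 / P.r σ t ^ 2) x (min (P.Eb σ t t (ρ x)) 1 / P.J)
  pW : p ∈ W
  pρ : ρ p ≤ σ / 2

/-- the conclusion of `StepStmt` on `M` -/
def StepOn (A : Atl n M) (δ0 C0 Kρ K : ℝ) : Prop :=
  ∀ (G : MF A) (u0 ρ0 : M → ℝ) (W : Set M) (r c t : ℝ), IsOpen W → KahOn G W → SmOn A W u0 →
    SmOn A W ρ0 → 0 < r → IsCompact {x | x ∈ W ∧ ρ0 x ≤ c} →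
    (∀ x ∈ W, ρ0 x ≤ c → ∃ ψ, Good G u0 ρ0 W r Kρ x ψ) →
    ∃ (g : ℝ → MF A) (u ρ φ : ℝ → M → ℝ),
      FlowOn t (t + δ0 * r ^ 2) {x | x ∈ W ∧ ρ0 x < c - C0 * r} g ∧
      HeatOn t (t + δ0 * r ^ 2) {x | x ∈ W ∧ ρ0 x < c - C0 * r} g u ∧
      HeatOn t (t + δ0 * r ^ 2) {x | x ∈ W ∧ ρ0 x < c - C0 * r} g ρ ∧
      PhiOn t (t + δ0 * r ^ 2) {x | x ∈ W ∧ ρ0 x < c - C0 * r} g φ ∧
      EqF (g t) G {x | x ∈ W ∧ ρ0 x < c - C0 * r} ∧
      ∀ x ∈ W, ρ0 x < c - C0 * r → u t x = u0 x ∧ ρ t x = ρ0 x ∧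
        ∀ s ∈ Icc t (t + δ0 * r ^ 2), Crude K r t g u ρ s x

/-- the conclusion of `RenewStmt` on `M` -/
def RenewOn (A : Atl n M) (δ ε0 N Kρ : ℝ) : Prop :=
  ∀ (U : Set M) (g : ℝ → MF A) (u ρ : ℝ → M → ℝ) (t b r c : ℝ), IsOpen U → 0 < r →
    t + δ * r ^ 2 < b → FlowOn t b U g → HeatOn t b U g u → HeatOn t b U g ρ →
    IsCompact {x | x ∈ U ∧ ρ t x ≤ c} →
    (∀ s ∈ Icc t (t + δ * r ^ 2), ∀ x ∈ U, ρ t x ≤ c → BkAbs (g s) (ε0 / r ^ 2) x ∧
      Gr (g s) (u s) x ≤ ε0 / r ^ 2 ∧ Gr (g s) (ρ s) x ≤ 2) →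
    ∀ r' ∈ Icc r (2 * r), ∀ x ∈ U, ρ t x ≤ c - N * r →
      ∃ ψ, Good (g (t + δ * r ^ 2)) (u (t + δ * r ^ 2)) (ρ (t + δ * r ^ 2))
        {x | x ∈ U ∧ ρ t x ≤ c} r' Kρ x ψ

theorem isCompact_sub {Z U : Set M} (hZ : IsCompact Z) {f : M → ℝ} (hf : ContinuousOn f Z) (c : ℝ)
    {Y : Set M} (h : ∀ x, x ∈ Y ↔ x ∈ Z ∧ f x ≤ c) : IsCompact Y := by
  have : Y = Z ∩ f ⁻¹' Iic c := by ext x; exact h x
  rw [this]
  exact hZ.of_isClosed_subset (hf.preimage_isClosed_of_isClosed hZ.isClosed isClosed_Iic)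
    inter_subset_left

theorem isOpen_sub {W : Set M} (hW : IsOpen W) {f : M → ℝ} (hf : ContinuousOn f W) (c : ℝ) :
    IsOpen {x | x ∈ W ∧ f x < c} := hf.isOpen_inter_preimage hW isOpen_Iio

/-- state → step -/
theorem St.toStp (hP : P.Ok) (hC : I.C = P.Cb) {δ0 C0 Kρ σ t : ℝ} (hδ : P.δ < δ0) (hC0 : 0 ≤ C0)
    (hS : StepOn A δ0 C0 Kρ P.K) (hV : SpotStmt n) (ht : 0 ≤ t) (hσ : P.ρs t ≤ σ)
    (X : St P I a (P.K + 2 + C0) Kρ σ t) :
    ∃ S : Stp P I a, S.t = t ∧ S.σ = σ ∧ EqF (S.g t) X.G S.U ∧ p ∈ S.U ∧ S.ρ t p ≤ σ / 2 := by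
  have hσ0 : 0 ≤ σ := by linarith [hP.one_le_ρs ht]
  have hr := hP.r_pos hσ0 ht
  have hK := hP.K0
  set r := P.r σ t with hrdef
  obtain ⟨g, u, ρ, φ, h1, h2, h3, h4, h5, h6⟩ :=
    hS X.G X.u X.ρ X.W r _ t X.op X.kah X.su X.sρ hr X.cpt X.good
  set U := {x | x ∈ X.W ∧ X.ρ x < σ + (P.K + 2 + C0) * r - C0 * r} with hU
  have hUo : IsOpen U := isOpen_sub X.op X.sρ.continuousOn _
  have hUW : U ⊆ X.W := fun x hx => hx.1
  have hlt : t < t + δ0 * r ^ 2 := by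
    have : 0 < δ0 * r ^ 2 := mul_pos (hP.δ0.trans hδ) (by positivity)
    linarith
  obtain ⟨v, hv, hv0⟩ := hV M A K0 t _ U g φ X.v hlt hUo h1 h4 (X.sv.mono hUW)
    (h5.trans (X.pot.mono hUW))
  have hρ0 : ∀ x ∈ U, ρ t x = X.ρ x := fun x hx => (h6 x hx.1 hx.2).2.1
  have hle : σ + (P.K + 1) * r ≤ σ + (P.K + 2 + C0) * r := by nlinarith
  have hp : p ∈ U := ⟨X.pW, by nlinarith [X.pρ]⟩
  refine ⟨⟨t, σ, t + δ0 * r ^ 2, U, g, u, ρ, v, hC, ht, hσ, ?_, hUo, fun x hx => X.sub x hx.1, ?_,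
    h1, h2, h3, hv, fun s hs x hx => (h6 x hx.1 hx.2).2.2 s hs, fun x hx hx' => ?_⟩,
    rfl, rfl, h5, hp, ?_⟩
  · have : P.δ * r ^ 2 < δ0 * r ^ 2 := mul_lt_mul_of_pos_right hδ (by positivity)
    linarith
  · refine isCompact_sub (U := U) X.cpt (X.sρ.continuousOn.mono fun x hx => hx.1)
      (σ + (P.K + 1) * r) fun x => ⟨fun hx => ?_, fun hx => ?_⟩
    · have := hρ0 x hx.1 ▸ hx.2
      exact ⟨⟨hx.1.1, this.trans hle⟩, this⟩
    · have hxU : x ∈ U := ⟨hx.1.1, by nlinarith [hx.2]⟩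
      exact ⟨hxU, by rw [hρ0 x hxU]; exact hx.2⟩
  · rw [hρ0 x hx] at hx' ⊢
    exact (X.inv x hx.1 (hx'.trans hle)).congr h5.symm hUo
      (fun y hy => (h6 y hy.1 hy.2).1.symm) (fun y hy => (hρ0 y hy).symm)
      (fun y hy => (hv0 y hy).symm) hx
  · change ρ t p ≤ σ / 2
    rw [hρ0 p hp]; exact X.pρ

namespace Stp

/-- all conclusions of the leaves -/
def All (S : Stp P I a) : Prop := S.OA ∧ S.OB ∧ S.OC ∧ S.OD ∧ S.OE ∧ S.OF ∧ S.OG ∧ S.OP

variable {S : Stp P I a}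

theorem All.inv (H : S.All) {s : ℝ} (hs : s ∈ Icc S.t S.t') {x : M} (hx : x ∈ S.Kc) :
    Inv P I a (S.g s) (S.u s) (S.ρ s) (S.v s) s S.q x (S.E s x) :=
  ⟨H.1 s hs x hx, H.2.1 s hs x hx, H.2.2.1 s hs x hx, H.2.2.2.1 s hs x hx, H.2.2.2.2.1 s hs x hx,
    H.2.2.2.2.2.1 s hs x hx, H.2.2.2.2.2.2.1 s hs x hx⟩

theorem kahK (hP : P.Ok) {s : ℝ} (hs : s ∈ Icc S.t S.t') : KahOn (S.g s) S.U :=
  S.flow.kah s (mem_Icc hP hs)

theorem posK (hP : P.Ok) {s : ℝ} (hs : s ∈ Icc S.t S.t') {x : M} (hx : x ∈ S.U) (i : A.ι)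
    (hi : x ∈ (A.e i).source) : (S.g s i (A.e i x)).PosDef := ((kahK hP hs).kah i x hi hx).posDef

theorem Gr_nonneg (hP : P.Ok) {s : ℝ} (hs : s ∈ Icc S.t S.t') {x : M} (hx : x ∈ S.U)
    (f : M → ℝ) : 0 ≤ Gr (S.g s) f x := Bx.gsq_nonneg (posK hP hs hx _ (ch_mem A x))

/-- smallness of the curvature and of the gradients deep inside -/
theorem All.small (hn : 1 ≤ n) (hP : P.Ok) (H : S.All) {ε0 e0 : ℝ}
    (hB : 10 * (2 * P.K + 4) ≤ P.B) (hΛ : 4 * P.Λ ≤ ε0 * P.L)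
    (he : (P.K1 + n ^ 2 * P.K) * e0 ≤ ε0 / 2) (he' : P.K * e0 ≤ 1)
    {s : ℝ} (hs : s ∈ Icc S.t S.t') {x : M} (hx : x ∈ S.Kc) (hE : S.E s x ≤ e0) :
    BkAbs (S.g s) (ε0 / S.r ^ 2) x ∧ Gr (S.g s) (S.u s) x ≤ ε0 / S.r ^ 2 ∧
      Gr (S.g s) (S.ρ s) x ≤ 2 := by
  have J := H.inv hs hx
  have hq := S.q_pos hP
  have hτ := hP.τ_pos (nonneg hP hs)
  have hE0 := E_pos (S := S) s x
  have hK := hP.K0
  have hK1 := hP.K10
  have hL := hP.L0
  have hn' : (1 : ℝ) ≤ n := by exact_mod_cast hn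
  have hε : 0 ≤ ε0 := by
    by_contra hc
    push Not at hc
    nlinarith [hP.Λ0]
  have hΨ := hP.Ψ_pos J.ic.1 (nonneg hP hs)
  have h1 : P.Λ * P.Ψ (S.ρ s x) s ≤ ε0 / 2 * (P.τ s * S.q) := by
    have h2 := mul_le_mul_of_nonneg_right hΛ hΨ.le
    have h3 := mul_le_mul_of_nonneg_left (ΛΨ_le hP hs hx J.ic.1 hB) hε
    nlinarith
  have h2 : (P.K1 + n ^ 2 * P.K) * S.E s x ≤ ε0 / 2 :=
    (mul_le_mul_of_nonneg_left hE (by positivity)).trans he
  have hl : 0 ≤ P.K * S.q * S.E s x := by positivity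
  have h3 : -(n ^ 2 * (P.K * S.q * S.E s x)) ≤ Sc (S.g s) x :=
    Ev.scal_ge ((kahK hP hs).kah _ x (ch_mem A x) hx.1) (LyhGe.bkge' J.ia (ch_mem A x))
  have h4 := J.ig
  unfold IG Phi at h4
  have h5 := Gr_nonneg hP hs hx.1 (S.u s)
  have h6 := mul_le_mul_of_nonneg_right h2 (mul_pos hτ hq).le
  have h7 : 0 ≤ 16 * (n : ℝ) * S.u s x ^ 2 := by positivity
  have h8 : 0 ≤ P.τ s * Gr (S.g s) (S.u s) x := by positivity
  have h9 : P.τ s * Gr (S.g s) (S.u s) x ≤ 16 * n * (P.τ s * Gr (S.g s) (S.u s) x) := by nlinarith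
  have h10 := mul_le_mul_of_nonneg_left h3 hτ.le
  rw [S.div_r hP]
  refine ⟨fun i hi => ⟨fun v w => ?_, fun v w => ?_⟩, ?_, ?_⟩
  · refine le_trans (neg_le_neg ?_) (LyhGe.bkge' J.ia hi v w)
    have hv : 0 ≤ nq (S.g s i (A.e i x)) v := Ev.nq_nonneg (posK hP hs hx.1 i hi).posSemidef v
    have hw : 0 ≤ nq (S.g s i (A.e i x)) w := Ev.nq_nonneg (posK hP hs hx.1 i hi).posSemidef w
    refine mul_le_mul_of_nonneg_right (mul_le_mul_of_nonneg_right ?_ hv) hw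
    have h11 : P.K * S.E s x ≤ ε0 := by
      have : P.K * S.E s x ≤ (P.K1 + n ^ 2 * P.K) * S.E s x :=
        mul_le_mul_of_nonneg_right (by nlinarith [hP.KK]) hE0.le
      linarith
    nlinarith
  · refine (Ev.bkle_of_bkge ((kahK hP hs).kah i x hi hx.1) hl (LyhGe.bkge' J.ia hi) v w).trans ?_
    have hv : 0 ≤ nq (S.g s i (A.e i x)) v := Ev.nq_nonneg (posK hP hs hx.1 i hi).posSemidef v
    have hw : 0 ≤ nq (S.g s i (A.e i x)) w := Ev.nq_nonneg (posK hP hs hx.1 i hi).posSemidef w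
    refine mul_le_mul_of_nonneg_right (mul_le_mul_of_nonneg_right ?_ hv) hw
    rw [Sc_chart (kahK hP hs) S.op hi hx.1]
    refine le_of_mul_le_mul_left ?_ hτ
    nlinarith
  · refine le_of_mul_le_mul_left ?_ hτ
    nlinarith
  · have := mul_le_mul_of_nonneg_left hE hK.le
    linarith [J.ic.2]

/-- step → next state -/
theorem All.next (hn : 1 ≤ n) (hP : P.Ok) (H : S.All) {c1 Kρ ε0 N m m0 : ℝ}
    (hR : RenewOn A P.δ ε0 N Kρ) (hc1 : 0 ≤ c1) (hN : 0 ≤ N) (hm : 0 ≤ m)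
    (hB : 10 * (2 * P.K + 4) ≤ P.B) (hΛ : 4 * P.Λ ≤ ε0 * P.L)
    (he : (P.K1 + n ^ 2 * P.K) * Real.exp (P.K + P.V - m) ≤ ε0 / 2)
    (he' : P.K * Real.exp (P.K + P.V - m) ≤ 1)
    (hm0 : m + N + 2 * c1 + P.K + 3 ≤ m0) (hJ : 16 * P.J ≤ Real.exp (m0 - 2 * c1 - P.V))
    (hBm : 10 * m0 ≤ P.B) (hp : p ∈ S.U) (hpρ : S.ρ S.t p ≤ S.σ / 2)
    (hσ' : 2 * (P.B * (1 + S.t')) ≤ S.σ - m0 * S.r) :
    ∃ X : St P I a c1 Kρ (S.σ - m0 * S.r) S.t', X.G = S.g S.t' := by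
  have hr := S.r_pos hP
  have hK := hP.K0
  have ht' : S.t' ∈ Icc S.t S.t' := ⟨(S.t_lt hP).le, le_rfl⟩
  have ht0 : S.t ∈ Icc S.t S.t' := ⟨le_rfl, (S.t_lt hP).le⟩
  have ht'0 := nonneg hP ht'
  have hσ'0 : 0 ≤ S.σ - m0 * S.r := le_trans (by have := hP.B0; positivity) hσ'
  set r' := P.r (S.σ - m0 * S.r) S.t' with hr'
  have hr1 : S.r ≤ r' := hP.r_le_next (S.σ0 hP) S.t0 ht'.1 (S.t'_le hP) (by linarith) hσ'0
  have hr2 : r' ≤ 2 * S.r :=
    hP.next_le_r (S.σ0 hP) S.t0 ht'.1 (S.t'_le hP) (by linarith) hBm (by linarith) hσ'0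
  have hr'0 : 0 < r' := hr.trans_le hr1
  set W := {x | x ∈ S.U ∧ S.ρ S.t x < S.σ + (P.K + 1) * S.r} with hW
  have hsm : ∀ s ∈ Icc S.t S.t', SmOn A S.U (S.ρ s) := fun s hs =>
    smOn_of_SmST S.hρ.sm (mem_Icc hP hs)
  have hWo : IsOpen W := isOpen_sub S.op (hsm _ ht0).continuousOn _
  have hWU : W ⊆ S.U := fun x hx => hx.1
  have hWK : W ⊆ S.Kc := fun x hx => ⟨hx.1, hx.2.le⟩
  have hc1r : c1 * r' ≤ 2 * c1 * S.r := by nlinarith
  have hdeep : ∀ x ∈ S.U, S.ρ S.t' x ≤ S.σ - m0 * S.r + c1 * r' →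
      S.ρ S.t x ≤ S.σ - m * S.r - N * S.r := by
    intro x hx hx'
    have h1 := (abs_le.1 (S.crude _ (mem_Icc hP ht') x hx).oρ).1
    change -(P.K * S.r) ≤ _ at h1
    nlinarith [mul_le_mul_of_nonneg_right hm0 hr.le]
  have hmr : 0 ≤ m * S.r := by positivity
  have hNr : 0 ≤ N * S.r := by positivity
  have hKr : 0 < (P.K + 1) * S.r := by positivity
  have hZ : IsCompact {x | x ∈ S.U ∧ S.ρ S.t x ≤ S.σ - m * S.r} :=
    isCompact_sub (U := S.U) S.cptK ((hsm _ ht0).continuousOn.mono Kc_sub) (S.σ - m * S.r)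
      fun x => ⟨fun hx => ⟨⟨hx.1, by linarith [hx.2]⟩, hx.2⟩, fun hx => ⟨hx.1.1, hx.2⟩⟩
  have hgood := hR S.U S.g S.u S.ρ S.t S.b S.r (S.σ - m * S.r) S.op hr S.lt' S.flow S.hu S.hρ hZ
    (fun s hs x hx hx' => by
      have hxK : x ∈ S.Kc := ⟨hx, by linarith⟩
      refine H.small hn hP hB hΛ he he' hs hxK ?_
      rw [E_le_exp_iff hP]
      have h1 := (abs_le.1 (crudeK hP hs hxK).oρ).2
      have h2 := le_sg hP hs
      linarith) r' ⟨hr1, hr2⟩
  refine ⟨⟨W, S.g S.t', S.u S.t', S.ρ S.t', S.v S.t', hWo, fun x hx => S.sub x hx.1,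
    (kahK hP ht').mono hWU, (smOn_of_SmST S.hu.sm (mem_Icc hP ht')).mono hWU,
    (hsm _ ht').mono hWU, (smOn_of_SmST S.hv.sm (mem_Icc hP ht')).mono hWU,
    (S.hv.pot _ (mem_Icc hP ht')).mono hWU, ?_, fun x hx hx' => ?_, fun x hx hx' => ?_, ?_, ?_⟩,
    rfl⟩
  · refine isCompact_sub (U := S.U) S.cptK ((hsm _ ht').continuousOn.mono Kc_sub)
      (S.σ - m0 * S.r + c1 * r') fun x => ⟨fun hx => ⟨hWK hx.1, hx.2⟩, fun hx => ⟨⟨hx.1.1, ?_⟩, hx.2⟩⟩
    linarith [hdeep x hx.1.1 hx.2]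
  · obtain ⟨ψ, hψ⟩ := hgood x hx.1 (hdeep x hx.1 hx')
    exact ⟨ψ, hψ.mono' (fun y hy => ⟨hy.1, by linarith [hy.2]⟩) le_rfl hr'0.le⟩
  · refine (H.inv ht' (hWK hx)).jump hP (posK hP ht' hx.1) ht'0 (E_pos _ _).le (S.q_pos hP).le
      (by positivity) ?_ ?_
    · unfold q
      rw [mul_one_div, div_le_div_iff₀ (by positivity) (by positivity)]
      nlinarith
    · rw [le_div_iff₀ hP.J0]
      set z := S.ρ S.t' x - (S.σ - m0 * S.r) with hz
      have hz1 : z ≤ 2 * c1 * S.r := by linarith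
      have h1 : S.E S.t' x ≤ Real.exp (z / S.r - m0 + P.V) := by
        rw [E_le_exp_iff hP, add_mul, sub_mul, div_mul_cancel₀ _ hr.ne']
        linarith [le_sg hP ht']
      have h2 : 16 * S.E S.t' x * P.J ≤ Real.exp (z / S.r - 2 * c1) := by
        calc 16 * S.E S.t' x * P.J = 16 * P.J * S.E S.t' x := by ring
          _ ≤ Real.exp (m0 - 2 * c1 - P.V) * Real.exp (z / S.r - m0 + P.V) :=
            mul_le_mul hJ h1 (E_pos _ _).le (Real.exp_pos _).le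
          _ = _ := by rw [← Real.exp_add]; congr 1; ring
      have h3 : z / S.r ≤ 2 * c1 := by rw [div_le_iff₀ hr]; exact hz1
      refine h2.trans (le_min ?_ (Real.exp_le_one_iff.2 (by linarith)))
      unfold Par.Eb
      rw [Real.exp_le_exp, sub_self, mul_zero, zero_div, sub_zero, neg_sub]
      change z / S.r - 2 * c1 ≤ z / r'
      rcases le_total z 0 with h4 | h4
      · have : z / S.r ≤ z / r' := by
          rw [div_le_div_iff₀ hr hr'0]; nlinarith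
        linarith
      · have : 0 ≤ z / r' := by positivity
        linarith
  · exact ⟨hp, by linarith [S.σ0 hP]⟩
  · have := (H.2.2.2.2.2.2.2 hp hpρ _ ht').1
    linarith

theorem deep_small (hP : P.Ok) {η : ℝ} (hη : 0 < η)
    (hσ : 768 * P.K1 * Real.exp P.V / η ≤ S.σ) {s : ℝ} (hs : s ∈ Icc S.t S.t') {x : M}
    (hx : S.ρ s x ≤ S.σ / 2) : P.K1 * S.q ^ 2 * S.E s x ≤ η / 2 := by
  have hr := S.r_pos hP
  have hσ1 : 1 ≤ S.σ := hP.B1.trans (S.B_le_σ hP)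
  have hK1 := hP.K10
  have h1 : S.E s x ≤ Real.exp (P.V - S.σ / 2 / S.r) := by
    rw [E_le_exp_iff hP, sub_mul, div_mul_cancel₀ _ hr.ne']
    linarith [le_sg hP hs]
  have h2 := Real.pow_div_factorial_le_exp (S.σ / 2 / S.r) (by positivity) 4
  have h3 : S.σ * S.q ^ 2 ≤ 384 * Real.exp (S.σ / 2 / S.r) := by
    have h4 : (S.σ / 2 / S.r) ^ 4 / (Nat.factorial 4 : ℕ) = S.σ ^ 4 * S.q ^ 2 / 384 := by
      unfold q
      norm_num [Nat.factorial]
      field_simp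
      norm_num
    rw [h4] at h2
    have h5 : S.σ ≤ S.σ ^ 4 := le_self_pow₀ hσ1 (by norm_num)
    nlinarith [mul_le_mul_of_nonneg_right h5 (sq_nonneg S.q)]
  rw [Real.exp_sub] at h1
  have h6 := Real.exp_pos (S.σ / 2 / S.r)
  have h7 := Real.exp_pos P.V
  rw [le_div_iff₀ h6] at h1
  rw [div_le_iff₀ hη] at hσ
  have hE := E_pos (S := S) s x
  have h8 : S.σ * S.q ^ 2 * S.E s x ≤ 384 * Real.exp P.V := by
    have := mul_le_mul_of_nonneg_right h3 hE.le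
    nlinarith
  refine le_of_mul_le_mul_left ?_ (show 0 < S.σ by linarith)
  have h9 := mul_le_mul_of_nonneg_left h8 hK1.le
  nlinarith

/-- the export of one step -/
theorem All.out (hP : P.Ok) (H : S.All) {η R : ℝ} (hη : 0 < η) (hη1 : η ≤ 1)
    (hB : 4 * P.K ≤ P.B) (hσ : 768 * P.K1 * Real.exp P.V / η ≤ S.σ)
    (hσ' : P.B * (1 + S.t') + P.B * R ≤ S.σ / 2) (hp : p ∈ S.U) (hpρ : S.ρ S.t p ≤ S.σ / 2) :
    {x | dK K0 p x < R} ⊆ S.U ∧
      ∀ s ∈ Icc S.t S.t', Out P I a η {x | dK K0 p x < R} s (S.g s) := by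
  have hB0 := hP.B0
  have key : ∀ s ∈ Icc S.t S.t', ∀ x, dK K0 p x < R →
      P.B * (1 + s) + P.B * dK K0 p x ≤ S.σ / 2 := by
    intro s hs x hx
    have h1 := mul_le_mul_of_nonneg_left hx.le hB0.le
    have h2 := mul_le_mul_of_nonneg_left hs.2 hB0.le
    linarith
  have hP' := H.2.2.2.2.2.2.2 hp hpρ
  have ht0 : S.t ∈ Icc S.t S.t' := ⟨le_rfl, (S.t_lt hP).le⟩
  have hO : {x | dK K0 p x < R} ⊆ S.Kc := fun x hx =>
    ((hP' _ ht0).2.2.1 x (key _ ht0 x hx)).1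
  refine ⟨hO.trans Kc_sub, fun s hs => ⟨S.ρ s, ?_, (hP' s hs).1, (hP' s hs).2.1, fun x hx => ?_⟩⟩
  · refine lipOn_of_Gr (kahK hP hs) S.op (smOn_of_SmST S.hρ.sm (mem_Icc hP hs))
      (hO.trans Kc_sub) hB0.le fun x hx => ?_
    have := (crudeK hP hs (hO hx)).gρ
    nlinarith [hP.B1]
  have hxK := hO hx
  have J := H.inv hs hxK
  have h1 := ((hP' s hs).2.2.1 x (key s hs x hx)).2
  have h2 := h1.trans (key s hs x hx)
  have h3 := deep_small hP hη hσ hs h2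
  have hq := S.one_le_q hP
  have hE := E_pos (S := S) s x
  have hK1 := hP.K10
  have hKK := hP.KK
  have hτ := hP.τ_pos (nonneg hP hs)
  have h4 : P.K1 * S.q * S.E s x ≤ η / 2 := by
    refine le_trans ?_ h3
    exact mul_le_mul_of_nonneg_right (mul_le_mul_of_nonneg_left (by nlinarith) hK1.le) hE.le
  have h5 : P.K1 * S.E s x ≤ η / 2 := by
    refine le_trans ?_ h4
    exact mul_le_mul_of_nonneg_right (by nlinarith) hE.le
  refine ⟨LyhGe.mono21 (posK hP hs hxK.1) J.ia ?_ ?_, J.ie.1.mono21 ?_, J.ic.1, h1,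
    (hP' s hs).2.2.2 x hxK h2, fun C' θ hθ => ?_, ?_⟩
  · nlinarith [mul_le_mul_of_nonneg_right hKK (mul_pos (S.q_pos hP) hE).le]
  · nlinarith [mul_le_mul_of_nonneg_right hKK (mul_pos (pow_pos (S.q_pos hP) 2) hE).le]
  · have h6 := Real.add_one_le_exp (-(P.K1 * S.E s x))
    have h7 := Real.exp_pos (P.K1 * S.E s x)
    have h8 : Real.exp (-(P.K1 * S.E s x)) * Real.exp (P.K1 * S.E s x) = 1 := by
      rw [← Real.exp_add]; simp
    have h9 := mul_le_mul_of_nonneg_right h6 h7.le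
    by_contra hc
    push Not at hc
    nlinarith
  · have h6 := J.id.2.2 C' θ hθ
    have h7 := mul_le_mul_of_nonneg_right (show P.K1 * S.E s x ≤ 1 by linarith)
      (show 0 ≤ 1 + C' by linarith [hθ.1])
    nlinarith
  · have h6 := J.ig
    unfold IG Phi at h6
    have h7 := Gr_nonneg hP hs hxK.1 (S.u s)
    have h8 : 0 ≤ 16 * (n : ℝ) * (P.τ s * Gr (S.g s) (S.u s) x + S.u s x ^ 2) := by positivity
    have h9 := mul_le_mul_of_nonneg_left (show P.K1 * S.q * S.E s x ≤ 1 by linarith) hτ.le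
    nlinarith

end Stp

end

end Crest.Agent.T223.Os
end

-- ▼ part T223/OsAsm_21

/-!
# Row 223, module OSG (helper21), assembly, part C: the start, the induction, `osgStmt`
-/

set_option autoImplicit false
set_option linter.unusedVariables false
set_option linter.unusedSectionVars false

open Set Filter Topology Metric
open scoped ContDiff ComplexConjugate Matrix ComplexOrder

namespace Crest.Agent.T223.Os

open Crest.Agent.R275.Geo Crest.Agent.R273.Kah_333 Crest.Agent.R273.Hess_333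
open Crest.Agent.R273.RMan4_798
open Crest.Agent.T223.Br Crest.Agent.T223.Tr
open Crest.Agent.T223.Db (dom SmST)

noncomputable section

variable {n : ℕ} {M : Type} [TopologicalSpace M] {A : Atl n M}

theorem continuous_of_chart {f : M → ℝ} (F : A.ι → Cn n → ℝ)
    (h1 : ∀ i, ∀ x ∈ (A.e i).source, F i (A.e i x) = f x)
    (h2 : ∀ i, ∀ x ∈ (A.e i).source, ContinuousAt (F i) (A.e i x)) : Continuous f := by
  refine continuous_iff_continuousAt.2 fun x => ?_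
  obtain ⟨i, hi⟩ := A.cover x
  refine ((h2 i x hi).comp ((A.e i).continuousAt hi)).congr ?_
  filter_upwards [(A.e i).open_source.mem_nhds hi] with y hy
  exact h1 i y hy

theorem continuous_Sc0 (K0 : Kah A) : Continuous (Sc (gc K0)) :=
  continuous_of_chart (fun i => scal (gc K0 i))
    (fun i x hi => Sc_chart (kahOn_gc K0 univ) isOpen_univ hi (mem_univ _))
    fun i x hi => (kahAt_gc K0 i ((A.e i).map_source hi)).cd_scal.continuousAt

theorem continuous_Gr0 (K0 : Kah A) {u : M → ℝ} (hu : A.Sm u) : Continuous (Gr (gc K0) u) :=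
  continuous_of_chart (fun i => gsq (gc K0 i) (inC A i u))
    (fun i x hi => Gr_chart (kahOn_gc K0 univ) isOpen_univ (smOn_of_sm hu univ) hi (mem_univ _))
    fun i x hi => by
      have hk := kahAt_gc K0 i ((A.e i).map_source hi)
      exact (cd_slice (F := fun (_ : ℝ) z => gsq (gc K0 i) (inC A i u) z) (t := 0)
        (Cn.cda_gsq (g := fun _ => gc K0 i) (p := ((0 : ℝ), A.e i x))
          (fun a b => cd_static 0 (hk.sm a b)) hk.posDef (u := fun _ => inC A i u)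
          (cd_static 0 (sm_inC hu hi)))).continuousAt

theorem continuous_sm {f : M → ℝ} (h : A.Sm f) : Continuous f :=
  continuousOn_univ.1 (smOn_of_sm h univ).continuousOn

theorem lv_self (K0 : Kah A) (x : M) : lv K0 (gc K0) x = 0 := sub_self _

variable [T2Space M] [ConnectedSpace M] {K0 : Kah A} {p : M}

theorem dK_self' (K0 : Kah A) (x : M) : dK K0 x x = 0 := dist_self (α := (ofKah K0).M) x


theorem dK_tri (K0 : Kah A) (x y z : M) : dK K0 x z ≤ dK K0 x y + dK K0 z y :=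
  dist_triangle_right (α := (ofKah K0).M) x z y

theorem continuous_dK' (K0 : Kah A) (x : M) : Continuous fun y : M => dK K0 x y := by
  have h : Continuous fun y : (ofKah K0).M => dist (α := (ofKah K0).M) x y :=
    continuous_const.dist continuous_id
  exact h

theorem dK_le_zt (K0 : Kah A) (y : M) (α : ℝ) (x : M) : dK K0 y x ≤ zt K0 y α x :=
  Real.le_sqrt_of_sq_le (by nlinarith [sq_nonneg α])

theorem isCompact_ρ0 (H : Hyp K0) (I : Init K0 p) (c : ℝ) : IsCompact {x | I.ρ0 x ≤ c} := by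
  have := H.proper
  have h1 : IsCompact (closedBall (α := (ofKah K0).M) p (c + 1)) := isCompact_closedBall _ _
  have h2 : IsCompact {x : M | dK K0 p x ≤ c + 1} := by
    have e : {x : M | dK K0 p x ≤ c + 1} = closedBall (α := (ofKah K0).M) p (c + 1) :=
      Set.ext fun x => (mem_closedBall' (α := (ofKah K0).M)).symm
    rw [e]
    exact h1
  refine h2.of_isClosed_subset (isClosed_le (continuous_sm I.ρ0_sm) continuous_const) fun x hx => ?_
  have h3 := (abs_le.1 (I.ρ0_near x)).1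
  have h4 : I.ρ0 x ≤ c := hx
  change dK K0 p x ≤ c + 1
  linarith

/-- the invariant at time `0` without error -/
theorem inv_zero {P : Par} (hP : P.Ok) (I : Init K0 p) (hC : I.C = P.Cb) {a q : ℝ} {x : M}
    (hx : I.ρ0 x < a) (h1 : LyhGe (gc K0) P.tA 1 0 x)
    (h2 : Phi (gc K0) (I.u0 a) P.tA x ≤ P.Ψ (I.ρ0 x) 0) :
    Inv P I a (gc K0) (I.u0 a) I.ρ0 (fun _ => 0) 0 q x 0 := by
  have hτ : P.τ 0 = P.tA := zero_add _
  have hn1 := abs_le.1 (I.ρ0_near x)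
  have hpos : ∀ i, x ∈ (A.e i).source → (gc K0 i (A.e i x)).PosDef := fun i hi =>
    (kahAt_gc K0 i ((A.e i).map_source hi)).posDef
  have hS : Sf K0 (gc K0) (fun _ => 0) 0 x = 0 := by simp [Sf]
  refine ⟨?_, fun i hi v => ?_, ⟨I.ρ0_nonneg x, ?_⟩, ⟨?_, ?_, fun C' θ hθ => ?_⟩,
    ⟨fun i hi v => ?_, ?_, ?_⟩, fun α hα => ⟨fun y => ?_, ?_⟩, ?_⟩
  · unfold IA
    rw [hτ]
    exact h1.mono21 hpos (by simp) (by simp)
  · have := (I.u0_pot a).ge i x hi hx v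
    simp only [mul_zero, zero_mul, neg_zero]
    linarith
  · have := I.ρ0_grad _ _ ((A.e (ch A x)).map_source (ch_mem A x))
    simpa [Gr] using this
  · simp [lv_self]
  · have h3 := I.u0_le a x hx.le
    rw [hC] at h3
    have h4 := mul_le_mul_of_nonneg_left (show 1 + dK K0 p x ≤ 2 + I.ρ0 x by linarith) hP.Cb0.le
    simp only [mul_zero, add_zero]
    linarith
  · have h3 := hθ.2.2 x hx.le
    have h4 := mul_le_mul_of_nonneg_left (show 1 + dK K0 p x ≤ 2 + I.ρ0 x by linarith) hθ.1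
    simp only [mul_zero, add_zero, lv_self]
    linarith
  · simp [gc_apply K0 hi]
  · simp [lv_self]
  · simp
  · rw [hS]
    have h3 := dK_tri K0 p x y
    have h4 := dK_le_zt K0 y α x
    simp only [mul_zero]
    linarith
  · rw [hS]
    have h4 := dK_le_zt K0 p α x
    simp only [mul_zero]
    linarith
  · unfold IG
    rw [hτ]
    have h3 := le_mul_of_one_le_left (hP.Ψ_pos (I.ρ0_nonneg x) le_rfl).le hP.Λ1
    simp only [mul_zero, add_zero]
    linarith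

/-- the state at time `0` for a tiny time shift -/
theorem exists_start (H : Hyp K0) (I : Init K0 p) (hG : InitGStmt n) (hL : InitLStmt n)
    {c1 Kρ σ0 : ℝ} (hc1 : 0 ≤ c1) (hK : 4 ≤ Kρ) (hσ : 2 ≤ σ0) :
    ∃ τ1 : ℝ, 0 < τ1 ∧ ∀ P : Par, P.Ok → I.C = P.Cb → P.tA ≤ τ1 →
      Nonempty (St P I (σ0 + c1 + 1) c1 Kρ σ0 0) := by
  set a := σ0 + c1 + 1 with ha
  have hρc := continuous_sm I.ρ0_sm
  have hZ := isCompact_ρ0 H I (σ0 + c1)
  have hWo : IsOpen {x | I.ρ0 x < a} := isOpen_lt hρc continuous_const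
  have hZW : {x | I.ρ0 x ≤ σ0 + c1} ⊆ {x | I.ρ0 x < a} := fun x hx => by
    have : I.ρ0 x ≤ σ0 + c1 := hx
    change I.ρ0 x < a
    linarith
  obtain ⟨r0, hr0, hg⟩ := hG M A K0 (I.u0 a) I.ρ0 _ _ hWo hZ hZW (I.u0_pot a).sm I.ρ0_sm I.ρ0_grad
  obtain ⟨τ0, hτ0, hl⟩ := hL M A K0 _ H.bk hZ
  have hc : Continuous fun x => |Sc (gc K0) x| + 16 * n * (|Gr (gc K0) (I.u0 a) x| + I.u0 a x ^ 2) :=
    (continuous_Sc0 K0).abs.add (continuous_const.mul ((continuous_Gr0 K0 (I.u0_pot a).sm).abs.add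
      ((continuous_sm (I.u0_pot a).sm).pow 2)))
  obtain ⟨C, hC⟩ := hZ.bddAbove_image hc.continuousOn
  refine ⟨min (min (r0 ^ 2) τ0) (Real.exp (-C)), by positivity, fun P hP hPC htA => ?_⟩
  have hσ0 : 0 ≤ σ0 := by linarith
  have hr := hP.r_pos hσ0 le_rfl
  have hr1 := hP.r_le_one hσ0 le_rfl
  have hτ : P.τ 0 = P.tA := zero_add _
  have hrr : P.r σ0 0 ≤ r0 := by
    have h1 := hP.r_sq_le_τ hσ0 le_rfl
    rw [hτ] at h1
    exact (pow_le_pow_iff_left₀ hr.le hr0.le two_ne_zero).1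
      (h1.trans (htA.trans ((min_le_left _ _).trans (min_le_left _ _))))
  have hin : ∀ x, I.ρ0 x ≤ σ0 + c1 * P.r σ0 0 → I.ρ0 x ≤ σ0 + c1 := fun x hx => by nlinarith
  refine ⟨⟨{x | I.ρ0 x < a}, gc K0, I.u0 a, I.ρ0, fun _ => 0, hWo, fun x hx => hx, kahOn_gc K0 _,
    smOn_of_sm (I.u0_pot a).sm _, smOn_of_sm I.ρ0_sm _, fun i => contDiffOn_const, fun i x hi hx => ?_,
    ?_, fun x hx hx' => ?_, fun x hx hx' => ?_, ?_, ?_⟩⟩
  · have : inC A i (fun _ : M => (0 : ℝ)) = fun _ => 0 := rfl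
    simp [gφ, this, Bx.hess_const]
  · exact isCompact_sub (U := univ) hZ hρc.continuousOn (σ0 + c1 * P.r σ0 0)
      fun x => ⟨fun hx => ⟨hin x hx.2, hx.2⟩, fun hx => ⟨hZW hx.1, hx.2⟩⟩
  · obtain ⟨ψ, hψ⟩ := hg _ hr hrr x (hin x hx')
    exact ⟨ψ, hψ.mono' le_rfl hK hr.le⟩
  · have hq : (0 : ℝ) ≤ 1 / P.r σ0 0 ^ 2 := by positivity
    refine (inv_zero hP I hPC hx (hl _ hP.tA0
      (htA.trans ((min_le_left _ _).trans (min_le_right _ _))) x (hin x hx')) ?_).jump hP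
      (fun i hi => (kahAt_gc K0 i ((A.e i).map_source hi)).posDef) le_rfl le_rfl hq hq
      (by linarith) ?_
    · have h1 := hC (mem_image_of_mem _ (hin x hx'))
      have h2 : C ≤ P.ell (I.ρ0 x) 0 := by
        have h3 : 0 ≤ Real.log (I.ρ0 x + P.ρs 0) :=
          Real.log_nonneg (by linarith [hP.one_le_ρs le_rfl, I.ρ0_nonneg x])
        have h4 : C ≤ Real.log (1 + 1 / P.τ 0) := by
          rw [hτ, Real.le_log_iff_exp_le (by have := hP.tA0; positivity)]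
          have h5 := one_div_le_one_div_of_le hP.tA0 (htA.trans (min_le_right _ _))
          rw [Real.exp_neg, one_div, inv_inv] at h5
          linarith
        unfold Par.ell
        linarith [hP.B0]
      have h3 : P.ell (I.ρ0 x) 0 ≤ P.Ψ (I.ρ0 x) 0 := by
        have h4 := hP.B1.trans (hP.B_le_ell (I.ρ0_nonneg x) le_rfl)
        have h5 : 1 ≤ (I.ρ0 x + P.ρs 0) ^ 2 :=
          one_le_pow₀ (by linarith [hP.one_le_ρs le_rfl, I.ρ0_nonneg x])
        unfold Par.Ψ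
        nlinarith
      refine le_trans ?_ (h1.trans (h2.trans h3))
      have h4 : ∀ y : ℝ, P.tA * y ≤ |y| := fun y =>
        (mul_le_mul_of_nonneg_left (le_abs_self y) hP.tA0.le).trans
          (mul_le_of_le_one_left (abs_nonneg y) hP.tA1)
      unfold Phi
      have h5 := mul_le_mul_of_nonneg_left (h4 (Gr (gc K0) (I.u0 a) x))
        (show (0 : ℝ) ≤ 16 * n by positivity)
      nlinarith [h4 (Sc (gc K0) x)]
    · rw [mul_zero]
      exact div_nonneg (le_min (Real.exp_pos _).le zero_le_one) hP.J0.le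
  · have h1 := (abs_le.1 (I.ρ0_near p)).2
    rw [dK_self'] at h1
    change I.ρ0 p < a
    linarith
  · have h1 := (abs_le.1 (I.ρ0_near p)).2
    rw [dK_self'] at h1
    linarith

/-- the induction over the restarts -/
theorem run (hn : 1 ≤ n) {P : Par} (hP : P.Ok) {I : Init K0 p} (hC : I.C = P.Cb) {a : ℝ}
    (hA : ∀ S : Stp P I a, S.All) {δ0 C0 Kρ ε0 N m m0 η R T σ0 Sg : ℝ} (hδ : P.δ < δ0)
    (hC0 : 0 ≤ C0) (hS : StepOn A δ0 C0 Kρ P.K) (hV : SpotStmt n) (hGl : GlueStmt n)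
    (hR : RenewOn A P.δ ε0 N Kρ) (hN : 0 ≤ N) (hm : 0 ≤ m)
    (hB : 10 * (2 * P.K + 4) ≤ P.B) (hΛ : 4 * P.Λ ≤ ε0 * P.L)
    (he : (P.K1 + n ^ 2 * P.K) * Real.exp (P.K + P.V - m) ≤ ε0 / 2)
    (he' : P.K * Real.exp (P.K + P.V - m) ≤ 1)
    (hm0 : m + N + 2 * (P.K + 2 + C0) + P.K + 3 ≤ m0)
    (hJ : 16 * P.J ≤ Real.exp (m0 - 2 * (P.K + 2 + C0) - P.V)) (hBm : 10 * m0 ≤ P.B)
    (hη : 0 < η) (hη1 : η ≤ 1) (hR0 : 0 ≤ R) (hT : 0 ≤ T)
    (hS1 : 768 * P.K1 * Real.exp P.V / η ≤ Sg) (hS2 : 2 * (P.B * (1 + T) + P.B * R) ≤ Sg)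
    (hS3 : P.ρs T ≤ Sg) (X0 : St P I a (P.K + 2 + C0) Kρ σ0 0) (j : ℕ)
    (hj : ∀ i, i ≤ j → Sg ≤ (P.seq m0 σ0 i).1 ∧ (P.seq m0 σ0 i).2 ≤ T) :
    ∃ (X : St P I a (P.K + 2 + C0) Kρ (P.seq m0 σ0 j).1 (P.seq m0 σ0 j).2) (G : ℝ → MF A),
      0 ≤ (P.seq m0 σ0 j).2 ∧ ((P.seq m0 σ0 j).2 = 0 ∨
        (FlowOn 0 (P.seq m0 σ0 j).2 {x | dK K0 p x < R} G ∧ G (P.seq m0 σ0 j).2 = X.G ∧
          ∀ s ∈ Icc 0 (P.seq m0 σ0 j).2, Out P I a η {x | dK K0 p x < R} s (G s))) := by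
  induction j with
  | zero => exact ⟨X0, fun _ => X0.G, le_rfl, Or.inl rfl⟩
  | succ j ih =>
    obtain ⟨X, G, h0, hG⟩ := ih fun i hi => hj i (hi.trans (Nat.le_succ j))
    have h1 := hj j (Nat.le_succ j)
    have h2 := hj (j + 1) le_rfl
    have e1 : P.seq m0 σ0 (j + 1) = ((P.seq m0 σ0 j).1 - m0 * P.r (P.seq m0 σ0 j).1
      (P.seq m0 σ0 j).2, (P.seq m0 σ0 j).2 + P.δ * P.r (P.seq m0 σ0 j).1 (P.seq m0 σ0 j).2 ^ 2) :=
      rfl
    rw [e1] at h2 ⊢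
    generalize P.seq m0 σ0 j = z at *
    obtain ⟨σ, t⟩ := z
    dsimp only at *
    obtain ⟨S, rfl, rfl, h3, h4, h5⟩ := X.toStp hP hC hδ hC0 hS hV h0
      ((hP.ρs_mono h0 h1.2).trans (hS3.trans h1.1))
    change Sg ≤ S.σ - m0 * S.r ∧ S.t' ≤ T at h2
    have hB0 := hP.B0
    have hK := hP.K0
    have h6 : P.B * (1 + S.t') ≤ P.B * (1 + T) :=
      mul_le_mul_of_nonneg_left (by linarith [h2.2]) hB0.le
    have h7 : 0 ≤ P.B * R := by positivity
    obtain ⟨X', hX'⟩ := (hA S).next hn hP hR (c1 := P.K + 2 + C0) (by linarith) hN hm hB hΛ he he'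
      hm0 hJ hBm h4 h5 (by linarith [h2.1])
    obtain ⟨hO, hout⟩ := (hA S).out hP hη hη1 (by linarith) (hS1.trans h1.1) (R := R)
      (by linarith [h1.1]) h4 h5
    have hlt := S.t_lt hP
    have hF : FlowOn S.t S.t' {x | dK K0 p x < R} S.g := S.flow.mono' le_rfl S.lt'.le hO
    rcases h0.eq_or_lt with h8 | h8
    · refine ⟨X', S.g, h0.trans hlt.le, Or.inr ⟨?_, hX'.symm, ?_⟩⟩
      · rw [h8]; exact hF
      · rw [h8]; exact hout
    · obtain ⟨g1, g2, g3⟩ := hG.resolve_left h8.ne'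
      refine ⟨X', fun s => if s ≤ S.t then G s else S.g s, h0.trans hlt.le, Or.inr ⟨?_, ?_, ?_⟩⟩
      · refine hGl M A _ G S.g 0 S.t S.t' (isOpen_lt (continuous_dK' K0 p) continuous_const) h8 hlt
          g1 hF ?_
        rw [g2]
        exact (h3.mono hO).symm
      · change (if S.t' ≤ S.t then G S.t' else S.g S.t') = X'.G
        rw [if_neg (not_le.2 hlt), hX']
      · intro s hs
        by_cases h9 : s ≤ S.t
        · simp only [if_pos h9]
          exact g3 s ⟨hs.1, h9⟩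
        · simp only [if_neg h9]
          exact hout s ⟨(not_le.1 h9).le, hs.2⟩

end

theorem leaf_all {n : ℕ} (ha : LaStmt n) (hb : LbStmt n) (hc : LcStmt n) (hd : LdStmt n)
    (he : LeStmt n) (hf : LfStmt n) (hl : LlStmt n) (hg : LgStmt n) (hp : LpStmt n) :
    Leaf n fun S => S.All := by
  unfold LaStmt LbStmt LcStmt LdStmt LeStmt LfStmt LlStmt LgStmt LpStmt Leaf at *
  refine Ev.mono (Ev.and ha (Ev.and hb (Ev.and hc (Ev.and hd (Ev.and he (Ev.and hf (Ev.and hl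
    (Ev.and hg hp)))))))) ?_
  rintro P hP ⟨a1, a2, a3, a4, a5, a6, a7, a8, a9⟩ M _ _ _ A K0 p I a S
  have b1 := a1 M A K0 p I a S
  have b2 := a2 M A K0 p I a S b1
  have b3 := a3 M A K0 p I a S
  have b4 := a4 M A K0 p I a S
  have b5 := a5 M A K0 p I a S b1
  have b6 := a6 M A K0 p I a S
  have b7 := a7 M A K0 p I a S b3 b4 b5 b6
  exact ⟨b1, b2, b3, b4, b5, b6, a8 M A K0 p I a S b1 b2 b3 b7, a9 M A K0 p I a S b3 b4 b5 b6⟩

theorem exists_exp_le (c d ε : ℝ) (hε : 0 < ε) : ∃ m : ℝ, 0 ≤ m ∧ ∀ m', m ≤ m' →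
    c * Real.exp (d - m') ≤ ε := by
  have h1 : Tendsto (fun m : ℝ => c * Real.exp (d - m)) atTop (𝓝 (c * 0)) :=
    tendsto_const_nhds.mul (Real.tendsto_exp_atBot.comp
      (tendsto_atBot_add_const_left _ d tendsto_neg_atTop_atBot))
  rw [mul_zero] at h1
  obtain ⟨m, hm⟩ := eventually_atTop.1 (h1.eventually (ge_mem_nhds hε))
  exact ⟨max m 0, le_max_right _ _, fun m' h => hm m' ((le_max_left _ _).trans h)⟩

/-- **OSG from its leaves** -/
theorem osgStmt {n : ℕ} (hn : 1 ≤ n) (ha : LaStmt n) (hb : LbStmt n) (hc : LcStmt n)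
    (hd : LdStmt n) (he : LeStmt n) (hf : LfStmt n) (hl : LlStmt n) (hg : LgStmt n)
    (hp : LpStmt n) (hStep : StepStmt n) (hSpot : SpotStmt n) (hRen : RenewStmt n)
    (hIG : InitGStmt n) (hIL : InitLStmt n) (hGl : GlueStmt n) (hOs : OsgoodStmt)
    (hApx : ApxStmt n) : OsgStmt n := by
  intro M _ _ _ _ _ A K0 p H I
  obtain ⟨δ0, C0, hδ0, hδ1, hC0, hStep⟩ := hStep
  obtain ⟨ε0, N, Kρ, hε0, hN, hKρ, hRen⟩ := hRen (δ0 / 2) (by linarith) (by linarith)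
  obtain ⟨K, hK, hStep⟩ := hStep Kρ
  obtain ⟨Λ0, hL⟩ := leaf_all ha hb hc hd he hf hl hg hp I.C
  obtain ⟨V0, hL⟩ := hL K
  set V := max V0 (K + 1) with hV
  obtain ⟨K10, hL⟩ := hL V (le_max_left _ _)
  set K1 := max K10 K with hK1
  set Λ := max Λ0 1 with hΛ
  set L := max Λ (4 * Λ / ε0) with hLdef
  obtain ⟨B0, hL⟩ := hL K1 (le_max_left _ _) Λ (le_max_left _ _) L
  obtain ⟨m1, hm1, hm1'⟩ := exists_exp_le (K1 + n ^ 2 * K) (K + V) (ε0 / 2) (by linarith)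
  obtain ⟨m2, hm2, hm2'⟩ := exists_exp_le K (K + V) 1 one_pos
  set m := max m1 m2 with hm
  set m0 := max (m + N + 2 * (K + 2 + C0) + K + 3)
    (Real.log (16 * (16 * Real.exp (2 * K))) + 2 * (K + 2 + C0) + V) with hm0
  set B := max B0 (max (10 * (2 * K + 4)) (10 * m0)) with hB
  have hB1 : 10 * (2 * K + 4) ≤ B := (le_max_left _ _).trans (le_max_right _ _)
  have hB2 : 10 * m0 ≤ B := (le_max_right _ _).trans (le_max_right _ _)
  have hm00 : 0 ≤ m := hm1.trans (le_max_left _ _)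
  have hm01 : m + N + 2 * (K + 2 + C0) + K + 3 ≤ m0 := le_max_left _ _
  have hOk : ∀ tA : ℝ, 0 < tA → tA ≤ 1 → Par.Ok ⟨I.C, K, V, K1, Λ, L, B, δ0 / 2, tA⟩ :=
    fun tA h1 h2 => ⟨I.one_le, hK, le_max_right _ _, le_max_right _ _, le_max_right _ _,
      le_max_left _ _, by change 1 ≤ B; linarith, by change 0 < δ0 / 2; linarith,
      by change δ0 / 2 ≤ 1; linarith, h1, h2⟩
  refine hApx M A K0 p I I.C K V K1 Λ L B (δ0 / 2) fun k => ?_
  have hk : (0 : ℝ) < k + 1 := by positivity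
  set T : ℝ := max ((k : ℝ) + 1) 0 + 1 with hT
  have hT0 : 0 ≤ T := by positivity
  set Sg : ℝ := max (max (768 * K1 * Real.exp V / (1 / (k + 1))) (2 * (B * (1 + T) + B * (k + 1))))
    (B * (1 + T) ^ 2) with hSg
  obtain ⟨σ1, hOs⟩ := hOs I.C K V K1 Λ L B (δ0 / 2) m0 (k + 1) Sg (by linarith)
  set σ0 := max σ1 2 with hσ0
  obtain ⟨τ1, hτ1, hst⟩ := exists_start H I hIG hIL (c1 := K + 2 + C0) (σ0 := σ0) (by linarith) hKρ
    (le_max_right _ _)
  have hη1 : 1 / ((k : ℝ) + 1) ≤ 1 := by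
    rw [div_le_one hk]; linarith [(Nat.cast_nonneg k : (0 : ℝ) ≤ k)]
  set tA := min τ1 (1 / ((k : ℝ) + 1)) with htA
  have hP := hOk tA (by positivity) ((min_le_right _ _).trans hη1)
  obtain ⟨j, hj1, hj2⟩ := hOs σ0 (le_max_left _ _) tA hP
  obtain ⟨X0⟩ := hst _ hP rfl (min_le_left _ _)
  obtain ⟨X, G, -, hG⟩ := run hn hP (I := I) rfl
    (fun S => hL B (le_max_left _ _) _ tA hP M A K0 p I _ S) (δ0 := δ0)
    (by change δ0 / 2 < δ0; linarith) hC0 (hStep M A) hSpot hGl (hRen M A) hN hm00 hB1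
    (by
      change 4 * Λ ≤ ε0 * L
      have h1 : 4 * Λ / ε0 ≤ L := le_max_right _ _
      rw [div_le_iff₀ hε0] at h1
      linarith)
    (hm1' m (le_max_left _ _)) (hm2' m (le_max_right _ _)) hm01
    (by
      change 16 * (16 * Real.exp (2 * K)) ≤ Real.exp (m0 - 2 * (K + 2 + C0) - V)
      rw [← Real.log_le_iff_le_exp (by positivity)]
      have : Real.log (16 * (16 * Real.exp (2 * K))) + 2 * (K + 2 + C0) + V ≤ m0 := le_max_right _ _
      linarith)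
    hB2 (η := 1 / (k + 1)) (by positivity) hη1 hk.le hT0
    ((le_max_left _ _).trans (le_max_left _ _)) ((le_max_right _ _).trans (le_max_left _ _))
    (le_max_right _ _) X0 j hj2
  obtain ⟨g1, -, g3⟩ := hG.resolve_left (by linarith)
  exact ⟨tA, _, _, G, hP, min_le_right _ _, by linarith, g1, g3⟩

end Crest.Agent.T223.Os
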