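import Crest.Agent.R275.Cz1_632

-- ▼ part T223/QcHi_47
section

/-!
# Row 223, quasi-charts (helper47), part 1: holomorphic parameter integrals, vector valued
rectangle formula, the integrable majorant
-/

set_option autoImplicit false
set_option linter.unusedSectionVars false

open Set Filter Topology Metric Complex MeasureTheory
open scoped Real Interval

noncomputable section

namespace Crest.Agent.T223.Qc47

open Crest.Agent.R266 Crest.Agent.R266.SCV Crest.Agent.R275.Cz1632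

section HI

variable {E : Type} [NormedAddCommGroup E] [NormedSpace ℂ E] [FiniteDimensional ℂ E]
variable {F : Type} [NormedAddCommGroup F] [NormedSpace ℂ F] [CompleteSpace F]
variable {X : Type} [MeasurableSpace X] {μ : Measure X}

/-- Lipschitz bound from the Cauchy estimate -/
theorem lip_of_bound {G : Type} [NormedAddCommGroup G] [NormedSpace ℂ G] {f : G → F} {x : G}
    {r M : ℝ} (hr : 0 < r) (hf : DifferentiableOn ℂ f (ball x (2 * r)))
    (hM : ∀ y ∈ ball x (2 * r), ‖f y‖ ≤ M) {y z : G} (hy : y ∈ ball x r) (hz : z ∈ ball x r) :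
    ‖f y - f z‖ ≤ M / r * ‖y - z‖ := by
  have hsub : ∀ w ∈ ball x r, ball w r ⊆ ball x (2 * r) := by
    intro w hw v hv
    rw [mem_ball] at *
    linarith [dist_triangle v w x]
  refine Convex.norm_image_sub_le_of_norm_fderiv_le (𝕜 := ℂ) (s := ball x r) ?_ ?_
    (convex_ball x r) hz hy
  · intro w hw
    exact hf.differentiableAt (isOpen_ball.mem_nhds (hsub w hw (mem_ball_self hr)))
  · intro w hw
    exact norm_fderiv_le_of_ball hr (hf.mono (hsub w hw)) (fun v hv => hM v (hsub w hw hv))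

/-- one variable version -/
theorem hi_one {f : ℂ → X → F} {r : ℝ} (hr : 0 < r) {g : X → ℝ} (hg : Integrable g μ)
    (hm : ∀ z ∈ ball (0 : ℂ) (2 * r), AEStronglyMeasurable (f z) μ)
    (hd : ∀ᵐ a ∂μ, DifferentiableOn ℂ (fun z => f z a) (ball 0 (2 * r)))
    (hb : ∀ᵐ a ∂μ, ∀ z ∈ ball (0 : ℂ) (2 * r), ‖f z a‖ ≤ g a) :
    DifferentiableAt ℂ (fun z => ∫ a, f z a ∂μ) 0 := by
  have h0 : (0 : ℂ) ∈ ball (0 : ℂ) (2 * r) := mem_ball_self (by linarith)
  have hn : ball (0 : ℂ) (2 * r) ∈ 𝓝 (0 : ℂ) := isOpen_ball.mem_nhds h0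
  have hder : ∀ᵐ a ∂μ, HasDerivAt (fun z => f z a) (deriv (fun z => f z a) 0) 0 :=
    hd.mono fun a ha => (ha.differentiableAt hn).hasDerivAt
  set s : ℕ → ℂ := fun k => ((r / ((k : ℝ) + 1) : ℝ) : ℂ) with hs
  have hs0 : ∀ k, s k ≠ 0 := by
    intro k
    have : (0 : ℝ) < r / ((k : ℝ) + 1) := by positivity
    exact ofReal_ne_zero.2 this.ne'
  have hsb : ∀ k, s k ∈ ball (0 : ℂ) (2 * r) := by
    intro k
    have h1 : (0 : ℝ) < r / ((k : ℝ) + 1) := by positivity
    have h2 : r / ((k : ℝ) + 1) ≤ r := div_le_self hr.le (by linarith [Nat.cast_nonneg (α := ℝ) k])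
    rw [mem_ball_zero_iff, hs, norm_real, Real.norm_of_nonneg h1.le]
    linarith
  have hst : Tendsto s atTop (𝓝[≠] 0) := by
    refine tendsto_nhdsWithin_iff.2 ⟨?_, Eventually.of_forall hs0⟩
    have h1 : Tendsto (fun k : ℕ => r / ((k : ℝ) + 1)) atTop (𝓝 0) := by
      have := (tendsto_one_div_add_atTop_nhds_zero_nat (𝕜 := ℝ)).const_mul r
      simpa [div_eq_mul_inv] using this
    have := (continuous_ofReal.tendsto 0).comp h1
    rw [ofReal_zero] at this
    exact this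
  have hF'm : AEStronglyMeasurable (fun a => deriv (fun z => f z a) 0) μ := by
    refine aestronglyMeasurable_of_tendsto_ae (u := atTop)
      (f := fun k a => (s k)⁻¹ • (f (s k) a - f 0 a)) (fun k => ?_) ?_
    · exact ((hm _ (hsb k)).sub (hm _ h0)).const_smul _
    · refine hder.mono fun a ha => ?_
      have := (hasDerivAt_iff_tendsto_slope_zero.1 ha).comp hst
      simpa [Function.comp_def] using this
  have hint : Integrable (f 0) μ := hg.mono' (hm 0 h0) (hb.mono fun a ha => ha 0 h0)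
  have := hasDerivAt_integral_of_dominated_loc_of_lip (μ := μ) (F := f) (x₀ := (0 : ℂ))
    (s := ball 0 r) (bound := fun a => g a / r) (ball_mem_nhds _ hr)
    (Filter.mem_of_superset hn hm) hint hF'm ?_ (hg.div_const r) hder
  · exact this.2.differentiableAt
  · filter_upwards [hd, hb] with a ha1 ha2
    refine LipschitzOnWith.of_dist_le_mul fun y hy z hz => ?_
    rw [dist_eq_norm, dist_eq_norm]
    refine (lip_of_bound hr ha1 ha2 hy hz).trans ?_
    gcongr
    rw [Real.coe_nnabs]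
    exact le_abs_self _

/-- holomorphic parameter integrals with an integrable majorant -/
theorem hi {f : E → X → F} {U : Set E} (hU : IsOpen U) {g : X → ℝ} (hg : Integrable g μ)
    (hm : ∀ z ∈ U, AEStronglyMeasurable (f z) μ)
    (hd : ∀ᵐ a ∂μ, DifferentiableOn ℂ (fun z => f z a) U)
    (hb : ∀ᵐ a ∂μ, ∀ z ∈ U, ‖f z a‖ ≤ g a) :
    DifferentiableOn ℂ (fun z => ∫ a, f z a ∂μ) U := by
  refine (analyticOnNhd_of_gateaux hU ?_ ?_).differentiableOn
  · intro x hx
    refine (continuousAt_of_dominated (bound := g) (Filter.mem_of_superset (hU.mem_nhds hx) hm)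
      ?_ hg ?_).continuousWithinAt
    · filter_upwards [hU.mem_nhds hx] with z hz
      exact hb.mono fun a ha => ha z hz
    · exact hd.mono fun a ha => (ha.differentiableAt (hU.mem_nhds hx)).continuousAt
  · intro x hx v
    have hcont : Continuous (fun z : ℂ => x + z • v) := by fun_prop
    have h0 : (fun z : ℂ => x + z • v) ⁻¹' U ∈ 𝓝 (0 : ℂ) :=
      (hU.preimage hcont).mem_nhds (by simpa using hx)
    obtain ⟨ρ, hρ, hρU⟩ := Metric.mem_nhds_iff.1 h0
    have e : ρ = 2 * (ρ / 2) := by ring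
    rw [e] at hρU
    refine hi_one (μ := μ) (f := fun z a => f (x + z • v) a) (r := ρ / 2) (by linarith) hg
      (fun z hz => hm _ (hρU hz)) ?_ ?_
    · refine hd.mono fun a ha => ?_
      exact ha.comp (by fun_prop : Differentiable ℂ (fun z : ℂ => x + z • v)).differentiableOn
        (fun z hz => hρU hz)
    · exact hb.mono fun a ha z hz => ha _ (hρU hz)

end HI

section rect

variable {F : Type} [NormedAddCommGroup F] [NormedSpace ℂ F] [CompleteSpace F]

/-- horizontal segment -/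
def hS (f : ℂ → F) (c a b : ℝ) (z : ℂ) : F :=
  ∫ x in a..b, ((x + c * I : ℂ) - z)⁻¹ • f (x + c * I)

/-- vertical segment -/
def vS (f : ℂ → F) (a c d : ℝ) (z : ℂ) : F :=
  ∫ y in c..d, ((a + y * I : ℂ) - z)⁻¹ • f (a + y * I)

theorem seg_eq {f : ℂ → F} {γ : ℝ → ℂ} (hγ : Continuous γ) {α β : ℝ} {z : ℂ}
    (hf : ContinuousOn f (γ '' [[α, β]])) (hz : ∀ x ∈ [[α, β]], γ x ≠ z) :
    (∫ x in α..β, (γ x - z)⁻¹ • f (γ x)) =
      (∫ x in α..β, dslope f z (γ x)) + (∫ x in α..β, 1 / (γ x - z)) • f z := by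
  have hf' : ContinuousOn (fun x : ℝ => f (γ x)) [[α, β]] :=
    hf.comp hγ.continuousOn (mapsTo_image _ _)
  have hne : ∀ x ∈ [[α, β]], γ x - z ≠ 0 := fun x hx => sub_ne_zero.2 (hz x hx)
  have hinv : ContinuousOn (fun x : ℝ => (γ x - z)⁻¹) [[α, β]] :=
    (hγ.continuousOn.sub continuousOn_const).inv₀ hne
  have i1 : IntervalIntegrable (fun x : ℝ => (γ x - z)⁻¹ • f (γ x)) volume α β :=
    (hinv.smul hf').intervalIntegrable
  have i2 : IntervalIntegrable (fun x : ℝ => (γ x - z)⁻¹ • f z) volume α β :=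
    (hinv.smul continuousOn_const).intervalIntegrable
  have e : (∫ x in α..β, dslope f z (γ x)) =
      ∫ x in α..β, ((γ x - z)⁻¹ • f (γ x) - (γ x - z)⁻¹ • f z) := by
    refine intervalIntegral.integral_congr fun x hx => ?_
    show dslope f z (γ x) = _
    rw [dslope_of_ne _ (hz x hx), slope_def_module, smul_sub]
  rw [e, intervalIntegral.integral_sub i1 i2, intervalIntegral.integral_smul_const]
  simp only [one_div]
  abel

/-- Cauchy's formula on a rectangle, vector valued -/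
theorem rect_in {f : ℂ → F} {U : Set ℂ} (hU : IsOpen U) (hf : DifferentiableOn ℂ f U)
    {a b c d : ℝ} (hsub : Icc a b ×ℂ Icc c d ⊆ U) {z : ℂ} (hz1 : z.re ∈ Ioo a b)
    (hz2 : z.im ∈ Ioo c d) :
    hS f c a b z + I • vS f b c d z - hS f d a b z - I • vS f a c d z = (2 * π * I : ℂ) • f z := by
  have hab : a ≤ b := (hz1.1.trans hz1.2).le
  have hcd : c ≤ d := (hz2.1.trans hz2.2).le
  have hzU : U ∈ 𝓝 z := hU.mem_nhds (hsub ⟨⟨hz1.1.le, hz1.2.le⟩, ⟨hz2.1.le, hz2.2.le⟩⟩)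
  have hG := integral_boundary_rect_eq_zero_of_differentiableOn (dslope f z) (a + c * I) (b + d * I)
    (((differentiableOn_dslope hzU).2 hf).mono (by
      simpa [uIcc_of_le hab, uIcc_of_le hcd] using hsub))
  simp only [add_re, ofReal_re, mul_re, I_re, mul_zero, ofReal_im, I_im, mul_one, sub_self,
    add_zero, add_im, mul_im, zero_add] at hG
  have mh : ∀ h ∈ Icc c d, ∀ x ∈ Icc a b, (x + h * I : ℂ) ∈ U := by
    intro h hh x hx
    exact hsub ⟨by simpa using hx, by simpa using hh⟩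
  have key_h : ∀ h ∈ Icc c d, h ≠ z.im →
      hS f h a b z = (∫ x in a..b, dslope f z (x + h * I)) + hs (fun _ => 1) h a b z • f z := by
    intro h hh hne
    refine seg_eq (γ := fun x : ℝ => (x + h * I : ℂ)) (by fun_prop) (hf.continuousOn.mono ?_) ?_
    · rintro _ ⟨x, hx, rfl⟩
      rw [uIcc_of_le hab] at hx
      exact mh h hh x hx
    · intro x _ h0
      apply hne
      have := congrArg Complex.im h0
      simpa using this
  have key_v : ∀ h ∈ Icc a b, h ≠ z.re →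
      vS f h c d z = (∫ y in c..d, dslope f z (h + y * I)) + vs (fun _ => 1) h c d z • f z := by
    intro h hh hne
    refine seg_eq (γ := fun y : ℝ => (h + y * I : ℂ)) (by fun_prop) (hf.continuousOn.mono ?_) ?_
    · rintro _ ⟨y, hy, rfl⟩
      rw [uIcc_of_le hcd] at hy
      exact mh y hy h hh
    · intro y _ h0
      apply hne
      have := congrArg Complex.re h0
      simpa using this
  have hw := wind (t := a) hz1 hz2
  have z1 : ∀ h : ℝ, hs (fun _ => (1 : ℂ)) h a a z = 0 := fun h => by simp [hs]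
  unfold oR oL at hw
  rw [z1, z1] at hw
  rw [key_h c ⟨le_refl _, hcd⟩ hz2.1.ne, key_h d ⟨hcd, le_refl _⟩ hz2.2.ne',
    key_v b ⟨hab, le_refl _⟩ hz1.2.ne', key_v a ⟨le_refl _, hab⟩ hz1.1.ne, ← hw]
  simp only [smul_add, add_smul, sub_smul, mul_smul, zero_smul]
  rw [← sub_eq_zero]
  rw [← hG]
  abel

/-- Cauchy-Goursat on a rectangle to the right of the pole -/
theorem rect_out {f : ℂ → F} {U : Set ℂ} (hf : DifferentiableOn ℂ f U)
    {a b c d : ℝ} (hab : a ≤ b) (hcd : c ≤ d) (hsub : Icc a b ×ℂ Icc c d ⊆ U) {z : ℂ}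
    (hz1 : z.re < a) :
    hS f c a b z + I • vS f b c d z - hS f d a b z - I • vS f a c d z = 0 := by
  have hG := integral_boundary_rect_eq_zero_of_differentiableOn
    (fun w => (w - z)⁻¹ • f w) (a + c * I) (b + d * I) (by
      have e : [[((a : ℂ) + c * I).re, ((b : ℂ) + d * I).re]] ×ℂ
          [[((a : ℂ) + c * I).im, ((b : ℂ) + d * I).im]] = Icc a b ×ℂ Icc c d := by
        simp [uIcc_of_le hab, uIcc_of_le hcd]
      rw [e]
      refine DifferentiableOn.smul ?_ (hf.mono hsub)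
      refine (differentiableOn_id.sub_const z).inv fun w hw h0 => ?_
      have h1 : w = z := sub_eq_zero.1 h0
      have h2 : a ≤ w.re := hw.1.1
      rw [h1] at h2
      linarith)
  simp only [add_re, ofReal_re, mul_re, I_re, mul_zero, ofReal_im, I_im, mul_one, sub_self,
    add_zero, add_im, mul_im, zero_add] at hG
  unfold hS vS
  rw [← hG]
  abel

end rect

section maj

/-- the majorant `|s|^(-1/2)` -/
def mj (s : ℝ) : ℝ := |s| ^ (-(1 / 2 : ℝ))

theorem mj_nonneg (s : ℝ) : 0 ≤ mj s := Real.rpow_nonneg (abs_nonneg s) _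

theorem mj_ii (a b : ℝ) : IntervalIntegrable mj volume a b := by
  have h1 : ∀ b : ℝ, 0 ≤ b → IntervalIntegrable mj volume 0 b := by
    intro b hb
    have := intervalIntegral.intervalIntegrable_rpow' (r := -(1 / 2 : ℝ)) (a := 0) (b := b)
      (by norm_num)
    refine this.congr fun x hx => ?_
    rw [uIoc_of_le hb] at hx
    simp only [mj, abs_of_pos hx.1]
  have h2 : ∀ b : ℝ, IntervalIntegrable mj volume 0 b := by
    intro b
    rcases le_total 0 b with hb | hb
    · exact h1 b hb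
    · have := (h1 (-b) (by linarith)).comp_sub_left 0
      simp only [sub_zero, zero_sub, neg_neg] at this
      refine this.congr fun x _ => ?_
      simp [mj]
  exact (h2 a).symm.trans (h2 b)

/-- the constant -/
def Jc (R : ℝ) : ℝ := ∫ s in (-R)..R, mj s

theorem Jc_nonneg {R : ℝ} (hR : 0 ≤ R) : 0 ≤ Jc R :=
  intervalIntegral.integral_nonneg (by linarith) fun s _ => mj_nonneg s

theorem mj_integrableOn (a b p : ℝ) : IntegrableOn (fun s => mj (s - p)) (Ioo a b) := by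
  rcases le_total a b with hab | hab
  · have := (mj_ii (a - p) (b - p)).comp_sub_right p
    simp only [sub_add_cancel] at this
    exact ((intervalIntegrable_iff_integrableOn_Ioo_of_le hab).1 this)
  · rw [Ioo_eq_empty (not_lt.2 hab)]
    exact integrableOn_empty

theorem mj_int_le {a b p R : ℝ} (hab : a ≤ b) (ha : -R ≤ a - p) (hb : b - p ≤ R) :
    ∫ s in Ioo a b, mj (s - p) ≤ Jc R := by
  rw [← integral_Ioc_eq_integral_Ioo, ← intervalIntegral.integral_of_le hab,
    intervalIntegral.integral_comp_sub_right mj p]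
  exact intervalIntegral.integral_mono_interval ha (by linarith) hb
    (Eventually.of_forall fun s => mj_nonneg s) (mj_ii _ _)

theorem inv_norm_le {w : ℂ} (h1 : w.re ≠ 0) (h2 : w.im ≠ 0) : ‖w⁻¹‖ ≤ mj w.re * mj w.im := by
  have a1 : 0 < |w.re| := abs_pos.2 h1
  have a2 : 0 < |w.im| := abs_pos.2 h2
  have hw : 0 < ‖w‖ := lt_of_lt_of_le a1 (abs_re_le_norm w)
  have e : ‖w‖⁻¹ = ‖w‖ ^ (-(1 / 2 : ℝ)) * ‖w‖ ^ (-(1 / 2 : ℝ)) := by
    rw [← Real.rpow_add hw, ← Real.rpow_neg_one]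
    norm_num
  rw [norm_inv, e]
  unfold mj
  refine mul_le_mul ?_ ?_ (Real.rpow_nonneg hw.le _) (Real.rpow_nonneg a1.le _)
  · exact Real.rpow_le_rpow_of_nonpos a1 (abs_re_le_norm w) (by norm_num)
  · exact Real.rpow_le_rpow_of_nonpos a2 (abs_im_le_norm w) (by norm_num)

end maj

end Crest.Agent.T223.Qc47
end
end

-- ▼ part T223/QcAdd_47

/-!
# Row 223, quasi-charts (helper47), part 2: additive splitting, bounded on fixed domains
-/

set_option autoImplicit false
set_option linter.unusedSectionVars false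
set_option linter.unusedVariables false

open Set Filter Topology Metric Complex MeasureTheory
open scoped Real Interval

noncomputable section

namespace Crest.Agent.T223.Qc47

variable {E : Type} [NormedAddCommGroup E] [NormedSpace ℂ E] [FiniteDimensional ℂ E]
variable {F : Type} [NormedAddCommGroup F] [NormedSpace ℂ F] [CompleteSpace F]

/-- a complex direction and a cylinder over it -/
structure Cyl (E : Type) [NormedAddCommGroup E] [NormedSpace ℂ E] where
  u : E
  ℓ : E →L[ℂ] ℂ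
  W : Set E
  one : ℓ u = 1
  opn : IsOpen W
  inv : ∀ z ∈ W, ∀ ζ : ℂ, z + ζ • u ∈ W

namespace Cyl

variable (C : Cyl E)

/-- the point on the line through `z` with coordinate `ζ` -/
def pt (z : E) (ζ : ℂ) : E := z + (ζ - C.ℓ z) • C.u

theorem ℓ_pt (z : E) (ζ : ℂ) : C.ℓ (C.pt z ζ) = ζ := by
  simp [pt, C.one]

theorem pt_self (z : E) : C.pt z (C.ℓ z) = z := by simp [pt]

/-- a box over the rectangle `(x0,x1) × (c,d)` -/
def bx (x0 x1 c d : ℝ) : Set E :=
  {z | z ∈ C.W ∧ (C.ℓ z).re ∈ Ioo x0 x1 ∧ (C.ℓ z).im ∈ Ioo c d}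

theorem isOpen_bx (x0 x1 c d : ℝ) : IsOpen (C.bx x0 x1 c d) := by
  have h1 : Continuous fun z => (C.ℓ z).re := continuous_re.comp C.ℓ.continuous
  have h2 : Continuous fun z => (C.ℓ z).im := continuous_im.comp C.ℓ.continuous
  exact C.opn.inter ((isOpen_Ioo.preimage h1).inter (isOpen_Ioo.preimage h2))

theorem pt_mem {z : E} (hz : z ∈ C.W) {ζ : ℂ} {x0 x1 c d : ℝ} (h1 : ζ.re ∈ Ioo x0 x1)
    (h2 : ζ.im ∈ Ioo c d) : C.pt z ζ ∈ C.bx x0 x1 c d :=
  ⟨C.inv z hz _, by rwa [ℓ_pt], by rwa [ℓ_pt]⟩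

theorem diff_pt (ζ : ℂ) : Differentiable ℂ fun z => C.pt z ζ := by
  unfold pt
  fun_prop

theorem diff_pt' (z : E) : Differentiable ℂ fun ζ => C.pt z ζ := by
  unfold pt
  fun_prop

/-- the Cauchy kernel along the line -/
def kr (h : E → F) (z : E) (ζ : ℂ) : F := (ζ - C.ℓ z)⁻¹ • h (C.pt z ζ)

variable {C}

/-- integrals of the kernel over a curve that stays away from the pole -/
theorem seg {h : E → F} {O U : Set E} (hh : DifferentiableOn ℂ h O) {M δ : ℝ}
    (hM : ∀ z ∈ O, ‖h z‖ ≤ M) (hM0 : 0 ≤ M) (hδ : 0 < δ) (hU : IsOpen U) {γ : ℝ → ℂ}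
    (hγ : Continuous γ) {α β : ℝ} (hαβ : α ≤ β)
    (hin : ∀ z ∈ U, ∀ s ∈ Ioo α β, C.pt z (γ s) ∈ O ∧ δ ≤ ‖γ s - C.ℓ z‖) :
    DifferentiableOn ℂ (fun z => ∫ s in α..β, C.kr h z (γ s)) U ∧
      ∀ z ∈ U, ‖∫ s in α..β, C.kr h z (γ s)‖ ≤ M / δ * (β - α) := by
  have hb : ∀ z ∈ U, ∀ s ∈ Ioo α β, ‖C.kr h z (γ s)‖ ≤ M / δ := by
    intro z hz s hs
    obtain ⟨h1, h2⟩ := hin z hz s hs
    rw [kr, norm_smul, norm_inv, div_eq_inv_mul]
    exact mul_le_mul (inv_anti₀ hδ h2) (hM _ h1) (norm_nonneg _) (by positivity)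
  have e : ∀ z, (∫ s in α..β, C.kr h z (γ s)) = ∫ s in Ioo α β, C.kr h z (γ s) := fun z => by
    rw [intervalIntegral.integral_of_le hαβ, integral_Ioc_eq_integral_Ioo]
  simp only [e]
  constructor
  · refine hi (g := fun _ => M / δ) hU (by simp) (fun z hz => ?_) ?_ ?_
    · refine ContinuousOn.aestronglyMeasurable ?_ measurableSet_Ioo
      refine ContinuousOn.smul ((hγ.continuousOn.sub continuousOn_const).inv₀ fun s hs h0 => ?_) ?_
      · have := (hin z hz s hs).2
        simp only [Pi.sub_apply] at h0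
        rw [h0, norm_zero] at this
        linarith
      · exact hh.continuousOn.comp ((C.diff_pt' z).continuous.comp hγ).continuousOn
          fun s hs => (hin z hz s hs).1
    · refine (ae_restrict_mem measurableSet_Ioo).mono fun s hs => ?_
      refine DifferentiableOn.smul ?_ (hh.comp (C.diff_pt _).differentiableOn
        fun z hz => (hin z hz s hs).1)
      refine (differentiableOn_const _ |>.sub C.ℓ.differentiable.differentiableOn).inv
        fun z hz h0 => ?_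
      have := (hin z hz s hs).2
      simp only [Pi.sub_apply] at h0
      rw [h0, norm_zero] at this
      linarith
    · exact (ae_restrict_mem measurableSet_Ioo).mono fun s hs z hz => hb z hz s hs
  · intro z hz
    have := norm_setIntegral_le_of_norm_le_const (μ := volume) (s := Ioo α β)
      (f := fun s => C.kr h z (γ s)) (C := M / δ) (by simp) (hb z hz)
    rwa [Real.volume_real_Ioo_of_le hαβ] at this

/-- the measure on the cut rectangle -/
def μc (p q c d : ℝ) : Measure (ℝ × ℝ) :=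
  (volume.restrict (Ioo p q)).prod (volume.restrict (Ioo c d))

variable (C) in
/-- the averaged Cauchy integral over vertical cuts -/
def cf (p q c d : ℝ) (h : E → F) (z : E) : F :=
  ((2 * π * (q - p) : ℝ) : ℂ)⁻¹ • ∫ w, C.kr h z (w.1 + w.2 * I) ∂(μc p q c d)

/-- the averaged jump -/
def ch (p q x : ℝ) : ℝ := (volume (Ioo p q ∩ Iio x)).toReal / (q - p)

theorem ch_nonneg {p q : ℝ} (hpq : p < q) (x : ℝ) : 0 ≤ ch p q x :=
  div_nonneg ENNReal.toReal_nonneg (by linarith)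

theorem ch_le_one {p q : ℝ} (hpq : p < q) (x : ℝ) : ch p q x ≤ 1 := by
  unfold ch
  rw [div_le_one (by linarith)]
  have := measureReal_mono (μ := volume) (inter_subset_left (s := Ioo p q) (t := Iio x)) (by simp)
  rwa [Real.volume_real_Ioo_of_le hpq.le] at this

theorem ch_left {p q x : ℝ} (hx : x ≤ p) : ch p q x = 0 := by
  have : Ioo p q ∩ Iio x = ∅ := by
    ext t
    simp only [mem_inter_iff, mem_Ioo, mem_Iio, mem_empty_iff_false, iff_false]
    rintro ⟨⟨h1, _⟩, h2⟩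
    linarith
  simp [ch, this]

theorem ch_right {p q x : ℝ} (hpq : p < q) (hx : q ≤ x) : ch p q x = 1 := by
  have : Ioo p q ∩ Iio x = Ioo p q := inter_eq_left.2 fun t ht => lt_of_lt_of_le ht.2 hx
  have h2 : (volume (Ioo p q)).toReal = q - p := Real.volume_real_Ioo_of_le hpq.le
  rw [ch, this, h2, div_self (by linarith)]

section main

variable {x0 x1 p q c d : ℝ} {h : E → F} {M : ℝ}

theorem ae_mem_μc : ∀ᵐ w ∂(μc p q c d), w.1 ∈ Ioo p q ∧ w.2 ∈ Ioo c d :=
  (Measure.quasiMeasurePreserving_fst.ae (ae_restrict_mem measurableSet_Ioo)).and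
    (Measure.quasiMeasurePreserving_snd.ae (ae_restrict_mem measurableSet_Ioo))

theorem ae_ne_vol (s : Set ℝ) (x : ℝ) : ∀ᵐ t ∂(volume.restrict s), t ≠ x :=
  ae_restrict_of_ae (by simp [ae_iff])

theorem kr_bound (h0 : x0 < p) (h1 : q < x1) (hM : ∀ z ∈ C.bx x0 x1 c d, ‖h z‖ ≤ M) {z : E}
    (hz : z ∈ C.W) : ∀ᵐ w ∂(μc p q c d), ‖C.kr h z (w.1 + w.2 * I)‖ ≤
      M * (mj (w.1 - (C.ℓ z).re) * mj (w.2 - (C.ℓ z).im)) := by
  filter_upwards [ae_mem_μc,
    Measure.quasiMeasurePreserving_fst.ae (ae_ne_vol (Ioo p q) (C.ℓ z).re),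
    Measure.quasiMeasurePreserving_snd.ae (ae_ne_vol (Ioo c d) (C.ℓ z).im)] with w hw hw1 hw2
  have hin : C.pt z (w.1 + w.2 * I) ∈ C.bx x0 x1 c d :=
    C.pt_mem hz (by simpa using ⟨h0.trans hw.1.1, hw.1.2.trans h1⟩) (by simpa using hw.2)
  have hb := inv_norm_le (w := (w.1 + w.2 * I : ℂ) - C.ℓ z)
    (by simpa using sub_ne_zero.2 hw1) (by simpa using sub_ne_zero.2 hw2)
  rw [kr, norm_smul, mul_comm]
  refine mul_le_mul (hM _ hin) ?_ (norm_nonneg _) ((norm_nonneg _).trans (hM _ hin))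
  simpa using hb

theorem maj_integrable (x y : ℝ) :
    Integrable (fun w : ℝ × ℝ => mj (w.1 - x) * mj (w.2 - y)) (μc p q c d) :=
  Integrable.mul_prod (mj_integrableOn p q x) (mj_integrableOn c d y)

theorem kr_integrable (h0 : x0 < p) (h1 : q < x1) (hh : DifferentiableOn ℂ h (C.bx x0 x1 c d))
    (hM : ∀ z ∈ C.bx x0 x1 c d, ‖h z‖ ≤ M) {z : E} (hz : z ∈ C.W) :
    Integrable (fun w : ℝ × ℝ => C.kr h z (w.1 + w.2 * I)) (μc p q c d) := by
  refine ((maj_integrable (C.ℓ z).re (C.ℓ z).im).const_mul M).mono' ?_ (kr_bound h0 h1 hM hz)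
  refine AEStronglyMeasurable.smul ?_ ?_
  · exact (Measurable.inv (by fun_prop)).aestronglyMeasurable
  · rw [μc, Measure.prod_restrict]
    refine ContinuousOn.aestronglyMeasurable ?_ (measurableSet_Ioo.prod measurableSet_Ioo)
    refine hh.continuousOn.comp ((C.diff_pt' z).continuous.comp (by fun_prop)).continuousOn ?_
    intro w hw
    exact C.pt_mem hz (by simpa using ⟨h0.trans hw.1.1, hw.1.2.trans h1⟩) (by simpa using hw.2)

theorem cf_bound (h0 : x0 < p) (hpq : p < q) (h1 : q < x1) (hcd : c ≤ d)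
    (hM : ∀ z ∈ C.bx x0 x1 c d, ‖h z‖ ≤ M) (hM0 : 0 ≤ M) {z : E} (hz : z ∈ C.W) {R : ℝ}
    (hR : 0 ≤ R) (r1 : -R ≤ p - (C.ℓ z).re) (r2 : q - (C.ℓ z).re ≤ R) (r3 : -R ≤ c - (C.ℓ z).im)
    (r4 : d - (C.ℓ z).im ≤ R) :
    ‖C.cf p q c d h z‖ ≤ Jc R ^ 2 / (q - p) * M := by
  have hb := norm_integral_le_of_norm_le
    ((maj_integrable (p := p) (q := q) (c := c) (d := d) (C.ℓ z).re (C.ℓ z).im).const_mul M)
    (kr_bound h0 h1 hM hz)
  rw [integral_const_mul, μc, integral_prod_mul (fun t => mj (t - (C.ℓ z).re))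
    (fun y => mj (y - (C.ℓ z).im))] at hb
  have j1 := mj_int_le hpq.le r1 r2
  have j2 := mj_int_le hcd r3 r4
  have j0 := Jc_nonneg hR
  have n2 : 0 ≤ ∫ s in Ioo c d, mj (s - (C.ℓ z).im) := integral_nonneg fun s => mj_nonneg _
  have hb2 : ‖∫ w, C.kr h z (w.1 + w.2 * I) ∂(μc p q c d)‖ ≤ M * (Jc R * Jc R) :=
    hb.trans (mul_le_mul_of_nonneg_left (mul_le_mul j1 j2 n2 j0) hM0)
  have hqp : 0 < q - p := by linarith
  have hpi : (1 : ℝ) ≤ 2 * π := by linarith [Real.pi_gt_three]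
  rw [cf, norm_smul, norm_inv, norm_real, Real.norm_of_nonneg (by positivity)]
  calc (2 * π * (q - p))⁻¹ * ‖∫ w, C.kr h z (w.1 + w.2 * I) ∂(μc p q c d)‖
      ≤ (q - p)⁻¹ * (M * (Jc R * Jc R)) := by
        refine mul_le_mul (inv_anti₀ hqp (by nlinarith)) hb2 (norm_nonneg _) (by positivity)
    _ = _ := by field_simp

theorem cf_sub {h' : E → F} {M' : ℝ} (h0 : x0 < p) (h1 : q < x1)
    (hh : DifferentiableOn ℂ h (C.bx x0 x1 c d)) (hM : ∀ z ∈ C.bx x0 x1 c d, ‖h z‖ ≤ M)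
    (hh' : DifferentiableOn ℂ h' (C.bx x0 x1 c d)) (hM' : ∀ z ∈ C.bx x0 x1 c d, ‖h' z‖ ≤ M')
    {z : E} (hz : z ∈ C.W) :
    C.cf p q c d (fun w => h w - h' w) z = C.cf p q c d h z - C.cf p q c d h' z := by
  unfold cf
  rw [← smul_sub, ← integral_sub (kr_integrable h0 h1 hh hM hz) (kr_integrable h0 h1 hh' hM' hz)]
  simp only [kr, smul_sub]

/-- to the right of the cuts the averaged integral is holomorphic -/
theorem cf_hol_right (h0 : x0 < p) (h1 : q < x1) (hh : DifferentiableOn ℂ h (C.bx x0 x1 c d))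
    (hM : ∀ z ∈ C.bx x0 x1 c d, ‖h z‖ ≤ M) (hM0 : 0 ≤ M) {z0 : E} (hz0 : z0 ∈ C.W)
    (hq : q < (C.ℓ z0).re) : DifferentiableAt ℂ (C.cf p q c d h) z0 := by
  set δ : ℝ := ((C.ℓ z0).re - q) / 2 with hδ
  have hδ0 : 0 < δ := by rw [hδ]; linarith
  set U : Set E := C.bx (q + δ) ((C.ℓ z0).re + 1) ((C.ℓ z0).im - 1) ((C.ℓ z0).im + 1) with hU
  have hz0U : z0 ∈ U := ⟨hz0, ⟨by rw [hδ]; linarith, by linarith⟩, by constructor <;> linarith⟩
  have hin : ∀ z ∈ U, ∀ w : ℝ × ℝ, w.1 ∈ Ioo p q ∧ w.2 ∈ Ioo c d →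
      C.pt z (w.1 + w.2 * I) ∈ C.bx x0 x1 c d ∧ δ ≤ ‖(w.1 + w.2 * I : ℂ) - C.ℓ z‖ := by
    intro z hz w hw
    refine ⟨C.pt_mem hz.1 (by simpa using ⟨h0.trans hw.1.1, hw.1.2.trans h1⟩)
      (by simpa using hw.2), le_trans ?_ (abs_re_le_norm _)⟩
    have := hz.2.1.1
    have := hw.1.2
    simp only [sub_re, add_re, ofReal_re, mul_re, I_re, mul_zero, ofReal_im, I_im, mul_one,
      sub_self, add_zero]
    rw [abs_sub_comm]
    exact le_trans (by linarith) (le_abs_self _)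
  have hfin : IsFiniteMeasure (μc p q c d) := by
    unfold μc
    have : IsFiniteMeasure (volume.restrict (Ioo p q)) := ⟨by simp⟩
    have : IsFiniteMeasure (volume.restrict (Ioo c d)) := ⟨by simp⟩
    infer_instance
  have key := hi (μ := μc p q c d) (f := fun z w => C.kr h z (w.1 + w.2 * I)) (U := U)
    (g := fun _ => M / δ) (C.isOpen_bx _ _ _ _) (integrable_const _)
    (fun z hz => (kr_integrable h0 h1 hh hM hz.1).aestronglyMeasurable) ?_ ?_
  · exact (key.differentiableAt ((C.isOpen_bx _ _ _ _).mem_nhds hz0U)).const_smul _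
  · refine ae_mem_μc.mono fun w hw => ?_
    refine DifferentiableOn.smul ?_ (hh.comp (C.diff_pt _).differentiableOn
      fun z hz => (hin z hz w hw).1)
    refine (differentiableOn_const _ |>.sub C.ℓ.differentiable.differentiableOn).inv
      fun z hz h0 => ?_
    have := (hin z hz w hw).2
    simp only [Pi.sub_apply] at h0
    rw [h0, norm_zero] at this
    linarith
  · refine ae_mem_μc.mono fun w hw z hz => ?_
    obtain ⟨h1, h2⟩ := hin z hz w hw
    rw [kr, norm_smul, norm_inv, div_eq_inv_mul]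
    exact mul_le_mul (inv_anti₀ hδ0 h2) (hM _ h1) (norm_nonneg _) (by positivity)

variable (C) in
/-- the deformed contour -/
def df (h : E → F) (c c' d' d x' : ℝ) (z : E) (t : ℝ) : F :=
  (∫ y in c..c', C.kr h z (t + y * I)) + (∫ y in d'..d, C.kr h z (t + y * I)) +
    (-I) • ((∫ s in t..x', C.kr h z (s + c' * I)) + I • (∫ y in c'..d', C.kr h z (x' + y * I))
      - ∫ s in t..x', C.kr h z (s + d' * I))

theorem df_eq {c' d' x' : ℝ} (h0 : x0 < p) (hh : DifferentiableOn ℂ h (C.bx x0 x1 c d))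
    (hc : c < c') (hd : d' < d) (hx : x' < x1) (hq : q < x') {z : E} (hz : z ∈ C.W)
    (hre : (C.ℓ z).re < x') (him : (C.ℓ z).im ∈ Ioo c' d') {t : ℝ} (ht : t ∈ Ioo p q)
    (htx : t ≠ (C.ℓ z).re)
    (hint : Integrable (fun y : ℝ => C.kr h z (t + y * I)) (volume.restrict (Ioo c d))) :
    C.df h c c' d' d x' z t = (∫ y in Ioo c d, C.kr h z (t + y * I)) +
      (Iio (C.ℓ z).re).indicator (fun _ => ((2 * π : ℝ) : ℂ) • h z) t := by
  have hcd' : c' < d' := him.1.trans him.2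
  have hcd : c ≤ d := by linarith
  have hII : IntervalIntegrable (fun y : ℝ => C.kr h z (t + y * I)) volume c d :=
    (intervalIntegrable_iff_integrableOn_Ioo_of_le hcd).2 hint
  have i1 := hII.mono_set (c := c) (d := c') (uIcc_subset_uIcc left_mem_uIcc
    (by rw [uIcc_of_le hcd]; exact ⟨hc.le, by linarith⟩))
  have i2 := hII.mono_set (c := c') (d := d') (uIcc_subset_uIcc
    (by rw [uIcc_of_le hcd]; exact ⟨hc.le, by linarith⟩)
    (by rw [uIcc_of_le hcd]; exact ⟨by linarith, hd.le⟩))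
  have i3 := hII.mono_set (c := d') (d := d) (uIcc_subset_uIcc
    (by rw [uIcc_of_le hcd]; exact ⟨by linarith, hd.le⟩) right_mem_uIcc)
  have s1 := intervalIntegral.integral_add_adjacent_intervals i1 i2
  have s2 := intervalIntegral.integral_add_adjacent_intervals (i1.trans i2) i3
  rw [← integral_Ioc_eq_integral_Ioo, ← intervalIntegral.integral_of_le hcd, ← s2, ← s1]
  set f : ℂ → F := fun ζ => h (C.pt z ζ) with hf
  have hV : IsOpen ((fun ζ => C.pt z ζ) ⁻¹' C.bx x0 x1 c d) :=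
    (C.isOpen_bx _ _ _ _).preimage (C.diff_pt' z).continuous
  have hfd : DifferentiableOn ℂ f ((fun ζ => C.pt z ζ) ⁻¹' C.bx x0 x1 c d) :=
    hh.comp (C.diff_pt' z).differentiableOn fun ζ hζ => hζ
  have hsub : Icc t x' ×ℂ Icc c' d' ⊆ (fun ζ => C.pt z ζ) ⁻¹' C.bx x0 x1 c d := by
    intro ζ hζ
    exact C.pt_mem hz ⟨by linarith [hζ.1.1, ht.1], by linarith [hζ.1.2]⟩
      ⟨by linarith [hζ.2.1], by linarith [hζ.2.2]⟩
  have hI : ∀ v : F, (-I) • (I • v) = v := fun v => by rw [smul_smul]; simp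
  have e1 : (∫ s in t..x', C.kr h z (s + c' * I)) = hS f c' t x' (C.ℓ z) := rfl
  have e2 : (∫ s in t..x', C.kr h z (s + d' * I)) = hS f d' t x' (C.ℓ z) := rfl
  have e3 : (∫ y in c'..d', C.kr h z (x' + y * I)) = vS f x' c' d' (C.ℓ z) := rfl
  have e4 : (∫ y in c'..d', C.kr h z (t + y * I)) = vS f t c' d' (C.ℓ z) := rfl
  unfold df
  rw [e1, e2, e3, e4]
  rcases lt_or_gt_of_ne htx with hlt | hgt
  · have k := rect_in hV hfd hsub (z := C.ℓ z) ⟨hlt, hre⟩ him
    have k2 : f (C.ℓ z) = h z := by simp only [hf, pt_self]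
    rw [k2, sub_eq_iff_eq_add] at k
    rw [indicator_of_mem (show t ∈ Iio (C.ℓ z).re from hlt), k, smul_add, hI, mul_comm _ I,
      mul_smul, hI]
    push_cast
    abel
  · have k := rect_out hfd (by linarith [ht.2]) hcd'.le hsub (z := C.ℓ z) hgt
    rw [sub_eq_zero] at k
    rw [indicator_of_notMem (show t ∉ Iio (C.ℓ z).re from not_lt.2 hgt.le), k, hI]
    abel

/-- the left part is holomorphic to the left of `x1` -/
theorem cf_hol_left (h0 : x0 < p) (hpq : p < q) (h1 : q < x1)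
    (hh : DifferentiableOn ℂ h (C.bx x0 x1 c d))
    (hM : ∀ z ∈ C.bx x0 x1 c d, ‖h z‖ ≤ M) (hM0 : 0 ≤ M) {z0 : E} (hz0 : z0 ∈ C.W)
    (hre : (C.ℓ z0).re < x1) (him : (C.ℓ z0).im ∈ Ioo c d) :
    DifferentiableAt ℂ (fun z => C.cf p q c d h z + (ch p q (C.ℓ z).re : ℂ) • h z) z0 := by
  set m : ℝ := max q (C.ℓ z0).re with hm
  have hm1 : m < x1 := max_lt h1 hre
  have hm2 : q ≤ m := le_max_left _ _
  have hm3 : (C.ℓ z0).re ≤ m := le_max_right _ _
  set y0 : ℝ := (C.ℓ z0).im with hy0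
  obtain ⟨δ, hδ0, hδ1, hδ2, hδ3⟩ : ∃ δ : ℝ, 0 < δ ∧ 3 * δ ≤ x1 - m ∧ 3 * δ ≤ y0 - c ∧
      3 * δ ≤ d - y0 := by
    refine ⟨min (x1 - m) (min (y0 - c) (d - y0)) / 3, ?_, ?_, ?_, ?_⟩
    · have : 0 < min (x1 - m) (min (y0 - c) (d - y0)) :=
        lt_min (by linarith) (lt_min (by linarith [him.1]) (by linarith [him.2]))
      linarith
    · linarith [min_le_left (x1 - m) (min (y0 - c) (d - y0))]
    · linarith [min_le_right (x1 - m) (min (y0 - c) (d - y0)), min_le_left (y0 - c) (d - y0)]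
    · linarith [min_le_right (x1 - m) (min (y0 - c) (d - y0)), min_le_right (y0 - c) (d - y0)]
  set U : Set E := C.bx ((C.ℓ z0).re - 1) (m + δ) (y0 - δ) (y0 + δ) with hU
  have hUo : IsOpen U := C.isOpen_bx _ _ _ _
  have hz0U : z0 ∈ U := ⟨hz0, ⟨by linarith, by linarith⟩, by constructor <;> linarith⟩
  set c' : ℝ := y0 - 2 * δ with hc'
  set d' : ℝ := y0 + 2 * δ with hd'
  set x' : ℝ := m + 2 * δ with hx'
  have hIm : ∀ z ∈ U, ∀ s y : ℝ, (y ≤ c' ∨ d' ≤ y) → δ ≤ ‖(s + y * I : ℂ) - C.ℓ z‖ := by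
    intro z hz s y hy
    refine le_trans ?_ (abs_im_le_norm _)
    have a1 := hz.2.2.1
    have a2 := hz.2.2.2
    simp only [sub_im, add_im, ofReal_im, mul_im, I_im, mul_one, ofReal_re, I_re, mul_zero,
      add_zero, zero_add]
    rcases hy with hy | hy
    · rw [abs_sub_comm]; exact le_trans (by linarith) (le_abs_self _)
    · exact le_trans (by linarith) (le_abs_self _)
  have hRe : ∀ z ∈ U, ∀ y : ℝ, δ ≤ ‖(x' + y * I : ℂ) - C.ℓ z‖ := by
    intro z hz y
    refine le_trans ?_ (abs_re_le_norm _)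
    have a1 := hz.2.1.2
    simp only [sub_re, add_re, ofReal_re, mul_re, I_re, mul_zero, ofReal_im, I_im, mul_one,
      sub_self, add_zero]
    exact le_trans (by linarith) (le_abs_self _)
  have hmem : ∀ z ∈ U, ∀ s y : ℝ, s ∈ Ioo x0 x1 → y ∈ Ioo c d →
      C.pt z (s + y * I) ∈ C.bx x0 x1 c d := fun z hz s y hs hy =>
    C.pt_mem hz.1 (by simpa using hs) (by simpa using hy)
  have hseg : ∀ t ∈ Ioo p q, DifferentiableOn ℂ (fun z => C.df h c c' d' d x' z t) U ∧
      ∀ z ∈ U, ‖C.df h c c' d' d x' z t‖ ≤ M / δ * (3 * (d - c) + 2 * (x' - p)) := by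
    intro t ht
    have ht' : t ∈ Ioo x0 x1 := ⟨h0.trans ht.1, ht.2.trans h1⟩
    have htx : t ≤ x' := by linarith [ht.2]
    obtain ⟨a1, b1⟩ := seg (C := C) hh hM hM0 hδ0 hUo (γ := fun y : ℝ => (t + y * I : ℂ))
      (by fun_prop) (α := c) (β := c') (by linarith) fun z hz y hy =>
      ⟨hmem z hz t y ht' ⟨hy.1, by linarith [hy.2]⟩, hIm z hz t y (Or.inl hy.2.le)⟩
    obtain ⟨a2, b2⟩ := seg (C := C) hh hM hM0 hδ0 hUo (γ := fun y : ℝ => (t + y * I : ℂ))
      (by fun_prop) (α := d') (β := d) (by linarith) fun z hz y hy =>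
      ⟨hmem z hz t y ht' ⟨by linarith [hy.1], hy.2⟩, hIm z hz t y (Or.inr hy.1.le)⟩
    obtain ⟨a3, b3⟩ := seg (C := C) hh hM hM0 hδ0 hUo (γ := fun s : ℝ => (s + c' * I : ℂ))
      (by fun_prop) (α := t) (β := x') htx fun z hz s hs =>
      ⟨hmem z hz s c' ⟨by linarith [hs.1, ht'.1], by linarith [hs.2]⟩ ⟨by linarith, by linarith⟩,
        hIm z hz s c' (Or.inl le_rfl)⟩
    obtain ⟨a4, b4⟩ := seg (C := C) hh hM hM0 hδ0 hUo (γ := fun y : ℝ => (x' + y * I : ℂ))
      (by fun_prop) (α := c') (β := d') (by linarith) fun z hz y hy =>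
      ⟨hmem z hz x' y ⟨by linarith, by linarith⟩ ⟨by linarith [hy.1], by linarith [hy.2]⟩,
        hRe z hz y⟩
    obtain ⟨a5, b5⟩ := seg (C := C) hh hM hM0 hδ0 hUo (γ := fun s : ℝ => (s + d' * I : ℂ))
      (by fun_prop) (α := t) (β := x') htx fun z hz s hs =>
      ⟨hmem z hz s d' ⟨by linarith [hs.1, ht'.1], by linarith [hs.2]⟩ ⟨by linarith, by linarith⟩,
        hIm z hz s d' (Or.inr le_rfl)⟩
    refine ⟨(a1.add a2).add (((a3.add (a4.const_smul I)).sub a5).const_smul (-I)), fun z hz => ?_⟩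
    have hMδ : 0 ≤ M / δ := by positivity
    unfold df
    refine (norm_add_le _ _).trans ?_
    rw [norm_smul, norm_neg, norm_I, one_mul]
    have n1 := (norm_add_le _ _).trans (add_le_add (b1 z hz) (b2 z hz))
    have n4 : ‖I • ∫ y in c'..d', C.kr h z (x' + y * I)‖ ≤ M / δ * (d' - c') := by
      rw [norm_smul, norm_I, one_mul]; exact b4 z hz
    have n2 := (norm_sub_le _ _).trans (add_le_add ((norm_add_le _ _).trans
      (add_le_add (b3 z hz) n4)) (b5 z hz))
    refine (add_le_add n1 n2).trans ?_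
    have : c' - c + (d - d') + (x' - t + (d' - c') + (x' - t)) ≤ 3 * (d - c) + 2 * (x' - p) := by
      linarith [ht.1]
    nlinarith [mul_le_mul_of_nonneg_left this hMδ]
  have hae : ∀ z ∈ U, (fun t => C.df h c c' d' d x' z t) =ᵐ[volume.restrict (Ioo p q)]
      fun t => (∫ y in Ioo c d, C.kr h z (t + y * I)) +
        (Iio (C.ℓ z).re).indicator (fun _ => ((2 * π : ℝ) : ℂ) • h z) t := by
    intro z hz
    filter_upwards [ae_restrict_mem measurableSet_Ioo, ae_ne_vol (Ioo p q) (C.ℓ z).re,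
      (kr_integrable h0 h1 hh hM hz.1).prod_right_ae] with t ht htx hint
    exact df_eq h0 hh (by linarith) (by linarith) (by linarith) (by linarith) hz.1
      (by linarith [hz.2.1.2]) ⟨by linarith [hz.2.2.1], by linarith [hz.2.2.2]⟩ ht htx hint
  have hfin : IsFiniteMeasure (volume.restrict (Ioo p q)) := ⟨by simp⟩
  have hi1 : ∀ z ∈ U, Integrable (fun t : ℝ => ∫ y in Ioo c d, C.kr h z (t + y * I))
      (volume.restrict (Ioo p q)) := fun z hz =>
    (kr_integrable h0 h1 hh hM hz.1).integral_prod_left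
  have hi2 : ∀ z : E, Integrable ((Iio (C.ℓ z).re).indicator fun _ => ((2 * π : ℝ) : ℂ) • h z)
      (volume.restrict (Ioo p q)) := fun z => (integrable_const _).indicator measurableSet_Iio
  have key := hi (μ := volume.restrict (Ioo p q)) (f := fun z t => C.df h c c' d' d x' z t)
    (U := U) (g := fun _ => M / δ * (3 * (d - c) + 2 * (x' - p))) hUo (integrable_const _)
    (fun z hz => (((hi1 z hz).add (hi2 z)).aestronglyMeasurable).congr (hae z hz).symm)
    ((ae_restrict_mem measurableSet_Ioo).mono fun t ht => (hseg t ht).1)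
    ((ae_restrict_mem measurableSet_Ioo).mono fun t ht => (hseg t ht).2)
  refine ((key.differentiableAt (hUo.mem_nhds hz0U)).const_smul
    ((2 * π * (q - p) : ℝ) : ℂ)⁻¹).congr_of_eventuallyEq ?_
  filter_upwards [hUo.mem_nhds hz0U] with z hz
  simp only [Pi.smul_apply]
  rw [integral_congr_ae (hae z hz), integral_add (hi1 z hz) (hi2 z), smul_add, cf, μc,
    integral_prod _ (kr_integrable h0 h1 hh hM hz.1), integral_indicator measurableSet_Iio,
    setIntegral_const, Measure.real, Measure.restrict_apply measurableSet_Iio, inter_comm]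
  congr 1
  rw [← Complex.coe_smul, smul_smul, smul_smul, ch]
  congr 1
  have : (q - p : ℂ) ≠ 0 := by
    have : (q - p : ℝ) ≠ 0 := by linarith
    exact_mod_cast this
  have hπ : (π : ℂ) ≠ 0 := by exact_mod_cast Real.pi_ne_zero
  push_cast
  field_simp

end main

/-- **additive splitting** with a sup-norm bound on fixed domains -/
theorem add_split (C : Cyl E) {xl x0 x1 xr c d R : ℝ} (h01 : x0 < x1) (hcd : c ≤ d)
    (hR : 0 ≤ R) (hl : xr - xl ≤ R) (hl1 : xl ≤ x0) (hr1 : x1 ≤ xr) (hRd : d - c ≤ R) :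
    ∃ T : (E → F) → E → F,
      (∀ (h : E → F) (M : ℝ), 0 ≤ M → DifferentiableOn ℂ h (C.bx x0 x1 c d) →
        (∀ z ∈ C.bx x0 x1 c d, ‖h z‖ ≤ M) →
        DifferentiableOn ℂ (T h) (C.bx xl x1 c d) ∧
        (∀ z ∈ C.bx xl x1 c d, ‖T h z‖ ≤ (3 * Jc R ^ 2 / (x1 - x0) + 1) * M) ∧
        ∃ b : E → F, DifferentiableOn ℂ b (C.bx x0 xr c d) ∧
          (∀ z ∈ C.bx x0 xr c d, ‖b z‖ ≤ (3 * Jc R ^ 2 / (x1 - x0) + 1) * M) ∧
          ∀ z, b z = T h z + h z) ∧
      ∀ (h h' : E → F) (M M' : ℝ), DifferentiableOn ℂ h (C.bx x0 x1 c d) →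
        (∀ z ∈ C.bx x0 x1 c d, ‖h z‖ ≤ M) → DifferentiableOn ℂ h' (C.bx x0 x1 c d) →
        (∀ z ∈ C.bx x0 x1 c d, ‖h' z‖ ≤ M') →
        ∀ z ∈ C.W, T (fun w => h w - h' w) z = T h z - T h' z := by
  set p : ℝ := x0 + (x1 - x0) / 3 with hp
  set q : ℝ := x0 + 2 * (x1 - x0) / 3 with hq
  have h0 : x0 < p := by rw [hp]; linarith
  have hpq : p < q := by rw [hp, hq]; linarith
  have h1 : q < x1 := by rw [hq]; linarith
  have hK : Jc R ^ 2 / (q - p) = 3 * Jc R ^ 2 / (x1 - x0) := by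
    have : q - p = (x1 - x0) / 3 := by rw [hp, hq]; ring
    rw [this]
    field_simp
  refine ⟨fun h z => -(C.cf p q c d h z + (ch p q (C.ℓ z).re : ℂ) • h z), ?_, ?_⟩
  · intro h M hM0 hh hM
    have hcf : ∀ z ∈ C.bx xl xr c d, ‖C.cf p q c d h z‖ ≤ 3 * Jc R ^ 2 / (x1 - x0) * M := by
      intro z hz
      rw [← hK]
      exact cf_bound h0 hpq h1 hcd hM hM0 hz.1 hR (by linarith [hz.2.1.2]) (by linarith [hz.2.1.1])
        (by linarith [hz.2.2.2]) (by linarith [hz.2.2.1])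
    have hA : ∀ z ∈ C.bx xl x1 c d, DifferentiableAt ℂ
        (fun z => -(C.cf p q c d h z + (ch p q (C.ℓ z).re : ℂ) • h z)) z := fun z hz =>
      (cf_hol_left h0 hpq h1 hh hM hM0 hz.1 hz.2.1.2 hz.2.2).neg
    refine ⟨fun z hz => (hA z hz).differentiableWithinAt, fun z hz => ?_,
      fun z => -(C.cf p q c d h z + (ch p q (C.ℓ z).re : ℂ) • h z) + h z, fun z hz => ?_,
      fun z hz => ?_, fun z => rfl⟩
    · rw [norm_neg, add_mul, one_mul]
      refine (norm_add_le _ _).trans (add_le_add (hcf z ⟨hz.1, ⟨hz.2.1.1, by linarith [hz.2.1.2]⟩,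
        hz.2.2⟩) ?_)
      rcases le_or_gt (C.ℓ z).re p with hx | hx
      · rw [ch_left hx]; simpa using hM0
      · rw [norm_smul, norm_real, Real.norm_of_nonneg (ch_nonneg hpq _)]
        have := hM z ⟨hz.1, ⟨h0.trans hx, hz.2.1.2⟩, hz.2.2⟩
        nlinarith [ch_le_one hpq (C.ℓ z).re, ch_nonneg hpq (C.ℓ z).re, norm_nonneg (h z)]
    · refine DifferentiableAt.differentiableWithinAt ?_
      rcases lt_or_ge (C.ℓ z).re x1 with hx | hx
      · exact (hA z ⟨hz.1, ⟨by linarith [hz.2.1.1], hx⟩, hz.2.2⟩).add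
          (hh.differentiableAt ((C.isOpen_bx _ _ _ _).mem_nhds ⟨hz.1, ⟨hz.2.1.1, hx⟩, hz.2.2⟩))
      · have hqz : q < (C.ℓ z).re := by linarith
        refine (cf_hol_right (p := p) h0 h1 hh hM hM0 hz.1 hqz).neg.congr_of_eventuallyEq ?_
        have hc : Continuous fun z => (C.ℓ z).re := continuous_re.comp C.ℓ.continuous
        filter_upwards [(isOpen_Ioi.preimage hc).mem_nhds hqz] with w hw
        rw [ch_right hpq (le_of_lt hw)]
        simp
    · have e : -(C.cf p q c d h z + (ch p q (C.ℓ z).re : ℂ) • h z) + h z =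
          -C.cf p q c d h z + ((1 - ch p q (C.ℓ z).re : ℝ) : ℂ) • h z := by
        push_cast
        rw [sub_smul, one_smul]
        abel
      beta_reduce
      rw [e, add_mul, one_mul]
      refine (norm_add_le _ _).trans (add_le_add ?_ ?_)
      · rw [norm_neg]
        exact hcf z ⟨hz.1, ⟨by linarith [hz.2.1.1], hz.2.1.2⟩, hz.2.2⟩
      · rcases le_or_gt q (C.ℓ z).re with hx | hx
        · rw [ch_right hpq hx]; simpa using hM0
        · rw [norm_smul, norm_real, Real.norm_of_nonneg (by linarith [ch_le_one hpq (C.ℓ z).re])]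
          have := hM z ⟨hz.1, ⟨hz.2.1.1, hx.trans h1⟩, hz.2.2⟩
          nlinarith [ch_le_one hpq (C.ℓ z).re, ch_nonneg hpq (C.ℓ z).re, norm_nonneg (h z)]
  · intro h h' M M' hh hM hh' hM' z hz
    simp only
    rw [cf_sub h0 h1 hh hM hh' hM' hz, smul_sub]
    abel

end Cyl

end Crest.Agent.T223.Qc47
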