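import Crest.Agent.T223.Gr4_44_Mg
import Crest.Agent.T223.TrPb_90
import Crest.Agent.T223.QcIf_47
import Crest.Agent.T223.FrA_38
import Crest.Agent.T223.QcDbl_35

-- ▼ part T223/QcImpC_48
section

/-!
# Row 223, module QC / IMP (helper48): `ImpStmt` from `LimStmt`
-/

set_option autoImplicit false
set_option linter.unusedSectionVars false
set_option linter.unusedVariables false

open Set Filter Topology Metric
open scoped ContDiff InnerProductSpace ComplexConjugate Matrix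

namespace Crest.Agent.T223.Qc48

open Crest.Agent.R275.Geo Crest.Agent.R275.EDR890 Crest.Agent.T223.Br Crest.Agent.T223.Tr

noncomputable section

variable {n : ℕ}

/-- the operator of a sesquilinear form -/
def opT (g : Matrix (Fin n) (Fin n) ℂ) : Op n := Matrix.toEuclideanCLM (n := Fin n) (𝕜 := ℂ) gᵀ

theorem opT_apply (g : Matrix (Fin n) (Fin n) ℂ) (v : Cn n) (b : Fin n) :
    opT g v b = ∑ a, g a b * v a := by
  rw [opT, Matrix.ofLp_toEuclideanCLM]
  simp [Matrix.mulVec, dotProduct]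

theorem opT_mul (g h : Matrix (Fin n) (Fin n) ℂ) : opT (g * h) = opT h * opT g := by
  simp only [opT, Matrix.transpose_mul, map_mul]

theorem opT_star (g : Matrix (Fin n) (Fin n) ℂ) : opT gᴴ = star (opT g) := by
  rw [opT, opT, ← map_star]
  rfl

theorem opT_add (g h : Matrix (Fin n) (Fin n) ℂ) : opT (g + h) = opT g + opT h := by
  simp only [opT, Matrix.transpose_add, map_add]

theorem opT_smul (c : ℂ) (g : Matrix (Fin n) (Fin n) ℂ) : opT (c • g) = c • opT g := by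
  simp only [opT, Matrix.transpose_smul, map_smul]

theorem opT_sum {ι : Type} (s : Finset ι) (g : ι → Matrix (Fin n) (Fin n) ℂ) :
    opT (∑ i ∈ s, g i) = ∑ i ∈ s, opT (g i) := by
  simp only [opT, Matrix.transpose_sum, map_sum]

theorem re_inner_opT (g : Matrix (Fin n) (Fin n) ℂ) (v : Cn n) :
    (⟪v, opT g v⟫_ℂ).re = nq g v := by
  unfold nq
  congr 1
  simp only [PiLp.inner_apply, opT_apply, RCLike.inner_apply, Finset.sum_mul]
  rw [Finset.sum_comm]

theorem opT_eq_sum (g : Matrix (Fin n) (Fin n) ℂ) :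
    opT g = ∑ a, ∑ b, g a b • opT (Matrix.single a b (1 : ℂ)) := by
  conv_lhs => rw [Matrix.matrix_eq_sum_single g]
  rw [opT_sum]
  refine Finset.sum_congr rfl fun a _ => ?_
  rw [opT_sum]
  refine Finset.sum_congr rfl fun b _ => ?_
  rw [← opT_smul, Matrix.smul_single, smul_eq_mul, mul_one]

theorem isUnit_opT {g : Matrix (Fin n) (Fin n) ℂ} (h : ∀ v : Cn n, ‖v‖ ^ 2 / 2 ≤ nq g v) :
    IsUnit (opT g) := by
  have hi : Function.Injective (opT g) := by
    rw [injective_iff_map_eq_zero]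
    intro v hv
    have h1 := h v
    rw [← re_inner_opT, hv] at h1
    simp only [inner_zero_right, Complex.zero_re] at h1
    have : ‖v‖ ^ 2 = 0 := le_antisymm (by linarith) (sq_nonneg _)
    simpa using this
  refine ⟨(ContinuousLinearEquiv.unitsEquiv ℂ (Cn n)).symm (eqvOf _ hi), ?_⟩
  ext v : 1
  exact eqvOf_apply _ hi v

theorem abs_nq_le {D : Matrix (Fin n) (Fin n) ℂ} {δ : ℝ} (h : ∀ a b, ‖D a b‖ ≤ δ) (v : Cn n) :
    |nq D v| ≤ δ * n ^ 2 * ‖v‖ ^ 2 := by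
  unfold nq
  refine (Complex.abs_re_le_norm _).trans ((norm_sum_le _ _).trans ?_)
  have h1 : ∀ a, ‖∑ b, D a b * v a * conj (v b)‖ ≤ ∑ b : Fin n, δ * ‖v‖ ^ 2 := by
    intro a
    refine (norm_sum_le _ _).trans (Finset.sum_le_sum fun b _ => ?_)
    have hδ : 0 ≤ δ := (norm_nonneg _).trans (h a b)
    rw [norm_mul, norm_mul, Complex.norm_conj, pow_two, ← mul_assoc]
    gcongr
    · exact h a b
    · exact PiLp.norm_apply_le v a
    · exact PiLp.norm_apply_le v b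
  refine (Finset.sum_le_sum fun a _ => h1 a).trans (le_of_eq ?_)
  simp
  ring

theorem wd_true_conj {f g : Cn n → ℂ} {z : Cn n} (hg : DifferentiableAt ℝ g z)
    (h : f =ᶠ[𝓝 z] fun w => conj (g w)) (c : Fin n) :
    wd (true, c) f z = conj (wd (false, c) g z) := by
  rw [wd_congr h]
  have h1 : HasFDerivAt (fun w => conj (g w))
      ((Complex.conjCLE : ℂ →L[ℝ] ℂ).comp (fderiv ℝ g z)) z :=
    (Complex.conjCLE : ℂ →L[ℝ] ℂ).hasFDerivAt.comp z hg.hasFDerivAt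
  simp only [wd, wdL, h1.fderiv]
  simp [map_ofNat]

/-- the elementary bilinear maps `x ↦ y ↦ x_c y_a e_p` -/
def El (c a p : Fin n) : Cn n →L[ℂ] Op n :=
  (EuclideanSpace.proj c : Cn n →L[ℂ] ℂ).smulRight (opT (Matrix.single a p (1 : ℂ)))

/-- Christoffel symbols as an operator valued form -/
def chA (Γ : Fin n → Matrix (Fin n) (Fin n) ℂ) : Cn n →L[ℂ] Op n :=
  ∑ c, ∑ a, ∑ p, Γ c a p • El c a p

theorem chA_apply (Γ : Fin n → Matrix (Fin n) (Fin n) ℂ) (x : Cn n) :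
    chA Γ x = ∑ c, x c • opT (Γ c) := by
  simp only [chA, El, _root_.sum_apply, _root_.smul_apply, ContinuousLinearMap.smulRight_apply]
  refine Finset.sum_congr rfl fun c _ => ?_
  rw [opT_eq_sum (Γ c), Finset.smul_sum]
  refine Finset.sum_congr rfl fun a _ => ?_
  rw [Finset.smul_sum]
  refine Finset.sum_congr rfl fun p _ => ?_
  rw [smul_comm]
  rfl

/-- the constant in the bound of `chA` -/
def cEl (n : ℕ) : ℝ := ∑ c : Fin n, ∑ a : Fin n, ∑ p : Fin n, ‖El c a p‖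

theorem cEl_nonneg : 0 ≤ cEl n :=
  Finset.sum_nonneg fun c _ => Finset.sum_nonneg fun a _ => Finset.sum_nonneg fun p _ =>
    (El c a p).opNorm_nonneg

theorem norm_chA_le {Γ : Fin n → Matrix (Fin n) (Fin n) ℂ} {C : ℝ} (h : ∀ c a p, ‖Γ c a p‖ ≤ C) :
    ‖chA Γ‖ ≤ C * cEl n := by
  unfold chA cEl
  rw [Finset.mul_sum]
  refine (norm_sum_le (E := Cn n →L[ℂ] Op n) _ _).trans (Finset.sum_le_sum fun c _ => ?_)
  rw [Finset.mul_sum]
  refine (norm_sum_le (E := Cn n →L[ℂ] Op n) _ _).trans (Finset.sum_le_sum fun a _ => ?_)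
  rw [Finset.mul_sum]
  refine (norm_sum_le (E := Cn n →L[ℂ] Op n) _ _).trans (Finset.sum_le_sum fun p _ => ?_)
  exact (ContinuousLinearMap.opNorm_smul_le (Γ c a p) (El c a p)).trans
    (mul_le_mul_of_nonneg_right (h c a p) (El c a p).opNorm_nonneg)

theorem diff_sum3 {W : Type} [NormedAddCommGroup W] [NormedSpace ℂ W]
    (e : Fin n → Fin n → Fin n → W) {f : Fin n → Fin n → Fin n → Cn n → ℂ} {U : Set (Cn n)}
    (hf : ∀ c a p, DifferentiableOn ℂ (f c a p) U) :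
    DifferentiableOn ℂ (fun z => ∑ c, ∑ a, ∑ p, f c a p z • e c a p) U :=
  DifferentiableOn.fun_sum fun c _ => DifferentiableOn.fun_sum fun a _ =>
    DifferentiableOn.fun_sum fun p _ => (hf c a p).smul_const _

theorem diff_chA {Γ : Fin n → Cn n → Matrix (Fin n) (Fin n) ℂ} {U : Set (Cn n)}
    (hΓ : ∀ c a p, DifferentiableOn ℂ (fun z => Γ c z a p) U) :
    DifferentiableOn ℂ (fun z => chA (fun c => Γ c z)) U :=
  diff_sum3 (W := Cn n →L[ℂ] Op n) El hΓ

theorem chA_symm {Γ : Fin n → Matrix (Fin n) (Fin n) ℂ} (hs : ∀ c a p, Γ c a p = Γ a c p)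
    (x y : Cn n) : chA Γ x y = chA Γ y x := by
  ext p
  simp only [chA_apply, _root_.sum_apply, _root_.smul_apply, WithLp.ofLp_sum, WithLp.ofLp_smul,
    Finset.sum_apply, Pi.smul_apply, opT_apply, smul_eq_mul, Finset.mul_sum]
  rw [Finset.sum_comm]
  refine Finset.sum_congr rfl fun a _ => Finset.sum_congr rfl fun c _ => ?_
  rw [hs c a p]
  ring

theorem alg_ode {B : Type} [CStarAlgebra B] {h : B} (hsa : star h = h) (γ : Fin n → B)
    (x : Fin n → ℂ) :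
    (∑ c, x c • (h * γ c)) + ∑ c, conj (x c) • star (h * γ c) =
      h * (∑ c, x c • γ c) + star (∑ c, x c • γ c) * h := by
  rw [Finset.mul_sum, star_sum, Finset.sum_mul]
  congr 1
  · refine Finset.sum_congr rfl fun c _ => ?_
    rw [mul_smul_comm]
  · refine Finset.sum_congr rfl fun c _ => ?_
    rw [star_mul, hsa, star_smul, smul_mul_assoc]
    rfl

theorem opT_ode {g : Matrix (Fin n) (Fin n) ℂ} (hg : g.IsHermitian)
    (Γ : Fin n → Matrix (Fin n) (Fin n) ℂ) (x : Cn n) :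
    opT ((∑ c, x c • (Γ c * g)) + ∑ c, conj (x c) • (Γ c * g)ᴴ) =
      opT g * chA Γ x + star (chA Γ x) * opT g := by
  have hsa : star (opT g) = opT g := by rw [← opT_star, hg.eq]
  rw [opT_add, opT_sum, opT_sum, chA_apply]
  simp only [opT_smul, opT_star, opT_mul]
  exact alg_ode (B := Op n) hsa (fun c => opT (Γ c)) (fun c => x c)

/-- a matrix field with holomorphic Christoffel symbols is flat -/
theorem exists_flat_mat {G0 : Cn n → Matrix (Fin n) (Fin n) ℂ}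
    {Γ : Fin n → Cn n → Matrix (Fin n) (Fin n) ℂ} {r C : ℝ} (hr : 0 < r)
    (hCr : C * cEl n * r ≤ 1 / 4)
    (hG : ∀ a b, DifferentiableOn ℝ (fun z => G0 z a b) (ball 0 r))
    (hh : ∀ z ∈ ball (0 : Cn n) r, (G0 z).IsHermitian)
    (hlo : ∀ v : Cn n, ‖v‖ ^ 2 / 2 ≤ nq (G0 0) v)
    (hΓ : ∀ c a p, DifferentiableOn ℂ (fun z => Γ c z a p) (ball 0 r))
    (hC : ∀ c a p, ∀ z ∈ ball (0 : Cn n) r, ‖Γ c z a p‖ ≤ C)
    (hd : ∀ c, ∀ z ∈ ball (0 : Cn n) r, wdM (false, c) G0 z = Γ c z * G0 z)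
    (hs : ∀ c a p, ∀ z ∈ ball (0 : Cn n) r, Γ c z a p = Γ a z c p) :
    ∃ σ : Cn n → Cn n, DifferentiableOn ℂ σ (ball 0 (r / 4)) ∧
      MapsTo σ (ball 0 (r / 4)) (ball 0 r) ∧ σ 0 = 0 ∧
      fderiv ℂ σ 0 = ContinuousLinearMap.id ℂ (Cn n) ∧
      ∀ z ∈ ball (0 : Cn n) (r / 4), ∀ v, ‖fderiv ℂ σ z v‖ ≤ 2 * ‖v‖ ∧
        nq (G0 (σ z)) (fderiv ℂ σ z v) = nq (G0 0) v := by
  have hHf : (fun z => opT (G0 z)) =
      fun z => ∑ a, ∑ b, G0 z a b • opT (Matrix.single a b (1 : ℂ)) :=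
    funext fun z => opT_eq_sum _
  have hHd : ∀ z ∈ ball (0 : Cn n) r, HasFDerivAt (fun z => opT (G0 z))
      (∑ a, ∑ b, (fderiv ℝ (fun z => G0 z a b) z).smulRight (opT (Matrix.single a b (1 : ℂ))))
      z := by
    intro z hz
    rw [hHf]
    refine HasFDerivAt.fun_sum fun a _ => HasFDerivAt.fun_sum fun b _ => ?_
    exact ((hG a b).differentiableAt (isOpen_ball.mem_nhds hz)).hasFDerivAt.smul_const
      (opT (Matrix.single a b (1 : ℂ)))
  have hsa : ∀ z ∈ ball (0 : Cn n) r, star (opT (G0 z)) = opT (G0 z) := by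
    intro z hz
    rw [← opT_star, (hh z hz).eq]
  refine (exists_flat_chart (A := fun z => chA (fun c => Γ c z))
    (H := fun z => opT (G0 z)) (C := C * cEl n) hr ?_
    (fun z hz => norm_chA_le fun c a p => hC c a p z hz)
    hCr (fun z hz => (hHd z hz).differentiableAt.differentiableWithinAt) ?_
    (hsa 0 (mem_ball_self hr)) (isUnit_opT hlo) ?_).imp ?_
  rotate_right
  · rintro σ ⟨h1, h2, h3, h4, h5⟩
    refine ⟨h1, h2, h3, h4, fun z hz v => ⟨(h5 z hz v).1, ?_⟩⟩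
    rw [← re_inner_opT, ← re_inner_opT, (h5 z hz v).2]
  · exact diff_chA hΓ
  · intro z hz x
    have hzn := isOpen_ball.mem_nhds hz
    rw [(hHd z hz).fderiv]
    have e1 : (∑ a, ∑ b, (fderiv ℝ (fun z => G0 z a b) z).smulRight
        (opT (Matrix.single a b (1 : ℂ)))) x =
        opT (Matrix.of fun a b => fderiv ℝ (fun z => G0 z a b) z x) := by
      rw [opT_eq_sum (Matrix.of _)]
      simp only [_root_.sum_apply, ContinuousLinearMap.smulRight_apply, Matrix.of_apply]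
    have e2 : (Matrix.of fun a b => fderiv ℝ (fun z => G0 z a b) z x) =
        (∑ c, x c • (Γ c z * G0 z)) + ∑ c, conj (x c) • (Γ c z * G0 z)ᴴ := by
      ext a b
      rw [Matrix.of_apply, Crest.Agent.R275.EDR890.apply_eq_sum, Fintype.sum_prod_type, Fintype.sum_bool, add_comm]
      simp only [Matrix.add_apply, Matrix.sum_apply, Matrix.smul_apply, ze_apply, cj_true, cj_false,
        Matrix.conjTranspose_apply]
      congr 1
      · refine Finset.sum_congr rfl fun c _ => ?_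
        rw [← hd c z hz]
        rfl
      · refine Finset.sum_congr rfl fun c _ => ?_
        rw [← hd c z hz]
        congr 1
        refine wd_true_conj (g := fun w => G0 w b a) ((hG b a).differentiableAt hzn) ?_ c
        filter_upwards [hzn] with w hw
        exact ((hh w hw).apply a b).symm
    rw [e1, e2]
    exact opT_ode (hh z hz) (fun c => Γ c z) x
  · intro z hz x y
    exact chA_symm (fun c a p => hs c a p z hz) x y

/-- **IMP** -/
theorem impStmt (hL : LimStmt n) : ImpStmt n := by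
  obtain ⟨C, hC0, hL⟩ := hL
  have hK := cEl_nonneg (n := n)
  set r : ℝ := 1 / (4 * (C * cEl n) + 2) with hr
  have hden : 0 < 4 * (C * cEl n) + 2 := by positivity
  have hr0 : 0 < r := by positivity
  have hr2 : r ≤ 1 / 2 := by
    rw [hr]
    exact one_div_le_one_div_of_le (by norm_num) (by nlinarith [mul_nonneg hC0.le hK])
  have hCr : C * cEl n * r ≤ 1 / 4 := by
    rw [hr, mul_one_div, div_le_iff₀ hden]
    linarith
  have hsub : ball (0 : Cn n) r ⊆ ball 0 (1 / 2) := ball_subset_ball hr2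
  have hsub1 : ball (0 : Cn n) (1 / 2) ⊆ ball 0 1 := ball_subset_ball (by norm_num)
  refine ⟨r / 4, by positivity, by linarith, fun ε' hε' => ?_⟩
  by_contra hcon
  push Not at hcon
  have hpos : ∀ j : ℕ, (0 : ℝ) < 1 / ((j : ℝ) + 1) := fun j => by positivity
  choose G hG hbad using fun j : ℕ => hcon (1 / ((j : ℝ) + 1)) (hpos j)
  obtain ⟨φ, G0, Γ, hφ, hU, hG0, hΓ, hΓb, hd, hs⟩ :=
    hL G (fun j => 1 / ((j : ℝ) + 1)) tendsto_one_div_add_atTop_nhds_zero_nat hG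
  have hh : ∀ z ∈ ball (0 : Cn n) (1 / 2), (G0 z).IsHermitian := by
    intro z hz
    ext a b
    have h1 := (hU a b).tendsto_at hz
    have h2 := (Complex.continuous_conj.tendsto _).comp ((hU b a).tendsto_at hz)
    refine tendsto_nhds_unique h2 (h1.congr fun j => ?_)
    exact (((hG (φ j)).herm z (hsub1 hz)).apply a b).symm
  have hclose : ∀ δ : ℝ, 0 < δ → ∃ j, ∀ z ∈ ball (0 : Cn n) (1 / 2), ∀ v,
      |nq (G j z) v - nq (G0 z) v| ≤ δ * n ^ 2 * ‖v‖ ^ 2 := by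
    intro δ hδ
    have h1 : ∀ᶠ j in atTop, ∀ a b, ∀ z ∈ ball (0 : Cn n) (1 / 2),
        dist (G0 z a b) (G (φ j) z a b) < δ :=
      eventually_all.2 fun a => eventually_all.2 fun b =>
        Metric.tendstoUniformlyOn_iff.1 (hU a b) δ hδ
    obtain ⟨j, hj⟩ := h1.exists
    refine ⟨φ j, fun z hz v => ?_⟩
    rw [← nq_sub]
    refine abs_nq_le (fun a b => ?_) v
    have := hj a b z hz
    rw [dist_comm, dist_eq_norm] at this
    exact this.le
  have h0 : (0 : Cn n) ∈ ball (0 : Cn n) (1 / 2) := mem_ball_self (by norm_num)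
  have hlo : ∀ v : Cn n, ‖v‖ ^ 2 / 2 ≤ nq (G0 0) v := by
    intro v
    refine le_of_forall_pos_le_add fun η hη => ?_
    obtain ⟨j, hj⟩ := hclose (η / (n ^ 2 * ‖v‖ ^ 2 + 1)) (by positivity)
    have h1 := (abs_le.1 (hj 0 h0 v)).2
    have h2 := (hG j).lo 0 (hsub1 h0) v
    have h3 : η / (n ^ 2 * ‖v‖ ^ 2 + 1) * n ^ 2 * ‖v‖ ^ 2 ≤ η := by
      rw [mul_assoc, div_mul_eq_mul_div, div_le_iff₀ (by positivity)]
      nlinarith
    linarith
  obtain ⟨σ, h1, h2, h3, h4, h5⟩ := exists_flat_mat (G0 := G0) (Γ := Γ) hr0 hCr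
    (fun a b => (hG0 a b).mono hsub) (fun z hz => hh z (hsub hz)) hlo
    (fun c a p => (hΓ c a p).mono hsub) (fun c a p z hz => hΓb c a p z (hsub hz))
    (fun c z hz => hd c z (hsub hz)) (fun c a p z hz => hs c a p z (hsub hz))
  set δ : ℝ := ε' / (10 * (n ^ 2 + 1)) with hδ
  have hδ0 : 0 < δ := by positivity
  have hδn : δ * n ^ 2 ≤ ε' / 10 := by
    rw [hδ, div_mul_eq_mul_div, div_le_div_iff₀ (by positivity) (by norm_num)]
    nlinarith
  obtain ⟨j, hj⟩ := hclose δ hδ0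
  obtain ⟨z, hz, v, hv⟩ := hbad j σ h1 (fun z hz => hsub1 (hsub (h2 hz))) h3 h4
  obtain ⟨h6, h7⟩ := h5 z hz v
  have h8 := abs_le.1 (hj _ (hsub (h2 hz)) (fderiv ℂ σ z v))
  have h9 := abs_le.1 (hj 0 h0 v)
  have h10 := (hG j).lo 0 (hsub1 h0) v
  have h11 : ‖fderiv ℂ σ z v‖ ^ 2 ≤ 4 * ‖v‖ ^ 2 := by
    have := pow_le_pow_left₀ (norm_nonneg _) h6 2
    linarith
  have h12 : δ * n ^ 2 * ‖fderiv ℂ σ z v‖ ^ 2 ≤ ε' / 10 * (4 * ‖v‖ ^ 2) :=
    mul_le_mul hδn h11 (sq_nonneg _) (by positivity)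
  have h13 : δ * n ^ 2 * ‖v‖ ^ 2 ≤ ε' / 10 * ‖v‖ ^ 2 :=
    mul_le_mul_of_nonneg_right hδn (sq_nonneg _)
  have h14 : ε' * (‖v‖ ^ 2 / 2) ≤ ε' * nq (G j 0) v := mul_le_mul_of_nonneg_left h10 hε'.le
  rw [h7] at h8
  have := hv (by linarith [h8.1, h9.2])
  linarith [h8.2, h9.1]

end

end Crest.Agent.T223.Qc48
end

-- ▼ part T223/QcWrA_48
section

/-!
# Row 223, module QC / WRAPPER (helper48): the pseudogroup data of a local Kaehler metric

* `HI A U ψ z` : `ψ` is a holomorphic immersion into `U` near `z`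
* `pull_eq_pbk`, `rel_pull`, `pull_comp`, `lip_seg`, `lip_pull`
* `pgOf` : the instance of `Qc47.PG`
-/

set_option autoImplicit false
set_option linter.unusedSectionVars false
set_option linter.unusedVariables false

open Set Filter Topology Metric
open scoped ContDiff InnerProductSpace ComplexConjugate Matrix ComplexOrder

namespace Crest.Agent.T223.Qc48

open Crest.Agent.R275.Geo Crest.Agent.R275.EDR890 Crest.Agent.T223.Br Crest.Agent.T223.Tr
open Crest.Agent.T223.Qc47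

noncomputable section

variable {n : ℕ} {M : Type} [TopologicalSpace M] {A : Atl n M}

/-- `ψ` is a holomorphic immersion with values in `U` near `z` -/
def HI (A : Atl n M) (U : Set M) (ψ : Cn n → M) (z : Cn n) : Prop :=
  ∃ W, IsOpen W ∧ z ∈ W ∧ Imm A ψ W ∧ MapsTo ψ W U

variable {U : Set M} {G : MF A} {ψ : Cn n → M} {z : Cn n}

theorem HI.ev (h : HI A U ψ z) : ∀ᶠ w in 𝓝 z, HI A U ψ w := by
  obtain ⟨W, h1, h2, h3, h4⟩ := h
  filter_upwards [h1.mem_nhds h2] with w hw using ⟨W, h1, hw, h3, h4⟩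

theorem HI.cont (h : HI A U ψ z) : ContinuousAt ψ z := by
  obtain ⟨W, h1, h2, h3, h4⟩ := h
  exact (h3.1 z h2).1

theorem HI.mem (h : HI A U ψ z) : ψ z ∈ U := by
  obtain ⟨W, h1, h2, h3, h4⟩ := h
  exact h4 h2

theorem HI.diff (h : HI A U ψ z) {i : A.ι} (hi : ψ z ∈ (A.e i).source) :
    DifferentiableAt ℂ (rd A i ψ) z := by
  obtain ⟨W, h1, h2, h3, h4⟩ := h
  exact (h3.1 z h2).2 i hi

theorem HI.inj (h : HI A U ψ z) {i : A.ι} (hi : ψ z ∈ (A.e i).source) :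
    Function.Injective (fderiv ℂ (rd A i ψ) z) := by
  obtain ⟨W, h1, h2, h3, h4⟩ := h
  exact h3.2 z h2 i hi

theorem HI.src (h : HI A U ψ z) {i : A.ι} (hi : ψ z ∈ (A.e i).source) :
    ∀ᶠ w in 𝓝 z, ψ w ∈ (A.e i).source := h.cont ((A.e i).open_source.mem_nhds hi)

theorem HI.holAt (h : HI A U ψ z) {i : A.ι} (hi : ψ z ∈ (A.e i).source) :
    HolAt (rd A i ψ) z := by
  filter_upwards [h.ev, h.src hi] with w hw hw' using hw.diff hw'

theorem imm_of_HI {D : Set (Cn n)} (h : ∀ z ∈ D, HI A U ψ z) : Imm A ψ D :=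
  ⟨fun z hz => ⟨(h z hz).cont, fun _ hi => (h z hz).diff hi⟩, fun z hz _ hi => (h z hz).inj hi⟩

theorem HI.of_ev (h : ∀ᶠ w in 𝓝 z, ψ w ∈ U ∧ ContinuousAt ψ w ∧ ∀ i, ψ w ∈ (A.e i).source →
    DifferentiableAt ℂ (rd A i ψ) w ∧ Function.Injective (fderiv ℂ (rd A i ψ) w)) :
    HI A U ψ z := by
  obtain ⟨W, hW, hWo, hz⟩ := _root_.eventually_nhds_iff.1 h
  exact ⟨W, hWo, hz, ⟨fun w hw => ⟨(hW w hw).2.1, fun i hi => ((hW w hw).2.2 i hi).1⟩,
    fun w hw i hi => ((hW w hw).2.2 i hi).2⟩, fun w hw => (hW w hw).1⟩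

theorem pull_eq_pbk (hG : TrOn G U) (h : HI A U ψ z) {i : A.ι} (hi : ψ z ∈ (A.e i).source) :
    pull G ψ z = pbk (rd A i ψ) (G i) z := by
  have hj := (A.cover (ψ z)).choose_spec
  unfold pull pbF pbk
  rw [(rd_trans h.cont hi hj (h.diff hi)).2]
  have h1 : G i (rd A i ψ z) = _ := hG i _ (ψ z) ⟨hi, hj⟩ h.mem
  rw [h1, Matrix.transpose_mul, Matrix.map_mul]
  simp only [Matrix.mul_assoc]

theorem rel_pull (hG : KahOn G U) (h : HI A U ψ z) {i : A.ι} (hi : ψ z ∈ (A.e i).source) :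
    Rel (rd A i ψ) z (pull G ψ) (G i) := by
  refine ⟨h.holAt hi, ?_, hG.kah i _ hi h.mem, ?_⟩
  · rw [jac_eq, det_mat, det_ne_zero_iff]
    exact h.inj hi
  · filter_upwards [h.ev, h.src hi] with w hw hw' using pull_eq_pbk hG.tr hw hw'

theorem kahAt_pull (hG : KahOn G U) (h : HI A U ψ z) : KahAt (pull G ψ) z :=
  (rel_pull hG h (A.cover (ψ z)).choose_spec).kahAt

theorem HI.congr (h : HI A U ψ z) {ψ' : Cn n → M} (e : ψ' =ᶠ[𝓝 z] ψ) : HI A U ψ' z := by
  refine HI.of_ev ?_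
  filter_upwards [h.ev, e.eventuallyEq_nhds] with w hw he
  have h0 : ψ' w = ψ w := he.self_of_nhds
  refine ⟨h0 ▸ hw.mem, hw.cont.congr he.symm, fun i hi => ?_⟩
  have he' : rd A i ψ' =ᶠ[𝓝 w] rd A i ψ := he.mono fun y hy => by simp only [rd, hy]
  rw [h0] at hi
  exact ⟨(hw.diff hi).congr_of_eventuallyEq he', by rw [he'.fderiv_eq]; exact hw.inj hi⟩

theorem pull_congr {ψ' : Cn n → M} (e : ψ' =ᶠ[𝓝 z] ψ) : pull G ψ' z = pull G ψ z := by
  have h0 : ψ' z = ψ z := e.self_of_nhds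
  have he' : ∀ i, rd A i ψ' =ᶠ[𝓝 z] rd A i ψ := fun i => e.mono fun y hy => by simp only [rd, hy]
  unfold pull pbF
  simp only [h0, jac_eq, (he' _).fderiv_eq]

theorem HI.comp {γ : Cn n → Cn n} (h : HI A U ψ (γ z)) (hγ : HolAt γ z)
    (hi : Function.Injective (fderiv ℂ γ z)) : HI A U (fun w => ψ (γ w)) z := by
  have hdet : (jac γ z).det ≠ 0 := by rwa [jac_eq, det_mat, det_ne_zero_iff]
  refine HI.of_ev ?_
  filter_upwards [hγ.tendsto.eventually h.ev, hγ, hγ.det_ne hdet] with w hw hd hdet'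
  refine ⟨hw.mem, hw.cont.comp hd.continuousAt, fun i hi' => ?_⟩
  have h1 : rd A i (fun w => ψ (γ w)) = rd A i ψ ∘ γ := rfl
  rw [h1]
  refine ⟨(hw.diff hi').comp w hd, ?_⟩
  rw [fderiv_comp w (hw.diff hi') hd]
  rw [jac_eq, det_mat, det_ne_zero_iff] at hdet'
  exact (hw.inj hi').comp hdet'

theorem nq_pull_comp {γ : Cn n → Cn n} (h : HI A U ψ (γ z)) (hγ : DifferentiableAt ℂ γ z)
    (v : Cn n) :
    nq (pull G (fun w => ψ (γ w)) z) v = nq (pull G ψ (γ z)) (fderiv ℂ γ z v) := by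
  have hj := (A.cover (ψ (γ z))).choose_spec
  unfold pull pbF
  have h1 : ∀ i, rd A i (fun w => ψ (γ w)) = rd A i ψ ∘ γ := fun i => rfl
  rw [jac_eq, jac_eq, nq_pull, nq_pull, h1, fderiv_comp z (h.diff hj) hγ]
  rfl

theorem HI.trans {φ : Cn n → M} {w : Cn n} (h : HI A U ψ z) (h' : HI A U φ w) (e : ψ z = φ w) :
    ∃ τ : Cn n → Cn n, (∀ᶠ y in 𝓝 z, DifferentiableAt ℂ τ y) ∧ τ z = w ∧
      Function.Injective (fderiv ℂ τ z) ∧ ∀ᶠ y in 𝓝 z, φ (τ y) = ψ y := by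
  obtain ⟨W, hWo, hw, hφ, hm⟩ := h'
  obtain ⟨q, hq, hqe⟩ := hφ.isLocalHomeomorphOn hWo w hw
  have hqf : ∀ y, q y = φ y := fun y => by rw [hqe]
  have htar : ψ z ∈ q.target := by rw [e, ← hqf]; exact q.map_source hq
  set τ : Cn n → Cn n := fun y => q.symm (ψ y) with hτ
  have hτz : τ z = w := by
    simp only [hτ]
    rw [e, ← hqf, q.left_inv hq]
  have h1 : ∀ᶠ y in 𝓝 z, ψ y ∈ q.target := h.cont (q.open_target.mem_nhds htar)
  have h2 : ∀ᶠ y in 𝓝 z, φ (τ y) = ψ y := by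
    filter_upwards [h1] with y hy
    rw [← hqf]
    exact q.right_inv hy
  have h3 : ∀ᶠ y in 𝓝 z, ContinuousAt τ y := by
    filter_upwards [h1, h.ev] with y hy hy'
    exact (q.continuousAt_symm hy).comp hy'.cont
  have h4 : ∀ᶠ y in 𝓝 z, τ y ∈ W := h3.self_of_nhds (by rw [hτz]; exact hWo.mem_nhds hw)
  have h5 : ∀ᶠ y in 𝓝 z, DifferentiableAt ℂ τ y ∧ Function.Injective (fderiv ℂ τ y) := by
    filter_upwards [h2.eventually_nhds, h3, h4, h.ev] with y k2 k3 k4 k5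
    obtain ⟨i, hi⟩ := A.cover (ψ y)
    obtain ⟨d1, d2⟩ := lift_differentiableAt hφ hWo k3 k4 k2 hi (k5.diff hi)
    refine ⟨d1, fun v v' hv => k5.inj hi ?_⟩
    rw [← d2, ← d2, hv]
  exact ⟨τ, h5.mono fun y hy => hy.1, hτz, h5.self_of_nhds.2, h2⟩

theorem HI.injOn (h : HI A U ψ z) : ∃ s ∈ 𝓝 z, InjOn ψ s := by
  obtain ⟨W, hWo, hw, hφ, hm⟩ := h
  obtain ⟨q, hq, hqe⟩ := hφ.isLocalHomeomorphOn hWo z hw
  refine ⟨q.source, q.open_source.mem_nhds hq, ?_⟩
  rw [hqe]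
  exact q.injOn

theorem exists_sqrt {g : Mat n} (hg : g.PosSemidef) :
    ∃ B : Cn n →L[ℂ] Cn n, ∀ v, nq g v = ‖B v‖ ^ 2 := by
  obtain ⟨C, hC⟩ : ∃ C : Mat n, g = Cᴴ * C := by
    open scoped MatrixOrder in
    exact CStarAlgebra.nonneg_iff_eq_star_mul_self.1 hg.nonneg
  refine ⟨star (opT C), fun v => ?_⟩
  rw [← re_inner_opT, hC, opT_mul, opT_star, mul_apply_eq_comp,
    ← ContinuousLinearMap.adjoint_inner_left, ← ContinuousLinearMap.star_eq_adjoint,
    inner_self_eq_norm_sq_to_K]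
  norm_cast

theorem eq_of_nq {g h : Mat n} (hg : g.IsHermitian) (hh : h.IsHermitian)
    (e : ∀ v, nq g v = nq h v) : g = h := by
  have h1 : (g - h).PosSemidef :=
    posSemidef_of_nq (hg.sub hh) fun v => by rw [nq_sub, e, sub_self]
  have h2 : (h - g).PosSemidef :=
    posSemidef_of_nq (hh.sub hg) fun v => by rw [nq_sub, e, sub_self]
  have h3 : ∀ x, (g - h) *ᵥ x = 0 := by
    intro x
    rw [← h1.dotProduct_mulVec_zero_iff]
    refine le_antisymm ?_ (h1.dotProduct_mulVec_nonneg x)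
    have := h2.dotProduct_mulVec_nonneg x
    rw [← neg_sub, Matrix.neg_mulVec, dotProduct_neg] at this
    exact neg_nonneg.1 this
  refine sub_eq_zero.1 ?_
  ext a b
  have := congrFun (h3 (Pi.single b 1)) a
  simpa using this

/-- pointwise Lipschitz bounds integrate along segments -/
theorem lip_seg {f : Cn n → ℝ} {D : Set (Cn n)} (hD : Convex ℝ D) {K : ℝ}
    (h : ∀ y ∈ D, ∀ η : ℝ, 0 < η → ∀ᶠ y' in 𝓝 y, |f y' - f y| ≤ (K + η) * ‖y' - y‖)
    {z w : Cn n} (hz : z ∈ D) (hw : w ∈ D) : f z ≤ f w + K * ‖z - w‖ := by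
  set γ : ℝ → Cn n := fun t => w + t • (z - w) with hγ
  have hγc : Continuous γ := by fun_prop
  have hγD : ∀ t ∈ Icc (0 : ℝ) 1, γ t ∈ D := fun t ht => hD.add_smul_sub_mem hw hz ht
  have hγs : ∀ s t : ℝ, ‖γ s - γ t‖ = |s - t| * ‖z - w‖ := by
    intro s t
    have : γ s - γ t = (s - t) • (z - w) := by simp only [hγ, sub_smul]; abel
    rw [this, norm_smul, Real.norm_eq_abs]
  have hfc : ∀ y ∈ D, ContinuousAt f y := by
    intro y hy
    rw [ContinuousAt, tendsto_iff_norm_sub_tendsto_zero]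
    have h1 : Tendsto (fun y' => (K + 1) * ‖y' - y‖) (𝓝 y) (𝓝 ((K + 1) * ‖y - y‖)) :=
      (by fun_prop : Continuous fun y' : Cn n => (K + 1) * ‖y' - y‖).tendsto y
    rw [sub_self, norm_zero, mul_zero] at h1
    exact squeeze_zero' (Eventually.of_forall fun _ => norm_nonneg _) (h y hy 1 one_pos) h1
  have key := image_le_of_liminf_slope_right_le_deriv_boundary (f := fun t => f (γ t)) (a := 0)
    (b := 1) (fun t ht => ((hfc _ (hγD t ht)).comp hγc.continuousAt).continuousWithinAt)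
    (B := fun t => f w + K * ‖z - w‖ * t) (B' := fun _ => K * ‖z - w‖) (by simp [hγ])
    (by fun_prop) (fun t _ => by
      simpa using (((hasDerivAt_id t).const_mul (K * ‖z - w‖)).const_add (f w)).hasDerivWithinAt)
    (fun t ht ρ hρ => by
      set η : ℝ := (ρ - K * ‖z - w‖) / (‖z - w‖ + 1) with hη
      have hη0 : 0 < η := div_pos (by linarith) (by positivity)
      have hη1 : η * ‖z - w‖ < ρ - K * ‖z - w‖ := by
        rw [hη, div_mul_eq_mul_div, div_lt_iff₀ (by positivity)]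
        nlinarith
      have h1 := (hγc.tendsto t).eventually (h _ (hγD t ⟨ht.1, ht.2.le⟩) η hη0)
      refine Eventually.frequently ?_
      filter_upwards [nhdsWithin_le_nhds h1, self_mem_nhdsWithin] with s hs hst
      have hst' : 0 < s - t := sub_pos.2 hst
      rw [slope_def_field, div_lt_iff₀ hst']
      rw [hγs, abs_of_pos hst'] at hs
      have := (abs_le.1 hs).2
      nlinarith) (x := 1) ⟨zero_le_one, le_rfl⟩
  simpa [hγ] using key

/-- an infinitesimally Lipschitz function read through a holomorphic immersion -/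
theorem lip_pull (hG : KahOn G U) {c : ℝ} (hc : 0 ≤ c) {ρ : M → ℝ} (hρ : LipOn G U c ρ)
    (h : HI A U ψ z) {b : ℝ} (hb : 0 ≤ b) (hq : ∀ v, nq (pull G ψ z) v ≤ b ^ 2 * ‖v‖ ^ 2)
    {η : ℝ} (hη : 0 < η) :
    ∀ᶠ y in 𝓝 z, |ρ (ψ y) - ρ (ψ z)| ≤ (c * b + η) * ‖y - z‖ := by
  obtain ⟨i, hi⟩ := A.cover (ψ z)
  have hR := rel_pull hG h hi
  obtain ⟨B, hB⟩ := exists_sqrt hR.kah.posDef.posSemidef
  set T := rd A i ψ with hT
  have hTd : HasFDerivAt T (fderiv ℂ T z) z := hR.hol.diff.hasFDerivAt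
  have hBL : ∀ v, ‖B (fderiv ℂ T z v)‖ ≤ b * ‖v‖ := by
    intro v
    have h1 := hq v
    rw [hR.nq, hB, ← mul_pow] at h1
    exact (pow_le_pow_iff_left₀ (norm_nonneg _) (by positivity) two_ne_zero).1 h1
  obtain ⟨ε, hε, hε1⟩ : ∃ ε : ℝ, 0 < ε ∧ (c + ε) * (b + ‖B‖ * ε) ≤ c * b + η := by
    have h1 : Tendsto (fun ε : ℝ => (c + ε) * (b + ‖B‖ * ε)) (𝓝[>] 0)
        (𝓝 ((c + 0) * (b + ‖B‖ * 0))) :=
      ((by fun_prop : Continuous fun ε : ℝ => (c + ε) * (b + ‖B‖ * ε)).tendsto 0).mono_left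
        nhdsWithin_le_nhds
    have h2 : ∀ᶠ ε : ℝ in 𝓝[>] 0, (c + ε) * (b + ‖B‖ * ε) ≤ c * b + η :=
      h1.eventually (Iic_mem_nhds (by simp [hη]))
    obtain ⟨ε, k1, k2⟩ := (h2.and self_mem_nhdsWithin).exists
    exact ⟨ε, k2, k1⟩
  have h1 := hTd.continuousAt.tendsto.eventually (hρ i _ hi h.mem ε hε)
  have h2 := hTd.isLittleO.bound hε
  filter_upwards [h1, h2, h.src hi] with y k1 k2 k3
  have e1 : inC A i ρ (T y) = ρ (ψ y) := by
    simp only [inC, hT, rd, (A.e i).left_inv k3]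
  have e2 : nq (G i (A.e i (ψ z))) (T y - A.e i (ψ z)) = ‖B (T y - T z)‖ ^ 2 := hB _
  rw [e1, e2, Real.sqrt_sq (norm_nonneg _)] at k1
  have h3 : ‖B (T y - T z)‖ ≤ (b + ‖B‖ * ε) * ‖y - z‖ := by
    have e3 : B (T y - T z) = B (fderiv ℂ T z (y - z)) + B (T y - T z - fderiv ℂ T z (y - z)) := by
      rw [← map_add]; congr 1; abel
    rw [e3]
    refine (norm_add_le _ _).trans ?_
    have h4 := hBL (y - z)
    have h5 := (B.le_opNorm (T y - T z - fderiv ℂ T z (y - z))).trans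
      (mul_le_mul_of_nonneg_left k2 B.opNorm_nonneg)
    linarith
  calc _ ≤ _ := k1
    _ ≤ (c + ε) * ((b + ‖B‖ * ε) * ‖y - z‖) := by gcongr
    _ = (c + ε) * (b + ‖B‖ * ε) * ‖y - z‖ := by ring
    _ ≤ _ := by gcongr

/-- the pseudogroup data of `(G / r², ρ)` on `U` -/
def pgOf (hG : KahOn G U) {c r : ℝ} (hc : 0 < c) (hr : 0 < r) {ρ : M → ℝ} (hρ : LipOn G U c ρ) :
    PG (Cn n) M where
  H := HI A U
  Q := fun ψ z v => nq (pull G ψ z) v / r ^ 2
  ρ := ρ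
  L := 2 * c * r
  L_nonneg := by positivity
  ev := HI.ev
  cont := HI.cont
  congr := fun h e => ⟨h.congr e, by funext v; rw [pull_congr e]⟩
  comp := fun h hγ hi => ⟨h.comp hγ hi, fun v => by rw [nq_pull_comp h hγ.self_of_nhds]⟩
  trans := HI.trans
  inj := HI.injOn
  herm := fun h => by
    obtain ⟨B, hB⟩ := exists_sqrt (kahAt_pull hG h).posDef.posSemidef
    refine ⟨((r⁻¹ : ℝ) : ℂ) • B, fun v => ?_⟩
    rw [hB, _root_.smul_apply, norm_smul, Complex.norm_real,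
      Real.norm_of_nonneg (inv_nonneg.2 hr.le)]
    field_simp
  lip := fun {ψ D a} ha hD hcv h z hz w hw => by
    have h1 := lip_seg (f := fun y => ρ (ψ y)) (K := c * (2 * a * r)) hcv (fun y hy η hη =>
      lip_pull hG hc.le hρ (h y hy).1 (by positivity) (fun v => by
        have h2 := (h y hy).2 v
        rw [div_le_iff₀ (by positivity)] at h2
        have : 0 ≤ a ^ 2 * r ^ 2 * ‖v‖ ^ 2 := by positivity
        nlinarith) hη) hz hw
    calc _ ≤ _ := h1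
      _ = _ := by ring

end

end Crest.Agent.T223.Qc48
end

-- ▼ part T223/QcWrB_48

/-!
# Row 223, module QC / WRAPPER (helper48): `DblStmt` from `ImpStmt` and `ExtStmt`
-/

set_option autoImplicit false
set_option linter.unusedSectionVars false
set_option linter.unusedVariables false

open Set Filter Topology Metric
open scoped ContDiff InnerProductSpace ComplexConjugate Matrix ComplexOrder

namespace Crest.Agent.T223.Qc48

open Crest.Agent.R275.Geo Crest.Agent.R275.EDR890 Crest.Agent.T223.Br Crest.Agent.T223.Tr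
open Crest.Agent.T223.Qc47 Crest.Agent.T223.Qc35

noncomputable section

variable {n : ℕ} {M : Type} [TopologicalSpace M]

/-- improved charts are tangent to any seed -/
theorem tan_of_imp (P : PG (Cn n) M) {χ ψ : Cn n → M} (hχ : P.Seed χ) {r1 ε : ℝ} (hr1 : 0 < r1)
    (hε : ε < 1) (hψ : ∀ z ∈ ball (0 : Cn n) 1, P.H ψ z) (h0 : ψ 0 = χ 0)
    (hQ : ∀ v, P.Q ψ 0 v = ‖v‖ ^ 2) {g : Cn n → Cn n} (hg : DifferentiableOn ℂ g (ball 0 r1))
    (hm : MapsTo g (ball 0 r1) (ball 0 1)) (hg0 : g 0 = 0) (hg1 : fderiv ℂ g 0 = 1)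
    (hgQ : ∀ z ∈ ball (0 : Cn n) r1, ∀ v,
      |P.Q ψ (g z) (fderiv ℂ g z v) - ‖v‖ ^ 2| ≤ ε * ‖v‖ ^ 2) :
    ∃ φ, P.Good φ (ball 0 r1) ε ∧ Tan φ χ := by
  have hψ0 := hψ 0 (mem_ball_self one_pos)
  obtain ⟨τ, hτd, hτ0, hτi, hτe⟩ := P.trans hχ.1 hψ0 h0.symm
  set T := fderiv ℂ τ 0 with hT
  have hTn : ∀ v, ‖T v‖ = ‖v‖ := by
    intro v
    obtain ⟨k1, k2⟩ := P.comp (ψ := ψ) (γ := τ) (z := 0) (by rwa [hτ0]) hτd hτi
    have k3 := (P.congr k1 (ψ' := χ) (hτe.mono fun y hy => hy.symm)).2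
    have k4 := hχ.2 v
    rw [k3, k2, hτ0, hQ] at k4
    exact (pow_left_inj₀ (norm_nonneg _) (norm_nonneg _) two_ne_zero).1 k4
  have hTm : MapsTo T (ball 0 r1) (ball 0 r1) := by
    intro z hz
    rw [mem_ball_zero_iff] at hz ⊢
    rwa [hTn]
  set γ : Cn n → Cn n := fun z => g (T z) with hγ
  have hγd : ∀ z ∈ ball (0 : Cn n) r1, HasFDerivAt γ (fderiv ℂ g (T z) ∘L T) z := fun z hz =>
    (hg.differentiableAt (isOpen_ball.mem_nhds (hTm hz))).hasFDerivAt.comp z T.hasFDerivAt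
  have hγ0 : γ 0 = 0 := by simp [hγ, hg0]
  have hgood : P.Good (fun z => ψ (γ z)) (ball 0 r1) ε := by
    intro z hz
    have hH : P.H ψ (γ z) := hψ _ (hm (hTm hz))
    have hb : ∀ v, |P.Q ψ (γ z) (fderiv ℂ γ z v) - ‖v‖ ^ 2| ≤ ε * ‖v‖ ^ 2 := by
      intro v
      rw [(hγd z hz).fderiv, ← hTn v]
      exact hgQ _ (hTm hz) (T v)
    have hinj : Function.Injective (fderiv ℂ γ z) := by
      rw [injective_iff_map_eq_zero]
      intro v hv
      obtain ⟨B, hB⟩ := P.herm hH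
      have k1 := hb v
      rw [hv, hB] at k1
      simp only [map_zero, norm_zero, ne_eq, OfNat.ofNat_ne_zero, not_false_eq_true, zero_pow,
        zero_sub, abs_neg, abs_pow, abs_norm] at k1
      have k2 : ‖v‖ ^ 2 = 0 := le_antisymm (by nlinarith [sq_nonneg ‖v‖]) (sq_nonneg _)
      simpa using k2
    obtain ⟨k1, k2⟩ := P.comp hH (by
      filter_upwards [isOpen_ball.mem_nhds hz] with w hw using (hγd w hw).differentiableAt) hinj
    exact ⟨k1, fun v => by rw [k2]; exact hb v⟩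
  refine ⟨_, hgood, ?_⟩
  have h00 : (0 : Cn n) ∈ ball (0 : Cn n) r1 := mem_ball_self hr1
  obtain ⟨τ', hd', h0', hi', he'⟩ := P.trans (hgood 0 h00).1 hχ.1 (by simp only [hγ0, h0])
  refine ⟨τ', hd', h0', ?_, he'.mono fun y hy => hy.symm⟩
  obtain ⟨s, hs, hinj⟩ := P.inj hψ0
  have hc' : Tendsto τ' (𝓝 0) (𝓝 0) := by
    have := hd'.self_of_nhds.continuousAt.tendsto
    rwa [h0'] at this
  have hc : Tendsto τ (𝓝 0) (𝓝 0) := by
    have := hτd.self_of_nhds.continuousAt.tendsto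
    rwa [hτ0] at this
  have hcγ : Tendsto γ (𝓝 0) (𝓝 0) := by
    have := (hγd 0 h00).continuousAt.tendsto
    rwa [hγ0] at this
  have heq : (τ ∘ τ') =ᶠ[𝓝 0] γ := by
    filter_upwards [he', hc'.eventually hτe, (hc.comp hc').eventually hs, hcγ.eventually hs]
      with y k1 k2 k3 k4
    exact hinj k3 k4 (k2.trans k1)
  have hD := heq.fderiv_eq (𝕜 := ℂ)
  rw [fderiv_comp 0 (by rw [h0']; exact hτd.self_of_nhds) hd'.self_of_nhds, h0',
    (hγd 0 h00).fderiv, map_zero, hg1] at hD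
  ext v : 1
  refine hτi ?_
  have := congrArg (fun L : Cn n →L[ℂ] Cn n => L v) hD
  simpa using this

theorem Rm_smul {g : Cn n → Mat n} {z : Cn n} (hg : KahAt g z) {t : ℂ} (ht : t ≠ 0)
    (c d : Fin n) : Rm (fun w => t • g w) z c d = t • Rm g z c d := by
  have h1 : wdM (true, d) (fun w => t • g w) =ᶠ[𝓝 z] fun w => t • wdM (true, d) g w :=
    hg.smE.mono fun w hw => wdM_const_smul t hw _
  have hs : SmM g z := hg.sm
  unfold Rm
  rw [wdM_congr h1, wdM_const_smul t (hs.wdM _), wdM_const_smul t hs, wdM_const_smul t hs]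
  have : Invertible t := invertibleOfNonzero ht
  rw [Matrix.inv_smul _ t (isUnit_iff_ne_zero.2 hg.det_ne), invOf_eq_inv]
  simp only [Matrix.smul_mul, Matrix.mul_smul, smul_smul, smul_add, smul_neg]
  congr 2
  field_simp

theorem bis_smul {g : Cn n → Mat n} {z : Cn n} (hg : KahAt g z) {t : ℝ} (ht : t ≠ 0)
    (v w : Cn n) : bis (fun y => (t : ℂ) • g y) z v w = t * bis g z v w := by
  rw [bis_eq, bis_eq, ← Complex.re_ofReal_mul]
  congr 1
  simp only [Rm_smul hg (Complex.ofReal_ne_zero.2 ht), hC_smul, Finset.mul_sum, mul_assoc]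

variable {A : Atl n M} {U : Set M} {G : MF A}

theorem hi_of_qc {V : Set M} (hV : V ⊆ U) {x : M} {r ε : ℝ} {ψ : Cn n → M}
    (h : QC G V x r ε ψ) {z : Cn n} (hz : z ∈ ball (0 : Cn n) 1) : HI A U ψ z :=
  ⟨ball 0 1, isOpen_ball, hz, h.imm, fun _ hw => hV (h.maps hw)⟩

/-- the normalised metric of a `1/2`-flat quasi-chart -/
theorem kb_of_qc (hG : KahOn G U) {V : Set M} (hV : V ⊆ U) {x : M} {r ε0 : ℝ} (hr : 0 < r)
    {ψ : Cn n → M} (h : QC G V x r (1 / 2) ψ)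
    (hc : ∀ i, ∀ y ∈ (A.e i).source, y ∈ V →
      BKge (G i) (A.e i y) (ε0 / r ^ 2) ∧ BKle (G i) (A.e i y) (ε0 / r ^ 2)) :
    KB (fun z => (((r ^ 2)⁻¹ : ℝ) : ℂ) • pull G ψ z) 1 ε0 := by
  have hr2 : 0 < r ^ 2 := by positivity
  have hk : ∀ z ∈ ball (0 : Cn n) 1, KahAt (pull G ψ) z := fun z hz =>
    kahAt_pull hG (hi_of_qc hV h hz)
  have hw : ∀ z ∈ ball (0 : Cn n) 1, ∀ s a b,
      wd s (fun w => ((((r ^ 2)⁻¹ : ℝ) : ℂ) • pull G ψ w) a b) z =
        (((r ^ 2)⁻¹ : ℝ) : ℂ) * wd s (fun w => pull G ψ w a b) z := by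
    intro z hz s a b
    have := congrFun (congrFun (wdM_const_smul (((r ^ 2)⁻¹ : ℝ) : ℂ) (hk z hz).sm s) a) b
    exact this
  refine ⟨fun a b z hz => ?_, fun z hz => ?_, fun z hz a b c => ?_, fun z hz a b c => ?_,
    fun z hz v => ?_, fun z hz v => ?_, fun z hz v w => ?_⟩
  · exact (contDiffAt_const.mul ((hk z hz).sm a b)).contDiffWithinAt
  · have h1 := (hk z hz).posDef.isHermitian
    unfold Matrix.IsHermitian
    rw [Matrix.conjTranspose_smul, h1.eq]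
    simp
  · rw [hw z hz, hw z hz, (hk z hz).closed.self_of_nhds]
  · rw [hw z hz, hw z hz, (hk z hz).closed'.self_of_nhds]
  · rw [nq_smul, inv_mul_eq_div, le_div_iff₀ hr2]
    have := h.lo z hz v
    linarith
  · rw [nq_smul, inv_mul_eq_div, div_le_iff₀ hr2]
    have := h.hi z hz v
    have h1 : 0 ≤ r ^ 2 * ‖v‖ ^ 2 := by positivity
    nlinarith
  · obtain ⟨i, hi⟩ := A.cover (ψ z)
    have hR := rel_pull hG (hi_of_qc hV h hz) hi
    obtain ⟨k1, k2⟩ := hc i _ hi (h.maps hz)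
    have k3 := (hR.bkge _).2 k1 v w
    have k4 := (hR.bkle _).2 k2 v w
    rw [bis_smul (hk z hz) (by positivity), nq_smul, nq_smul, abs_mul,
      abs_of_pos (inv_pos.2 hr2)]
    have k5 : |bis (pull G ψ) z v w| ≤
        ε0 / r ^ 2 * nq (pull G ψ z) v * nq (pull G ψ z) w := abs_le.2 ⟨k3, k4⟩
    calc _ ≤ (r ^ 2)⁻¹ * (ε0 / r ^ 2 * nq (pull G ψ z) v * nq (pull G ψ z) w) := by gcongr
      _ = _ := by ring

/-- **one doubling step** -/
theorem dblStmt (hImp : ImpStmt n) (hExt : ExtStmt n) : DblStmt n := by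
  intro ε hε
  obtain ⟨r1, hr1, -, hImp⟩ := hImp
  obtain ⟨ε1, N, hε1, hN, hExt⟩ := hExt r1 2 (min ε 1) hr1 (lt_min hε one_pos)
  obtain ⟨ε0, hε0, hImp⟩ := hImp (min ε1 (1 / 2)) (lt_min hε1 (by norm_num))
  refine ⟨ε0, 2 * N + 4, hε0, by positivity, ?_⟩
  intro M _ _ A G U ρ c r σ σ' hU hG hc hr hρ hcur hqc x hx hxρ
  set P : PG (Cn n) M := pgOf hG hc hr hρ with hP
  set V : Set M := {y | y ∈ U ∧ ρ y ≤ σ} with hV
  have hVU : V ⊆ U := fun y hy => hy.1
  have hr2 : 0 < r ^ 2 := by positivity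
  have hQ : ∀ φ z v, P.Q φ z v = nq ((((r ^ 2)⁻¹ : ℝ) : ℂ) • pull G φ z) v := by
    intro φ z v
    rw [nq_smul, inv_mul_eq_div]
    rfl
  have hctr : ∀ {y ψ}, QC G V y r (1 / 2) ψ → ∀ v, P.Q ψ 0 v = ‖v‖ ^ 2 := by
    intro y ψ h v
    show nq (pull G ψ 0) v / r ^ 2 = _
    rw [h.ctr, nq_smul, nq_one]
    field_simp
  have hCh : P.Ch (ball 0 r1) ε1 σ' := by
    intro χ hχ hχρ
    obtain ⟨ψ, hψ⟩ := hqc (χ 0) (HI.mem hχ.1) hχρ
    obtain ⟨g, g1, g2, g3, g4, g5⟩ := hImp _ (kb_of_qc hG hVU hr hψ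
      fun i y hy hyV => hcur i y hy hyV.1 hyV.2)
    obtain ⟨φ, hφ, hT⟩ := tan_of_imp P hχ hr1 (ε := min ε1 (1 / 2))
      ((min_le_right _ _).trans_lt (by norm_num)) (fun z hz => hi_of_qc hVU hψ hz) hψ.zero
      (hctr hψ) g1 g2 g3 g4 (fun z hz v => by
        obtain ⟨k1, k2⟩ := g5 z hz v
        rw [← hQ, ← hQ, hctr hψ] at k1 k2
        exact abs_le.2 ⟨by linarith, by linarith⟩)
    refine ⟨φ, fun z hz => ⟨(hφ z hz).1, fun v => ((hφ z hz).2 v).trans ?_⟩, hT⟩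
    exact mul_le_mul_of_nonneg_right (min_le_left _ _) (sq_nonneg _)
  have hcr : 0 < c * r := by positivity
  obtain ⟨χ, hχ⟩ := hqc x hx (by nlinarith)
  have hseed : P.Seed χ := ⟨hi_of_qc hVU hχ (mem_ball_self one_pos), hctr hχ⟩
  obtain ⟨φ, hφ, τ, hτd, hτ0, hτ1, hτe⟩ := hExt M P σ' hCh χ hseed (by
    show ρ (χ 0) ≤ σ' - N * (2 * c * r)
    rw [hχ.zero]
    nlinarith)
  have hφ0 : φ 0 = x := by rw [hτe.self_of_nhds, hτ0, hχ.zero]
  have hQ0 : ∀ v, P.Q φ 0 v = ‖v‖ ^ 2 := by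
    intro v
    obtain ⟨k1, k2⟩ := P.comp (ψ := χ) (γ := τ) (z := 0) (by rw [hτ0]; exact hseed.1) hτd
      (by rw [hτ1]; exact fun a b hab => hab)
    rw [(P.congr k1 hτe).2, k2, hτ0, hτ1]
    exact hseed.2 v
  set S : Cn n →L[ℂ] Cn n := (2 : ℂ) • ContinuousLinearMap.id ℂ (Cn n) with hS
  have hSn : ∀ v, ‖S v‖ = 2 * ‖v‖ := fun v => by simp [hS, norm_smul]
  have hSm : ∀ z ∈ ball (0 : Cn n) 1, S z ∈ ball (0 : Cn n) 2 := by
    intro z hz
    rw [mem_ball_zero_iff] at hz ⊢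
    rw [hSn]
    linarith
  have hSi : Function.Injective S := by
    rw [injective_iff_map_eq_zero]
    intro v hv
    have := hSn v
    rw [hv, norm_zero] at this
    exact norm_eq_zero.1 (by linarith)
  have hH : ∀ z ∈ ball (0 : Cn n) 1, HI A U (fun w => φ (S w)) z := fun z hz =>
    HI.comp (hφ _ (hSm z hz)).1 (Eventually.of_forall fun w => S.differentiableAt)
      (by rw [S.fderiv]; exact hSi)
  have hnq : ∀ z ∈ ball (0 : Cn n) 1, ∀ v,
      nq (pull G (fun w => φ (S w)) z) v = r ^ 2 * P.Q φ (S z) (S v) := by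
    intro z hz v
    rw [nq_pull_comp (hφ _ (hSm z hz)).1 S.differentiableAt, S.fderiv]
    show _ = r ^ 2 * (nq (pull G φ (S z)) (S v) / r ^ 2)
    field_simp
  have hbd : ∀ z ∈ ball (0 : Cn n) 1, ∀ v,
      |P.Q φ (S z) (S v) - 4 * ‖v‖ ^ 2| ≤ ε * (4 * ‖v‖ ^ 2) := by
    intro z hz v
    have k1 := (hφ _ (hSm z hz)).2 (S v)
    have k2 : ‖S v‖ ^ 2 = 4 * ‖v‖ ^ 2 := by rw [hSn]; ring
    rw [k2] at k1
    exact k1.trans (mul_le_mul_of_nonneg_right (min_le_left _ _) (by positivity))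
  refine ⟨fun w => φ (S w), imm_of_HI hH, fun z hz => ⟨(hH z hz).mem, ?_⟩, ?_, ?_,
    fun z hz v => ?_, fun z hz v => ?_⟩
  · have k1 := P.lip (ψ := φ) (D := ball 0 2) (a := 1) zero_le_one isOpen_ball (convex_ball _ _)
      (fun y hy => ⟨(hφ y hy).1, fun v => by
        have k2 := (abs_le.1 ((hφ y hy).2 v)).2
        have k3 := mul_le_mul_of_nonneg_right (min_le_right ε 1) (sq_nonneg ‖v‖)
        linarith⟩) (S z) (hSm z hz) 0 (mem_ball_self two_pos)
    have k2 : ρ (φ (S z)) ≤ ρ (φ 0) + 2 * c * r * 1 * ‖S z - 0‖ := k1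
    rw [hφ0, sub_zero] at k2
    have k3 := mem_ball_zero_iff.1 (hSm z hz)
    obtain ⟨ψ', hψ'⟩ := hqc _ (hH z hz).mem (by nlinarith)
    have k4 := hψ'.maps (mem_ball_self one_pos)
    rw [hψ'.zero] at k4
    exact k4.2
  · simp only [map_zero, hφ0]
  · refine eq_of_nq (kahAt_pull hG (hH 0 (mem_ball_self one_pos))).posDef.isHermitian ?_
      fun v => ?_
    · unfold Matrix.IsHermitian
      rw [Matrix.conjTranspose_smul, Matrix.conjTranspose_one]
      simp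
    · rw [hnq 0 (mem_ball_self one_pos), map_zero, hQ0, nq_smul, nq_one, hSn]
      ring
  · rw [hnq z hz]
    have k1 := (abs_le.1 (hbd z hz v)).1
    nlinarith
  · rw [hnq z hz]
    have k1 := (abs_le.1 (hbd z hz v)).2
    nlinarith

end

end Crest.Agent.T223.Qc48
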