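import Mathlib

/-!
# Row 223, module RICH (helper37), file 1: regularised maximum of a locally finite family

* `SM`, `Rx η a c` : smooth convex regularisation of `max` (after `R257/Glue1_101`);
* `Pc b Good` : a piece (continuous function `β ≥ b - δ`, `≤ b + 1/2`, good where `β > b - δ`);
* `glue` : if every point has pieces with `β x > b x` and small support, there is `ψ` with
  `b < ψ ≤ b + 1` which is good everywhere.
-/

set_option autoImplicit false

noncomputable section

open Set Filter Topology MeasureTheory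

namespace Crest.Agent.T223.Rich

/-- smooth step from `0` (at `-1`) to `1` (at `1`) -/
def ss (t : ℝ) : ℝ := Real.smoothTransition ((t + 1) / 2)

lemma ss_contDiff : ContDiff ℝ (⊤ : ℕ∞) ss :=
  Real.smoothTransition.contDiff.comp (by fun_prop)

lemma ss_nonneg (t : ℝ) : 0 ≤ ss t := Real.smoothTransition.nonneg _
lemma ss_le_one (t : ℝ) : ss t ≤ 1 := Real.smoothTransition.le_one _
lemma ss_zero {t : ℝ} (ht : t ≤ -1) : ss t = 0 :=
  Real.smoothTransition.zero_of_nonpos (by linarith)
lemma ss_one {t : ℝ} (ht : 1 ≤ t) : ss t = 1 :=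
  Real.smoothTransition.one_of_one_le (by linarith)
lemma ss_mono : Monotone ss := fun a b h => Real.smoothTransition.monotone (by linarith)
lemma ss_add (t : ℝ) : ss t + ss (-t) = 1 := by
  unfold ss Real.smoothTransition
  have e1 : 1 - (t + 1) / 2 = (-t + 1) / 2 := by ring
  have e2 : 1 - (-t + 1) / 2 = (t + 1) / 2 := by ring
  rw [e1, e2]
  have h := Real.smoothTransition.pos_denom ((t + 1) / 2)
  rw [e1] at h
  rw [add_comm (expNegInvGlue ((-t + 1) / 2))]
  rw [← add_div, div_self h.ne']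

/-- smooth convex regularisation of `max t 0` -/
def SM (t : ℝ) : ℝ := ∫ u in (-1 : ℝ)..t, ss u

lemma ss_cont : Continuous ss := ss_contDiff.continuous

lemma SM_hasDerivAt (t : ℝ) : HasDerivAt SM (ss t) t :=
  intervalIntegral.integral_hasDerivAt_right (ss_cont.intervalIntegrable _ _)
    (ss_cont.stronglyMeasurableAtFilter _ _) ss_cont.continuousAt

lemma deriv_SM : deriv SM = ss := funext fun t => (SM_hasDerivAt t).deriv

lemma SM_contDiff : ContDiff ℝ (⊤ : ℕ∞) SM := by
  rw [contDiff_infty_iff_deriv]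
  refine ⟨fun t => (SM_hasDerivAt t).differentiableAt, ?_⟩
  rw [deriv_SM]; exact ss_contDiff

lemma SM_zero {t : ℝ} (ht : t ≤ -1) : SM t = 0 := by
  unfold SM
  rw [intervalIntegral.integral_symm, neg_eq_zero]
  refine (intervalIntegral.integral_congr (g := fun _ => (0 : ℝ)) fun u hu => ?_).trans (by simp)
  rw [uIcc_of_le ht] at hu
  exact ss_zero hu.2

lemma SM_one : SM 1 = 1 := by
  have h1 : ∫ u in (-1 : ℝ)..1, ss (-u) = SM 1 := by
    rw [intervalIntegral.integral_comp_neg]; simp [SM]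
  have h2 : (∫ u in (-1 : ℝ)..1, ss (-u)) + ∫ u in (-1 : ℝ)..1, ss u = 2 := by
    rw [← intervalIntegral.integral_add]
    · have : ∀ u : ℝ, ss (-u) + ss u = 1 := fun u => by rw [add_comm]; exact ss_add u
      simp only [this]
      simp; norm_num
    · exact (ss_cont.comp continuous_neg).intervalIntegrable _ _
    · exact ss_cont.intervalIntegrable _ _
  rw [h1] at h2
  have h3 : SM 1 + SM 1 = 2 := h2
  linarith

lemma SM_id {t : ℝ} (ht : 1 ≤ t) : SM t = t := by
  have h1 : SM t = SM 1 + ∫ u in (1 : ℝ)..t, ss u := by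
    unfold SM
    rw [intervalIntegral.integral_add_adjacent_intervals (ss_cont.intervalIntegrable _ _)
      (ss_cont.intervalIntegrable _ _)]
  have h2 : ∫ u in (1 : ℝ)..t, ss u = t - 1 := by
    refine (intervalIntegral.integral_congr (g := fun _ => (1 : ℝ)) fun u hu => ?_).trans (by simp)
    rw [uIcc_of_le ht] at hu
    exact ss_one hu.1
  rw [h1, h2, SM_one]; ring

lemma SM_mono : Monotone SM :=
  monotone_of_deriv_nonneg (fun t => (SM_hasDerivAt t).differentiableAt) fun t => by
    rw [deriv_SM]; exact ss_nonneg t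

lemma SM_nonneg (t : ℝ) : 0 ≤ SM t := by
  rcases le_total t (-1) with h | h
  · rw [SM_zero h]
  · rw [← SM_zero (le_refl (-1))]; exact SM_mono h

lemma SM_le (t : ℝ) : SM t ≤ max t 0 + 1 := by
  rcases le_total t 1 with h | h
  · have := SM_mono h
    rw [SM_one] at this
    linarith [le_max_right t 0]
  · rw [SM_id h]
    linarith [le_max_left t 0]

lemma le_SM (t : ℝ) : t ≤ SM t := by
  have hd : ∀ s, HasDerivAt (fun s => SM s - s) (ss s - 1) s := fun s =>
    (SM_hasDerivAt s).sub (hasDerivAt_id s)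
  have hanti : Antitone fun s => SM s - s :=
    antitone_of_deriv_nonpos (fun s => (hd s).differentiableAt) fun s => by
      rw [(hd s).deriv]; linarith [ss_le_one s]
  rcases le_total t 1 with h | h
  · have := hanti h
    simp only [SM_one] at this
    linarith
  · rw [SM_id h]

lemma deriv_ss_nonneg (t : ℝ) : 0 ≤ deriv ss t := ss_mono.deriv_nonneg

/-- regularised maximum of two numbers with tolerance `η` -/
def Rx (η a c : ℝ) : ℝ := c + η * SM ((a - c) / η)

lemma Rx_left {η a c : ℝ} (hη : 0 < η) (h : c + η ≤ a) : Rx η a c = a := by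
  unfold Rx
  rw [SM_id (by rw [le_div_iff₀ hη]; linarith)]
  field_simp
  ring

lemma Rx_right {η a c : ℝ} (hη : 0 < η) (h : a + η ≤ c) : Rx η a c = c := by
  unfold Rx
  rw [SM_zero (by rw [div_le_iff₀ hη]; linarith)]
  ring

lemma le_Rx_left {η : ℝ} (hη : 0 < η) (a c : ℝ) : a ≤ Rx η a c := by
  unfold Rx
  have h := mul_le_mul_of_nonneg_left (le_SM ((a - c) / η)) hη.le
  have e : η * ((a - c) / η) = a - c := by field_simp
  linarith

lemma le_Rx_right {η : ℝ} (hη : 0 < η) (a c : ℝ) : c ≤ Rx η a c := by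
  unfold Rx
  have := mul_nonneg hη.le (SM_nonneg ((a - c) / η))
  linarith

lemma Rx_le {η a c B : ℝ} (hη : 0 < η) (ha : a ≤ B) (hc : c ≤ B) : Rx η a c ≤ B + η := by
  unfold Rx
  have h1 := mul_le_mul_of_nonneg_left (SM_le ((a - c) / η)) hη.le
  have e : η * ((a - c) / η) = a - c := by field_simp
  rcases le_total ((a - c) / η) 0 with h | h
  · rw [max_eq_right h] at h1; linarith
  · rw [max_eq_left h, mul_add, e] at h1; linarith

variable {X : Type*} [TopologicalSpace X]

lemma Rx_cont (η : ℝ) {f g : X → ℝ} (hf : Continuous f) (hg : Continuous g) :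
    Continuous fun y => Rx η (f y) (g y) := by
  unfold Rx
  exact hg.add (continuous_const.mul (SM_contDiff.continuous.comp ((hf.sub hg).div_const η)))

/-- a piece -/
structure Pc (b : X → ℝ) (Good : (X → ℝ) → X → Prop) where
  β : X → ℝ
  δ : ℝ
  pos : 0 < δ
  cont : Continuous β
  le : ∀ y, β y ≤ b y + 1 / 2
  good : ∀ y, b y - δ < β y → Good β y

variable {b : X → ℝ} {Good : (X → ℝ) → X → Prop}

/-- thresholds -/
def th (s : ℕ → Pc b Good) : ℕ → ℝ
  | 0 => 1
  | k + 1 => min (th s k) (s k).δ / 4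

/-- the iterated regularised maxima -/
def wk (s : ℕ → Pc b Good) : ℕ → X → ℝ
  | 0 => fun y => b y - 1
  | k + 1 => fun y => Rx (th s (k + 1)) ((s k).β y) (wk s k y)

lemma th_pos (s : ℕ → Pc b Good) : ∀ k, 0 < th s k
  | 0 => one_pos
  | k + 1 => by
    have := lt_min (th_pos s k) (s k).pos
    simp only [th]; linarith

lemma th_succ_le (s : ℕ → Pc b Good) (k : ℕ) : th s (k + 1) ≤ th s k / 4 := by
  have := min_le_left (th s k) (s k).δ
  simp only [th]; linarith

lemma th_succ_le' (s : ℕ → Pc b Good) (k : ℕ) : th s (k + 1) ≤ (s k).δ / 4 := by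
  have := min_le_right (th s k) (s k).δ
  simp only [th]; linarith

lemma th_le_one (s : ℕ → Pc b Good) : ∀ k, th s k ≤ 1
  | 0 => le_rfl
  | k + 1 => by linarith [th_succ_le s k, th_le_one s k]

lemma wk_cont (hb : Continuous b) (s : ℕ → Pc b Good) : ∀ k, Continuous (wk s k)
  | 0 => hb.sub continuous_const
  | k + 1 => Rx_cont _ (s k).cont (wk_cont hb s k)

lemma wk_le (s : ℕ → Pc b Good) (y : X) : ∀ k, wk s k y ≤ b y + 1 - th s k / 2
  | 0 => by simp only [wk, th]; linarith
  | k + 1 => by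
    have h1 := wk_le s y k
    have h2 : (s k).β y ≤ b y + 1 - th s k / 2 := by linarith [(s k).le y, th_le_one s k]
    have h3 := Rx_le (th_pos s (k + 1)) h2 h1
    have h4 := th_succ_le s k
    have h5 := th_pos s k
    simp only [wk]; linarith

lemma wk_mono (s : ℕ → Pc b Good) (y : X) : Monotone fun k => wk s k y :=
  monotone_nat_of_le_succ fun k => le_Rx_right (th_pos s (k + 1)) _ _

lemma wk_good (hb : Continuous b)
    (hcongr : ∀ f g y, f =ᶠ[𝓝 y] g → Good f y → Good g y)
    (hmax : ∀ η f g y, 0 < η → Good f y → Good g y → Good (fun z => Rx η (f z) (g z)) y)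
    (s : ℕ → Pc b Good) : ∀ k y, b y - th s k < wk s k y → Good (wk s k) y
  | 0, y, h => by simp only [wk, th] at h; exact absurd h (lt_irrefl _)
  | k + 1, y, h => by
    have hη := th_pos s (k + 1)
    have h4 := th_succ_le s k
    have h5 := th_succ_le' s k
    have hmx := Rx_le (a := (s k).β y) (c := wk s k y) hη (le_max_left _ _) (le_max_right _ _)
    have h' : b y - th s (k + 1) < Rx (th s (k + 1)) ((s k).β y) (wk s k y) := h
    have hca := (s k).cont
    have hcw := wk_cont hb s k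
    by_cases ha : b y - (s k).δ < (s k).β y
    · by_cases hc : b y - th s k < wk s k y
      · exact hmax _ _ _ _ hη ((s k).good y ha) (wk_good hb hcongr hmax s k y hc)
      · have hc' := not_lt.1 hc
        have h6 : wk s k y + th s (k + 1) < (s k).β y := by
          rcases le_total ((s k).β y) (wk s k y) with h7 | h7
          · rw [max_eq_right h7] at hmx; linarith
          · rw [max_eq_left h7] at hmx; linarith
        refine hcongr (s k).β _ y ?_ ((s k).good y ha)
        have h8 : ∀ᶠ z in 𝓝 y, wk s k z + th s (k + 1) < (s k).β z :=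
          (hcw.add continuous_const).continuousAt.eventually_lt hca.continuousAt h6
        filter_upwards [h8] with z hz
        exact (Rx_left hη hz.le).symm
    · have ha' := not_lt.1 ha
      have h6 : (s k).β y + th s (k + 1) < wk s k y ∧ b y - th s k < wk s k y := by
        rcases le_total ((s k).β y) (wk s k y) with h7 | h7
        · rw [max_eq_right h7] at hmx; constructor <;> linarith
        · rw [max_eq_left h7] at hmx; constructor <;> linarith
      refine hcongr (wk s k) _ y ?_ (wk_good hb hcongr hmax s k y h6.2)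
      have h8 : ∀ᶠ z in 𝓝 y, (s k).β z + th s (k + 1) < wk s k z :=
        (hca.add continuous_const).continuousAt.eventually_lt hcw.continuousAt h6.1
      filter_upwards [h8] with z hz
      exact (Rx_right hη hz.le).symm

/-- gluing of a locally finite sequence of pieces -/
theorem glue_nat (hb : Continuous b)
    (hcongr : ∀ f g y, f =ᶠ[𝓝 y] g → Good f y → Good g y)
    (hmax : ∀ η f g y, 0 < η → Good f y → Good g y → Good (fun z => Rx η (f z) (g z)) y)
    (s : ℕ → Pc b Good) (hcov : ∀ y, ∃ k, b y < (s k).β y)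
    (hfin : ∀ y, ∃ N ∈ 𝓝 y, ∃ k0, ∀ k, k0 ≤ k → ∀ z ∈ N, (s k).β z ≤ b z - (s k).δ) :
    ∃ ψ : X → ℝ, (∀ y, b y < ψ y ∧ ψ y ≤ b y + 1) ∧ ∀ y, Good ψ y := by
  have key : ∀ y, ∃ K, ∀ᶠ z in 𝓝 y, b z < wk s K z ∧ ∀ k, K ≤ k → wk s k z = wk s K z := by
    intro y
    obtain ⟨k1, h1⟩ := hcov y
    obtain ⟨N, hN, k0, h0⟩ := hfin y
    refine ⟨max k0 (k1 + 1), ?_⟩
    have h2 : ∀ᶠ z in 𝓝 y, b z < (s k1).β z :=
      hb.continuousAt.eventually_lt (s k1).cont.continuousAt h1
    filter_upwards [h2, hN] with z hz hzN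
    have h3 : b z < wk s (max k0 (k1 + 1)) z := by
      have h4 : (s k1).β z ≤ wk s (k1 + 1) z := le_Rx_left (th_pos s (k1 + 1)) _ _
      have h5 : wk s (k1 + 1) z ≤ wk s (max k0 (k1 + 1)) z := wk_mono s z (le_max_right _ _)
      linarith
    refine ⟨h3, fun k hk => ?_⟩
    induction k, hk using Nat.le_induction with
    | base => rfl
    | succ k hk ih =>
      rw [← ih]
      have h6 := h0 k ((le_max_left _ _).trans hk) z hzN
      have h7 := th_succ_le' s k
      have h8 := (s k).pos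
      exact Rx_right (th_pos s (k + 1)) (by rw [ih]; linarith)
  have key2 : ∀ y, ∃ K, ∀ᶠ z in 𝓝 y, b z < wk s K z ∧
      wk s K z = limUnder atTop fun k => wk s k z := by
    intro y
    obtain ⟨K, hK⟩ := key y
    refine ⟨K, ?_⟩
    filter_upwards [hK] with z hz
    refine ⟨hz.1, (Tendsto.limUnder_eq ?_).symm⟩
    refine tendsto_const_nhds.congr' ?_
    filter_upwards [eventually_ge_atTop K] with k hk
    exact (hz.2 k hk).symm
  refine ⟨fun z => limUnder atTop fun k => wk s k z, fun y => ?_, fun y => ?_⟩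
  · obtain ⟨K, hK⟩ := key2 y
    obtain ⟨h1, h2⟩ := hK.self_of_nhds
    have h3 := wk_le s y K
    have h4 := th_pos s K
    simp only [← h2]
    exact ⟨h1, by linarith⟩
  · obtain ⟨K, hK⟩ := key2 y
    obtain ⟨h1, h2⟩ := hK.self_of_nhds
    have h4 := th_pos s K
    refine hcongr (wk s K) _ y ?_ (wk_good hb hcongr hmax s K y (by linarith))
    filter_upwards [hK] with z hz
    exact hz.2

/-- a locally finite sequence of pieces -/
theorem exists_seq [T2Space X] [WeaklyLocallyCompactSpace X] [SigmaCompactSpace X] {P : Type*}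
    (U V : P → Set X) (p0 : P) (hp0 : U p0 = ∅)
    (h : ∀ x, ∀ N ∈ 𝓝 x, ∃ p, V p ∈ 𝓝 x ∧ U p ⊆ N) :
    ∃ s : ℕ → P, (∀ y, ∃ k, y ∈ V (s k)) ∧
      ∀ y, ∃ N ∈ 𝓝 y, ∃ k0, ∀ k, k0 ≤ k → ∀ z ∈ N, z ∉ U (s k) := by
  classical
  have : Nonempty P := ⟨p0⟩
  set K := CompactExhaustion.choice X with hK
  set K2 := K.shiftr.shiftr with hK2
  have h1 : ∀ m : ℕ, ∃ l : List P, (∀ p ∈ l, U p ⊆ (K2 m)ᶜ) ∧
      ∀ y ∈ K2 (m + 2) \ interior (K2 (m + 1)), ∃ p ∈ l, y ∈ V p := by
    intro m
    have hc : IsCompact (K2 (m + 2) \ interior (K2 (m + 1))) :=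
      (K2.isCompact _).diff isOpen_interior
    have h2 : ∀ x ∈ K2 (m + 2) \ interior (K2 (m + 1)), ∃ p, V p ∈ 𝓝 x ∧ U p ⊆ (K2 m)ᶜ := by
      intro x hx
      refine h x _ ((K2.isCompact m).isClosed.isOpen_compl.mem_nhds fun h3 => hx.2 ?_)
      exact K2.subset_interior_succ m h3
    choose! f hf using h2
    obtain ⟨t, ht, hcov⟩ := hc.elim_nhds_subcover (fun x => V (f x)) fun x hx => (hf x hx).1
    refine ⟨t.toList.map f, fun p hp => ?_, fun y hy => ?_⟩
    · obtain ⟨x, hx, rfl⟩ := List.mem_map.1 hp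
      exact (hf x (ht x (Finset.mem_toList.1 hx))).2
    · obtain ⟨x, hx, hxy⟩ := mem_iUnion₂.1 (hcov hy)
      exact ⟨f x, List.mem_map.2 ⟨x, Finset.mem_toList.2 hx, rfl⟩, hxy⟩
  choose l hl1 hl2 using h1
  refine ⟨fun k => (l k.unpair.1).getD k.unpair.2 p0, fun y => ?_, fun y => ?_⟩
  · have h2 : y ∈ K2 (K.find y + 2) \ interior (K2 (K.find y + 1)) := by
      have h3 := K.mem_sdiff_shiftr_find y
      exact ⟨h3.1, fun h4 => h3.2 (interior_subset h4)⟩
    obtain ⟨p, hp, hy⟩ := hl2 _ y h2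
    obtain ⟨j, hj, rfl⟩ := List.getElem_of_mem hp
    refine ⟨Nat.pair (K.find y) j, ?_⟩
    simp only [Nat.unpair_pair]
    rwa [List.getD_eq_getElem _ _ hj]
  · obtain ⟨m, hm⟩ := K2.exists_mem_nhds y
    have hfin : {k : ℕ | k.unpair.1 < m ∧ k.unpair.2 < (l k.unpair.1).length}.Finite := by
      have h2 : (⋃ a ∈ Iio m, (fun j => Nat.pair a j) '' Iio (l a).length).Finite :=
        (finite_Iio m).biUnion fun a _ => (finite_Iio _).image _
      refine h2.subset fun k hk => ?_
      exact mem_iUnion₂.2 ⟨k.unpair.1, hk.1, k.unpair.2, hk.2, Nat.pair_unpair k⟩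
    obtain ⟨B, hB⟩ := hfin.bddAbove
    refine ⟨K2 m, hm, B + 1, fun k hk z hz hU => ?_⟩
    by_cases h3 : k.unpair.2 < (l k.unpair.1).length
    · have h4 : m ≤ k.unpair.1 := by
        by_contra h5
        have := hB (show k ∈ {k : ℕ | k.unpair.1 < m ∧ k.unpair.2 < (l k.unpair.1).length} from
          ⟨not_le.1 h5, h3⟩)
        omega
      simp only at hU
      rw [List.getD_eq_getElem _ _ h3] at hU
      exact hl1 _ _ (List.getElem_mem h3) hU (K2.subset h4 hz)
    · simp only at hU
      rw [List.getD_eq_default _ _ (not_lt.1 h3), hp0] at hU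
      exact hU

/-- **gluing of local pieces** -/
theorem glue [T2Space X] [WeaklyLocallyCompactSpace X] [SigmaCompactSpace X] (hb : Continuous b)
    (hcongr : ∀ f g y, f =ᶠ[𝓝 y] g → Good f y → Good g y)
    (hmax : ∀ η f g y, 0 < η → Good f y → Good g y → Good (fun z => Rx η (f z) (g z)) y)
    (hloc : ∀ x, ∀ N ∈ 𝓝 x, ∃ p : Pc b Good, b x < p.β x ∧ ∀ y, b y - p.δ < p.β y → y ∈ N) :
    ∃ ψ : X → ℝ, (∀ y, b y < ψ y ∧ ψ y ≤ b y + 1) ∧ ∀ y, Good ψ y := by
  let p0 : Pc b Good := ⟨fun y => b y - 1, 1, one_pos, hb.sub continuous_const,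
    fun y => by linarith, fun y h => absurd h (lt_irrefl _)⟩
  obtain ⟨s, h1, h2⟩ := exists_seq (P := Pc b Good) (fun p => {y | b y - p.δ < p.β y})
    (fun p => {y | b y < p.β y}) p0 (by ext y; simp [p0]) (fun x N hN => by
      obtain ⟨p, hp1, hp2⟩ := hloc x N hN
      exact ⟨p, hb.continuousAt.eventually_lt p.cont.continuousAt hp1, fun y hy => hp2 y hy⟩)
  refine glue_nat hb hcongr hmax s h1 fun y => ?_
  obtain ⟨N, hN, k0, h3⟩ := h2 y
  exact ⟨N, hN, k0, fun k hk z hz => not_lt.1 (h3 k hk z hz)⟩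

end Crest.Agent.T223.Rich
end
private theorem rz_7309fb51e7 : type_of% @_root_.Crest.Agent.T223.Rich.th.eq_def := @_root_.Crest.Agent.T223.Rich.th.eq_def -- L174
private theorem rz_bd1526579f : type_of% @_root_.Crest.Agent.T223.Rich.th.eq_1 := @_root_.Crest.Agent.T223.Rich.th.eq_1 -- L174
private theorem rz_f069676417 : type_of% @_root_.Crest.Agent.T223.Rich.wk.eq_def := @_root_.Crest.Agent.T223.Rich.wk.eq_def -- L179
private theorem rz_f09a6ca80e : type_of% @_root_.Crest.Agent.T223.Rich.wk.eq_1 := @_root_.Crest.Agent.T223.Rich.wk.eq_1 -- L179
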