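import Crest.Agent.T223.DbAlg_88
import Crest.Agent.T223.TrRic_90
import Crest.Agent.T223.Gr3_44
import Crest.Agent.T223.OsDef_21
import Crest.Agent.T223.LxCB_60
import Crest.Agent.T223.LoCal_18
import Crest.Agent.T223.U0S_15
import Crest.Agent.T223.Bx_45
import Crest.Agent.T223.FrB_38
import Crest.Agent.T223.TrPb_90
import Crest.Agent.T223.OsKitA_61
import Crest.Agent.T223.LoSt_18
import Crest.Agent.T223.LoE_18

-- ▼ part T223/Rn1_44
section

/-!
# Row 223 (helper44): the Kaehler-Ricci flow as a quasilinear system in real coordinates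

`uR G y a b = G ((eR n).symm y) a b`; `krf_ql` :
`∂_t uR = Lop (rm uR) uR + Bq (uR, d1 uR)`.
-/

set_option autoImplicit false

open Set Filter Topology Complex Metric
open scoped ContDiff ComplexConjugate Matrix ComplexOrder

namespace Crest.Agent.T223.Rn

open Crest.Agent.R275.Geo Crest.Agent.R275.EDR890 Crest.Agent.R273.Hess_333
open Crest.Agent.T223.Br Crest.Agent.T223.Tr Crest.Agent.T223.Db Crest.Agent.N207.P

noncomputable section

variable {n : ℕ}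

/-- Wirtinger derivatives in real coordinates -/
def zs (s : WI n) (k : Fin (2 * n)) : ℂ :=
  (1 / 2 : ℂ) * ((eR n (EuclideanSpace.single s.2 1) k : ℝ) +
    cI s.1 * (eR n (EuclideanSpace.single s.2 I) k : ℝ))

theorem zs_false (c : Fin n) (k : Fin (2 * n)) : zs (false, c) k = zm n c k := by
  simp only [zs, zm, Matrix.of_apply, cI_false]; ring

theorem zs_true (c : Fin n) (k : Fin (2 * n)) : zs (true, c) k = conj (zm n c k) := by
  simp only [zs, zm, Matrix.of_apply, cI_true, map_mul, map_sub, map_div₀, map_one, map_ofNat,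
    conj_ofReal, conj_I]
  ring

theorem wd_eR {F : En (2 * n) → ℂ} {z : Cn n} (hF : DifferentiableAt ℝ F (eR n z)) (s : WI n) :
    wd s (fun w => F (eR n w)) z = ∑ k, zs s k * pd k F (eR n z) := by
  have h1 : fderiv ℝ (fun w => F (eR n w)) z =
      (fderiv ℝ F (eR n z)).comp (eR n : Cn n →L[ℝ] En (2 * n)) :=
    (hF.hasFDerivAt.comp z (eR n).hasFDerivAt).fderiv
  rw [wd, h1, wdL]
  simp only [ContinuousLinearMap.comp_apply, ContinuousLinearEquiv.coe_coe]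
  rw [clm_eq_sum (fderiv ℝ F (eR n z)) (eR n (EuclideanSpace.single s.2 1)),
    clm_eq_sum (fderiv ℝ F (eR n z)) (eR n (EuclideanSpace.single s.2 I))]
  simp only [smul_eq_mul, real_smul, Finset.mul_sum, ← Finset.sum_add_distrib, zs, pd]
  exact Finset.sum_congr rfl fun k _ => by ring

theorem wd2_eR {F : En (2 * n) → ℂ} {z : Cn n} (hF : ContDiffAt ℝ ∞ F (eR n z)) (r s : WI n) :
    wd r (wd s fun w => F (eR n w)) z =
      ∑ k, ∑ l, zs r k * zs s l * pd k (pd l F) (eR n z) := by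
  have h0 : ∀ᶠ y in 𝓝 (eR n z), DifferentiableAt ℝ F y := by
    filter_upwards [(hF.of_le (m := 1) (by exact_mod_cast le_top)).eventually (by simp)] with y hy
    exact hy.differentiableAt (by simp)
  have h1 : (wd s fun w => F (eR n w)) =ᶠ[𝓝 z] fun w => ∑ l, zs s l • pd l F (eR n w) := by
    filter_upwards [(eR n).continuous.continuousAt.eventually h0] with w hw
    exact wd_eR hw s
  have h2 : ∀ l, DifferentiableAt ℝ (pd l F) (eR n z) := fun l =>
    (contDiffAt_pd (m := 1) hF two_le_inf l).differentiableAt (by simp)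
  have h3 : ∀ l, DifferentiableAt ℝ (fun w => pd l F (eR n w)) z := fun l =>
    (h2 l).comp z (eR n).differentiableAt
  rw [wd_congr h1, wd_sum _ (f := fun l w => zs s l • pd l F (eR n w))
    (fun l _ => (h3 l).fun_const_smul _), Finset.sum_comm]
  refine Finset.sum_congr rfl fun l _ => ?_
  rw [wd_const_smul _ (h3 l), wd_eR (h2 l), smul_eq_mul, Finset.mul_sum]
  exact Finset.sum_congr rfl fun k _ => by ring

theorem sum_herm {m : ℕ} {H : Matrix (Fin m) (Fin m) ℂ} (hH : H.IsHermitian)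
    {S : Fin m → Fin m → ℂ} (hS : ∀ k l, S k l = S l k) :
    ∑ k, ∑ l, H l k * S k l = ∑ k, ∑ l, (H l k).re • S k l := by
  have h1 : ∑ k, ∑ l, H l k * S k l = ∑ k, ∑ l, conj (H l k) * S k l := by
    rw [Finset.sum_comm]
    refine Finset.sum_congr rfl fun k _ => Finset.sum_congr rfl fun l _ => ?_
    have : conj (H l k) = H k l := hH.apply k l
    rw [this, hS]
  have h2 : (2 : ℂ) * ∑ k, ∑ l, H l k * S k l = 2 * ∑ k, ∑ l, (H l k).re • S k l := by
    rw [two_mul]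
    nth_rewrite 2 [h1]
    simp only [← Finset.sum_add_distrib, Finset.mul_sum, real_smul]
    refine Finset.sum_congr rfl fun k _ => Finset.sum_congr rfl fun l _ => ?_
    rw [← add_mul, Complex.add_conj]
    push_cast; ring
  exact mul_left_cancel₀ two_ne_zero h2

theorem lap_cx {G : Mat n} (hG : G.IsHermitian) {F : En (2 * n) → ℂ} {z : Cn n}
    (hF : ContDiffAt ℝ ∞ F (eR n z)) :
    ∑ p, ∑ q, G⁻¹ p q * wd (false, q) (wd (true, p) fun w => F (eR n w)) z =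
      Lop (rm G) F (eR n z) := by
  have hH : ((zm n)ᴴ * G⁻¹ * zm n).IsHermitian :=
    Matrix.isHermitian_conjTranspose_mul_mul _ hG.inv
  have h := sum_herm hH (S := fun k l => pd k (pd l F) (eR n z))
    fun k l => pd_symm (hF.of_le two_le_inf) k l
  rw [Lop]
  simp only [rm, Matrix.of_apply]
  rw [← h]
  simp only [wd2_eR hF, zs_false, zs_true, Matrix.mul_apply, Matrix.conjTranspose_apply,
    Finset.mul_sum, Finset.sum_mul, star_def]
  calc ∑ p, ∑ q, ∑ k, ∑ l, G⁻¹ p q * (zm n q k * conj (zm n p l) * pd k (pd l F) (eR n z))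
      = ∑ p, ∑ k, ∑ l, ∑ q, G⁻¹ p q * (zm n q k * conj (zm n p l) * pd k (pd l F) (eR n z)) := by
        refine Finset.sum_congr rfl fun p _ => ?_
        rw [Finset.sum_comm]
        exact Finset.sum_congr rfl fun k _ => Finset.sum_comm
    _ = ∑ k, ∑ l, ∑ q, ∑ p, G⁻¹ p q * (zm n q k * conj (zm n p l) * pd k (pd l F) (eR n z)) := by
        rw [Finset.sum_comm]
        refine Finset.sum_congr rfl fun k _ => ?_
        rw [Finset.sum_comm]
        exact Finset.sum_congr rfl fun l _ => Finset.sum_comm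
    _ = _ := Finset.sum_congr rfl fun k _ => Finset.sum_congr rfl fun l _ =>
        Finset.sum_congr rfl fun q _ => Finset.sum_congr rfl fun p _ => by ring

/-- Kaehler symmetry of the curvature -/
theorem Rm_symm {g : Cn n → Mat n} {z : Cn n} (h : KahAt g z) (a b c d : Fin n) :
    Rm g z c d a b = Rm g z a b c d := by
  have h1 : wd (false, c) (wd (true, d) fun y => g y a b) z =
      wd (false, a) (wd (true, b) fun y => g y c d) z := by
    have e1 : (wd (true, d) fun y => g y a b) =ᶠ[𝓝 z] wd (true, b) fun y => g y a d :=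
      h.closed'.mono fun w hw => hw a b d
    have e2 : (wd (false, c) fun y => g y a d) =ᶠ[𝓝 z] wd (false, a) fun y => g y c d :=
      h.closed.mono fun w hw => hw a d c
    rw [wd_congr e1, wd_comm (h.sm a d), wd_congr e2, wd_comm (h.sm c d)]
  have h2 := h.closed.self_of_nhds
  have h3 := h.closed'.self_of_nhds
  simp only [Rm, Matrix.add_apply, Matrix.neg_apply, Matrix.mul_apply, Gr.wdM_apply]
  congr 1
  · exact congrArg Neg.neg h1
  · refine Finset.sum_congr rfl fun l _ => ?_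
    rw [h3 l b d]
    congr 1
    exact Finset.sum_congr rfl fun k _ => by rw [h2 a k c]

/-- values of the system -/
abbrev VV (n : ℕ) : Type := Fin n → Fin n → ℂ

/-- a matrix field in real coordinates -/
def uR (G : Cn n → Mat n) (y : En (2 * n)) : VV n := fun a b => G ((eR n).symm y) a b

/-- a Wirtinger derivative from the real gradient -/
def Dm (s : WI n) (p : Fin (2 * n) → VV n) : Mat n := Matrix.of fun a b => ∑ k, zs s k * p k a b

/-- the lower order term -/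
def Bq (x : VV n × (Fin (2 * n) → VV n)) : VV n := fun a b =>
  -∑ p, ∑ q, (Matrix.of x.1)⁻¹ p q * (Dm (false, q) x.2 * (Matrix.of x.1)⁻¹ * Dm (true, p) x.2) a b

/-- invertible matrices -/
def OO (n : ℕ) : Set (VV n) := {q | (Matrix.of q).det ≠ 0}

theorem isOpen_OO : IsOpen (OO n) := by
  have : Continuous fun q : VV n => (Matrix.of q).det :=
    Continuous.matrix_det (A := fun q : VV n => Matrix.of q) (by
      exact continuous_pi fun a => continuous_pi fun b => by simp only [Matrix.of_apply]; fun_prop)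
  exact isOpen_ne_fun this continuous_const

theorem cd_rmV (k l : Fin (2 * n)) :
    ContDiffOn ℝ ∞ (fun q : VV n => rm (Matrix.of q) k l) (OO n) := fun q hq =>
  cd_rm (G := fun q : VV n => Matrix.of q) (fun a b =>
    (show ContDiffAt ℝ ∞ (fun q : VV n => q a b) q by fun_prop).contDiffWithinAt) hq k l

theorem cd_Bq : ContDiffOn ℝ ∞ (Bq (n := n)) (OO n ×ˢ univ) := by
  intro x hx
  have hi : ∀ a b, ContDiffWithinAt ℝ ∞
      (fun x : VV n × (Fin (2 * n) → VV n) => (Matrix.of x.1)⁻¹ a b) (OO n ×ˢ univ) x :=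
    cd_inv (G := fun x : VV n × (Fin (2 * n) → VV n) => Matrix.of x.1) (fun a b => by
      simp only [Matrix.of_apply]; fun_prop) hx.1
  have hD : ∀ s a b, ContDiffWithinAt ℝ ∞
      (fun x : VV n × (Fin (2 * n) → VV n) => Dm s x.2 a b) (OO n ×ˢ univ) x := fun s a b => by
    simp only [Dm, Matrix.of_apply]
    exact ContDiffWithinAt.sum fun k _ => contDiffWithinAt_const.mul (by fun_prop)
  refine contDiffWithinAt_pi.2 fun a => contDiffWithinAt_pi.2 fun b => ?_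
  simp only [Bq, Matrix.mul_apply]
  exact (ContDiffWithinAt.sum fun p _ => ContDiffWithinAt.sum fun q _ => (hi p q).mul
    (ContDiffWithinAt.sum fun k _ => (ContDiffWithinAt.sum fun l _ => (hD _ a l).mul (hi l k)).mul
      (hD _ k b))).neg

/-- evaluation of an entry -/
def evE (a b : Fin n) : VV n →L[ℝ] ℂ :=
  (ContinuousLinearMap.proj (R := ℝ) (φ := fun _ : Fin n => ℂ) b).comp
    (ContinuousLinearMap.proj (R := ℝ) (φ := fun _ : Fin n => Fin n → ℂ) a)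


theorem pd_ent {u : En (2 * n) → VV n} {y : En (2 * n)} (hu : DifferentiableAt ℝ u y)
    (k : Fin (2 * n)) (a b : Fin n) : pd k u y a b = pd k (fun x => u x a b) y := by
  have h : fderiv ℝ (fun x => u x a b) y = (evE a b).comp (fderiv ℝ u y) :=
    ((evE a b).hasFDerivAt.comp y hu.hasFDerivAt).fderiv
  rw [pd, pd, h]; rfl

theorem lop_ent {u : En (2 * n) → VV n} {y : En (2 * n)} (hu : ContDiffAt ℝ ∞ u y)
    (A : Matrix (Fin (2 * n)) (Fin (2 * n)) ℝ) (a b : Fin n) :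
    Lop A u y a b = Lop A (fun x => u x a b) y := by
  have h0 : ∀ᶠ x in 𝓝 y, DifferentiableAt ℝ u x := by
    filter_upwards [(hu.of_le (m := 1) (by exact_mod_cast le_top)).eventually (by simp)] with x hx
    exact hx.differentiableAt (by simp)
  simp only [Lop, Finset.sum_apply, Pi.smul_apply]
  refine Finset.sum_congr rfl fun k _ => Finset.sum_congr rfl fun l _ => ?_
  rw [pd_ent ((contDiffAt_pd (m := 1) hu two_le_inf l).differentiableAt (by simp))]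
  have h1 : (fun x => pd l u x a b) =ᶠ[𝓝 y] pd l fun x => u x a b :=
    h0.mono fun x hx => pd_ent hx l a b
  simp only [pd] at h1 ⊢
  rw [h1.fderiv_eq]

theorem cd_uR {G : Cn n → Mat n} {y : En (2 * n)}
    (h : ∀ a b, ContDiffAt ℝ ∞ (fun w => G w a b) ((eR n).symm y)) : ContDiffAt ℝ ∞ (uR G) y :=
  contDiffAt_pi.2 fun a => contDiffAt_pi.2 fun b =>
    (h a b).comp y (eR n).symm.contDiff.contDiffAt

theorem Dm_d1 {G : Cn n → Mat n} {y : En (2 * n)}
    (h : ∀ a b, ContDiffAt ℝ ∞ (fun w => G w a b) ((eR n).symm y)) (s : WI n) :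
    Dm s (d1 (uR G) y) = wdM s G ((eR n).symm y) := by
  ext a b
  have h1 := (cd_uR h).differentiableAt (by simp)
  have h2 : DifferentiableAt ℝ (fun x => uR G x a b) (eR n ((eR n).symm y)) := by
    rw [(eR n).apply_symm_apply]
    exact (evE a b).differentiableAt.comp y h1
  have h3 := wd_eR h2 s
  simp only [uR, ContinuousLinearEquiv.symm_apply_apply, ContinuousLinearEquiv.apply_symm_apply]
    at h3
  rw [Gr.wdM_apply, h3]
  simp only [Dm, Matrix.of_apply, d1, pd_ent h1, uR]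

/-- the right hand side of the flow -/
theorem hess_ldet_eq {G : Cn n → Mat n} {y : En (2 * n)} (h : KahAt G ((eR n).symm y))
    (a b : Fin n) : hess (ldet G) ((eR n).symm y) a b =
      (Lop (rm (Matrix.of (uR G y))) (uR G) y + Bq (uR G y, d1 (uR G) y)) a b := by
  set z := (eR n).symm y with hz
  have hy : eR n z = y := (eR n).apply_symm_apply y
  have h1 : hess (ldet G) z a b = -ric G z a b := by simp [ric]
  have hu := cd_uR h.sm
  have h2 : ContDiffAt ℝ ∞ (fun x => uR G x a b) (eR n z) := by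
    rw [hy]; exact (evE a b).contDiff.contDiffAt.comp y hu
  have h3 := lap_cx (h.pos.self_of_nhds.isHermitian) h2
  simp only [uR, ContinuousLinearEquiv.symm_apply_apply, hy] at h3
  have h4 : Matrix.of (uR G y) = G z := rfl
  rw [h1, ric_eq_trace h.smE h.pos, Pi.add_apply, Pi.add_apply, lop_ent hu]
  simp only [Bq, h4, Dm_d1 h.sm, uR, ← h3, Matrix.trace, Matrix.diag_apply,
    Matrix.mul_apply (M := (G z)⁻¹), ← hz]
  rw [← sub_eq_add_neg, ← Finset.sum_sub_distrib, ← Finset.sum_neg_distrib]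
  refine Finset.sum_congr rfl fun p _ => ?_
  rw [← Finset.sum_sub_distrib, ← Finset.sum_neg_distrib]
  refine Finset.sum_congr rfl fun q _ => ?_
  rw [Rm_symm h q p a b, Rm, Matrix.add_apply, Matrix.neg_apply]
  have : wdM (false, q) (wdM (true, p) G) z a b =
    wd (false, q) (wd (true, p) fun w => G w a b) z := rfl
  rw [this]; ring

/-- **KRF as a quasilinear system** -/
theorem krf_ql {G : ℝ → Cn n → Mat n} {t : ℝ} {y : En (2 * n)} (h : KRFat G t ((eR n).symm y)) :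
    HasDerivAt (fun s => uR (G s) y)
      (Lop (rm (Matrix.of (uR (G t) y))) (uR (G t)) y + Bq (uR (G t) y, d1 (uR (G t)) y)) t := by
  refine hasDerivAt_pi.2 fun a => hasDerivAt_pi.2 fun b => ?_
  rw [← hess_ldet_eq h.kahAt]
  exact h.flow.self_of_nhds a b

theorem cd_uRt {G : ℝ → Cn n → Mat n} {t : ℝ} {y : En (2 * n)} (h : KRFat G t ((eR n).symm y)) :
    ContDiffAt ℝ ∞ (fun q : ℝ × En (2 * n) => uR (G q.1) q.2) (t, y) :=
  contDiffAt_pi.2 fun a => contDiffAt_pi.2 fun b =>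
    ContDiffAt.comp (g := fun q : ℝ × Cn n => G q.1 q.2 a b)
      (f := fun q : ℝ × En (2 * n) => (q.1, (eR n).symm q.2)) (t, y) (h.sm a b) (by fun_prop)

end

end Crest.Agent.T223.Rn
end

-- ▼ part T223/RnDef_44
section

/-!
# Row 223, RENEW (helper44): the two pieces of `Os.RenewStmt`

* `CoreStmt` : interior estimates in one chart at unit scale;
* `WrapStmt` : `QCStmt` at the end of the window, pull-back and parabolic rescaling.
-/

set_option autoImplicit false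

open Set Filter Topology Metric
open scoped ContDiff

namespace Crest.Agent.T223.Rn

open Crest.Agent.R275.Geo Crest.Agent.T223.Tr

/-- a Kaehler-Ricci flow on `[-θ, 0] × ball 0 R` with curvature `≤ ε`, `ε`-flat at time `0` -/
structure CF {n : ℕ} (R θ ε : ℝ) (G : ℝ → Cn n → Mat n) : Prop where
  krf : ∀ s ∈ Icc (-θ) 0, ∀ w ∈ ball (0 : Cn n) R, KRFat G s w
  bk : ∀ s ∈ Icc (-θ) 0, ∀ w ∈ ball (0 : Cn n) R, BKge (G s) w ε ∧ BKle (G s) w ε
  lo : ∀ w ∈ ball (0 : Cn n) R, ∀ v, (1 - ε) * ‖v‖ ^ 2 ≤ nq (G 0 w) v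
  hi : ∀ w ∈ ball (0 : Cn n) R, ∀ v, nq (G 0 w) v ≤ (1 + ε) * ‖v‖ ^ 2

/-- a solution of the heat equation on `[-θ, 0] × ball 0 R` with gradient `≤ κ` -/
structure HF {n : ℕ} (R θ κ : ℝ) (G : ℝ → Cn n → Mat n) (f : ℝ → Cn n → ℝ) : Prop where
  sm : ∀ s ∈ Icc (-θ) 0, ∀ w ∈ ball (0 : Cn n) R,
    ContDiffAt ℝ ∞ (fun q : ℝ × Cn n => f q.1 q.2) (s, w)
  eq : ∀ s ∈ Icc (-θ) 0, ∀ w ∈ ball (0 : Cn n) R, box G f s w = 0
  gr : ∀ s ∈ Icc (-θ) 0, ∀ w ∈ ball (0 : Cn n) R, gsq (G s) (f s) w ≤ κ ^ 2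

/-- CORE (44): interior estimates at unit scale -/
def CoreStmt (n : ℕ) : Prop :=
  ∀ θ : ℝ, 0 < θ → θ ≤ 1 → ∃ R ε C : ℝ, 1 ≤ R ∧ 0 < ε ∧ 0 < C ∧
    ∀ G : ℝ → Cn n → Mat n, CF R θ ε G →
      (∀ j, 1 ≤ j → j ≤ 8 → ∀ w ∈ ball (0 : Cn n) 1, ∀ a b,
        ‖iteratedFDeriv ℝ j (fun y => G 0 y a b) w‖ ≤ 1) ∧
      ∀ (κ : ℝ) (f : ℝ → Cn n → ℝ), 0 < κ → HF R θ κ G f →
        ∀ j, 1 ≤ j → j ≤ 4 → ∀ w ∈ ball (0 : Cn n) 1, ‖iteratedFDeriv ℝ j (f 0) w‖ ≤ C * κ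

/-- WRAP -/
def WrapStmt (n : ℕ) : Prop := QCStmt n → CoreStmt n → Os.RenewStmt n

end Crest.Agent.T223.Rn
end

-- ▼ part T223/Rn2_44
section

/-!
# Row 223, RENEW (helper44): `coreStmt : QlHB → LinHBi → CoreStmt`
-/

set_option autoImplicit false

open Set Filter Topology Metric
open scoped ContDiff ComplexConjugate Matrix ComplexOrder

namespace Crest.Agent.T223.Rn

open Crest.Agent.R275.Geo Crest.Agent.R275.EDR890 Crest.Agent.R273.Hess_333
open Crest.Agent.T223.Br Crest.Agent.T223.Tr Crest.Agent.N207.P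
open Crest.Agent.T223.Db (eR rm rm_pos lap_eR)
open Crest.Agent.T223.Lx

noncomputable section

variable {n : ℕ}

/-- two sided Gronwall -/
theorem gron {φ φ' : ℝ → ℝ} {a α β : ℝ} (hc : ContinuousOn φ (Icc α β))
    (hd : ∀ s ∈ Ioo α β, HasDerivAt φ (φ' s) s) (hb : ∀ s ∈ Ioo α β, |φ' s| ≤ a * φ s)
    {s : ℝ} (hs : s ∈ Icc α β) :
    Real.exp (a * (s - β)) * φ s ≤ φ β ∧ Real.exp (a * (s - β)) * φ β ≤ φ s := by
  have hβ : β ∈ Icc α β := ⟨hs.1.trans hs.2, le_rfl⟩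
  have he : ∀ c t : ℝ, HasDerivAt (fun t => Real.exp (c * (t - β))) (Real.exp (c * (t - β)) * c) t :=
    fun c t => by simpa using (((hasDerivAt_id t).sub_const β).const_mul c).exp
  have h1 := monotoneOn_of_hasDerivWithinAt_nonneg (convex_Icc α β)
    (f := fun t => Real.exp (a * (t - β)) * φ t)
    (f' := fun t => Real.exp (a * (t - β)) * a * φ t + Real.exp (a * (t - β)) * φ' t)
    (ContinuousOn.mul (by fun_prop) hc)
    (fun t ht => ((he a t).mul (hd t (by simpa using ht))).hasDerivWithinAt) (fun t ht => by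
      have := (abs_le.1 (hb t (by simpa using ht))).1
      have h0 := Real.exp_pos (a * (t - β))
      nlinarith) hs hβ hs.2
  have h2 := antitoneOn_of_hasDerivWithinAt_nonpos (convex_Icc α β)
    (f := fun t => Real.exp (-a * (t - β)) * φ t)
    (f' := fun t => Real.exp (-a * (t - β)) * -a * φ t + Real.exp (-a * (t - β)) * φ' t)
    (ContinuousOn.mul (by fun_prop) hc)
    (fun t ht => ((he (-a) t).mul (hd t (by simpa using ht))).hasDerivWithinAt) (fun t ht => by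
      have := (abs_le.1 (hb t (by simpa using ht))).2
      have h0 := Real.exp_pos (-a * (t - β))
      nlinarith) hs hβ hs.2
  simp only [sub_self, mul_zero, Real.exp_zero, one_mul] at h1 h2
  refine ⟨h1, ?_⟩
  have h3 := mul_le_mul_of_nonneg_left h2 (Real.exp_pos (a * (s - β))).le
  rwa [← mul_assoc, ← Real.exp_add, show a * (s - β) + -a * (s - β) = 0 by ring, Real.exp_zero,
    one_mul] at h3

/-- `|dφ(v)| ≤ 2 |∂φ| |v|` -/
theorem fderiv_le_gsq {g : Cn n → Mat n} {φ : Cn n → ℝ} {z : Cn n} (hg : (g z).PosDef)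
    (hd : DifferentiableAt ℝ φ z) (v : Cn n) :
    |fderiv ℝ φ z v| ≤ 2 * √(gsq g φ z * nq (g z) v) := by
  have h1 := Ev.nq_le_trg hg (Bx.op_herm (dz φ z)) (b := 0) (fun v => by
    rw [Bx.nq_op, zero_mul, add_zero]; positivity) v
  rw [Bx.nq_op, zero_mul, add_zero, mul_zero, add_zero] at h1
  have h2 : trg (g z) (Bx.op (dz φ z) (dz φ z)) = gsq g φ z := Bx.ipi_self _ _
  rw [h2] at h1
  rw [U0.fderiv_eq_dz hd, abs_mul, abs_two]
  exact mul_le_mul_of_nonneg_left ((Complex.abs_re_le_norm _).trans (Real.le_sqrt_of_sq_le h1))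
    zero_le_two

theorem norm_iter_eR {V : Type*} [NormedAddCommGroup V] [NormedSpace ℝ V] (F : En (2 * n) → V)
    (w : Cn n) (j : ℕ) : ‖iteratedFDeriv ℝ j (fun w => F (eR n w)) w‖ ≤
      ‖iteratedFDeriv ℝ j F (eR n w)‖ * ‖(eR n : Cn n →L[ℝ] En (2 * n))‖ ^ j := by
  have h := (eR n).iteratedFDerivWithin_comp_right F uniqueDiffOn_univ (mem_univ (eR n w)) j
  rw [preimage_univ, iteratedFDerivWithin_univ, iteratedFDerivWithin_univ] at h
  have h2 := (iteratedFDeriv ℝ j F (eR n w)).norm_compContinuousLinearMap_le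
    fun _ => (eR n : Cn n →L[ℝ] En (2 * n))
  rw [← h] at h2
  simpa [Function.comp_def] using h2

variable {R θ ε : ℝ} {G : ℝ → Cn n → Mat n} {s : ℝ} {w : Cn n}

theorem CF.pos (h : CF R θ ε G) (hs : s ∈ Icc (-θ) 0) (hw : w ∈ ball (0 : Cn n) R) :
    (G s w).PosDef := (h.krf s hs w hw).pos.self_of_nhds

theorem CF.mono (h : CF R θ ε G) {ε' : ℝ} (hε : ε ≤ ε') : CF R θ ε' G := by
  refine ⟨h.krf, fun s hs w hw => ?_, fun w hw v => le_trans ?_ (h.lo w hw v),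
    fun w hw v => (h.hi w hw v).trans ?_⟩
  · have h0 := fun v => Ev.nq_nonneg (h.pos hs hw).posSemidef v
    have h1 : ∀ v v', ε * nq (G s w) v * nq (G s w) v' ≤ ε' * nq (G s w) v * nq (G s w) v' :=
      fun v v' => mul_le_mul_of_nonneg_right (mul_le_mul_of_nonneg_right hε (h0 v)) (h0 v')
    exact ⟨fun v v' => (neg_le_neg (h1 v v')).trans ((h.bk s hs w hw).1 v v'),
      fun v v' => ((h.bk s hs w hw).2 v v').trans (h1 v v')⟩
  · exact mul_le_mul_of_nonneg_right (by linarith) (sq_nonneg _)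
  · exact mul_le_mul_of_nonneg_right (by linarith) (sq_nonneg _)

theorem CF.close (h : CF R θ ε G) (hθ : θ ≤ 1) (hε : 0 ≤ ε) (hε1 : (1 + 4 * n) * ε ≤ 1 / 2)
    (hs : s ∈ Icc (-θ) 0) (hw : w ∈ ball (0 : Cn n) R) (v : Cn n) :
    |nq (G s w) v - ‖v‖ ^ 2| ≤ (1 + 4 * n) * ε * ‖v‖ ^ 2 := by
  have hd : ∀ t ∈ Icc (-θ) 0, HasDerivAt (fun t => nq (G t w) v) (-nq (ric (G t) w) v) t :=
    fun t ht => Lo.krf_nq (h.krf t ht w hw) v
  obtain ⟨h1, h2⟩ := gron (a := n * ε) (fun t ht => (hd t ht).continuousAt.continuousWithinAt)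
    (fun t ht => hd t (Ioo_subset_Icc_self ht)) (fun t ht => by
      have ht' := Ioo_subset_Icc_self ht
      rw [abs_neg]
      exact abs_le.2 ⟨ric_ge_of_BKge (h.krf t ht' w hw).kahAt (h.bk t ht' w hw).1 v,
        ric_le_of_BKle (h.krf t ht' w hw).kahAt (h.bk t ht' w hw).2 v⟩) hs
  have ha : 0 ≤ (n : ℝ) * ε := by positivity
  have h3 : 1 - n * ε ≤ Real.exp (n * ε * (s - 0)) := by
    have := Real.add_one_le_exp (n * ε * (s - 0))
    nlinarith [hs.1]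
  have h4 := Ev.nq_nonneg (h.pos hs hw).posSemidef v
  have h5 := Ev.nq_nonneg (h.pos ⟨hs.1.trans hs.2, le_rfl⟩ hw).posSemidef v
  have h6 := h.lo w hw v
  have h7 := h.hi w hw v
  have h8 := (mul_le_mul_of_nonneg_right h3 h4).trans h1
  have h9 := (mul_le_mul_of_nonneg_right h3 h5).trans h2
  have hv := sq_nonneg ‖v‖
  have ha1 : (n : ℝ) * ε ≤ 1 / 8 := by nlinarith
  have he1 : ε ≤ 1 / 2 := by nlinarith
  set x := nq (G s w) v
  set y := nq (G 0 w) v
  set q := ‖v‖ ^ 2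
  have hy : y ≤ 2 * q := by nlinarith
  have hx : x ≤ 4 * q := by nlinarith
  rw [abs_le]
  constructor <;> nlinarith [mul_le_mul_of_nonneg_left hx ha, mul_le_mul_of_nonneg_left hy ha,
    mul_nonneg ha hv]

theorem CF.two (h : CF R θ ε G) (hθ : θ ≤ 1) (hε : 0 ≤ ε) (hε1 : (1 + 4 * n) * ε ≤ 1 / 2)
    (hs : s ∈ Icc (-θ) 0) (hw : w ∈ ball (0 : Cn n) R) (v : Cn n) :
    ‖v‖ ^ 2 ≤ 2 * nq (G s w) v ∧ nq (G s w) v ≤ 2 * ‖v‖ ^ 2 := by
  have h1 := abs_le.1 (h.close hθ hε hε1 hs hw v)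
  have h2 := mul_le_mul_of_nonneg_right hε1 (sq_nonneg ‖v‖)
  constructor <;> nlinarith [sq_nonneg ‖v‖]

theorem CF.ent (h : CF R θ ε G) (hθ : θ ≤ 1) (hε : 0 ≤ ε) (hε1 : (1 + 4 * n) * ε ≤ 1 / 2)
    (hs : s ∈ Icc (-θ) 0) (hw : w ∈ ball (0 : Cn n) R) (a b : Fin n) :
    ‖G s w a b - (1 : Mat n) a b‖ ≤ 4 * ((1 + 4 * n) * ε) :=
  Gr.entry_le (H := G s w - 1) ((h.pos hs hw).isHermitian.sub Matrix.isHermitian_one)
    (fun v => by rw [Ev.nq_sub, nq_one]; exact h.close hθ hε hε1 hs hw v) a b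

theorem CF.hb (h : CF R θ ε G) (hθ : θ ≤ 1) (hε : 0 ≤ ε) (hε1 : (1 + 4 * n) * ε ≤ 1 / 2)
    (hs : s ∈ Icc (-θ) 0) (hw : ball w 1 ⊆ ball (0 : Cn n) R) : Gr.HB (G s) w 1 2 ε :=
  ⟨fun a b z hz => ((h.krf s hs z (hw hz)).kahAt.sm a b).contDiffWithinAt,
    fun _ hz => (h.pos hs (hw hz)).isHermitian, fun _ hz v => (h.two hθ hε hε1 hs (hw hz) v).1,
    fun _ hz v => (h.two hθ hε hε1 hs (hw hz) v).2,
    fun z hz v v' => abs_le.2 ⟨(h.bk s hs z (hw hz)).1 v v', (h.bk s hs z (hw hz)).2 v v'⟩,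
    two_pos, hε⟩

/-- the norms of the real coordinates -/
def L1 (n : ℕ) : ℝ := ‖(eR n : Cn n →L[ℝ] En (2 * n))‖ + 1
def L2 (n : ℕ) : ℝ := ‖((eR n).symm : En (2 * n) →L[ℝ] Cn n)‖
def R0 (n : ℕ) : ℝ := L2 n * (L1 n + 2) + 1

theorem one_le_L1 : 1 ≤ L1 n := le_add_of_nonneg_left (norm_nonneg _)
theorem L2_nonneg : 0 ≤ L2 n := norm_nonneg _
theorem one_le_R0 : 1 ≤ R0 n :=
  le_add_of_nonneg_left (mul_nonneg L2_nonneg (by linarith [one_le_L1 (n := n)]))

theorem norm_symm_le (y : En (2 * n)) : ‖(eR n).symm y‖ ≤ L2 n * ‖y‖ :=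
  ((eR n).symm : En (2 * n) →L[ℝ] Cn n).le_opNorm y

theorem ball_symm {y : En (2 * n)} (hy : y ∈ ball (0 : En (2 * n)) (L1 n + 2)) :
    ball ((eR n).symm y) 1 ⊆ ball (0 : Cn n) (R0 n) := ball_subset_ball' (by
  rw [dist_zero_right, R0]
  linarith [norm_symm_le y, mul_le_mul_of_nonneg_left (mem_ball_zero_iff.1 hy).le (L2_nonneg (n := n))])

theorem symm_mem {y : En (2 * n)} (hy : y ∈ ball (0 : En (2 * n)) (L1 n + 2)) :
    (eR n).symm y ∈ ball (0 : Cn n) (R0 n) := ball_symm hy (mem_ball_self one_pos)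

theorem eR_mem (hw : w ∈ ball (0 : Cn n) 1) : eR n w ∈ ball (0 : En (2 * n)) (L1 n) := by
  rw [mem_ball_zero_iff] at *
  have h1 : ‖eR n w‖ ≤ _ := (eR n : Cn n →L[ℝ] En (2 * n)).le_opNorm w
  have h2 := mul_le_mul_of_nonneg_left hw.le (norm_nonneg (eR n : Cn n →L[ℝ] En (2 * n)))
  unfold L1; linarith

theorem norm_iter_le {V : Type*} [NormedAddCommGroup V] [NormedSpace ℝ V] {F : Cn n → V} {j m : ℕ}
    (hj : j ≤ m) {K : ℝ} (h : ‖iteratedFDeriv ℝ j (fun y => F ((eR n).symm y)) (eR n w)‖ ≤ K) :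
    ‖iteratedFDeriv ℝ j F w‖ ≤ K * L1 n ^ m := by
  have h1 := norm_iter_eR (fun y => F ((eR n).symm y)) w j
  simp only [ContinuousLinearEquiv.symm_apply_apply] at h1
  refine h1.trans (mul_le_mul h ?_ (by positivity) ((norm_nonneg _).trans h))
  exact (pow_le_pow_left₀ (norm_nonneg _) (le_add_of_nonneg_right zero_le_one) j).trans
    (pow_le_pow_right₀ one_le_L1 hj)

theorem pd_symm_eq {V : Type*} [NormedAddCommGroup V] [NormedSpace ℝ V] {F : Cn n → V}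
    {y : En (2 * n)} (h : DifferentiableAt ℝ F ((eR n).symm y)) (k : Fin (2 * n)) :
    pd k (fun y => F ((eR n).symm y)) y =
      fderiv ℝ F ((eR n).symm y) ((eR n).symm (EuclideanSpace.single k 1)) :=
  congrArg (fun D : En (2 * n) →L[ℝ] V => D (EuclideanSpace.single k 1))
    (h.hasFDerivAt.comp y (eR n).symm.hasFDerivAt).fderiv

theorem norm_symm_single (k : Fin (2 * n)) : ‖(eR n).symm (EuclideanSpace.single k 1)‖ ≤ L2 n := by
  simpa using norm_symm_le (n := n) (EuclideanSpace.single k 1)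

/-- the unit matrix -/
def e1 (n : ℕ) : VV n := fun a b => (1 : Mat n) a b

theorem exists_eta {δ : ℝ} (hδ : 0 < δ) : ∃ η : ℝ, 0 < η ∧ ∀ q ∈ closedBall (e1 n) η,
    q ∈ OO n ∧ ∀ k l, |rm (Matrix.of q) k l - rm (1 : Mat n) k l| ≤ δ := by
  have h0 : e1 n ∈ OO n := by
    change (1 : Mat n).det ≠ 0
    simp
  have h1 := isOpen_OO.mem_nhds h0
  have h2 : ∀ k l, ∀ᶠ q in 𝓝 (e1 n), |rm (Matrix.of q) k l - rm (1 : Mat n) k l| ≤ δ := fun k l => by
    have := ((cd_rmV k l).continuousOn.continuousAt h1).eventually (closedBall_mem_nhds _ hδ)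
    exact this
  exact nhds_basis_closedBall.eventually_iff.1
    ((show ∀ᶠ q in 𝓝 (e1 n), q ∈ OO n from h1).and
      (eventually_all.2 fun k => eventually_all.2 fun l => h2 k l))

theorem div_pos4 {η : ℝ} (hη : 0 < η) : 0 < η / (4 * (1 + 4 * (n : ℝ))) := by positivity

theorem mul_le_of4 {η ε : ℝ} (h : ε ≤ η / (4 * (1 + 4 * (n : ℝ)))) : 4 * ((1 + 4 * n) * ε) ≤ η := by
  rw [le_div_iff₀ (by positivity)] at h; linarith

theorem CF.mem (h : CF (R0 n) θ ε G) (hθ : θ ≤ 1) (hε : 0 ≤ ε) (hε1 : (1 + 4 * n) * ε ≤ 1 / 2)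
    (hs : s ∈ Icc (-θ) 0) {y : En (2 * n)} (hy : y ∈ ball (0 : En (2 * n)) (L1 n + 2)) {η : ℝ}
    (hη : 4 * ((1 + 4 * n) * ε) ≤ η) : uR (G s) y ∈ closedBall (e1 n) η := by
  have h0 : 0 ≤ η := le_trans (by positivity) hη
  rw [mem_closedBall, dist_eq_norm]
  exact (pi_norm_le_iff_of_nonneg h0).2 fun a => (pi_norm_le_iff_of_nonneg h0).2 fun b =>
    (h.ent hθ hε hε1 hs (symm_mem hy) a b).trans hη

theorem CF.cdOn (h : CF (R0 n) θ ε G) : ContDiffOn ℝ ∞ (fun q : ℝ × En (2 * n) => uR (G q.1) q.2)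
    (Icc (-θ) 0 ×ˢ ball 0 (L1 n + 2)) := fun q hq =>
  (cd_uRt (h.krf q.1 hq.1 _ (symm_mem hq.2))).contDiffWithinAt

/-- interior estimates for the metrics -/
theorem ub_metric (hQ : QlHB (2 * n) (VV n)) (hθ0 : 0 < θ) (hθ : θ ≤ 1) :
    ∃ ε0 : ℝ, 0 < ε0 ∧ ∀ ε, 0 ≤ ε → ε ≤ ε0 → (1 + 4 * n) * ε ≤ 1 / 2 → ∀ m,
      UBt (fun _ : {G : ℝ → Cn n → Mat n // CF (R0 n) θ ε G} => Icc (-θ + θ / 2) 0) (L1 n + 1) m
        fun i t => uR (i.1 t) := by
  obtain ⟨δ, hδ, hQ⟩ := hQ (rm (1 : Mat n)) (rm_pos Matrix.PosDef.one)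
  obtain ⟨η, hη, hK⟩ := exists_eta (n := n) hδ
  refine ⟨_, div_pos4 (n := n) hη, fun ε hε hε0 hε1 m => ?_⟩
  have hη' := mul_le_of4 hε0
  obtain ⟨C, hC0, hC⟩ := Gr.grad n 1 2 ε one_pos
  have hl := one_le_L1 (n := n)
  refine hQ _ (OO n) (closedBall (e1 n) η) (fun q => rm (Matrix.of q)) Bq (L1 n + 2) (L1 n + 1)
    (θ / 2) m (fun _ => -θ) (fun _ => 0) _ (by linarith) (by linarith) (by positivity)
    ⟨isOpen_OO, isCompact_closedBall _ _, fun q hq => (hK q hq).1, cd_rmV, cd_Bq,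
      fun _ => by linarith, fun _ => by linarith, fun i m => ?_, fun i t ht y hy => ?_,
      fun i t ht y hy => i.2.mem hθ hε hε1 ht hy hη', C * L2 n, fun i t ht y hy => ?_⟩
    fun q hq => (hK q hq).2
  · exact yl_of_contDiffOn isCompact_Icc (uniqueDiffOn_Icc (by linarith)) isOpen_ball i.2.cdOn
  · exact (krf_ql (i.2.krf t ht _ (symm_mem hy))).hasDerivWithinAt
  · have h0 : 0 ≤ C * L2 n := mul_nonneg hC0 L2_nonneg
    have h1 := (i.2.krf t ht _ (symm_mem hy)).kahAt.sm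
    refine (pi_norm_le_iff_of_nonneg h0).2 fun k => (pi_norm_le_iff_of_nonneg h0).2 fun a =>
      (pi_norm_le_iff_of_nonneg h0).2 fun b => ?_
    rw [d1, pd_ent ((cd_uR h1).differentiableAt (by simp))]
    have h2 := pd_symm_eq ((h1 a b).differentiableAt (by simp)) k
    simp only [uR]
    rw [h2]
    exact (ContinuousLinearMap.le_opNorm _ _).trans (mul_le_mul
      ((hC _ _ (i.2.hb hθ hε hε1 ht (ball_symm hy))).2.1 a b) (norm_symm_single k) (norm_nonneg _)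
      hC0)

/-- the data of the heat equation -/
abbrev HI (n : ℕ) (θ ε : ℝ) : Type :=
  {p : (ℝ → Cn n → Mat n) × (ℝ → Cn n → ℝ) × ℝ //
    CF (R0 n) θ ε p.1 ∧ 0 < p.2.2 ∧ HF (R0 n) θ p.2.2 p.1 p.2.1}

/-- the normalised solution in real coordinates -/
def hu {θ ε : ℝ} (i : HI n θ ε) (t : ℝ) : En (2 * n) → ℝ :=
  i.1.2.2⁻¹ • fun y => i.1.2.1 t ((eR n).symm y)

theorem pd_csmul (c : ℝ) (u : En (2 * n) → ℝ) (k : Fin (2 * n)) : pd k (c • u) = c • pd k u := by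
  funext y
  simp only [pd, fderiv_const_smul_field, Pi.smul_apply, smul_apply]

theorem lop_csmul (c : ℝ) (u : En (2 * n) → ℝ) (a : Matrix (Fin (2 * n)) (Fin (2 * n)) ℝ)
    (y : En (2 * n)) : Lop a (c • u) y = c * Lop a u y := by
  simp only [Lop, pd_csmul, Pi.smul_apply, smul_eq_mul, Finset.mul_sum]
  exact Finset.sum_congr rfl fun k _ => Finset.sum_congr rfl fun l _ => by ring

theorem HF.cdR {κ : ℝ} {f : ℝ → Cn n → ℝ} (h : HF (R0 n) θ κ G f) (hs : s ∈ Icc (-θ) 0)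
    {y : En (2 * n)} (hy : y ∈ ball (0 : En (2 * n)) (L1 n + 2)) :
    ContDiffAt ℝ ∞ (fun q : ℝ × En (2 * n) => f q.1 ((eR n).symm q.2)) (s, y) :=
  ContDiffAt.comp (g := fun q : ℝ × Cn n => f q.1 q.2)
    (f := fun q : ℝ × En (2 * n) => (q.1, (eR n).symm q.2)) (s, y) (h.sm s hs _ (symm_mem hy))
    (by fun_prop)

theorem hu_cd (i : HI n θ ε) (hs : s ∈ Icc (-θ) 0) {y : En (2 * n)}
    (hy : y ∈ ball (0 : En (2 * n)) (L1 n + 2)) :
    ContDiffAt ℝ ∞ (fun q : ℝ × En (2 * n) => hu i q.1 q.2) (s, y) :=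
  contDiffAt_const.mul (i.2.2.2.cdR hs hy)

theorem hu_ev (i : HI n θ ε) (hs : s ∈ Icc (-θ) 0) {y : En (2 * n)}
    (hy : y ∈ ball (0 : En (2 * n)) (L1 n + 2)) :
    HasDerivAt (fun t => hu i t y) (Lop (rm (Matrix.of (uR (i.1.1 s) y))) (hu i s) y) s := by
  have h1 := i.2.2.2.cdR hs hy
  have h2 : DifferentiableAt ℝ (fun t => i.1.2.1 t ((eR n).symm y)) s :=
    (h1.comp s (contDiffAt_id.prodMk contDiffAt_const)).differentiableAt (by simp)
  have h3 : ContDiffAt ℝ ∞ (fun y => i.1.2.1 s ((eR n).symm y)) (eR n ((eR n).symm y)) := by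
    rw [(eR n).apply_symm_apply]
    exact h1.comp y (contDiffAt_const.prodMk contDiffAt_id)
  have h4 := lap_eR (i.1.1 s ((eR n).symm y)) h3
  simp only [ContinuousLinearEquiv.symm_apply_apply, ContinuousLinearEquiv.apply_symm_apply] at h4
  have h5 : deriv (fun t => i.1.2.1 t ((eR n).symm y)) s =
      Db.lap (i.1.1 s ((eR n).symm y)) (i.1.2.1 s) ((eR n).symm y) :=
    sub_eq_zero.1 (i.2.2.2.eq s hs _ (symm_mem hy))
  rw [hu, lop_csmul]
  exact (h2.hasDerivAt.const_mul _).congr_deriv (by rw [h5, h4]; rfl)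

theorem hu_grad (i : HI n θ ε) (hθ : θ ≤ 1) (hε : 0 ≤ ε) (hε1 : (1 + 4 * n) * ε ≤ 1 / 2)
    (hs : s ∈ Icc (-θ) 0) {y : En (2 * n)} (hy : y ∈ ball (0 : En (2 * n)) (L1 n + 2)) :
    ‖d1 (hu i s) y‖ ≤ 4 * L2 n := by
  have h0 := L2_nonneg (n := n)
  refine (pi_norm_le_iff_of_nonneg (by positivity)).2 fun k => ?_
  obtain ⟨⟨G, f, κ⟩, h1, hκ, h2⟩ := i
  have h3 : DifferentiableAt ℝ (f s) ((eR n).symm y) :=
    ((h2.sm s hs _ (symm_mem hy)).comp _ (contDiffAt_const.prodMk contDiffAt_id)).differentiableAt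
      (by simp)
  simp only [d1, hu, pd_csmul, Pi.smul_apply, smul_eq_mul] at *
  rw [pd_symm_eq h3, Real.norm_eq_abs, abs_mul, abs_of_pos (inv_pos.2 hκ), inv_mul_le_iff₀ hκ]
  refine (fderiv_le_gsq (g := G s) (h1.pos hs (symm_mem hy)) h3 _).trans ?_
  have h4 := (h1.two hθ hε hε1 hs (symm_mem hy) ((eR n).symm (EuclideanSpace.single k 1))).2
  have h5 := pow_le_pow_left₀ (norm_nonneg _) (norm_symm_single (n := n) k) 2
  have h6 : √(gsq (G s) (f s) ((eR n).symm y) *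
      nq (G s ((eR n).symm y)) ((eR n).symm (EuclideanSpace.single k 1))) ≤ κ * (2 * L2 n) := by
    refine Real.sqrt_le_iff.2 ⟨by positivity, ?_⟩
    rw [mul_pow]
    exact mul_le_mul (h2.gr s hs _ (symm_mem hy)) (by nlinarith)
      (Ev.nq_nonneg (h1.pos hs (symm_mem hy)).posSemidef _) (sq_nonneg _)
  linarith

theorem ubt_re {ι κ V : Type} [NormedAddCommGroup V] [NormedSpace ℝ V] {N m : ℕ} {I : ι → Set ℝ}
    {r : ℝ} {u : ι → ℝ → En N → V} (H : UBt I r m u) (σ : κ → ι) (τ : κ → ℝ)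
    (h : ∀ k, τ k ∈ I (σ k)) : UB r m fun k => u (σ k) (τ k) :=
  UB.reindex (fun k => (⟨(σ k, τ k), h k⟩ : {p : ι × ℝ // p.2 ∈ I p.1})) H

theorem ub_fderiv_of_d1 {ι : Type} {N m : ℕ} {r : ℝ} {h : ι → En N → ℝ}
    (H : UB r m fun i => d1 (h i)) : UB r m fun i => fderiv ℝ (h i) :=
  (UB.sum Finset.univ fun k _ => (H.apply k).clm
    (ContinuousLinearMap.smulRightL ℝ (En N) ℝ (EuclideanSpace.proj k))).congr
      fun i y _ => by ext v; simp [fderiv_eq_sum_pd, d1]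

/-- interior estimates for the heat equation -/
theorem ub_heat (hQ : QlHB (2 * n) (VV n)) (hL : LinHBi (2 * n) ℝ) (hθ0 : 0 < θ) (hθ : θ ≤ 1) :
    ∃ ε0 : ℝ, 0 < ε0 ∧ ∀ ε, 0 ≤ ε → ε ≤ ε0 → (1 + 4 * n) * ε ≤ 1 / 2 →
      UB (L1 n) 3 fun i : HI n θ ε => fderiv ℝ (hu i 0) := by
  obtain ⟨ε0, hε0, hQ⟩ := ub_metric hQ hθ0 hθ
  obtain ⟨δ, hδ, hL⟩ := hL (rm (1 : Mat n)) (rm_pos Matrix.PosDef.one)
  obtain ⟨η, hη, hK⟩ := exists_eta (n := n) hδ
  refine ⟨_, lt_min hε0 (div_pos4 (n := n) hη), fun ε hε hε0 hε1 => ?_⟩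
  have hη' := mul_le_of4 (hε0.trans (min_le_right _ _))
  have hl := one_le_L1 (n := n)
  have hI : Icc (-θ + θ / 2) 0 ⊆ Icc (-θ) 0 := Icc_subset_Icc_left (by linarith)
  have hB : ball (0 : En (2 * n)) (L1 n + 1) ⊆ ball 0 (L1 n + 2) := ball_subset_ball (by linarith)
  have hU : UniqueDiffOn ℝ (Icc (-θ + θ / 2) 0) := uniqueDiffOn_Icc (by linarith)
  have hm : ∀ i : HI n θ ε, ∀ t ∈ Icc (-θ + θ / 2) 0, ∀ y ∈ ball (0 : En (2 * n)) (L1 n + 1),
      uR (i.1.1 t) y ∈ closedBall (e1 n) η := fun i t ht y hy =>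
    i.2.1.mem hθ hε hε1 (hI ht) (hB hy) hη'
  have hu1 := ubt_re (hQ ε hε (hε0.trans (min_le_left _ _)) hε1 2)
    (fun p : {p : HI n θ ε × ℝ // p.2 ∈ Icc (-θ + θ / 2) 0} => ⟨p.1.1.1.1, p.1.1.2.1⟩)
    (fun p => p.1.2) fun p => p.2
  have hF : LinF (rm (1 : Mat n)) δ (L1 n + 1) 2 (fun _ : HI n θ ε => -θ + θ / 2) (fun _ => 0)
      (fun i t y => rm (Matrix.of (uR (i.1.1 t) y))) (fun _ _ _ => (0 : ℝ)) hu := by
    refine ⟨fun _ => by linarith, fun _ => by linarith, fun i => ?_, fun i k l => ?_, fun i => ?_,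
      fun i t ht y hy => ?_, fun i t ht y hy => (hK _ (hm i t ht y hy)).2, fun k l => ?_,
      ub_const' 0⟩
    · exact yl_of_contDiffOn isCompact_Icc hU isOpen_ball fun q hq =>
        (hu_cd i (hI hq.1) (hB hq.2)).contDiffWithinAt
    · have h1 := (cd_rmV k l).comp (i.2.1.cdOn.mono (prod_mono hI hB)) fun q hq =>
        (hK _ (hm i q.1 hq.1 q.2 hq.2)).1
      exact yl_of_contDiffOn isCompact_Icc hU isOpen_ball h1
    · exact yl_of_contDiffOn isCompact_Icc hU isOpen_ball contDiffOn_const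
    · exact ((hu_ev i (hI ht) (hB hy)).congr_deriv (add_zero _).symm).hasDerivWithinAt
    · have h1 := UB.comp isOpen_OO (isCompact_closedBall (e1 n) η) (fun q hq => (hK q hq).1)
        (fun (p : {p : HI n θ ε × ℝ // p.2 ∈ Icc (-θ + θ / 2) 0}) => hm p.1.1 p.1.2 p.2)
        (cd_rmV k l) hu1
      unfold UBt
      exact h1
  have H := hL _ _ (L1 n) (θ / 4) _ _ _ _ _ _ (by linarith) (by linarith) (by positivity) hF
    ⟨4 * L2 n, fun i t ht y hy => hu_grad i hθ hε hε1 (hI ht) (hB hy)⟩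
  exact ub_fderiv_of_d1 (ubt_re H id (fun _ => 0) fun _ => ⟨by linarith, le_rfl⟩)

theorem norm_iter_sub {E : Type*} [NormedAddCommGroup E] [NormedSpace ℝ E] (F : E → ℂ) (c : ℂ)
    (k : ℕ) (y : E) :
    ‖iteratedFDeriv ℝ (k + 1) (fun y => F y - c) y‖ = ‖iteratedFDeriv ℝ (k + 1) F y‖ := by
  have : fderiv ℝ (fun y => F y - c) = fderiv ℝ F := funext fun y => fderiv_sub_const c
  rw [← norm_iteratedFDeriv_fderiv, this, norm_iteratedFDeriv_fderiv]

theorem norm_evE (a b : Fin n) : ‖evE a b‖ ≤ 1 :=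
  ContinuousLinearMap.opNorm_le_bound _ zero_le_one fun q => by
    rw [one_mul]; exact (norm_le_pi_norm (q a) b).trans (norm_le_pi_norm q a)

/-- **CORE** -/
theorem coreStmt (hQ : QlHB (2 * n) (VV n)) (hL : LinHBi (2 * n) ℝ) : CoreStmt n := by
  intro θ hθ0 hθ
  obtain ⟨ε0, hε0, h0⟩ := ub_metric hQ hθ0 hθ
  obtain ⟨ε1, hε1, h1⟩ := ub_heat hQ hL hθ0 hθ
  have hl := one_le_L1 (n := n)
  have h00 : (0 : ℝ) ∈ Icc (-θ) 0 := ⟨by linarith, le_rfl⟩
  obtain ⟨ε, hε, e0, e1, e2⟩ : ∃ ε : ℝ, 0 < ε ∧ ε ≤ ε0 ∧ ε ≤ ε1 ∧ (1 + 4 * n) * ε ≤ 1 / 2 := by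
    refine ⟨_, lt_min hε0 (lt_min hε1 (div_pos4 (n := n) two_pos)), min_le_left _ _,
      (min_le_right _ _).trans (min_le_left _ _), ?_⟩
    linarith [mul_le_of4 (n := n) ((min_le_right ε0 _).trans (min_le_right ε1 (2 / _)))]
  have hB : ∀ c : ℝ, c ≤ 2 → ball (0 : En (2 * n)) (L1 n + c) ⊆ ball 0 (L1 n + 2) :=
    fun c hc => ball_subset_ball (by linarith)
  -- the metrics
  have hs : ∀ G : ℝ → Cn n → Mat n, CF (R0 n) θ ε G → ∀ a b, ContDiffOn ℝ ∞
      (fun y => G 0 ((eR n).symm y) a b - (1 : Mat n) a b) (ball 0 (L1 n + 1)) :=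
    fun G hG a b y hy => ((((hG.krf 0 h00 _ (symm_mem (hB 1 one_le_two hy))).kahAt.sm a b).comp y
      (eR n).symm.contDiff.contDiffAt).sub contDiffAt_const).contDiffWithinAt
  have H0 := ubt_re (h0 ε hε.le e0 e2 9) (fun p : {G // CF (R0 n) θ ε G} × Fin n × Fin n => p.1)
    (fun _ => 0) fun _ => ⟨by linarith, le_rfl⟩
  have H1 : UB (L1 n + 1) 9 fun (p : {G // CF (R0 n) θ ε G} × Fin n × Fin n) y =>
      p.1.1 0 ((eR n).symm y) p.2.1 p.2.2 - (1 : Mat n) p.2.1 p.2.2 :=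
    (H0.clm' (fun p : {G // CF (R0 n) θ ε G} × Fin n × Fin n => evE p.2.1 p.2.2)
      fun p => norm_evE _ _).sub
      (ub_const ⟨1, fun p : {G // CF (R0 n) θ ε G} × Fin n × Fin n =>
        (by rw [Matrix.one_apply]; split_ifs <;> simp : ‖(1 : Mat n) p.2.1 p.2.2‖ ≤ 1)⟩)
  obtain ⟨K1, hK1⟩ := (ubCb (2 * n) ℂ _ _ _ _ fun p : {G // CF (R0 n) θ ε G} × Fin n × Fin n =>
    hs p.1.1 p.1.2 p.2.1 p.2.2).1 H1
  obtain ⟨η, hη, hI⟩ := cbInt (En (2 * n)) ℂ (L1 n + 1) (L1 n) K1 (1 / L1 n ^ 8) 8 (by linarith)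
    (by positivity)
  -- the heat equation
  obtain ⟨K2, hK2⟩ := (ubCb (2 * n) (En (2 * n) →L[ℝ] ℝ) _ _ _
    (fun i : HI n θ ε => fderiv ℝ (hu i 0)) fun i y hy =>
    (((hu_cd i h00 (hB 0 zero_le_two (by simpa using hy))).comp y
      (contDiffAt_const.prodMk contDiffAt_id)).fderiv_right (m := ∞) le_rfl).contDiffWithinAt).1
    (h1 ε hε.le e1 e2)
  have hm := lt_min hε (div_pos4 (n := n) hη)
  refine ⟨R0 n, _, (|K2| + 1) * L1 n ^ 4, one_le_R0, hm, by positivity, fun G hG => ⟨fun j hj1 hj w hw a b => ?_, fun κ f hκ hf j hj1 hj w hw => ?_⟩⟩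
  · have hG' := hG.mono (min_le_left _ _)
    have h2 := hI _ (hs G hG' a b) (hK1 (⟨G, hG'⟩, a, b)) (cb_zero.2 fun y hy =>
      (hG.ent hθ hm.le ((mul_le_mul_of_nonneg_left (min_le_left _ _) (by positivity)).trans e2) h00
        (symm_mem (hB 1 one_le_two hy)) a b).trans (mul_le_of4 (min_le_right _ _))) j hj _
        (eR_mem hw)
    obtain ⟨k, rfl⟩ : ∃ k, j = k + 1 := ⟨j - 1, by omega⟩
    rw [norm_iter_sub] at h2
    refine (norm_iter_le (F := fun y => G 0 y a b) hj h2).trans (le_of_eq ?_)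
    field_simp
  · obtain ⟨k, rfl⟩ : ∃ k, j = k + 1 := ⟨j - 1, by omega⟩
    have h2 := hK2 ⟨(G, f, κ), hG.mono (min_le_left _ _), hκ, hf⟩ k (by omega) _ (eR_mem hw)
    have h3 : ‖iteratedFDeriv ℝ (k + 1) (fun y => f 0 ((eR n).symm y)) (eR n w)‖ ≤
        κ * (|K2| + 1) := by
      have h4 : ContDiffAt ℝ ∞ (fun y => f 0 ((eR n).symm y)) (eR n w) :=
        (hf.cdR h00 (hB 0 zero_le_two (by simpa using eR_mem hw))).comp _
          (contDiffAt_const.prodMk contDiffAt_id)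
      simp only [hu] at h2
      rw [norm_iteratedFDeriv_fderiv, iteratedFDeriv_const_smul_apply
        (h4.of_le (by exact_mod_cast le_top)), norm_smul, Real.norm_eq_abs,
        abs_of_pos (inv_pos.2 hκ), inv_mul_le_iff₀ hκ] at h2
      exact h2.trans (mul_le_mul_of_nonneg_left (by linarith [le_abs_self K2]) hκ.le)
    exact (norm_iter_le (F := f 0) hj h3).trans (le_of_eq (by ring))

theorem renewStmt (hW : WrapStmt n) (hC : QCStmt n) (hQ : QlHB (2 * n) (VV n))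
    (hL : LinHBi (2 * n) ℝ) : Os.RenewStmt n := hW hC (coreStmt hQ hL)

end

end Crest.Agent.T223.Rn
end

-- ▼ part T223/RnSc_17
section

/-!
# Row 223, RENEW / WRAP (helper17), part A: the scaling kit

* constant multiples `cs c g` of a metric: `kahAt_cs`, `bkge_cs`, `bkle_cs`, `gsq_cs`, `lap_cs`
* parabolic rescaling `ps a t1 g s = a⁻¹ g (t1 + a s)`: `krf_ps`, `box_ps`
* dilation of a chart `dil c ψ w = ψ (c w)`: `imm_dil`, `pull_dil`
-/

set_option autoImplicit false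
set_option linter.unusedVariables false

open Set Filter Topology Metric
open scoped ContDiff ComplexConjugate Matrix ComplexOrder

namespace Crest.Agent.T223.Rn17

open Crest.Agent.R275.Geo Crest.Agent.R275.EDR890 Crest.Agent.R273.Kah_333
open Crest.Agent.R273.Hess_333 Crest.Agent.R273.HessB_333
open Crest.Agent.T223.Br Crest.Agent.T223.Tr

noncomputable section

variable {n : ℕ}

/-- constant multiple of a matrix field -/
def cs (c : ℝ) (g : Cn n → Mat n) : Cn n → Mat n := fun w => (c : ℂ) • g w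

section static

variable {g : Cn n → Mat n} {z : Cn n} {c : ℝ}

theorem cs_apply (c : ℝ) (g : Cn n → Mat n) (w : Cn n) : cs c g w = (c : ℂ) • g w := rfl

theorem nq_cs (c : ℝ) (g : Cn n → Mat n) (w v : Cn n) : nq (cs c g w) v = c * nq (g w) v :=
  nq_smul _ _ _

theorem posDef_smul {G : Mat n} (h : G.PosDef) (hc : 0 < c) : ((c : ℂ) • G).PosDef :=
  h.smul (Complex.zero_lt_real.2 hc)

theorem wd_cs (hg : SmM g z) (c : ℝ) (s : WI n) (a b : Fin n) :
    wd s (fun w => cs c g w a b) z = (c : ℂ) * wd s (fun w => g w a b) z :=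
  congrFun (congrFun (wdM_const_smul (c : ℂ) hg s) a) b

theorem kahAt_cs (hg : KahAt g z) (hc : 0 < c) : KahAt (cs c g) z := by
  refine ⟨?_, ?_, ?_, ?_⟩
  · filter_upwards [hg.smE] with w hw a b
    exact contDiffAt_const.mul (hw a b)
  · filter_upwards [hg.pos] with w hw
    exact posDef_smul hw hc
  · filter_upwards [hg.smE, hg.closed] with w h1 h2 a b d
    rw [wd_cs h1, wd_cs h1, h2]
  · filter_upwards [hg.smE, hg.closed'] with w h1 h2 a b d
    rw [wd_cs h1, wd_cs h1, h2]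

theorem inv_smul' {G : Mat n} (h : G.det ≠ 0) (hc : c ≠ 0) :
    ((c : ℂ) • G)⁻¹ = ((c⁻¹ : ℝ) : ℂ) • G⁻¹ := by
  have hc' : (c : ℂ) ≠ 0 := Complex.ofReal_ne_zero.2 hc
  have : Invertible (c : ℂ) := invertibleOfNonzero hc'
  rw [Matrix.inv_smul _ (c : ℂ) (isUnit_iff_ne_zero.2 h), invOf_eq_inv, Complex.ofReal_inv]

theorem Rm_cs (hg : KahAt g z) (hc : c ≠ 0) (a b : Fin n) :
    Rm (cs c g) z a b = (c : ℂ) • Rm g z a b := by
  have h1 : wdM (true, b) (fun w => (c : ℂ) • g w) =ᶠ[𝓝 z] fun w => (c : ℂ) • wdM (true, b) g w :=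
    hg.smE.mono fun w hw => wdM_const_smul _ hw _
  have hs : SmM g z := hg.sm
  have hc' : (c : ℂ) ≠ 0 := Complex.ofReal_ne_zero.2 hc
  unfold Rm cs
  rw [wdM_congr h1, wdM_const_smul _ (hs.wdM _), wdM_const_smul _ hs, wdM_const_smul _ hs,
    inv_smul' hg.det_ne hc]
  simp only [Matrix.smul_mul, Matrix.mul_smul, smul_smul, smul_add, smul_neg, Complex.ofReal_inv]
  congr 2
  field_simp

theorem bis_cs (hg : KahAt g z) (hc : c ≠ 0) (v w : Cn n) :
    bis (cs c g) z v w = c * bis g z v w := by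
  rw [bis_eq, bis_eq, ← Complex.re_ofReal_mul]
  congr 1
  simp only [Rm_cs hg hc, hC_smul, Finset.mul_sum, mul_assoc]

theorem bkge_cs (hg : KahAt g z) (hc : 0 < c) {l l' : ℝ} (h : BKge g z l) (hl : l ≤ l' * c) :
    BKge (cs c g) z l' := by
  intro v w
  rw [bis_cs hg hc.ne', nq_cs, nq_cs]
  have h1 := nq_nonneg hg.posDef.posSemidef v
  have h2 := nq_nonneg hg.posDef.posSemidef w
  have h3 : l * nq (g z) v * nq (g z) w ≤ l' * c * nq (g z) v * nq (g z) w := by gcongr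
  have h4 := mul_le_mul_of_nonneg_left ((neg_le_neg h3).trans (h v w)) hc.le
  refine le_trans (le_of_eq ?_) h4
  ring

theorem bkle_cs (hg : KahAt g z) (hc : 0 < c) {l l' : ℝ} (h : BKle g z l) (hl : l ≤ l' * c) :
    BKle (cs c g) z l' := by
  intro v w
  rw [bis_cs hg hc.ne', nq_cs, nq_cs]
  have h1 := nq_nonneg hg.posDef.posSemidef v
  have h2 := nq_nonneg hg.posDef.posSemidef w
  have h3 : l * nq (g z) v * nq (g z) w ≤ l' * c * nq (g z) v * nq (g z) w := by gcongr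
  have h4 := mul_le_mul_of_nonneg_left ((h v w).trans h3) hc.le
  refine h4.trans (le_of_eq ?_)
  ring

theorem trg_smul_left {G : Mat n} (h : G.det ≠ 0) (hc : c ≠ 0) (H : Mat n) :
    trg ((c : ℂ) • G) H = c⁻¹ * trg G H := by
  unfold trg
  rw [inv_smul' h hc, Matrix.smul_mul, Matrix.trace_smul, smul_eq_mul, Complex.re_ofReal_mul]

theorem gsq_cs (h : (g z).det ≠ 0) (hc : c ≠ 0) (φ : Cn n → ℝ) :
    gsq (cs c g) φ z = c⁻¹ * gsq g φ z := by
  unfold gsq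
  rw [nqi_eq_trg, nqi_eq_trg, cs_apply, trg_smul_left h hc]

theorem lap_cs (h : (g z).det ≠ 0) (hc : c ≠ 0) (φ : Cn n → ℝ) :
    lap (cs c g) φ z = c⁻¹ * lap g φ z := trg_smul_left h hc _

theorem hess_const (k : ℝ) (z : Cn n) : hess (fun _ : Cn n => k) z = 0 := by
  ext a b
  rw [hess_apply]
  have e : wd (true, b) (cu fun _ : Cn n => k) = fun _ => 0 := funext fun w => wd_const _ _ _
  rw [e, wd_const]
  rfl

theorem hess_ldet_cs (hg : KahAt g z) (hc : 0 < c) :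
    hess (ldet (cs c g)) z = hess (ldet g) z := by
  have e : ldet (cs c g) =ᶠ[𝓝 z] fun w => Real.log (c ^ n) + ldet g w := by
    filter_upwards [hg.pos] with w hw
    unfold ldet
    rw [cs_apply, Matrix.det_smul, Fintype.card_fin, ← Complex.ofReal_pow, Complex.re_ofReal_mul,
      Real.log_mul (by positivity) (det_re_pos hw).ne']
  rw [hess_congr e, hess_add contDiffAt_const hg.cd_ldet, hess_const, zero_add]

end static

/-- parabolic rescaling of a flow -/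
def ps (a t1 : ℝ) (g : ℝ → Cn n → Mat n) : ℝ → Cn n → Mat n := fun s => cs a⁻¹ (g (t1 + a * s))

theorem hasDerivAt_aff (a t1 s : ℝ) : HasDerivAt (fun s : ℝ => t1 + a * s) a s := by
  simpa using ((hasDerivAt_id s).const_mul a).const_add t1

theorem cd_aff (a t1 : ℝ) :
    ContDiff ℝ ∞ fun q : ℝ × Cn n => ((t1 + a * q.1, q.2) : ℝ × Cn n) :=
  (contDiff_const.add (contDiff_const.mul contDiff_fst)).prodMk contDiff_snd

theorem krf_ps {g : ℝ → Cn n → Mat n} {a t1 s : ℝ} {z : Cn n} (ha : 0 < a)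
    (h : KRFat g (t1 + a * s) z) : KRFat (ps a t1 g) s z := by
  have hc : Tendsto (fun q : ℝ × Cn n => ((t1 + a * q.1, q.2) : ℝ × Cn n)) (𝓝 (s, z))
      (𝓝 (t1 + a * s, z)) := (cd_aff a t1).continuous.continuousAt
  have h1 : ∀ᶠ q : ℝ × Cn n in 𝓝 (s, z), KRFat g (t1 + a * q.1) q.2 :=
    hc.eventually h.eventually
  have ha' : 0 < a⁻¹ := inv_pos.2 ha
  have e2 : ∀ᶠ q : ℝ × Cn n in 𝓝 (s, z), KahAt (ps a t1 g q.1) q.2 :=
    h1.mono fun q hq => kahAt_cs hq.kahAt ha'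
  refine ⟨?_, e2.mono fun q hq => hq.posDef, e2.mono fun q hq => hq.closed.self_of_nhds,
    e2.mono fun q hq => hq.closed'.self_of_nhds, ?_⟩
  · filter_upwards [h1] with q hq k l
    exact contDiffAt_const.mul (ContDiffAt.comp q (g := fun r : ℝ × Cn n => g r.1 r.2 k l)
      (f := fun q : ℝ × Cn n => ((t1 + a * q.1, q.2) : ℝ × Cn n)) (hq.sm k l)
      (cd_aff a t1).contDiffAt)
  · filter_upwards [h1] with q hq k l
    have h2 := (hq.flow.self_of_nhds k l).scomp q.1 (hasDerivAt_aff a t1 q.1)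
    have h3 := h2.const_mul ((a⁻¹ : ℝ) : ℂ)
    unfold ps
    rw [hess_ldet_cs hq.kahAt ha']
    refine h3.congr_deriv ?_
    have ha2 : (a : ℂ) ≠ 0 := Complex.ofReal_ne_zero.2 ha.ne'
    simp only [Complex.real_smul, Complex.ofReal_inv]
    field_simp

theorem box_ps {g : ℝ → Cn n → Mat n} {φ : ℝ → Cn n → ℝ} {a t1 s : ℝ} {z : Cn n} (ha : 0 < a)
    (h : (g (t1 + a * s) z).det ≠ 0) (hφ : DifferentiableAt ℝ (fun s => φ s z) (t1 + a * s)) :
    box (ps a t1 g) (fun s => φ (t1 + a * s)) s z = a * box g φ (t1 + a * s) z := by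
  have h1 : deriv (fun s => φ (t1 + a * s) z) s = a * deriv (fun s => φ s z) (t1 + a * s) :=
    (HasDerivAt.scomp (g₁ := fun s => φ s z) (h := fun s => t1 + a * s) s hφ.hasDerivAt
      (hasDerivAt_aff a t1 s)).deriv
  unfold box ps
  rw [lap_cs h (inv_pos.2 ha).ne', inv_inv, h1]
  ring

/-! ### dilation of a chart -/

variable {M : Type} [TopologicalSpace M] {A : Atl n M}

/-- `ψ (c w)` -/
def dil (c : ℝ) (ψ : Cn n → M) : Cn n → M := fun w => ψ ((c : ℂ) • w)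

theorem fderiv_rd_dil (c : ℝ) (ψ : Cn n → M) (i : A.ι) (w : Cn n) :
    fderiv ℂ (rd A i (dil c ψ)) w = (c : ℂ) • fderiv ℂ (rd A i ψ) ((c : ℂ) • w) :=
  fderiv_comp_smul (f := rd A i ψ) (c : ℂ)

theorem dil_mem {R : ℝ} (hR : 0 < R) {w : Cn n} (hw : w ∈ ball (0 : Cn n) R) :
    ((R⁻¹ : ℝ) : ℂ) • w ∈ ball (0 : Cn n) 1 := by
  rw [mem_ball_zero_iff] at hw ⊢
  rw [norm_smul, Complex.norm_real, Real.norm_eq_abs, abs_of_pos (inv_pos.2 hR), inv_mul_lt_one₀ hR]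
  exact hw

theorem imm_dil {ψ : Cn n → M} (h : Imm A ψ (ball 0 1)) {R : ℝ} (hR : 0 < R) :
    Imm A (dil R⁻¹ ψ) (ball 0 R) := by
  have hd : ∀ w : Cn n, DifferentiableAt ℂ (fun w : Cn n => ((R⁻¹ : ℝ) : ℂ) • w) w := fun w =>
    differentiableAt_id.fun_const_smul _
  refine ⟨fun w hw => ⟨?_, fun i hi => ?_⟩, fun w hw i hi => ?_⟩
  · exact ContinuousAt.comp (g := ψ) (h.1 _ (dil_mem hR hw)).1 (hd w).continuousAt
  · exact DifferentiableAt.comp (g := rd A i ψ) w ((h.1 _ (dil_mem hR hw)).2 i hi) (hd w)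
  · rw [fderiv_rd_dil]
    intro v v' hv
    have hc : ((R⁻¹ : ℝ) : ℂ) ≠ 0 := Complex.ofReal_ne_zero.2 (inv_pos.2 hR).ne'
    exact h.2 _ (dil_mem hR hw) i hi (smul_right_injective _ hc hv)

theorem pull_dil (G : MF A) (c : ℝ) (ψ : Cn n → M) (w : Cn n) :
    pull G (dil c ψ) w = ((c ^ 2 : ℝ) : ℂ) • pull G ψ ((c : ℂ) • w) := by
  have e : ∀ i, jac (rd A i (dil c ψ)) w = (c : ℂ) • jac (rd A i ψ) ((c : ℂ) • w) := by
    intro i
    ext b a
    simp only [jac, fderiv_rd_dil, Matrix.of_apply, Matrix.smul_apply,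
      _root_.smul_apply, PiLp.smul_apply]
  have e2 : ∀ J : Mat n, ((c : ℂ) • J).map conj = (c : ℂ) • J.map conj := by
    intro J
    ext a b
    simp
  unfold pull pbF
  rw [e, e2, Matrix.transpose_smul]
  simp only [Matrix.smul_mul, Matrix.mul_smul, smul_smul, sq, Complex.ofReal_mul]
  rfl

end

end Crest.Agent.T223.Rn17
end

-- ▼ part T223/RnWrA_17
section

/-!
# Row 223, RENEW / WRAP (helper17), part B: the rescaled flow in a quasi-chart
-/

set_option autoImplicit false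
set_option linter.unusedVariables false

open Set Filter Topology Metric
open scoped ContDiff ComplexConjugate Matrix ComplexOrder

namespace Crest.Agent.T223.Rn17

open Crest.Agent.R275.Geo Crest.Agent.T223.Br Crest.Agent.T223.Tr
open Crest.Agent.T223.Os Crest.Agent.T223.Rn
open Crest.Agent.T223.Db (dom SmST)

noncomputable section

variable {n : ℕ} {M : Type} [TopologicalSpace M] {A : Atl n M}

/-- a quasi-chart on the ball of radius `R` -/
structure QR (G : MF A) (V : Set M) (x : M) (R r ε : ℝ) (ψ : Cn n → M) : Prop where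
  imm : Imm A ψ (ball 0 R)
  maps : MapsTo ψ (ball 0 R) V
  zero : ψ 0 = x
  ctr : pull G ψ 0 = ((r ^ 2 : ℝ) : ℂ) • (1 : Mat n)
  lo : ∀ w ∈ ball (0 : Cn n) R, ∀ v, (1 - ε) * r ^ 2 * ‖v‖ ^ 2 ≤ nq (pull G ψ w) v
  hi : ∀ w ∈ ball (0 : Cn n) R, ∀ v, nq (pull G ψ w) v ≤ (1 + ε) * r ^ 2 * ‖v‖ ^ 2

theorem qr_of_qc {G : MF A} {V : Set M} {x : M} {R r ε : ℝ} {ψ : Cn n → M} (hR : 0 < R)
    (h : QC G V x (R * r) ε ψ) : QR G V x R r ε (dil R⁻¹ ψ) := by
  have hR2 : 0 < R⁻¹ ^ 2 := by positivity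
  refine ⟨imm_dil h.imm hR, fun w hw => h.maps (dil_mem hR hw), ?_, ?_, fun w hw v => ?_,
    fun w hw v => ?_⟩
  · simp only [dil, smul_zero, h.zero]
  · rw [pull_dil, smul_zero, h.ctr, smul_smul, ← Complex.ofReal_mul]
    congr 2
    field_simp
  · rw [pull_dil, nq_smul]
    refine le_trans (le_of_eq ?_) (mul_le_mul_of_nonneg_left (h.lo _ (dil_mem hR hw) v) hR2.le)
    field_simp
  · rw [pull_dil, nq_smul]
    refine (mul_le_mul_of_nonneg_left (h.hi _ (dil_mem hR hw) v) hR2.le).trans (le_of_eq ?_)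
    field_simp

theorem QR.qc {G : MF A} {V W : Set M} {x : M} {R r ε ε' : ℝ} {ψ : Cn n → M}
    (h : QR G V x R r ε ψ) (hR : 1 ≤ R) (hW : V ⊆ W) (hε : ε ≤ ε') : QC G W x r ε' ψ := by
  have hs : ball (0 : Cn n) 1 ⊆ ball 0 R := ball_subset_ball hR
  refine ⟨⟨fun w hw => h.imm.1 w (hs hw), fun w hw => h.imm.2 w (hs hw)⟩,
    fun w hw => hW (h.maps (hs hw)), h.zero, h.ctr, fun w hw v => ?_, fun w hw v => ?_⟩
  · refine le_trans ?_ (h.lo w (hs hw) v)
    gcongr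
  · refine (h.hi w (hs hw) v).trans ?_
    gcongr

section flow

variable {U : Set M} {g : ℝ → MF A} {f : ℝ → M → ℝ} {t b τ : ℝ} {ψ : Cn n → M} {D : Set (Cn n)}
  {w : Cn n}

theorem relT_flow (hU : IsOpen U) (hg : FlowOn t b U g) (hτ : τ ∈ Ioo t b) (hψ : Imm A ψ D)
    (hD : IsOpen D) (hw : w ∈ D) (hx : ψ w ∈ U) :
    RelT (rd A (ch A (ψ w)) ψ) τ w (fun s => pull (g s) ψ) (fun s => g s (ch A (ψ w))) := by
  refine relT_pull hψ hD hw ?_ (ch_mem A _) (hg.krf τ hτ _ _ (ch_mem A _) hx)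
  filter_upwards [prod_mem_nhds (Icc_mem_nhds hτ.1 hτ.2) (hU.mem_nhds hx)] with q hq
  exact (hg.kah q.1 hq.1).tr.mono (singleton_subset_iff.2 hq.2)

theorem cd_chart (hU : IsOpen U) (hf : SmST A (Icc t b) U f) (hτ : τ ∈ Ioo t b) {i : A.ι} {x : M}
    (hi : x ∈ (A.e i).source) (hx : x ∈ U) :
    ContDiffAt ℝ ∞ (fun q : ℝ × Cn n => inC A i (f q.1) q.2) (τ, A.e i x) :=
  (hf i).contDiffAt (prod_mem_nhds (Icc_mem_nhds hτ.1 hτ.2) (dom_nhds hU hi hx))

theorem ev_pull (hc : ContinuousAt ψ w) {i : A.ι} (hi : ψ w ∈ (A.e i).source) (f : ℝ → M → ℝ)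
    (τ : ℝ) : ∀ᶠ q : ℝ × Cn n in 𝓝 (τ, w), f q.1 (ψ q.2) = inC A i (f q.1) (rd A i ψ q.2) := by
  have hs : Tendsto (fun q : ℝ × Cn n => q.2) (𝓝 (τ, w)) (𝓝 w) := continuousAt_snd
  filter_upwards [hs.eventually (hc ((A.e i).open_source.mem_nhds hi))] with q hq
  exact (inC_apply hq (f q.1)).symm

theorem cd_pull (hU : IsOpen U) (hf : SmST A (Icc t b) U f) (hτ : τ ∈ Ioo t b) (hψ : Imm A ψ D)
    (hD : IsOpen D) (hw : w ∈ D) (hx : ψ w ∈ U) :
    ContDiffAt ℝ ∞ (fun q : ℝ × Cn n => f q.1 (ψ q.2)) (τ, w) :=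
  (ContDiffAt.comp (τ, w) (g := fun q : ℝ × Cn n => inC A (ch A (ψ w)) (f q.1) q.2)
    (f := fun q : ℝ × Cn n => (q.1, rd A (ch A (ψ w)) ψ q.2))
    (cd_chart hU hf hτ (ch_mem A _) hx)
    (contDiffAt_fst.prodMk (cd_static τ (holAt_rd hψ.1 hD hw (ch_mem A _)).cd))).congr_of_eventuallyEq
    (ev_pull (hψ.1 w hw).1 (ch_mem A _) f τ)

theorem box_pull (hU : IsOpen U) (hg : FlowOn t b U g) (hf : HeatOn t b U g f) (hτ : τ ∈ Ioo t b)
    (hψ : Imm A ψ D) (hD : IsOpen D) (hw : w ∈ D) (hx : ψ w ∈ U) :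
    box (fun s => pull (g s) ψ) (fun s y => f s (ψ y)) τ w = 0 := by
  rw [(relT_flow hU hg hτ hψ hD hw hx).box (φ2 := fun s => inC A (ch A (ψ w)) (f s))
    (cd_slice (F := fun s => inC A (ch A (ψ w)) (f s)) (cd_chart hU hf.sm hτ (ch_mem A _) hx))
    (ev_pull (hψ.1 w hw).1 (ch_mem A _) f τ)]
  exact hf.eq τ hτ _ _ (ch_mem A _) hx

variable {V : Set M} {x : M} {R r ε ε' θ t1 l κ : ℝ}

theorem cf_pull (hU : IsOpen U) (hg : FlowOn t b U g) (hV : V ⊆ U) (hr : 0 < r)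
    (hq : QR (g t1) V x R r ε ψ) (hε : ε ≤ ε') (hI : ∀ s ∈ Icc (-θ) 0, t1 + r ^ 2 * s ∈ Ioo t b)
    (hb : ∀ s ∈ Icc (-θ) 0, ∀ y ∈ V, BkAbs (g (t1 + r ^ 2 * s)) l y) (hl : l * r ^ 2 ≤ ε') :
    CF R θ ε' (ps (r ^ 2) t1 fun s => pull (g s) ψ) := by
  have hr2 : 0 < r ^ 2 := by positivity
  have hl' : l ≤ ε' * (r ^ 2)⁻¹ := by rwa [← div_eq_mul_inv, le_div_iff₀ hr2]
  have e0 : ∀ w v, nq (ps (r ^ 2) t1 (fun s => pull (g s) ψ) 0 w) v =
      (r ^ 2)⁻¹ * nq (pull (g t1) ψ w) v := fun w v => by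
    simp only [ps, mul_zero, add_zero, nq_cs]
  refine ⟨fun s hs w hw => ?_, fun s hs w hw => ?_, fun w hw v => ?_, fun w hw v => ?_⟩
  · exact krf_ps hr2 (relT_flow hU hg (hI s hs) hq.imm isOpen_ball hw (hV (hq.maps hw))).krfAt
  · have h1 := (relT_flow hU hg (hI s hs) hq.imm isOpen_ball hw (hV (hq.maps hw))).rel
    have h2 := hb s hs _ (hq.maps hw) _ (ch_mem A _)
    exact ⟨bkge_cs h1.kahAt (inv_pos.2 hr2) ((h1.bkge l).2 h2.1) hl',
      bkle_cs h1.kahAt (inv_pos.2 hr2) ((h1.bkle l).2 h2.2) hl'⟩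
  · rw [e0, inv_mul_eq_div, le_div_iff₀ hr2]
    refine le_trans ?_ (hq.lo w hw v)
    rw [mul_right_comm]
    gcongr
  · rw [e0, inv_mul_eq_div, div_le_iff₀ hr2]
    refine (hq.hi w hw v).trans ?_
    rw [mul_right_comm]
    gcongr

theorem gsq_ps (hU : IsOpen U) (hg : FlowOn t b U g) (hf : SmST A (Icc t b) U f) {a s : ℝ}
    (ha : 0 < a) (hτ : t1 + a * s ∈ Ioo t b) (hψ : Imm A ψ D) (hD : IsOpen D) (hw : w ∈ D)
    (hx : ψ w ∈ U) :
    gsq (ps a t1 (fun s => pull (g s) ψ) s) (fun y => f (t1 + a * s) (ψ y)) w =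
      a * Gr (g (t1 + a * s)) (f (t1 + a * s)) (ψ w) := by
  have hI := Ioo_subset_Icc_self hτ
  rw [Gr_pull (hg.kah _ hI) hU hψ hD hw hx (smOn_of_SmST hf hI), ps,
    gsq_cs (relT_flow hU hg hτ hψ hD hw hx).krfAt.det_ne (inv_pos.2 ha).ne', inv_inv]

theorem hf_pull (hU : IsOpen U) (hg : FlowOn t b U g) (hf : HeatOn t b U g f) (hV : V ⊆ U)
    (hr : 0 < r) (hq : QR (g t1) V x R r ε ψ)
    (hI : ∀ s ∈ Icc (-θ) 0, t1 + r ^ 2 * s ∈ Ioo t b)
    (hb : ∀ s ∈ Icc (-θ) 0, ∀ y ∈ V, Gr (g (t1 + r ^ 2 * s)) (f (t1 + r ^ 2 * s)) y ≤ l)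
    (hl : l * r ^ 2 ≤ κ ^ 2) :
    HF R θ κ (ps (r ^ 2) t1 fun s => pull (g s) ψ) fun s y => f (t1 + r ^ 2 * s) (ψ y) := by
  have hr2 : 0 < r ^ 2 := by positivity
  refine ⟨fun s hs w hw => ?_, fun s hs w hw => ?_, fun s hs w hw => ?_⟩
  · exact ContDiffAt.comp (s, w) (g := fun q : ℝ × Cn n => f q.1 (ψ q.2))
      (f := fun q : ℝ × Cn n => ((t1 + r ^ 2 * q.1, q.2) : ℝ × Cn n))
      (cd_pull hU hf.sm (hI s hs) hq.imm isOpen_ball hw (hV (hq.maps hw))) (cd_aff _ _).contDiffAt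
  · have h1 := box_ps (g := fun s => pull (g s) ψ) (φ := fun s y => f s (ψ y)) (t1 := t1) (s := s)
      (z := w) hr2 (relT_flow hU hg (hI s hs) hq.imm isOpen_ball hw (hV (hq.maps hw))).krfAt.det_ne
      ((cd_line (F := fun s y => f s (ψ y)) (cd_pull hU hf.sm (hI s hs) hq.imm isOpen_ball hw
        (hV (hq.maps hw)))).differentiableAt (by simp))
    rw [box_pull hU hg hf (hI s hs) hq.imm isOpen_ball hw (hV (hq.maps hw)), mul_zero] at h1
    exact h1
  · rw [gsq_ps hU hg hf.sm hr2 (hI s hs) hq.imm isOpen_ball hw (hV (hq.maps hw))]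
    refine le_trans ?_ hl
    rw [mul_comm l]
    exact mul_le_mul_of_nonneg_left (hb s hs _ (hq.maps hw)) hr2.le

end flow

/-- undo the scaling in the derivative bounds of the metric -/
theorem dG_unscale {g : Cn n → Mat n} {w : Cn n} (hg : SmM g w) {a : ℝ} (ha : 0 < a) {j : ℕ}
    {k l : Fin n} (h : ‖iteratedFDeriv ℝ j (fun y => cs a⁻¹ g y k l) w‖ ≤ 1) :
    ‖iteratedFDeriv ℝ j (fun y => g y k l) w‖ ≤ a := by
  have e : (fun y => cs a⁻¹ g y k l) = fun y => (a⁻¹ : ℝ) • g y k l := rfl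
  rw [e, iteratedFDeriv_const_smul_apply' ((hg k l).of_le (by exact_mod_cast le_top)), norm_smul,
    Real.norm_eq_abs, abs_of_pos (inv_pos.2 ha), inv_mul_le_iff₀ ha, mul_one] at h
  exact h

/-- the first derivative from the gradient bound -/
theorem d1_bound {G : Mat n} (hG : G.PosDef) {f : Cn n → ℝ} {w : Cn n}
    (hf : DifferentiableAt ℝ f w) {r : ℝ} (hr : 0 < r) (h1 : nqi G (dz f w) ≤ 2)
    (h2 : ∀ v, nq G v ≤ (1 + 1 / 10) * r ^ 2 * ‖v‖ ^ 2) : ‖fderiv ℝ f w‖ ≤ 4 * r := by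
  refine ContinuousLinearMap.opNorm_le_bound _ (by positivity) fun v => ?_
  rw [Real.norm_eq_abs]
  refine abs_le_of_sq_le_sq' ?_ (by positivity) |> abs_le.2
  have h3 := Lo.fderiv_sq_le hf hG v
  have h4 := nq_nonneg hG.posSemidef v
  have h5 : 0 ≤ r ^ 2 * ‖v‖ ^ 2 := by positivity
  have h6 := h2 v
  have h7 : 4 * nqi G (dz f w) * nq G v ≤ 4 * 2 * nq G v := by gcongr
  nlinarith

/-- the Lipschitz bound at the end of the window (`Rn48.lipEnd`) -/
def LipEnd (n : ℕ) (cL : ℝ) : Prop :=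
  ∀ (M : Type) [TopologicalSpace M] (A : Atl n M) (U V : Set M) (g : ℝ → MF A) (ρ : ℝ → M → ℝ)
    (t b t1 l : ℝ), IsOpen U → t ≤ t1 → t1 < b → FlowOn t b U g → SmST A (Icc t b) U ρ → V ⊆ U →
    0 ≤ l → l * (t1 - t) ≤ 1 → (∀ s ∈ Icc t t1, ∀ x ∈ V, BkAbs (g s) l x) →
    (∀ x ∈ V, Gr (g t) (ρ t) x ≤ 2) → LipOn (g t1) V cL (ρ t)

theorem wrap_of {cL : ℝ} (hcL : 0 < cL) (hL : LipEnd n cL) : WrapStmt n := by
  intro hQ hC δ hδ hδ1
  obtain ⟨R, ε, C, hR, hε, hC0, hC⟩ := hC (δ / 8) (by positivity) (by linarith)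
  obtain ⟨εQ, NQ, hεQ, hNQ, hQ⟩ := hQ (min ε (1 / 10)) (lt_min hε (by norm_num))
  have hR0 : 0 < R := by linarith
  obtain ⟨ε0, hε0, k1, k2, k3, k4⟩ : ∃ ε0 : ℝ, 0 < ε0 ∧ ε0 * (4 * R ^ 2) ≤ εQ ∧ 4 * ε0 ≤ ε ∧
      4 * ε0 ≤ C⁻¹ ^ 2 ∧ ε0 ≤ 1 := by
    refine ⟨min (min (εQ / (4 * R ^ 2)) (ε / 4)) (min (C⁻¹ ^ 2 / 4) 1), by positivity, ?_, ?_, ?_,
      (min_le_right _ _).trans (min_le_right _ _)⟩
    · rw [← le_div_iff₀ (by positivity)]
      exact (min_le_left _ _).trans (min_le_left _ _)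
    · rw [← le_div_iff₀' (by positivity)]
      exact (min_le_left _ _).trans (min_le_right _ _)
    · rw [← le_div_iff₀' (by positivity)]
      exact (min_le_right _ _).trans (min_le_left _ _)
  refine ⟨ε0, 1 + NQ * cL * (2 * R), max 4 (2 * C), hε0, by positivity, le_max_left _ _, ?_⟩
  intro M _ _ A U g u ρ t b r c hU hr hb hg hu hρ hK hB r' hr' x hx hxρ
  have hr2 : 0 < r ^ 2 := by positivity
  have hr'0 : 0 < r' := hr.trans_le hr'.1
  have hr'2 : 0 < r' ^ 2 := by positivity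
  have hrr : r' ^ 2 ≤ 4 * r ^ 2 := by nlinarith [hr'.2]
  have hδr : 0 < δ * r ^ 2 := by positivity
  set t1 := t + δ * r ^ 2 with ht1
  have htt : t < t1 := by linarith
  have hρc : ContinuousOn (ρ t) U :=
    (smOn_of_SmST hρ.sm ⟨le_rfl, (htt.trans hb).le⟩).continuousOn
  set U1 : Set M := {y | y ∈ U ∧ ρ t y < c} with hU1
  have hU1o : IsOpen U1 := hρc.isOpen_inter_preimage hU isOpen_Iio
  have hU1U : U1 ⊆ U := fun y hy => hy.1
  set V : Set M := {y | y ∈ U1 ∧ ρ t y ≤ c - r} with hV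
  have hVK : V ⊆ {y | y ∈ U ∧ ρ t y ≤ c} := fun y hy => ⟨hy.1.1, hy.1.2.le⟩
  have hVU : V ⊆ U := fun y hy => hy.1.1
  have hVc : IsCompact V := by
    have e : V = {y | y ∈ U ∧ ρ t y ≤ c} ∩ ρ t ⁻¹' Iic (c - r) := by
      ext y
      exact ⟨fun hy => ⟨hVK hy, hy.2⟩, fun hy => ⟨⟨hy.1.1, by
        have := hy.2; simp only [mem_preimage, mem_Iic] at this; linarith⟩, hy.2⟩⟩
    rw [e]
    exact hK.of_isClosed_subset ((hρc.mono fun y hy => hy.1).preimage_isClosed_of_isClosed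
      hK.isClosed isClosed_Iic) inter_subset_left
  have hlip : LipOn (g t1) U1 cL (ρ t) := by
    refine hL M A U U1 g ρ t b t1 (ε0 / r ^ 2) hU htt.le hb hg hρ.sm hU1U (by positivity) ?_
      (fun s hs y hy => (hB s hs y hy.1 hy.2.le).1)
      (fun y hy => (hB t ⟨le_rfl, htt.le⟩ y hy.1 hy.2.le).2.2)
    have : ε0 / r ^ 2 * (t1 - t) = ε0 * δ := by rw [ht1]; field_simp; ring
    rw [this]
    exact mul_le_one₀ k4 hδ.le hδ1
  have hk1 : KahOn (g t1) U := hg.kah t1 ⟨htt.le, hb.le⟩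
  have hNr : 0 < NQ * cL * R := by positivity
  obtain ⟨ψ0, hψ0⟩ := hQ M A (g t1) U1 (ρ t) cL (R * r') (c - r) hU1o (hk1.mono hU1U) hcL
    (by positivity) hlip hVc (fun i y hi hy hy' => by
      refine BkAbs.mono hk1 hy.1 (hB t1 ⟨htt.le, le_rfl⟩ y hy.1 hy.2.le).1 ?_ i hi
      rw [div_le_div_iff₀ hr2 (by positivity)]
      calc ε0 * (R * r') ^ 2 = ε0 * R ^ 2 * r' ^ 2 := by ring
        _ ≤ ε0 * R ^ 2 * (4 * r ^ 2) := by gcongr
        _ = ε0 * (4 * R ^ 2) * r ^ 2 := by ring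
        _ ≤ εQ * r ^ 2 := by gcongr) x
    ⟨hx, by nlinarith [mul_pos hNr hr]⟩ (by nlinarith [mul_le_mul_of_nonneg_left hr'.2 hNr.le])
  have hq := qr_of_qc hR0 hψ0
  set ψ := dil R⁻¹ ψ0 with hψ
  have hI' : ∀ s ∈ Icc (-(δ / 8)) 0, t < t1 + r' ^ 2 * s ∧ t1 + r' ^ 2 * s ≤ t1 := by
    intro s hs
    have h1 : r' ^ 2 * s ≤ 0 := mul_nonpos_of_nonneg_of_nonpos hr'2.le hs.2
    have h2 : r' ^ 2 * (-(δ / 8)) ≤ r' ^ 2 * s := mul_le_mul_of_nonneg_left hs.1 hr'2.le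
    have h3 : δ * r' ^ 2 ≤ δ * (4 * r ^ 2) := by gcongr
    constructor <;> linarith
  have hI : ∀ s ∈ Icc (-(δ / 8)) 0, t1 + r' ^ 2 * s ∈ Ioo t b := fun s hs =>
    ⟨(hI' s hs).1, (hI' s hs).2.trans_lt hb⟩
  have hB' : ∀ s ∈ Icc (-(δ / 8)) 0, ∀ y ∈ V, _ := fun s hs y hy =>
    hB (t1 + r' ^ 2 * s) ⟨(hI' s hs).1.le, (hI' s hs).2⟩ y (hVK hy).1 (hVK hy).2
  have h4 : ε0 / r ^ 2 * r' ^ 2 ≤ 4 * ε0 := by
    rw [div_mul_eq_mul_div, div_le_iff₀ hr2]
    nlinarith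
  obtain ⟨c1, c2⟩ := hC _ (cf_pull hU hg hVU hr'0 hq (min_le_left _ _) hI
    (fun s hs y hy => (hB' s hs y hy).1) (h4.trans k2))
  have c3 := c2 C⁻¹ _ (inv_pos.2 hC0) (hf_pull hU hg hu hVU hr'0 hq hI
    (fun s hs y hy => (hB' s hs y hy).2.1) (h4.trans k3))
  have c4 := c2 (2 * r') _ (by positivity) (hf_pull hU hg hρ hVU hr'0 hq hI
    (fun s hs y hy => (hB' s hs y hy).2.2) (by nlinarith))
  simp only [ps, mul_zero, add_zero] at c1 c3 c4
  have hs : ball (0 : Cn n) 1 ⊆ ball 0 R := ball_subset_ball hR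
  have hqc := hq.qc hR hVK (min_le_right _ _)
  have hka : ∀ w ∈ ball (0 : Cn n) 1, KahAt (pull (g t1) ψ) w := fun w hw =>
    kahAt_pull hk1 hq.imm isOpen_ball (hs hw) (hU.mem_nhds (hVU (hq.maps (hs hw))))
  refine ⟨ψ, hqc, fun j h1 h2 w hw k l => dG_unscale (hka w hw).sm hr'2 (c1 j h1 h2 w hw k l),
    fun j h1 h2 w hw => (c3 j h1 h2 w hw).trans (mul_inv_cancel₀ hC0.ne').le, fun w hw => ?_,
    fun j h1 h2 w hw => (c4 j h1 h2 w hw).trans ?_⟩
  · have hy := hq.maps (hs hw)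
    have hsm := smOn_of_SmST hρ.sm (s := t1) ⟨htt.le, hb.le⟩
    refine d1_bound (hka w hw).posDef ((hsm.cda_pull hU hq.imm.1 isOpen_ball (hs hw)
      (hVU hy)).differentiableAt (by simp)) hr'0 ?_ (hqc.hi w hw)
    have h5 := (hB t1 ⟨htt.le, le_rfl⟩ _ (hVK hy).1 (hVK hy).2).2.2
    rw [Gr_pull hk1 hU hq.imm isOpen_ball (hs hw) (hVU hy) hsm] at h5
    exact h5
  · rw [← mul_assoc, mul_comm C]
    exact mul_le_mul_of_nonneg_right (le_max_right _ _) hr'0.le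

end

end Crest.Agent.T223.Rn17
end

-- ▼ part T223/RnLip_48
section

/-!
# T223, RENEW wrapper (helper48): `ρ t` is Lipschitz for the metric at the later time `t1`
-/

set_option autoImplicit false
set_option linter.unusedSectionVars false
set_option linter.unusedVariables false

open Set Filter Topology Metric
open scoped ContDiff ComplexConjugate Matrix ComplexOrder

noncomputable section

namespace Crest.Agent.T223.Rn48

open Crest.Agent.R275.Geo Crest.Agent.R273.Kah_333 Crest.Agent.R273.Hess_333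
open Crest.Agent.T223.Br Crest.Agent.T223.Tr
open Crest.Agent.T223.Db (dom SmST)

variable {n : ℕ}

theorem sq_le_nq {g : Mat n} (hg : g.PosDef) : ∃ T > 0, ∀ v : Cn n, ‖v‖ ^ 2 ≤ T * nq g v := by
  refine ⟨|trg g 1| + 1, by positivity, fun v => ?_⟩
  have h1 := Ev.nq_le_trg hg Matrix.isHermitian_one (b := 0)
    (fun v => by rw [nq_one, zero_mul, add_zero]; positivity) v
  rw [nq_one] at h1
  have h2 := nq_nonneg hg.posSemidef v
  have h3 := le_abs_self (trg g 1)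
  nlinarith

/-- a bound for the differential gives the infinitesimal Lipschitz bound -/
theorem ev_of_fderiv {f : Cn n → ℝ} {z : Cn n} (hf : DifferentiableAt ℝ f z) {g : Mat n}
    (hg : g.PosDef) {c : ℝ} (hc : ∀ v, |fderiv ℝ f z v| ≤ c * Real.sqrt (nq g v)) {ε : ℝ}
    (hε : 0 < ε) : ∀ᶠ w in 𝓝 z, |f w - f z| ≤ (c + ε) * Real.sqrt (nq g (w - z)) := by
  obtain ⟨T, hT, hT'⟩ := sq_le_nq hg
  have hs : 0 < Real.sqrt T := Real.sqrt_pos.2 hT
  have h1 := hf.hasFDerivAt.isLittleO.def (c := ε / Real.sqrt T) (by positivity)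
  filter_upwards [h1] with w hw
  have h2 : ‖w - z‖ ≤ Real.sqrt T * Real.sqrt (nq g (w - z)) := by
    rw [← Real.sqrt_mul hT.le]
    exact Real.le_sqrt_of_sq_le (hT' _)
  have h3 : |f w - f z - fderiv ℝ f z (w - z)| ≤ ε * Real.sqrt (nq g (w - z)) := by
    refine (show _ ≤ ε / Real.sqrt T * ‖w - z‖ from hw).trans ?_
    calc ε / Real.sqrt T * ‖w - z‖ ≤ ε / Real.sqrt T * (Real.sqrt T * Real.sqrt (nq g (w - z))) :=
          mul_le_mul_of_nonneg_left h2 (by positivity)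
      _ = _ := by field_simp
  have h4 := hc (w - z)
  have h5 := abs_add_le (f w - f z - fderiv ℝ f z (w - z)) (fderiv ℝ f z (w - z))
  rw [sub_add_cancel] at h5
  linarith

variable {M : Type} [TopologicalSpace M] {A : Atl n M}

/-- backward comparison of the metrics along the flow -/
theorem nq_back {U : Set M} {g : ℝ → MF A} {t b t1 l : ℝ} (h1 : t ≤ t1) (h2 : t1 < b)
    (hg : Os.FlowOn t b U g) {i : A.ι} {x : M} (hi : x ∈ (A.e i).source) (hx : x ∈ U)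
    (hb : ∀ s ∈ Icc t t1, Os.BkAbs (g s) l x) (v : Cn n) :
    nq (g t i (A.e i x)) v ≤ Real.exp (n * l * (t1 - t)) * nq (g t1 i (A.e i x)) v := by
  have h3 := Lo.le_exp_of_deriv (f := fun s => -nq (g s i (A.e i x)) v)
    (f' := fun s => nq (ric (g s i) (A.e i x)) v) (c := -(n * l)) h1
    ((Lo.cont_nq hg hi hx v).mono (Icc_subset_Icc le_rfl h2.le)).neg fun s hs => by
      have hs' : s ∈ Ioo t b := ⟨hs.1, hs.2.trans h2⟩
      refine ⟨(Lo.krf_nq (hg.krf s hs' i x hi hx) v).neg.congr_deriv (neg_neg _), ?_⟩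
      have h4 := (hb s (Ioo_subset_Icc_self hs)).ric (hg.kah s (Ioo_subset_Icc_self hs')) hx hi v
      have h5 := (abs_le.1 h4).2
      linarith
  have h4 : Real.exp (n * l * (t1 - t)) * Real.exp (-(n * l) * (t1 - t)) = 1 := by
    rw [← Real.exp_add, ← Real.exp_zero]; congr 1; ring
  have h5 := mul_le_mul_of_nonneg_left h3 (Real.exp_pos (n * l * (t1 - t))).le
  rw [← mul_assoc, h4] at h5
  linarith

theorem lipEnd {U V : Set M} {g : ℝ → MF A} {rho : ℝ → M → ℝ} {t b t1 l : ℝ} (hU : IsOpen U)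
    (h1 : t ≤ t1) (h2 : t1 < b) (hg : Os.FlowOn t b U g) (hr : SmST A (Icc t b) U rho)
    (hV : V ⊆ U) (hl : 0 ≤ l) (hl1 : l * (t1 - t) ≤ 1)
    (hb : ∀ s ∈ Icc t t1, ∀ x ∈ V, Os.BkAbs (g s) l x)
    (hgr : ∀ x ∈ V, Os.Gr (g t) (rho t) x ≤ 2) :
    LipOn (g t1) V (4 * Real.exp (n ^ 2)) (rho t) := by
  intro i x hi hxV ε hε
  have hx := hV hxV
  have htb : t ∈ Icc t b := ⟨le_rfl, h1.trans h2.le⟩
  have ht1 : t1 ∈ Icc t b := ⟨h1, h2.le⟩
  have hd : DifferentiableAt ℝ (inC A i (rho t)) (A.e i x) := by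
    have h3 : ContDiffOn ℝ ∞ (inC A i (rho t)) (dom A i U) :=
      (hr i).comp (f := fun y : Cn n => (t, y)) (contDiffOn_const.prodMk contDiffOn_id)
        fun y hy => ⟨htb, hy⟩
    exact (h3.contDiffAt (Os.dom_nhds hU hi hx)).differentiableAt (by simp)
  have hp0 := Lo.pos_g hg htb hi hx
  have hp1 := Lo.pos_g hg ht1 hi hx
  have h4 := ev_of_fderiv hd hp1 (c := 4 * Real.exp (n ^ 2)) (fun v => by
    have h5 := Lo.fderiv_sq_le hd hp0 v
    have h6 := hgr x hxV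
    rw [Os.Gr_eq' (hg.kah t htb) hU hx hi hd] at h6
    unfold gsq at h6
    have h7 := nq_back h1 h2 hg hi hx (fun s hs => hb s hs x hxV) v
    have h8 := nq_nonneg hp0.posSemidef v
    have h9 := nq_nonneg hp1.posSemidef v
    have h10 : Real.exp (n * l * (t1 - t)) ≤ Real.exp (n ^ 2) ^ 2 := by
      rw [← Real.exp_nat_mul]
      refine Real.exp_le_exp.2 ?_
      have h11 : (n : ℝ) ≤ n ^ 2 := by exact_mod_cast Nat.le_self_pow two_ne_zero n
      have h12 : (0 : ℝ) ≤ n := Nat.cast_nonneg n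
      have h13 := mul_le_mul_of_nonneg_left hl1 h12
      push_cast
      nlinarith
    rw [← Real.sqrt_sq (show 0 ≤ 4 * Real.exp (n ^ 2) by positivity),
      ← Real.sqrt_mul (sq_nonneg _)]
    refine Real.abs_le_sqrt ?_
    have h14 := mul_le_mul_of_nonneg_right h10 h9
    have h15 := mul_le_mul_of_nonneg_right h6 h8
    have h16 : 0 ≤ Real.exp (n ^ 2) ^ 2 * nq (g t1 i (A.e i x)) v := by positivity
    nlinarith) hε
  filter_upwards [h4] with w hw
  have h5 : inC A i (rho t) (A.e i x) = rho t x := by rw [inC, (A.e i).left_inv hi]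
  rwa [h5] at hw

end Crest.Agent.T223.Rn48
end
end

-- ▼ part T223/RnWr_17

/-!
# Row 223, RENEW / WRAP (helper17): `QCStmt → CoreStmt → RenewStmt`
-/

set_option autoImplicit false

namespace Crest.Agent.T223.Rn

theorem wrapStmt (n : ℕ) : WrapStmt n :=
  Rn17.wrap_of (cL := 4 * Real.exp (n ^ 2)) (by positivity)
    fun _ _ _ _ _ _ _ _ _ _ _ hU h1 h2 hg hr hV hl hl1 hb hgr =>
      Rn48.lipEnd hU h1 h2 hg hr hV hl hl1 hb hgr

end Crest.Agent.T223.Rn
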